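import Vale.Agent.Lib.helper23.Pad

/-! More polynomial time functions; unary numbers. -/

namespace Vale.Agent.P338

open Vale.Agent.Lib.H23 Enc Polynomial

/-- natural numbers in unary -/
structure Un : Type where
  n : ℕ

instance : Enc Un := ⟨fun u => enc (List.replicate u.n ())⟩

variable {α β γ : Type} [Enc α] [Enc β] [Enc γ]

theorem sz_un (u : Un) : sz u = 2 * u.n + 1 := by
  exact sz_replicate_unit u.n

theorem PT_unL {u : α → Un} (hu : PT u) : PT (fun x => List.replicate (u x).n ()) :=
  hu.of_enc fun _ => rfl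

theorem PT_ofL {u : α → Un} {l : α → List β} (hl : PT l) (h : ∀ x, (u x).n = (l x).length) :
    PT u := by
  refine (PT.map (f := fun _ (_ : β) => ()) (PT.const ()) hl).of_enc fun x => ?_
  show enc (List.replicate (u x).n ()) = _
  rw [h, List.map_const']

theorem PT_take' {l : α → List β} {k : α → ℕ} (hk : PT k) (hl : PT l) :
    PT (fun x => (l x).take (k x)) := by
  refine (PT.drop (PT.sub hl.length hk) hl.reverse).reverse.congr fun x => ?_
  rw [List.drop_reverse, List.reverse_reverse]
  by_cases h : k x ≤ (l x).length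
  · congr 1; omega
  · rw [List.take_of_length_le (by omega), List.take_of_length_le (by omega)]

theorem sz_append_le (l m : List β) : sz (l ++ m) ≤ sz l + sz m := by
  induction l with
  | nil => simp
  | cons a l ih => simp only [List.cons_append, sz_cons]; omega

theorem PT_flatten' {l : α → List (List β)} (hl : PT l) : PT (fun x => (l x).flatten) := by
  refine (PT.foldl' (f := fun _ (s a : List β) => s ++ a) (by fun_prop) hl (PT.const [])
    ⟨X, fun x s a => ?_⟩).congr fun x => ?_
  · have := sz_append_le s a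
    simp only [eval_X]; omega
  · have e : ∀ (m : List (List β)) (s : List β), m.foldl (fun s a => s ++ a) s = s ++ m.flatten := by
      intro m
      induction m with
      | nil => simp
      | cons a m ih => intro s; simp [ih]
    simp [e]

theorem sz_take_le (l : List β) (k : ℕ) : sz (l.take k) ≤ sz l := by
  induction l generalizing k with
  | nil => simp
  | cons a l ih =>
    cases k with
    | zero => simp
    | succ k => have := ih k; simp only [List.take_succ_cons, sz_cons]; omega

theorem PT_rangeLen : PT (fun l : List β => List.range l.length) := by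
  have e : ∀ (m : List β) (k : ℕ), m.foldl (fun (s : List ℕ) _ => s.length :: s)
      (List.range k).reverse = (List.range (k + m.length)).reverse := by
    intro m
    induction m with
    | nil => simp
    | cons a m ih =>
      intro k
      have := ih (k + 1)
      rw [List.range_succ, List.reverse_append] at this
      simp only [List.foldl_cons, List.length_reverse, List.length_range, List.length_cons]
      rw [show k + (m.length + 1) = k + 1 + m.length by omega, ← this]
      rfl
  refine (PT.foldl (f := fun _ (s : List ℕ) (_ : β) => s.length :: s) (by fun_prop) PT.id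
    (PT.const []) ⟨X * (4 * X + 2) + 1, fun x k => ?_⟩).reverse.congr fun l => ?_
  · have h1 := e (x.take k) 0
    simp only [List.range_zero, List.reverse_nil, zero_add] at h1
    rw [h1]
    have h0 := length_lt_sz x
    have h2 : (x.take k).length ≤ sz x := by simp; omega
    have h3 := sz_list_le (B := 4 * sz x + 1) (l := (List.range (x.take k).length).reverse)
      (fun a ha => by
        have h4 : a < (x.take k).length := by simpa using ha
        exact sz_nat_le (lt_of_lt_of_le (h4.trans_le h2) Nat.lt_two_pow_self.le))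
    rw [List.length_reverse, List.length_range] at h3
    have h5 : (x.take k).length * (4 * sz x + 1 + 1) ≤ sz x * (4 * sz x + 2) :=
      Nat.mul_le_mul h2 le_rfl
    simp only [eval_add, eval_mul, eval_X, eval_ofNat, eval_one]
    omega
  · have h1 := e l 0
    simp only [List.range_zero, List.reverse_nil, zero_add] at h1
    rw [h1, List.reverse_reverse]

theorem prod_lt_sz (l : List ℕ) : l.prod < 2 ^ sz l := by
  induction l with
  | nil => simp
  | cons a l ih =>
    rw [List.prod_cons, sz_cons, pow_succ, pow_add]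
    have := Nat.mul_lt_mul'' (lt_two_pow_sz a) ih
    omega

theorem PT_prod' {l : α → List ℕ} (hl : PT l) : PT (fun x => (l x).prod) := by
  have key : PT (fun l : List ℕ => l.prod) := by
    refine (PT.foldl (f := fun _ (s a : ℕ) => s * a) (by fun_prop) PT.id (PT.const 1)
      ⟨4 * X + 1, fun x k => ?_⟩).congr fun x => List.prod_eq_foldl
    rw [← List.prod_eq_foldl]
    have h1 := sz_nat_le (prod_lt_sz (x.take k))
    have h2 := sz_take_le x k
    simp only [eval_add, eval_mul, eval_X, eval_ofNat, eval_one]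
    omega
  exact PT.comp key hl

@[fun_prop] theorem PT_unn {u : α → Un} (hu : PT u) : PT (fun x => (u x).n) := by
  exact (PT_unL hu).length.congr fun x => by simp

/-- the smaller of a binary and a unary number, in unary -/
def unMin (k : ℕ) (u : Un) : Un := ⟨min k u.n⟩
def unLen (l : List β) : Un := ⟨l.length⟩
def unAdd (u v : Un) : Un := ⟨u.n + v.n⟩
def unMul (u v : Un) : Un := ⟨u.n * v.n⟩
def unSize (k : ℕ) : Un := ⟨k.size⟩
def rangeU (u : Un) : List Un := (List.range u.n).map Un.mk

@[fun_prop] theorem PT_unMin {k : α → ℕ} {u : α → Un} (hk : PT k) (hu : PT u) :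
    PT (fun x => unMin (k x) (u x)) := by
  exact PT_ofL (PT_take' hk (PT_unL hu)) fun x => by simp [unMin]

@[fun_prop] theorem PT_unLen {l : α → List β} (hl : PT l) : PT (fun x => unLen (l x)) := by
  exact PT_ofL hl fun _ => rfl

@[fun_prop] theorem PT_unAdd {u v : α → Un} (hu : PT u) (hv : PT v) :
    PT (fun x => unAdd (u x) (v x)) := by
  exact PT_ofL (PT.append (PT_unL hu) (PT_unL hv)) fun x => by simp [unAdd]

@[fun_prop] theorem PT_unMul {u v : α → Un} (hu : PT u) (hv : PT v) :
    PT (fun x => unMul (u x) (v x)) := by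
  refine PT_ofL (PT_flatten' (PT.map (f := fun x (_ : Unit) => List.replicate (v x).n ())
    (PT.comp (g := fun p : α × Unit => p.1) (PT_unL hv) (by fun_prop)) (PT_unL hu))) fun x => ?_
  simp [unMul]

@[fun_prop] theorem PT_unSize {k : α → ℕ} (hk : PT k) : PT (fun x => unSize (k x)) := by
  exact PT_ofL hk.bits fun x => (Nat.size_eq_bits_len _).symm

@[fun_prop] theorem PT_range {u : α → Un} (hu : PT u) : PT (fun x => List.range (u x).n) := by
  exact (PT.comp PT_rangeLen (PT_unL hu)).congr fun x => by simp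

@[fun_prop] theorem PT_rangeU {u : α → Un} (hu : PT u) : PT (fun x => rangeU (u x)) := by
  refine (PT.map (f := fun x k => unMin k (u x)) (PT_unMin (by fun_prop)
    (PT.comp (g := fun p : α × ℕ => p.1) hu (by fun_prop))) (PT_range hu)).congr fun x => ?_
  apply List.map_congr_left
  intro k hk
  rw [unMin, min_eq_left (List.mem_range.1 hk).le]

@[fun_prop] theorem PT_pow {a : α → ℕ} {u : α → Un} (ha : PT a) (hu : PT u) :
    PT (fun x => a x ^ (u x).n) := by
  refine (PT_prod' (PT.map (f := fun x (_ : Unit) => a x)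
    (PT.comp (g := fun p : α × Unit => p.1) ha (by fun_prop)) (PT_unL hu))).congr fun x => ?_
  simp

@[fun_prop] theorem PT_replicate {a : α → β} {u : α → Un} (hu : PT u) (ha : PT a) :
    PT (fun x => List.replicate (u x).n (a x)) := by
  refine (PT.map (f := fun x (_ : Unit) => a x)
    (PT.comp (g := fun p : α × Unit => p.1) ha (by fun_prop)) (PT_unL hu)).congr fun x => ?_
  simp

@[fun_prop] theorem PT_div {a b : α → ℕ} (ha : PT a) (hb : PT b) : PT (fun x => a x / b x) := by
  exact PT.div ha hb

@[fun_prop] theorem PT_mod {a b : α → ℕ} (ha : PT a) (hb : PT b) : PT (fun x => a x % b x) := by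
  refine (PT.sub ha (PT.mul (PT.div ha hb) hb)).congr fun x => ?_
  have := Nat.div_add_mod' (a x) (b x)
  omega

@[fun_prop] theorem PT_min {a b : α → ℕ} (ha : PT a) (hb : PT b) :
    PT (fun x => min (a x) (b x)) := by
  refine (PT.cond (PT.ltb ha hb) ha hb).congr fun x => ?_
  by_cases h : a x < b x
  · simp [h]; omega
  · simp [h]; omega

@[fun_prop] theorem PT_max {a b : α → ℕ} (ha : PT a) (hb : PT b) :
    PT (fun x => max (a x) (b x)) := by
  refine (PT.cond (PT.ltb ha hb) hb ha).congr fun x => ?_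
  by_cases h : a x < b x
  · simp [h]; omega
  · simp [h]; omega

/-- one step of the extended Euclidean algorithm modulo `M` -/
def eStep (M : ℕ) (s : ℕ × ℕ × ℕ × ℕ) : ℕ × ℕ × ℕ × ℕ :=
  bif eqb s.2.2.1 0 then s else
    (s.2.2.1, s.2.2.2, s.1 % s.2.2.1, (s.2.1 + (M - s.1 / s.2.2.1 * s.2.2.2 % M)) % M)

def euclid (a M : ℕ) : ℕ × ℕ × ℕ × ℕ :=
  (M.bits ++ M.bits).foldl (fun s _ => eStep M s) (a, 1, M, 0)

theorem foldl_const_iterate {σ τ : Type} (f : σ → σ) (l : List τ) (s : σ) :
    l.foldl (fun s _ => f s) s = f^[l.length] s := by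
  induction l generalizing s with
  | nil => rfl
  | cons a l ih => rw [List.foldl_cons, ih, List.length_cons, Function.iterate_succ_apply]

theorem eStep_zero {M : ℕ} {s : ℕ × ℕ × ℕ × ℕ} (h : s.2.2.1 = 0) : eStep M s = s := by
  simp [eStep, h]

theorem eStep_pos {M : ℕ} {s : ℕ × ℕ × ℕ × ℕ} (h : s.2.2.1 ≠ 0) : eStep M s =
    (s.2.2.1, s.2.2.2, s.1 % s.2.2.1, (s.2.1 + (M - s.1 / s.2.2.1 * s.2.2.2 % M)) % M) := by
  simp [eStep, h]

theorem eStep_done (M k : ℕ) : ∀ s : ℕ × ℕ × ℕ × ℕ, s.2.2.1 < 2 ^ k →
    ((eStep M)^[2 * k] s).2.2.1 = 0 := by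
  induction k with
  | zero => intro s h; simpa using h
  | succ k ih =>
    intro s h
    rw [show 2 * (k + 1) = 2 * k + 1 + 1 by ring, Function.iterate_succ_apply,
      Function.iterate_succ_apply]
    apply ih
    by_cases h1 : s.2.2.1 = 0
    · rw [eStep_zero h1, eStep_zero h1, h1]; positivity
    · by_cases h2 : (eStep M s).2.2.1 = 0
      · rw [eStep_zero h2, h2]; positivity
      · rw [eStep_pos h2]
        rw [eStep_pos h1] at h2 ⊢
        simp only at h2 ⊢
        have h3 := Nat.mod_lt s.1 (Nat.pos_of_ne_zero h1)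
        have h4 := Nat.mod_lt s.2.2.1 (Nat.pos_of_ne_zero h2)
        have h5 := Nat.mod_add_div s.2.2.1 (s.1 % s.2.2.1)
        have h6 : 1 ≤ s.2.2.1 / (s.1 % s.2.2.1) := Nat.div_pos h3.le (Nat.pos_of_ne_zero h2)
        have h7 := Nat.mul_le_mul_left (s.1 % s.2.2.1) h6
        rw [pow_succ] at h
        omega

theorem eStep_inv (a M k : ℕ) : ∀ s : ℕ × ℕ × ℕ × ℕ, (s.2.2.1 ≠ 0 → 0 < M) →
    s.1 ≡ a * s.2.1 [MOD M] → s.2.2.1 ≡ a * s.2.2.2 [MOD M] →
    Nat.gcd ((eStep M)^[k] s).1 ((eStep M)^[k] s).2.2.1 = Nat.gcd s.1 s.2.2.1 ∧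
      ((eStep M)^[k] s).1 ≡ a * ((eStep M)^[k] s).2.1 [MOD M] := by
  induction k with
  | zero => intro s _ h _; exact ⟨rfl, h⟩
  | succ k ih =>
    intro s h0 h1 h2
    rw [Function.iterate_succ_apply]
    by_cases h : s.2.2.1 = 0
    · rw [eStep_zero h]; exact ih s h0 h1 h2
    · have hM := h0 h
      have key := ih (eStep M s) (fun _ => hM) (by rw [eStep_pos h]; exact h2) (by
        rw [eStep_pos h]
        simp only
        refine Nat.ModEq.trans ?_ ((Nat.mod_modEq _ M).mul_left a).symm
        apply Nat.ModEq.add_right_cancel' (a * (s.1 / s.2.2.1 * s.2.2.2 % M))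
        have e1 : a * (s.2.1 + (M - s.1 / s.2.2.1 * s.2.2.2 % M)) +
            a * (s.1 / s.2.2.1 * s.2.2.2 % M) = a * s.2.1 + a * M := by
          rw [← mul_add, ← mul_add, add_assoc, Nat.sub_add_cancel (Nat.mod_lt _ hM).le]
        rw [e1]
        have e2 : a * (s.1 / s.2.2.1 * s.2.2.2 % M) ≡ s.1 / s.2.2.1 * s.2.2.1 [MOD M] := by
          refine ((Nat.mod_modEq _ M).mul_left a).trans ?_
          rw [mul_left_comm]
          exact (h2.mul_left _).symm
        refine (e2.add_left _).trans ?_
        rw [Nat.mod_add_div']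
        exact h1.trans (Nat.ModEq.symm (by simp [Nat.ModEq])))
      refine ⟨key.1.trans ?_, key.2⟩
      rw [eStep_pos h]
      simp only
      rw [Nat.gcd_comm, ← Nat.gcd_rec, Nat.gcd_comm]

theorem euclid_spec (a M : ℕ) :
    (euclid a M).1 = Nat.gcd a M ∧ (euclid a M).1 ≡ a * (euclid a M).2.1 [MOD M] := by
  unfold euclid
  rw [foldl_const_iterate, List.length_append, Nat.size_eq_bits_len, ← two_mul]
  have h1 := eStep_done M M.size (a, 1, M, 0) (Nat.lt_size_self M)
  obtain ⟨h2, h3⟩ := eStep_inv a M (2 * M.size) (a, 1, M, 0) Nat.pos_of_ne_zero (by simp [Nat.ModEq])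
    (by simp [Nat.ModEq])
  rw [h1, Nat.gcd_zero_right] at h2
  exact ⟨h2, h3⟩

theorem PT_euclid {a M : α → ℕ} (ha : PT a) (hM : PT M) : PT (fun x => euclid (a x) (M x)) := by
  have key : PT (fun p : ℕ × ℕ => euclid p.1 p.2) := by
    refine PT.foldl (f := fun (p : ℕ × ℕ) s (_ : Bool) => eStep p.2 s) (by unfold eStep; fun_prop)
      (by fun_prop) (by fun_prop) ⟨16 * X + 7, fun p k => ?_⟩
    have inv : ∀ (B k : ℕ) (s : ℕ × ℕ × ℕ × ℕ), p.2 < B → s.1 < B → s.2.1 < B → s.2.2.1 < B →
        s.2.2.2 < B → ((eStep p.2)^[k] s).1 < B ∧ ((eStep p.2)^[k] s).2.1 < B ∧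
          ((eStep p.2)^[k] s).2.2.1 < B ∧ ((eStep p.2)^[k] s).2.2.2 < B := by
      intro B k
      induction k with
      | zero => exact fun s _ h1 h2 h3 h4 => ⟨h1, h2, h3, h4⟩
      | succ k ih =>
        intro s h0 h1 h2 h3 h4
        rw [Function.iterate_succ_apply]
        by_cases h : s.2.2.1 = 0
        · rw [eStep_zero h]; exact ih s h0 h1 h2 h3 h4
        · rw [eStep_pos h]
          refine ih _ h0 h3 h4 (lt_of_le_of_lt (Nat.mod_le _ _) h1) ?_
          rcases Nat.eq_zero_or_pos p.2 with e | e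
          · simpa [e] using h2
          · exact (Nat.mod_lt _ e).trans h0
    have h0 := sz_prod p
    have hp := sz_pos p.1
    have h1 : p.1 < 2 ^ sz p :=
      (lt_two_pow_sz p.1).trans_le (Nat.pow_le_pow_right (by omega) (by omega))
    have h2 : p.2 < 2 ^ sz p :=
      (lt_two_pow_sz p.2).trans_le (Nat.pow_le_pow_right (by omega) (by omega))
    rw [foldl_const_iterate]
    generalize (List.take k (p.2.bits ++ p.2.bits)).length = N
    obtain ⟨k1, k2, k3, k4⟩ := inv (2 ^ sz p) N (p.1, 1, p.2, 0) h2 h1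
      (Nat.one_lt_two_pow (by omega)) h2 (by positivity)
    have k1 := sz_nat_le k1
    have k2 := sz_nat_le k2
    have k3 := sz_nat_le k3
    have k4 := sz_nat_le k4
    rw [sz_prod, sz_prod, sz_prod]
    simp only [eval_add, eval_mul, eval_X, eval_ofNat]
    omega
  exact PT.comp (g := fun x => (a x, M x)) key (PT.pair ha hM)

@[fun_prop] theorem PT_gcd {a b : α → ℕ} (ha : PT a) (hb : PT b) :
    PT (fun x => Nat.gcd (a x) (b x)) := by
  exact (PT_euclid ha hb).fst.congr fun x => (euclid_spec (a x) (b x)).1.symm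

@[fun_prop] theorem PT_prod {l : α → List ℕ} (hl : PT l) : PT (fun x => (l x).prod) := by
  exact PT_prod' hl

@[fun_prop] theorem PT_sum {l : α → List ℕ} (hl : PT l) : PT (fun x => (l x).sum) := by
  have h : ∀ l : List ℕ, l.sum < 2 ^ sz l := by
    intro l
    induction l with
    | nil => simp
    | cons a l ih =>
      rw [List.sum_cons, sz_cons, pow_succ]
      have h1 : a < 2 ^ (sz a + sz l) :=
        (lt_two_pow_sz a).trans_le (Nat.pow_le_pow_right (by omega) (by omega))
      have h2 : l.sum < 2 ^ (sz a + sz l) :=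
        ih.trans_le (Nat.pow_le_pow_right (by omega) (by omega))
      omega
  have key : PT (fun l : List ℕ => l.sum) := by
    refine (PT.foldl (f := fun _ (s a : ℕ) => s + a) (by fun_prop) PT.id (PT.const 0)
      ⟨4 * X + 1, fun x k => ?_⟩).congr fun x => List.sum_eq_foldl
    rw [← List.sum_eq_foldl]
    have h1 := sz_nat_le (h (x.take k))
    have h2 := sz_take_le x k
    simp only [eval_add, eval_mul, eval_X, eval_ofNat, eval_one]
    omega
  exact PT.comp key hl

@[fun_prop] theorem PT_isum {l : α → List ℤ} (hl : PT l) : PT (fun x => (l x).sum) := by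
  have h : ∀ l : List ℤ, l.sum.natAbs < 2 ^ sz l := by
    intro l
    induction l with
    | nil => simp
    | cons a l ih =>
      rw [List.sum_cons, sz_cons, pow_succ]
      have h1 : a.natAbs < 2 ^ (sz a + sz l) :=
        (natAbs_lt_two_pow_sz a).trans_le (Nat.pow_le_pow_right (by omega) (by omega))
      have h2 : l.sum.natAbs < 2 ^ (sz a + sz l) :=
        ih.trans_le (Nat.pow_le_pow_right (by omega) (by omega))
      have h3 := Int.natAbs_add_le a l.sum
      omega
  have key : PT (fun l : List ℤ => l.sum) := by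
    refine (PT.foldl (f := fun _ (s a : ℤ) => s + a) (by fun_prop) PT.id (PT.const 0)
      ⟨4 * X + 5, fun x k => ?_⟩).congr fun x => List.sum_eq_foldl
    rw [← List.sum_eq_foldl]
    have h1 := sz_int_le (h (x.take k))
    have h2 := sz_take_le x k
    simp only [eval_add, eval_mul, eval_X, eval_ofNat]
    omega
  exact PT.comp key hl

@[fun_prop] theorem PT_iediv {a b : α → ℤ} (ha : PT a) (hb : PT b) :
    PT (fun x => a x / b x) := by
  have key : ∀ (u : ℤ) (n : ℕ), u / (n : ℤ) = bif isNeg u then
      (bif eqb n 0 then 0 else - (((u.natAbs - 1) / n + 1 : ℕ) : ℤ)) else ((u.natAbs / n : ℕ) : ℤ) := by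
    intro u n
    cases u with
    | ofNat m =>
      have h1 : isNeg (Int.ofNat m) = false := by simp [isNeg]
      rw [h1]
      rfl
    | negSucc m =>
      cases n with
      | zero => simp [isNeg]
      | succ n =>
        have h1 : isNeg (Int.negSucc m) = true := by simp [isNeg]
        have h2 : eqb (n + 1) 0 = false := by simp
        rw [h1, h2]
        rfl
  have hq : PT (fun x => a x / ((b x).natAbs : ℤ)) := by
    simp only [key]
    fun_prop
  refine (PT.cond hb.isNeg hq.neg hq).congr fun x => ?_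
  by_cases h : b x < 0
  · have : ((b x).natAbs : ℤ) = - b x := by omega
    simp [isNeg, h, this]
  · have : ((b x).natAbs : ℤ) = b x := by omega
    simp only [isNeg, h, this, decide_false, cond_false]

@[fun_prop] theorem PT_iemod {a b : α → ℤ} (ha : PT a) (hb : PT b) :
    PT (fun x => a x % b x) := by
  exact (PT.isub' ha (PT.imul hb (PT_iediv ha hb))).congr fun x => Int.emod_def _ _

@[fun_prop] theorem PT_take {l : α → List β} {k : α → ℕ} (hk : PT k) (hl : PT l) :
    PT (fun x => (l x).take (k x)) := by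
  exact PT_take' hk hl

@[fun_prop] theorem PT_flatten {l : α → List (List β)} (hl : PT l) :
    PT (fun x => (l x).flatten) := by
  exact PT_flatten' hl

@[fun_prop] theorem PT_flatMap {f : α → β → List γ} {l : α → List β}
    (hf : PT (fun p : α × β => f p.1 p.2)) (hl : PT l) : PT (fun x => (l x).flatMap (f x)) := by
  exact (PT_flatten' (PT.map hf hl)).congr fun x => List.flatMap_def

@[fun_prop] theorem PT_filter {f : α → β → Bool} {l : α → List β}
    (hf : PT (fun p : α × β => f p.1 p.2)) (hl : PT l) : PT (fun x => (l x).filter (f x)) := by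
  refine (PT_flatMap (f := fun x a => bif f x a then [a] else [])
    (PT.cond hf (by fun_prop) (by fun_prop)) hl).congr fun x => ?_
  generalize l x = m
  induction m with
  | nil => rfl
  | cons a m ih =>
    rw [List.flatMap_cons, ← ih, List.filter_cons]
    cases f x a <;> rfl

@[fun_prop] theorem PT_set {l : α → List β} {k : α → ℕ} {a : α → β} (hl : PT l) (hk : PT k)
    (ha : PT a) : PT (fun x => (l x).set (k x) (a x)) := by
  have : PT (fun x => bif ltb (k x) (l x).length then
      (l x).take (k x) ++ a x :: (l x).drop (k x + 1) else l x) := by fun_prop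
  refine this.congr fun x => ?_
  rw [List.set_eq_take_append_cons_drop]
  by_cases h : k x < (l x).length <;> simp [h]

@[fun_prop] theorem PT_testBit {a k : α → ℕ} (ha : PT a) (hk : PT k) :
    PT (fun x => (a x).testBit (k x)) := by
  refine (PT.getD ha.bits hk (PT.const false)).congr fun x => ?_
  rw [Nat.testBit_eq_inth]
  rfl

/-- inverse of `a` modulo `M` -/
def invMod (a M : ℕ) : ℕ := (euclid a M).2.1 % M

theorem invMod_spec {a M : ℕ} (h : Nat.Coprime a M) : a * invMod a M ≡ 1 [MOD M] := by
  obtain ⟨h1, h2⟩ := euclid_spec a M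
  rw [h1, h] at h2
  exact ((Nat.mod_modEq _ M).mul_left a).trans h2.symm

theorem invMod_lt (a : ℕ) {M : ℕ} (hM : 0 < M) : invMod a M < M := by
  exact Nat.mod_lt _ hM

@[fun_prop] theorem PT_invMod {a M : α → ℕ} (ha : PT a) (hM : PT M) :
    PT (fun x => invMod (a x) (M x)) := by
  exact PT_mod (PT_euclid ha hM).snd.fst hM

/-- Chinese remaindering: `l` is a list of pairs (modulus, residue), `M` a common multiple -/
def crt (M : ℕ) (l : List (ℕ × ℕ)) : ℕ :=
  (l.map fun p => M / p.1 * invMod (M / p.1) p.1 * p.2).sum % M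

@[fun_prop] theorem PT_crt {M : α → ℕ} {l : α → List (ℕ × ℕ)} (hM : PT M) (hl : PT l) :
    PT (fun x => crt (M x) (l x)) := by
  refine PT_mod (PT_sum (PT.map (f := fun x (p : ℕ × ℕ) =>
    M x / p.1 * invMod (M x / p.1) p.1 * p.2) ?_ hl)) hM
  have h0 : PT (fun q : α × ℕ × ℕ => M q.1) := PT.comp (g := fun q : α × ℕ × ℕ => q.1) hM (by fun_prop)
  exact PT.mul (PT.mul (PT.div h0 (by fun_prop)) (PT_invMod (PT.div h0 (by fun_prop)) (by fun_prop)))
    (by fun_prop)

theorem crt_sum_zero {M m : ℕ} {l : List (ℕ × ℕ)} (hm : m ∣ M)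
    (h1 : ∀ p ∈ l, p.1 ∣ M ∧ Nat.Coprime p.1 m) :
    (l.map fun p => M / p.1 * invMod (M / p.1) p.1 * p.2).sum ≡ 0 [MOD m] := by
  rw [Nat.modEq_zero_iff_dvd]
  apply List.dvd_sum
  intro y hy
  obtain ⟨p, hp, rfl⟩ := List.mem_map.1 hy
  refine Dvd.dvd.mul_right (Dvd.dvd.mul_right ?_ _) _
  apply (h1 p hp).2.symm.dvd_of_dvd_mul_left
  rwa [Nat.mul_div_cancel' (h1 p hp).1]

theorem crt_spec {M : ℕ} {l : List (ℕ × ℕ)} (hM : 0 < M) (h1 : ∀ p ∈ l, p.1 ∣ M ∧ Nat.Coprime p.1 (M / p.1))
    (h2 : (l.map Prod.fst).Pairwise Nat.Coprime) {p : ℕ × ℕ} (hp : p ∈ l) :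
    crt M l ≡ p.2 [MOD p.1] := by
  refine ((Nat.mod_modEq _ M).of_dvd (h1 p hp).1).trans ?_
  induction l with
  | nil => simp at hp
  | cons q l ih =>
    rw [List.map_cons, List.pairwise_cons] at h2
    rw [List.map_cons, List.sum_cons]
    rcases List.mem_cons.1 hp with rfl | hp'
    · have e1 := crt_sum_zero (M := M) (m := p.1) (l := l) (h1 p hp).1 fun q hq =>
        ⟨(h1 q (List.mem_cons_of_mem _ hq)).1, (h2.1 _ (List.mem_map_of_mem hq)).symm⟩
      have e2 := (invMod_spec (h1 p hp).2.symm).mul_right p.2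
      simpa using e2.add e1
    · have e1 := ih (fun q hq => h1 q (List.mem_cons_of_mem _ hq)) h2.2 hp'
      have e2 := crt_sum_zero (M := M) (m := p.1) (l := [q]) (h1 p hp).1 fun r hr => by
        rw [List.mem_singleton.1 hr]
        exact ⟨(h1 q List.mem_cons_self).1, h2.1 _ (List.mem_map_of_mem hp')⟩
      simpa using e2.add e1

/-- modulo a divisor `m` of `M` coprime to all moduli the result vanishes -/
theorem crt_spec_rest {M m : ℕ} {l : List (ℕ × ℕ)} (hm : m ∣ M)
    (h1 : ∀ p ∈ l, p.1 ∣ M ∧ Nat.Coprime p.1 m) : crt M l ≡ 0 [MOD m] := by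
  exact ((Nat.mod_modEq _ M).of_dvd hm).trans (crt_sum_zero hm h1)

end Vale.Agent.P338
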