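import Vale.Agent.P338.SimdDefs

/-! Error analysis. -/

namespace Vale.Agent.P338

open Vale.Agent.P344 (al be)

variable {L E E' : ℕ} {ε ε' : ℝ} {z z' : ℂ} {x x' : ZMod (mm L)}

theorem norm_al_le : ‖al‖ ≤ 1 := by
  unfold al
  rw [norm_div, Complex.norm_ofNat, div_le_one (by norm_num)]
  refine (norm_add_le _ _).trans ?_
  simp only [norm_one, Complex.norm_I]; norm_num

theorem norm_be_le : ‖be‖ ≤ 1 := by
  unfold be
  rw [norm_div, Complex.norm_ofNat, div_le_one (by norm_num)]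
  refine (norm_sub_le _ _).trans ?_
  simp only [norm_one, Complex.norm_I]; norm_num

theorem two_mul_hf (hL : 1 ≤ L) : 2 * hf L = 1 := by
  have h := two_pow_sq L
  obtain ⟨n, rfl⟩ : ∃ n, L = n + 1 := ⟨L - 1, by omega⟩
  rw [hf, show 2 * (n + 1) - 1 = n + (n + 1) by omega]
  push_cast at h
  rw [pow_succ] at h
  rw [pow_add, pow_succ]
  linear_combination -h

theorem AR.mono (h : AR L E ε z x) (he : ε ≤ ε') : AR L E ε' z x := by
  obtain ⟨g, h1, h2⟩ := h
  exact ⟨g, h1, h2.trans (by gcongr)⟩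

theorem AR.nonneg (h : AR L E ε z x) : 0 ≤ ε := by
  obtain ⟨g, -, h2⟩ := h
  exact nonneg_of_mul_nonneg_right ((norm_nonneg _).trans h2) (by positivity)

theorem AR.nat (k : ℕ) : AR L 0 0 (k : ℂ) (k : ZMod (mm L)) := by
  exact ⟨k, by simp, by simp⟩

theorem AR.add (h : AR L E ε z x) (h' : AR L E ε' z' x') : AR L E (ε + ε') (z + z') (x + x') := by
  obtain ⟨g, h1, h2⟩ := h
  obtain ⟨g', h1', h2'⟩ := h'
  refine ⟨g + g', by rw [map_add, h1, h1'], ?_⟩
  have e : ((g + g' : GaussianInt) : ℂ) - 2 ^ E * (z + z') =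
      (g - 2 ^ E * z) + (g' - 2 ^ E * z') := by
    rw [GaussianInt.toComplex_add]; ring
  rw [e]
  linarith [norm_add_le ((g : ℂ) - 2 ^ E * z) (g' - 2 ^ E * z')]

theorem AR.sum {ι : Type} (s : Finset ι) {z : ι → ℂ} {x : ι → ZMod (mm L)}
    (h : ∀ i ∈ s, AR L E ε (z i) (x i)) :
    AR L E (s.card * ε) (∑ i ∈ s, z i) (∑ i ∈ s, x i) := by
  classical
  induction s using Finset.induction_on with
  | empty => exact ⟨0, by simp, by simp⟩
  | insert a s ha ih =>
    rw [Finset.sum_insert ha, Finset.sum_insert ha, Finset.card_insert_of_notMem ha]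
    refine ((h a (Finset.mem_insert_self _ _)).add
      (ih fun i hi => h i (Finset.mem_insert_of_mem hi))).mono (le_of_eq ?_)
    push_cast; ring

theorem AR.mul {X X' : ℝ} (h : AR L E ε z x) (h' : AR L E' ε' z' x') (hz : ‖z‖ ≤ X)
    (hz' : ‖z'‖ ≤ X') : AR L (E + E') (ε * X' + ε' * X + ε * ε') (z * z') (x * x') := by
  have hε := h.nonneg
  have hε' := h'.nonneg
  obtain ⟨g, h1, h2⟩ := h
  obtain ⟨g', h1', h2'⟩ := h'
  refine ⟨g * g', by rw [map_mul, h1, h1'], ?_⟩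
  have e : ((g * g' : GaussianInt) : ℂ) - 2 ^ (E + E') * (z * z') =
      (g - 2 ^ E * z) * (2 ^ E' * z') + (g' - 2 ^ E' * z') * (2 ^ E * z) +
        (g - 2 ^ E * z) * (g' - 2 ^ E' * z') := by
    rw [GaussianInt.toComplex_mul]; ring
  rw [e]
  refine (norm_add₃_le).trans ?_
  simp only [norm_mul, norm_pow, Complex.norm_ofNat]
  calc _ ≤ 2 ^ E * ε * (2 ^ E' * X') + 2 ^ E' * ε' * (2 ^ E * X) + 2 ^ E * ε * (2 ^ E' * ε') := by
        gcongr
    _ = _ := by ring

theorem AR.tw {a b : ℤ} {p : ℕ} {d : ℂ} (h : ‖(a + b * Complex.I : ℂ) - 2 ^ p * d‖ ≤ 2) :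
    AR L p (2 / 2 ^ p) d ((a : ZMod (mm L)) + b * 2 ^ L) := by
  refine ⟨⟨a, b⟩, by simp [psi], ?_⟩
  rw [GaussianInt.toComplex_def', mul_div_cancel₀ _ (by positivity)]
  exact h

theorem norm_layer_le {X : Type} {ok : X → Prop} {σs : List (X → X)}
    (hσ : ∀ σ ∈ σs, ∀ y, ok y → ok (σ y)) {Z : X → ℂ} {M : ℝ} (hZ : ∀ y, ok y → ‖Z y‖ ≤ M)
    {y : X} (hy : ok y) : ‖layer al be σs Z y‖ ≤ 2 ^ σs.length * M := by
  induction σs generalizing y with
  | nil => simpa [layer] using hZ y hy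
  | cons σ σs ih =>
    have ih' := @ih fun τ hτ => hσ τ (List.mem_cons_of_mem _ hτ)
    have a1 := ih' hy
    have a2 := ih' (hσ σ List.mem_cons_self y hy)
    simp only [layer, List.length_cons]
    refine (norm_add_le _ _).trans ?_
    rw [norm_mul, norm_mul, pow_succ]
    nlinarith [mul_le_of_le_one_left (norm_nonneg (layer al be σs Z y)) norm_al_le,
      mul_le_of_le_one_left (norm_nonneg (layer al be σs Z (σ y))) norm_be_le]

theorem AR.layer (hL : 1 ≤ L) {X : Type} {ok : X → Prop} {σs : List (X → X)}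
    (hσ : ∀ σ ∈ σs, ∀ y, ok y → ok (σ y)) {Z : X → ℂ} {F : X → ZMod (mm L)}
    (h : ∀ y, ok y → AR L E ε (Z y) (F y)) {y : X} (hy : ok y) :
    AR L (E + σs.length) (2 ^ σs.length * ε) (layer al be σs Z y)
      (2 ^ σs.length * layer (hf L * (1 + 2 ^ L)) (hf L * (1 - 2 ^ L)) σs F y) := by
  induction σs generalizing y with
  | nil => simpa [P338.layer] using h y hy
  | cons σ σs ih =>
    have ih' := @ih fun τ hτ => hσ τ (List.mem_cons_of_mem _ hτ)
    obtain ⟨g, h1, h2⟩ := ih' hy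
    obtain ⟨g', h1', h2'⟩ := ih' (hσ σ List.mem_cons_self y hy)
    refine ⟨⟨1, 1⟩ * g + ⟨1, -1⟩ * g', ?_, ?_⟩
    · rw [map_add, map_mul, map_mul, h1, h1']
      have t := two_mul_hf hL
      simp only [P338.layer, List.length_cons, psi, Zsqrtd.lift_apply_apply]
      push_cast
      linear_combination (-(2 ^ σs.length) * ((1 + 2 ^ L) *
        P338.layer (hf L * (1 + 2 ^ L)) (hf L * (1 - 2 ^ L)) σs F y + (1 - 2 ^ L) *
        P338.layer (hf L * (1 + 2 ^ L)) (hf L * (1 - 2 ^ L)) σs F (σ y))) * t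
    · have e : (((⟨1, 1⟩ : GaussianInt) * g + ⟨1, -1⟩ * g' : GaussianInt) : ℂ) -
          2 ^ (E + (σ :: σs).length) * P338.layer al be (σ :: σs) Z y =
          2 * (al * (g - 2 ^ (E + σs.length) * P338.layer al be σs Z y) +
            be * (g' - 2 ^ (E + σs.length) * P338.layer al be σs Z (σ y))) := by
        rw [GaussianInt.toComplex_add, GaussianInt.toComplex_mul, GaussianInt.toComplex_mul,
          GaussianInt.toComplex_def' 1 1, GaussianInt.toComplex_def' 1 (-1)]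
        simp only [P338.layer, List.length_cons, al, be]
        push_cast
        ring
      rw [e, norm_mul, Complex.norm_ofNat]
      have a1 := norm_add_le (al * (g - 2 ^ (E + σs.length) * P338.layer al be σs Z y))
        (be * (g' - 2 ^ (E + σs.length) * P338.layer al be σs Z (σ y)))
      rw [norm_mul, norm_mul] at a1
      have a2 := mul_le_of_le_one_left
        (norm_nonneg ((g : ℂ) - 2 ^ (E + σs.length) * P338.layer al be σs Z y)) norm_al_le
      have a3 := mul_le_of_le_one_left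
        (norm_nonneg ((g' : ℂ) - 2 ^ (E + σs.length) * P338.layer al be σs Z (σ y))) norm_be_le
      calc _ ≤ 2 * (2 * (2 ^ (E + σs.length) * (2 ^ σs.length * ε))) := by linarith
        _ = _ := by rw [List.length_cons]; ring

theorem layer_congr {X R : Type} [Mul R] [Add R] (α β : R) {ok : X → Prop} {σs : List (X → X)}
    (hσ : ∀ σ ∈ σs, ∀ y, ok y → ok (σ y)) {F F' : X → R} (h : ∀ y, ok y → F y = F' y)
    {y : X} (hy : ok y) : layer α β σs F y = layer α β σs F' y := by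
  induction σs generalizing y with
  | nil => exact h y hy
  | cons σ σs ih =>
    have ih' := @ih fun τ hτ => hσ τ (List.mem_cons_of_mem _ hτ)
    simp only [layer]
    rw [ih' hy, ih' (hσ σ List.mem_cons_self y hy)]

theorem norm_prodVal_le {u : ℕ} {l : List Ex} (hl : l.length ≤ u) (h : ∀ e ∈ l, ExOK u e) :
    ‖prodVal l‖ ≤ 2 ^ (u * u) := by
  have key : ‖prodVal l‖ ≤ (2 ^ u) ^ l.length := by
    clear hl
    induction l with
    | nil => simp [prodVal]
    | cons e l ih =>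
      have a1 := (h e List.mem_cons_self).2.2.2.2.2
      have a2 := ih fun e he => h e (List.mem_cons_of_mem _ he)
      unfold prodVal at a2 ⊢
      rw [List.map_cons, List.prod_cons, norm_mul, List.length_cons, pow_succ']
      gcongr
  refine key.trans ?_
  rw [pow_mul]
  exact pow_le_pow_right₀ (one_le_pow₀ (by norm_num)) hl

/-- One step of the error recursion: `x` is the layer output, `a + b i` the rounded diagonal
entry. -/
theorem AR.step {r p U i : ℕ} {X0 ε0 : ℝ} {d : ℂ} {a b : ℤ} (hX : 0 ≤ X0) (hε : 0 ≤ ε0)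
    (hp : 1 ≤ p) (hd : ‖d‖ ≤ 2 ^ U) (ht : ‖(a + b * Complex.I : ℂ) - 2 ^ p * d‖ ≤ 2)
    (hz : ‖z‖ ≤ 2 ^ r * ((2 ^ (r + U + 1)) ^ i * X0))
    (h : AR L (E + r) (2 ^ r * ((2 ^ (r + U + 1)) ^ i * (ε0 + i * (2 / 2 ^ p) * X0))) z (2 ^ r * x)) :
    ‖d * z‖ ≤ (2 ^ (r + U + 1)) ^ (i + 1) * X0 ∧
    AR L (E + (r + p)) ((2 ^ (r + U + 1)) ^ (i + 1) * (ε0 + ((i + 1 : ℕ) : ℝ) * (2 / 2 ^ p) * X0))
      (d * z) (2 ^ r * ((a : ZMod (mm L)) + b * 2 ^ L) * x) := by
  set K : ℝ := (2 ^ (r + U + 1)) ^ i with hK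
  have hK0 : 0 ≤ K := by positivity
  have hU : (1 : ℝ) ≤ 2 ^ U := one_le_pow₀ (by norm_num)
  have hr : (0 : ℝ) < 2 ^ r := by positivity
  have hδ0 : (0 : ℝ) ≤ 2 / 2 ^ p := by positivity
  have hδ1 : (2 : ℝ) / 2 ^ p ≤ 1 := by
    rw [div_le_one (by positivity)]
    exact le_self_pow₀ (by norm_num) (by omega)
  have e : ((2 : ℝ) ^ (r + U + 1)) ^ (i + 1) = K * (2 ^ r * 2 ^ U * 2) := by
    rw [pow_succ, ← hK]; ring
  constructor
  · rw [norm_mul, e]
    calc _ ≤ 2 ^ U * (2 ^ r * (K * X0)) := by gcongr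
      _ ≤ _ := by nlinarith [mul_nonneg (mul_nonneg (mul_nonneg hr.le hK0) hX) (zero_le_one.trans hU)]
  · have := (AR.tw (L := L) ht).mul h hd hz
    rw [show p + (E + r) = E + (r + p) by ring,
      show ((a : ZMod (mm L)) + b * 2 ^ L) * (2 ^ r * x) = 2 ^ r * (a + b * 2 ^ L) * x by ring]
      at this
    refine this.mono ?_
    rw [e]
    set δ : ℝ := 2 / 2 ^ p
    set A : ℝ := 2 ^ r * K with hA
    have hA0 : 0 ≤ A := by positivity
    set η : ℝ := ε0 + i * δ * X0 with hη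
    have hη0 : 0 ≤ η := by positivity
    have b1 : δ * X0 ≤ 2 ^ U * 2 * (δ * X0) :=
      le_mul_of_one_le_left (by positivity) (by linarith)
    have b2 : δ * η ≤ 2 ^ U * η := mul_le_mul_of_nonneg_right (by linarith) hη0
    calc δ * (2 ^ r * (K * X0)) + 2 ^ r * (K * η) * 2 ^ U + δ * (2 ^ r * (K * η))
        = A * (δ * X0 + 2 ^ U * η + δ * η) := by rw [hA]; ring
      _ ≤ A * (2 ^ U * 2 * (δ * X0) + 2 ^ U * η + 2 ^ U * η) := by gcongr
      _ = _ := by rw [hA, hη]; push_cast; ring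

theorem decode_int {u v a k A P t : ℤ} (hA1 : 1 ≤ A) (hAP : A ≤ P) (hk0 : 0 ≤ k) (ha0 : 0 ≤ a)
    (s1 : |u - 32 * A * k| ≤ 4 * A) (s2 : |v| ≤ 4 * A) (s3 : 32 * A * (k + 1) ≤ 32 * P)
    (s4 : a < 4096 * (P * P))
    (ht : a - (u + v * (32 * P) + (16 * A + 512 * (P * P))) = (1024 * (P * P) + 1) * t) :
    a % (32 * P) / (32 * A) = k := by
  rw [abs_le] at s1 s2
  have hP1 : 1 ≤ P := hA1.trans hAP
  have v1 : v * P ≤ 4 * P * P := mul_le_mul_of_nonneg_right (by linarith) (by linarith)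
  have v2 : -(4 * P) * P ≤ v * P := mul_le_mul_of_nonneg_right (by linarith) (by linarith)
  have v3 : 1 * P ≤ P * P := mul_le_mul_of_nonneg_right hP1 (by linarith)
  have v4 : 0 ≤ A * k := by positivity
  have t0 : 0 ≤ t := by
    by_contra hc
    have := mul_le_mul_of_nonneg_left (show t ≤ -1 by omega)
      (show 0 ≤ 1024 * (P * P) + 1 by positivity)
    linarith
  have t1 : t ≤ 3 := by
    by_contra hc
    have := mul_le_mul_of_nonneg_left (show 4 ≤ t by omega)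
      (show 0 ≤ 1024 * (P * P) + 1 by positivity)
    linarith
  have m1 : a % (32 * P) = u + 16 * A + t := by
    have : a = u + 16 * A + t + 32 * P * (v + 16 * P + 32 * P * t) := by linarith
    rw [this, Int.add_mul_emod_self_left]
    exact Int.emod_eq_of_lt (by linarith) (by linarith)
  have : u + 16 * A + t = (u + 16 * A + t - 32 * A * k) + 32 * A * k := by ring
  rw [m1, this, Int.add_mul_ediv_left _ _ (by linarith),
    Int.ediv_eq_zero_of_lt (by linarith) (by linarith), zero_add]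

/-- Reading off an integer from a residue. -/
theorem AR.decode {k a : ℕ} (h : AR L E (1 / 8) (k : ℂ) x) (hE : 5 ≤ E)
    (hk : 2 ^ E * (k + 1) ≤ 2 ^ L) (ha : a < 2 ^ (2 * L + 2))
    (hx : (a : ZMod (mm L)) = x + (2 ^ (E - 1) + 2 ^ (2 * L - 1))) : a % 2 ^ L / 2 ^ E = k := by
  obtain ⟨⟨u, v⟩, h1, h2⟩ := h
  obtain ⟨e, rfl⟩ : ∃ e, E = e + 5 := ⟨E - 5, by omega⟩
  have hEL : e + 5 ≤ L := by
    rw [← Nat.pow_le_pow_iff_right (a := 2) (by norm_num)]
    exact le_trans (Nat.le_mul_of_pos_right _ (Nat.succ_pos k)) hk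
  obtain ⟨l, rfl⟩ : ∃ l, L = l + 5 := ⟨L - 5, by omega⟩
  rw [GaussianInt.toComplex_def'] at h2
  have r1 := (Complex.abs_re_le_norm _).trans h2
  have r2 := (Complex.abs_im_le_norm _).trans h2
  have c2 : ((2 : ℂ) ^ (e + 5)) = (((2 : ℝ) ^ (e + 5) : ℝ) : ℂ) := by push_cast; rfl
  rw [c2] at r1 r2
  simp only [Complex.sub_re, Complex.add_re, Complex.intCast_re, Complex.mul_re, Complex.I_re,
    Complex.intCast_im, Complex.I_im, Complex.ofReal_re, Complex.natCast_re, Complex.ofReal_im,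
    Complex.natCast_im, Complex.sub_im, Complex.add_im, Complex.mul_im, mul_zero, zero_mul,
    sub_zero, add_zero, mul_one, zero_add] at r1 r2
  set A : ℤ := 2 ^ e with hA
  set P : ℤ := 2 ^ l with hP
  have hA1 : 1 ≤ A := one_le_pow₀ (by norm_num)
  have hAP : A ≤ P := pow_le_pow_right₀ (by norm_num) (by omega)
  have c3 : ∀ n : ℕ, (2 : ℝ) ^ (n + 5) = 32 * 2 ^ n := fun n => by ring
  have c4 : ∀ n : ℕ, (2 : ℤ) ^ (n + 5) = 32 * 2 ^ n := fun n => by ring
  rw [c3] at r1 r2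
  have s1 : |u - 32 * A * k| ≤ 4 * A := by
    have : |(u : ℝ) - 32 * 2 ^ e * k| ≤ 4 * 2 ^ e := by linarith
    rw [hA]; exact_mod_cast this
  have s2 : |v| ≤ 4 * A := by
    have : |(v : ℝ)| ≤ 4 * 2 ^ e := by linarith
    rw [hA]; exact_mod_cast this
  have s3 : 32 * A * (k + 1) ≤ 32 * P := by
    have : (2 : ℤ) ^ (e + 5) * (k + 1) ≤ 2 ^ (l + 5) := by exact_mod_cast hk
    rwa [c4, c4] at this
  have s4 : (a : ℤ) < 4096 * (P * P) := by
    have : (a : ℤ) < 2 ^ (2 * (l + 5) + 2) := by exact_mod_cast ha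
    rw [hP]; linarith [show (2 : ℤ) ^ (2 * (l + 5) + 2) = 4096 * (2 ^ l * 2 ^ l) by ring]
  have s5 : ((1024 * (P * P) + 1 : ℤ)) ∣ (a : ℤ) - (u + v * (32 * P) + (16 * A + 512 * (P * P))) := by
    have hm : ((mm (l + 5) : ℕ) : ℤ) = 1024 * (P * P) + 1 := by
      unfold mm; rw [hP]; push_cast; ring
    rw [← hm, ← ZMod.intCast_zmod_eq_zero_iff_dvd]
    simp only [psi, Zsqrtd.lift_apply_apply] at h1
    rw [← h1, show e + 5 - 1 = e + 4 by omega, show 2 * (l + 5) - 1 = l + l + 9 by omega] at hx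
    rw [hA, hP]
    push_cast
    rw [hx]
    ring
  obtain ⟨t, ht⟩ := s5
  have m2 := decode_int hA1 hAP (Int.natCast_nonneg k) (Int.natCast_nonneg a) s1 s2 s3 s4 ht
  have f1 : (32 * P : ℤ) = ((2 ^ (l + 5) : ℕ) : ℤ) := by rw [hP]; push_cast; ring
  have f2 : (32 * A : ℤ) = ((2 ^ (e + 5) : ℕ) : ℤ) := by rw [hA]; push_cast; ring
  rw [f1, f2] at m2
  exact_mod_cast m2

end Vale.Agent.P338
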