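import Vale.Agent.P338.Apx_A

/-! Error bounds for the approximation of roots of unity. -/

namespace Vale.Agent.P338

open Vale.Agent.Lib.H23

theorem sum_rangeU {M : Type} [AddCommMonoid M] (n : ℕ) (f : Un → M) :
    ((rangeU ⟨n⟩).map f).sum = ∑ k ∈ Finset.range n, f ⟨k⟩ := by
  unfold rangeU
  induction n with
  | zero => simp
  | succ n ih =>
    simp only at ih ⊢
    rw [List.range_succ, List.map_append, List.map_append, List.sum_append, ih,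
      Finset.sum_range_succ]
    simp

theorem abs_natdiv_sub (a b : ℕ) : |((a / b : ℕ) : ℝ) - (a : ℝ) / b| ≤ 1 := by
  rw [← Nat.floor_div_eq_div (K := ℝ)]
  have h0 : (0 : ℝ) ≤ (a : ℝ) / b := by positivity
  have h1 := Nat.floor_le h0
  have h2 := Nat.lt_floor_add_one ((a : ℝ) / b)
  rw [abs_le]
  constructor <;> linarith

theorem abs_intdiv_sub (a : ℤ) (b : ℕ) : |((a / (b : ℤ) : ℤ) : ℝ) - (a : ℝ) / b| ≤ 1 := by
  rcases Nat.eq_zero_or_pos b with rfl | hb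
  · simp
  · have hb' : (0 : ℝ) < b := by exact_mod_cast hb
    have h1 := Int.emod_add_mul_ediv a b
    have h2 := Int.emod_nonneg a (show (b : ℤ) ≠ 0 by omega)
    have h3 := Int.emod_lt_of_pos a (show (0 : ℤ) < b by omega)
    have h1' : ((a % b : ℤ) : ℝ) + b * ((a / (b : ℤ) : ℤ) : ℝ) = a := by exact_mod_cast h1
    have h2' : (0 : ℝ) ≤ ((a % b : ℤ) : ℝ) := by exact_mod_cast h2
    have h3' : ((a % b : ℤ) : ℝ) < b := by exact_mod_cast h3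
    have e : ((a / (b : ℤ) : ℤ) : ℝ) - (a : ℝ) / b = -(((a % b : ℤ) : ℝ) / b) := by
      field_simp
      linarith
    rw [e, abs_neg, abs_of_nonneg (by positivity), div_le_one hb']
    exact h3'.le

theorem atn_err (Q c : ℕ) (hc : 2 ≤ c) :
    |(atn ⟨Q⟩ c : ℝ) - 2 ^ Q * Real.arctan (c : ℝ)⁻¹| ≤ Q + 1 := by
  have hc' : (2 : ℝ) ≤ c := by exact_mod_cast hc
  have hx0 : (0 : ℝ) ≤ (c : ℝ)⁻¹ := by positivity
  have hx : (c : ℝ)⁻¹ ≤ 1 / 2 := by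
    rw [one_div]; exact inv_anti₀ (by norm_num) hc'
  have hs := Real.hasSum_arctan (x := (c : ℝ)⁻¹) (by rw [Real.norm_of_nonneg hx0]; linarith)
  have ht := norm_sub_le_of_geometric_bound_of_hasSum (C := 1 / 2) (r := 1 / 2) (by norm_num)
    (fun n => by
      rw [norm_div, norm_mul, norm_pow, norm_pow, norm_neg, norm_one, one_pow, one_mul,
        Real.norm_of_nonneg hx0, Real.norm_natCast]
      have h1 : (1 : ℝ) ≤ ((2 * n + 1 : ℕ) : ℝ) := by exact_mod_cast Nat.le_add_left 1 _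
      calc (c : ℝ)⁻¹ ^ (2 * n + 1) / ((2 * n + 1 : ℕ) : ℝ) ≤ (c : ℝ)⁻¹ ^ (2 * n + 1) :=
            div_le_self (by positivity) h1
        _ ≤ (1 / 2) ^ (2 * n + 1) := by gcongr
        _ ≤ (1 / 2) ^ (n + 1) := pow_le_pow_of_le_one (by norm_num) (by norm_num) (by omega)
        _ = 1 / 2 * (1 / 2) ^ n := by ring) hs Q
  rw [Real.norm_eq_abs] at ht
  have hterm : ∀ k : ℕ, |(atnT ⟨Q⟩ c ⟨k⟩ : ℝ) -
      2 ^ Q * ((-1) ^ k * (c : ℝ)⁻¹ ^ (2 * k + 1) / ((2 * k + 1 : ℕ) : ℝ))| ≤ 1 := by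
    intro k
    have h1 := abs_natdiv_sub (2 ^ Q) (c ^ k * c ^ k * c * (2 * k + 1))
    have h2 : (((bif eqb (k % 2) 0 then 1 else -1 : ℤ)) : ℝ) = (-1) ^ k := by
      rcases Nat.even_or_odd k with h | h
      · simp [Nat.even_iff.1 h, h.neg_one_pow]
      · simp [Nat.odd_iff.1 h, h.neg_one_pow]
    have e : (atnT ⟨Q⟩ c ⟨k⟩ : ℝ) -
        2 ^ Q * ((-1) ^ k * (c : ℝ)⁻¹ ^ (2 * k + 1) / ((2 * k + 1 : ℕ) : ℝ)) =
        (-1) ^ k * ((((2 ^ Q / (c ^ k * c ^ k * c * (2 * k + 1)) : ℕ)) : ℝ) -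
          ((2 ^ Q : ℕ) : ℝ) / ((c ^ k * c ^ k * c * (2 * k + 1) : ℕ) : ℝ)) := by
      unfold atnT
      rw [Int.cast_mul, h2, Int.cast_natCast]
      simp only
      generalize (2 ^ Q / (c ^ k * c ^ k * c * (2 * k + 1)) : ℕ) = w
      push_cast
      rw [inv_pow]
      field_simp
      ring
    rw [e, abs_mul, abs_pow, abs_neg, abs_one, one_pow, one_mul]
    exact h1
  have h1 : |(atn ⟨Q⟩ c : ℝ) - 2 ^ Q * ∑ k ∈ Finset.range Q,
      (-1) ^ k * (c : ℝ)⁻¹ ^ (2 * k + 1) / ((2 * k + 1 : ℕ) : ℝ)| ≤ Q := by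
    unfold atn
    rw [sum_rangeU, Int.cast_sum, Finset.mul_sum, ← Finset.sum_sub_distrib]
    refine (Finset.abs_sum_le_sum_abs _ _).trans ?_
    refine (Finset.sum_le_card_nsmul _ _ 1 fun k _ => hterm k).trans ?_
    simp
  have h2 : (2 : ℝ) ^ Q * (1 / 2 * (1 / 2) ^ Q / (1 - 1 / 2)) = 1 := by
    rw [one_div_pow]; field_simp; norm_num
  have h3 : |2 ^ Q * (∑ k ∈ Finset.range Q,
      (-1) ^ k * (c : ℝ)⁻¹ ^ (2 * k + 1) / ((2 * k + 1 : ℕ) : ℝ)) -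
      2 ^ Q * Real.arctan (c : ℝ)⁻¹| ≤ 1 := by
    rw [← mul_sub, abs_mul, abs_of_pos (by positivity : (0 : ℝ) < 2 ^ Q)]
    refine le_trans ?_ h2.le
    gcongr
  exact (abs_sub_le _ _ _).trans (add_le_add h1 h3)

theorem piq_err (Q : ℕ) : |(piq ⟨Q⟩ : ℝ) - 2 ^ Q * (Real.pi / 4)| ≤ 2 * (Q + 1) := by
  have h2 := atn_err Q 2 le_rfl
  have h3 := atn_err Q 3 (by norm_num)
  have h := Real.arctan_inv_2_add_arctan_inv_3
  have hp : (0 : ℝ) ≤ 2 ^ Q * (Real.pi / 4) := by have := Real.pi_pos; positivity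
  rw [← h] at hp ⊢
  push_cast at h2 h3
  rw [abs_le] at h2 h3 ⊢
  unfold piq
  rcases le_total 0 (atn ⟨Q⟩ 2 + atn ⟨Q⟩ 3) with h0 | h0
  · have e : (((atn ⟨Q⟩ 2 + atn ⟨Q⟩ 3).toNat : ℕ) : ℝ) = (atn ⟨Q⟩ 2 : ℝ) + atn ⟨Q⟩ 3 := by
      exact_mod_cast congrArg (Int.cast : ℤ → ℝ) (Int.toNat_of_nonneg h0)
    rw [e]
    constructor <;> linarith [h2.1, h2.2, h3.1, h3.2]
  · have h0' : (atn ⟨Q⟩ 2 : ℝ) + atn ⟨Q⟩ 3 ≤ 0 := by exact_mod_cast h0
    rw [Int.toNat_eq_zero.2 h0]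
    have hQ : (0 : ℝ) ≤ Q := by positivity
    push_cast
    constructor <;> linarith [h2.1, h2.2, h3.1, h3.2]

theorem exp_tail (Q : ℕ) {x : ℝ} (h0 : 0 ≤ x) (h1 : x ≤ 23) :
    2 ^ Q * (x ^ (Q + 80) / (Q + 80).factorial * 2) ≤ 1 := by
  have h2 := Real.pow_div_factorial_le_exp (x := 46) (by norm_num) (Q + 80)
  have h3 : Real.exp 46 ≤ 3 ^ 46 := by
    rw [show (46 : ℝ) = (46 : ℕ) * 1 by norm_num, Real.exp_nat_mul]
    have := Real.exp_one_lt_three.le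
    gcongr
  have h4 : x ^ (Q + 80) ≤ 23 ^ (Q + 80) := by gcongr
  have h5 : (46 : ℝ) ^ (Q + 80) = 2 ^ Q * 2 ^ 80 * 23 ^ (Q + 80) := by
    rw [← pow_add, ← mul_pow]; norm_num
  have hf : (0 : ℝ) < (Q + 80).factorial := by exact_mod_cast Nat.factorial_pos _
  have h6 : (2 : ℝ) ^ Q * (23 ^ (Q + 80) / (Q + 80).factorial) * 2 ^ 80 ≤ 3 ^ 46 := by
    refine le_trans (le_of_eq ?_) (h2.trans h3)
    rw [h5]; ring
  have h7 : (2 : ℝ) ^ Q * (x ^ (Q + 80) / (Q + 80).factorial) ≤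
      2 ^ Q * (23 ^ (Q + 80) / (Q + 80).factorial) := by gcongr
  have h8 : (3 : ℝ) ^ 46 * 2 ≤ 2 ^ 80 := by norm_num
  nlinarith

theorem expq_err (Q A B : ℕ) (h : (A : ℝ) / B ≤ 23) :
    ‖gv (expq ⟨Q⟩ A B) - 2 ^ Q * Complex.exp (Complex.I * ((A : ℝ) / B : ℝ))‖ ≤ Q + 81 := by
  have h0 : (0 : ℝ) ≤ (A : ℝ) / B := by positivity
  have hn : ‖Complex.I * ((A : ℝ) / B : ℝ)‖ = (A : ℝ) / B := by
    rw [norm_mul, Complex.norm_I, one_mul, Complex.norm_real, Real.norm_of_nonneg h0]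
  have hb := Complex.exp_bound' (x := Complex.I * ((A : ℝ) / B : ℝ)) (n := Q + 80) (by
    rw [hn, div_le_iff₀ (by positivity)]
    push_cast
    have : (0 : ℝ) ≤ Q := by positivity
    linarith)
  rw [hn] at hb
  have hterm : ∀ m : ℕ, ‖gv (expT ⟨Q⟩ A B ⟨m⟩) -
      2 ^ Q * ((Complex.I * ((A : ℝ) / B : ℝ)) ^ m / m.factorial)‖ ≤ 1 := by
    intro m
    have h1 := abs_natdiv_sub (2 ^ Q * A ^ m) (B ^ m * m.factorial)
    have e : gv (expT ⟨Q⟩ A B ⟨m⟩) - 2 ^ Q * ((Complex.I * ((A : ℝ) / B : ℝ)) ^ m / m.factorial) =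
        Complex.I ^ m * ((((2 ^ Q * A ^ m / (B ^ m * m.factorial) : ℕ) : ℝ) -
          ((2 ^ Q * A ^ m : ℕ) : ℝ) / ((B ^ m * m.factorial : ℕ) : ℝ) : ℝ) : ℂ) := by
      unfold expT
      rw [gv_mul, gv_ipow, fac_eq]
      simp only
      generalize (2 ^ Q * A ^ m / (B ^ m * m.factorial) : ℕ) = w
      simp only [gv]
      push_cast
      rw [mul_pow, div_pow]
      ring
    rw [e, norm_mul, norm_pow, Complex.norm_I, one_pow, one_mul, Complex.norm_real,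
      Real.norm_eq_abs]
    exact h1
  have h1 : ‖gv (expq ⟨Q⟩ A B) - 2 ^ Q * ∑ m ∈ Finset.range (Q + 80),
      (Complex.I * ((A : ℝ) / B : ℝ)) ^ m / m.factorial‖ ≤ Q + 80 := by
    unfold expq
    rw [gv_sum, List.map_map, show unAdd ⟨Q⟩ ⟨80⟩ = ⟨Q + 80⟩ from rfl, sum_rangeU, Finset.mul_sum,
      ← Finset.sum_sub_distrib]
    refine (norm_sum_le _ _).trans ?_
    refine (Finset.sum_le_card_nsmul _ _ 1 fun k _ => hterm k).trans ?_
    simp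
  have h3 : ‖2 ^ Q * (∑ m ∈ Finset.range (Q + 80),
      (Complex.I * ((A : ℝ) / B : ℝ)) ^ m / m.factorial) -
      2 ^ Q * Complex.exp (Complex.I * ((A : ℝ) / B : ℝ))‖ ≤ 1 := by
    rw [← mul_sub, norm_mul, norm_pow, Complex.norm_two, norm_sub_rev]
    refine le_trans ?_ (exp_tail Q h0 h)
    gcongr
  have h4 := (norm_sub_le_norm_sub_add_norm_sub _ _ _).trans (add_le_add h1 h3)
  linarith

theorem chi_mod (N e : ℕ) (hN : 0 < N) :
    chi N e = Complex.exp (Complex.I * (2 * Real.pi * (e % N : ℕ) / N : ℝ)) := by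
  have hN' : (N : ℂ) ≠ 0 := by exact_mod_cast hN.ne'
  have h : (e : ℂ) = (e % N : ℕ) + N * (e / N : ℕ) := by exact_mod_cast (Nat.mod_add_div e N).symm
  unfold chi
  rw [← mul_one (Complex.exp (Complex.I * _)), ← Complex.exp_nat_mul_two_pi_mul_I (e / N),
    ← Complex.exp_add]
  congr 1
  push_cast
  rw [h]
  generalize (e % N : ℕ) = r
  generalize (e / N : ℕ) = s
  field_simp

theorem norm_chi (N e : ℕ) (hN : 0 < N) : ‖chi N e‖ = 1 := by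
  rw [chi_mod N e hN, Complex.norm_exp_I_mul_ofReal]

theorem rootq_err (Q N e : ℕ) (hN : 0 < N) :
    ‖gv (rootq ⟨Q⟩ N e) - 2 ^ Q * chi N e‖ ≤ 128 * (Q + 1) := by
  have hN' : (0 : ℝ) < N := by exact_mod_cast hN
  have hr : ((e % N : ℕ) : ℝ) / N ≤ 1 := by
    rw [div_le_one hN']; exact_mod_cast (Nat.mod_lt e hN).le
  have hr0 : (0 : ℝ) ≤ ((e % N : ℕ) : ℝ) / N := by positivity
  have hp := piq_err Q
  have hQ : (Q : ℝ) + 1 ≤ 2 ^ Q := by exact_mod_cast Nat.lt_two_pow_self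
  have h2 : (0 : ℝ) < 2 ^ Q := by positivity
  set x : ℝ := ((8 * piq ⟨Q⟩ * (e % N) : ℕ) : ℝ) / ((2 ^ Q * N : ℕ) : ℝ) with hx
  set y : ℝ := 2 * Real.pi * (e % N : ℕ) / N with hy
  have hxy : 2 ^ Q * |x - y| ≤ 16 * (Q + 1) := by
    have e1 : 2 ^ Q * (x - y) =
        8 * ((piq ⟨Q⟩ : ℝ) - 2 ^ Q * (Real.pi / 4)) * (((e % N : ℕ) : ℝ) / N) := by
      rw [hx, hy]
      generalize (e % N : ℕ) = r
      push_cast
      field_simp
      ring
    rw [← abs_of_pos h2, ← abs_mul, e1, abs_mul, abs_mul, abs_of_nonneg hr0,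
      abs_of_pos (by norm_num : (0 : ℝ) < 8)]
    calc 8 * |(piq ⟨Q⟩ : ℝ) - 2 ^ Q * (Real.pi / 4)| * (((e % N : ℕ) : ℝ) / N)
        ≤ 8 * (2 * (Q + 1)) * 1 := by gcongr
      _ = 16 * (Q + 1) := by ring
  have hy7 : y ≤ 7 := by
    have := Real.pi_lt_d2
    have h3 : y = 2 * Real.pi * (((e % N : ℕ) : ℝ) / N) := by rw [hy]; ring
    rw [h3]
    nlinarith [Real.pi_pos]
  have hx23 : x ≤ 23 := by
    have h3 : |x - y| ≤ 16 := by
      refine le_of_mul_le_mul_left (hxy.trans ?_) h2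
      linarith
    have := le_abs_self (x - y)
    linarith
  have h1 := expq_err Q (8 * piq ⟨Q⟩ * (e % N)) (2 ^ Q * N) hx23
  have h3 : ‖2 ^ Q * Complex.exp (Complex.I * x) - 2 ^ Q * chi N e‖ ≤ 16 * (Q + 1) := by
    rw [chi_mod N e hN, ← hy, ← mul_sub, norm_mul, norm_pow, Complex.norm_two]
    refine le_trans ?_ hxy
    have e1 : Complex.exp (Complex.I * x) - Complex.exp (Complex.I * y) =
        Complex.exp (Complex.I * y) * (Complex.exp (Complex.I * (x - y : ℝ)) - 1) := by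
      rw [mul_sub, ← Complex.exp_add]
      push_cast
      ring_nf
    rw [e1, norm_mul, Complex.norm_exp_I_mul_ofReal, one_mul]
    have := Real.norm_exp_I_mul_ofReal_sub_one_le (x := x - y)
    rw [Real.norm_eq_abs] at this
    gcongr
  have h4 := (norm_sub_le_norm_sub_add_norm_sub _ _ _).trans (add_le_add h1 h3)
  have : (0 : ℝ) ≤ Q := by positivity
  unfold rootq
  linarith

end Vale.Agent.P338
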