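import Vale.Agent.P338.SimdDefs
import Vale.Agent.P338.Apx_B

namespace Vale.Agent.P338

open Vale.Agent.Lib.H23

theorem termq_err (Q u : ℕ) (t : Term) (h1 : t.1.natAbs ≤ 2 ^ u) (h2 : t.2.1.natAbs ≤ 2 ^ u)
    (h3 : 0 < t.2.2.1) :
    ‖gv (termq ⟨Q⟩ t) - 2 ^ Q * termVal t‖ ≤ 2 * 2 ^ u * (128 * (Q + 1)) := by
  have e : gv (termq ⟨Q⟩ t) - 2 ^ Q * termVal t =
      gv (t.1, t.2.1) * (gv (rootq ⟨Q⟩ t.2.2.1 t.2.2.2) - 2 ^ Q * chi t.2.2.1 t.2.2.2) := by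
    unfold termq termVal
    rw [gv_mul]
    simp only [gv]
    ring
  have h4 : ‖gv (t.1, t.2.1)‖ ≤ 2 * 2 ^ u := by
    have a1 : |(t.1 : ℝ)| ≤ 2 ^ u := by
      rw [← Int.cast_abs, Int.abs_eq_natAbs]; exact_mod_cast h1
    have a2 : |(t.2.1 : ℝ)| ≤ 2 ^ u := by
      rw [← Int.cast_abs, Int.abs_eq_natAbs]; exact_mod_cast h2
    refine (norm_add_le _ _).trans ?_
    rw [norm_mul, Complex.norm_I, mul_one, Complex.norm_intCast, Complex.norm_intCast]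
    linarith
  rw [e, norm_mul]
  have := rootq_err Q t.2.2.1 t.2.2.2 h3
  gcongr

theorem list_sum_err {β : Type} (f g : β → ℂ) (c : ℂ) (E : ℝ) (l : List β)
    (h : ∀ t ∈ l, ‖f t - c * g t‖ ≤ E) :
    ‖(l.map f).sum - c * (l.map g).sum‖ ≤ l.length * E := by
  induction l with
  | nil => simp
  | cons a l ih =>
    have h1 := h a List.mem_cons_self
    have h2 := ih fun t ht => h t (List.mem_cons_of_mem _ ht)
    simp only [List.map_cons, List.sum_cons, List.length_cons]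
    have e : f a + (l.map f).sum - c * (g a + (l.map g).sum) =
        (f a - c * g a) + ((l.map f).sum - c * (l.map g).sum) := by ring
    rw [e]
    refine (norm_add_le _ _).trans ?_
    push_cast
    linarith

theorem list_prod_err {β : Type} (f g : β → ℂ) (B δ : ℝ) (hB : 1 ≤ B) (hδ : 0 ≤ δ) (l : List β)
    (h : ∀ t ∈ l, ‖f t - g t‖ ≤ δ ∧ ‖f t‖ ≤ B ∧ ‖g t‖ ≤ B) :
    ‖(l.map g).prod‖ ≤ B ^ l.length ∧
      ‖(l.map f).prod - (l.map g).prod‖ ≤ δ * (2 * B) ^ l.length := by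
  induction l with
  | nil => simpa using hδ
  | cons a l ih =>
    obtain ⟨h1, h2, h3⟩ := h a List.mem_cons_self
    obtain ⟨h4, h5⟩ := ih fun t ht => h t (List.mem_cons_of_mem _ ht)
    simp only [List.map_cons, List.prod_cons, List.length_cons]
    constructor
    · rw [norm_mul, pow_succ']
      gcongr
    · have e : f a * (l.map f).prod - g a * (l.map g).prod =
          f a * ((l.map f).prod - (l.map g).prod) + (f a - g a) * (l.map g).prod := by ring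
      rw [e]
      refine (norm_add_le _ _).trans ?_
      rw [norm_mul, norm_mul]
      have h6 : B ^ l.length ≤ B * (2 * B) ^ l.length := by
        calc B ^ l.length ≤ (2 * B) ^ l.length := by gcongr; linarith
          _ ≤ B * (2 * B) ^ l.length := le_mul_of_one_le_left (by positivity) hB
      calc ‖f a‖ * ‖(l.map f).prod - (l.map g).prod‖ + ‖f a - g a‖ * ‖(l.map g).prod‖
          ≤ B * (δ * (2 * B) ^ l.length) + δ * (B * (2 * B) ^ l.length) := by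
            have := h4.trans h6
            gcongr
        _ = δ * (2 * B) ^ (l.length + 1) := by ring

theorem ex_quot (Q : ℕ) (e : Ex) : gv (exN ⟨Q⟩ e) / (exD ⟨Q⟩ e : ℕ) =
    bif e.1 then (gv (exS ⟨Q⟩ e) / (2 ^ Q * e.2.1))⁻¹ else gv (exS ⟨Q⟩ e) / (2 ^ Q * e.2.1) := by
  unfold exN exD
  generalize exS ⟨Q⟩ e = S
  cases e.1
  · simp
  · simp only [cond_true]
    have h0 : 0 ≤ S.1 * S.1 + S.2 * S.2 := by nlinarith [mul_self_nonneg S.1, mul_self_nonneg S.2]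
    have e1 : (((S.1 * S.1 + S.2 * S.2).toNat : ℕ) : ℂ) = gv S * gv (S.1, -S.2) := by
      have : (((S.1 * S.1 + S.2 * S.2).toNat : ℕ) : ℂ) = ((S.1 * S.1 + S.2 * S.2 : ℤ) : ℂ) := by
        exact_mod_cast congrArg (Int.cast : ℤ → ℂ) (Int.toNat_of_nonneg h0)
      rw [this]
      simp only [gv]
      push_cast
      linear_combination ((S.2 : ℂ) * S.2) * Complex.I_mul_I
    have e2 : gv (((2 ^ Q * e.2.1 : ℕ) : ℤ), 0) = 2 ^ Q * e.2.1 := by simp [gv]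
    rw [e1, gv_mul, e2, inv_div]
    by_cases hS : gv (S.1, -S.2) = 0
    · have e3 : gv S = 0 := by
        have h1 := congrArg Complex.re hS
        have h2 := congrArg Complex.im hS
        simp [gv] at h1 h2
        simp [gv, h1, h2]
      simp [hS, e3]
    · rw [mul_div_mul_right _ _ hS]

theorem ex_err (Q u : ℕ) (e : Ex) (h : ExOK u e) (η : ℝ)
    (hη : u * (2 * 2 ^ u * (128 * (Q + 1))) ≤ 2 ^ Q * η) (hη1 : η * (2 * 2 ^ u) ≤ 1) :
    ‖gv (exN ⟨Q⟩ e) / (exD ⟨Q⟩ e : ℕ) - exVal e‖ ≤ η * (2 * 2 ^ u * 2 ^ u) := by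
  obtain ⟨h1, -, h3, h4, h5, h6⟩ := h
  have hd : (1 : ℝ) ≤ e.2.1 := by exact_mod_cast h1
  have hd' : (e.2.1 : ℂ) ≠ 0 := by exact_mod_cast h1.ne'
  have h2Q : (0 : ℝ) < 2 ^ Q := by positivity
  have hu1 : (1 : ℝ) ≤ 2 ^ u := one_le_pow₀ (by norm_num)
  have hη0 : 0 ≤ η := by
    refine le_of_mul_le_mul_left (le_trans ?_ hη) h2Q
    rw [mul_zero]; positivity
  have hS : ‖gv (exS ⟨Q⟩ e) - 2 ^ Q * (e.2.2.map termVal).sum‖ ≤ 2 ^ Q * η := by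
    unfold exS
    rw [gv_sum, List.map_map]
    refine (list_sum_err _ _ _ _ _ fun t ht =>
      termq_err Q u t (h4 t ht).1 (h4 t ht).2.1 (h4 t ht).2.2.1).trans (le_trans ?_ hη)
    have : (e.2.2.length : ℝ) ≤ u := by exact_mod_cast h3
    gcongr
  have hw : ‖gv (exS ⟨Q⟩ e) / (2 ^ Q * e.2.1) - (e.2.2.map termVal).sum / e.2.1‖ ≤ η := by
    have e1 : gv (exS ⟨Q⟩ e) / (2 ^ Q * e.2.1) - (e.2.2.map termVal).sum / e.2.1 =
        (gv (exS ⟨Q⟩ e) - 2 ^ Q * (e.2.2.map termVal).sum) / (2 ^ Q * e.2.1) := by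
      field_simp
    rw [e1, norm_div, norm_mul, norm_pow, Complex.norm_two, Complex.norm_natCast,
      div_le_iff₀ (by positivity)]
    refine hS.trans ?_
    rw [mul_comm η]
    gcongr
    exact le_mul_of_one_le_right h2Q.le hd
  rw [ex_quot]
  unfold exVal at h5 h6 ⊢
  generalize gv (exS ⟨Q⟩ e) / (2 ^ Q * e.2.1) = w' at hw ⊢
  generalize (e.2.2.map termVal).sum / e.2.1 = w at hw h5 h6 ⊢
  cases hb : e.1
  · simp only [cond_false]
    refine hw.trans (le_mul_of_one_le_right hη0 ?_)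
    nlinarith
  · rw [hb] at h5 h6
    simp only [cond_true] at h5 h6 ⊢
    have hw0 : w ≠ 0 := by
      rintro rfl
      simp at h5
      linarith
    have hwp : 0 < ‖w‖ := norm_pos_iff.2 hw0
    have h7 : 1 ≤ 2 ^ u * ‖w‖ := by
      rw [norm_inv, inv_le_iff_one_le_mul₀ hwp] at h6
      exact h6
    have h8 : ‖w‖ ≤ ‖w'‖ + η := by
      have := norm_sub_norm_le w w'
      rw [norm_sub_rev] at hw
      linarith
    have h9 : 1 ≤ 2 * 2 ^ u * ‖w'‖ := by nlinarith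
    have hw'0 : w' ≠ 0 := by
      rintro rfl
      simp at h9
      linarith
    have h10 : ‖w'⁻¹‖ ≤ 2 * 2 ^ u := by
      rw [norm_inv, inv_le_iff_one_le_mul₀ (norm_pos_iff.2 hw'0)]
      exact h9
    have e2 : w'⁻¹ - w⁻¹ = (w - w') * (w'⁻¹ * w⁻¹) := by field_simp
    rw [e2, norm_mul, norm_mul, norm_sub_rev]
    gcongr

theorem apx_quot (Q : ℕ) (l : List Ex) : gv (apxN ⟨Q⟩ l) / (apxD ⟨Q⟩ l : ℕ) =
    (l.map fun e => gv (exN ⟨Q⟩ e) / (exD ⟨Q⟩ e : ℕ)).prod := by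
  unfold apxN apxD
  rw [gv_prod]
  induction l with
  | nil => simp
  | cons a l ih =>
    simp only [List.map_cons, List.prod_cons]
    rw [← ih, Nat.cast_mul, mul_div_mul_comm]

theorem round_err (c : ℕ) (g : ℤ × ℤ) (D : ℕ) :
    ‖((((c : ℤ) * g.1 / (D : ℤ) : ℤ) : ℂ) + (((c : ℤ) * g.2 / (D : ℤ) : ℤ) : ℂ) * Complex.I) -
      c * (gv g / D)‖ ≤ 3 / 2 := by
  have h1 := abs_intdiv_sub ((c : ℤ) * g.1) D
  have h2 := abs_intdiv_sub ((c : ℤ) * g.2) D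
  have e : ((((c : ℤ) * g.1 / (D : ℤ) : ℤ) : ℂ) + (((c : ℤ) * g.2 / (D : ℤ) : ℤ) : ℂ) * Complex.I) -
      c * (gv g / D) =
      (((((c : ℤ) * g.1 / (D : ℤ) : ℤ) : ℝ) - (((c : ℤ) * g.1 : ℤ) : ℝ) / D : ℝ) : ℂ) +
        (((((c : ℤ) * g.2 / (D : ℤ) : ℤ) : ℝ) - (((c : ℤ) * g.2 : ℤ) : ℝ) / D : ℝ) : ℂ) *
          Complex.I := by
    generalize (c : ℤ) * g.1 / (D : ℤ) = a
    generalize (c : ℤ) * g.2 / (D : ℤ) = b
    simp only [gv]
    push_cast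
    ring
  rw [e]
  generalize ((((c : ℤ) * g.1 / (D : ℤ) : ℤ) : ℝ) - (((c : ℤ) * g.1 : ℤ) : ℝ) / D : ℝ) = a at h1 ⊢
  generalize ((((c : ℤ) * g.2 / (D : ℤ) : ℤ) : ℝ) - (((c : ℤ) * g.2 : ℤ) : ℝ) / D : ℝ) = b at h2 ⊢
  rw [Complex.norm_add_mul_I, Real.sqrt_le_left (by norm_num)]
  rw [abs_le] at h1 h2
  nlinarith [h1.1, h1.2, h2.1, h2.2]

theorem apx_exists : ∃ apx : Un × Un × List Ex → ℤ × ℤ, PT apx ∧
    ∀ (p u : ℕ) (l : List Ex), l.length ≤ u → (∀ e ∈ l, ExOK u e) →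
      ‖((apx (⟨p⟩, ⟨u⟩, l)).1 + (apx (⟨p⟩, ⟨u⟩, l)).2 * Complex.I : ℂ) - 2 ^ p * prodVal l‖ ≤ 2 := by
  refine ⟨apxF, PT_apxF, fun p u l hl hok => ?_⟩
  obtain ⟨T, hT⟩ : ∃ T, T = p + u * (u + 6) + 12 := ⟨_, rfl⟩
  have hQ : precQ ⟨p⟩ ⟨u⟩ = ⟨T + T⟩ := by rw [hT]; rfl
  have h1 := round_err (2 ^ p) (apxN ⟨T + T⟩ l) (apxD ⟨T + T⟩ l)
  unfold apxF
  simp only [hQ]
  have hu : (u : ℝ) ≤ 2 ^ u := by exact_mod_cast Nat.lt_two_pow_self.le
  have hT1 : (T : ℝ) + 1 ≤ 2 ^ T := by exact_mod_cast Nat.lt_two_pow_self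
  have hu1 : (1 : ℝ) ≤ 2 ^ u := one_le_pow₀ (by norm_num)
  have hT0 : (0 : ℝ) < 2 ^ T := by positivity
  obtain ⟨η, hη⟩ : ∃ η : ℝ, η = 2 ^ (2 * u + 9) / 2 ^ T := ⟨_, rfl⟩
  have hη0 : 0 ≤ η := by rw [hη]; positivity
  have hη1 : u * (2 * 2 ^ u * (128 * (((T + T : ℕ) : ℝ) + 1))) ≤ 2 ^ (T + T) * η := by
    have e : (2 : ℝ) ^ (T + T) * η = 2 ^ u * (2 * 2 ^ u * (128 * (2 * 2 ^ T))) := by
      rw [hη]; field_simp; ring
    rw [e]
    gcongr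
    push_cast
    linarith
  have key : ∀ k : ℕ, 2 * u + 9 + k ≤ T → η * 2 ^ k ≤ 1 := by
    intro k hk
    rw [hη, div_mul_eq_mul_div, div_le_one hT0, ← pow_add]
    exact pow_le_pow_right₀ (by norm_num) hk
  have hη2 : η * (2 * 2 ^ u) ≤ 1 := by
    have := key (u + 1) (by rw [hT]; nlinarith)
    rwa [pow_succ'] at this
  have hη3 : η * (2 * 2 ^ u * 2 ^ u) ≤ 1 := by
    have := key (u + 1 + u) (by rw [hT]; nlinarith)
    rwa [pow_add, pow_succ'] at this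
  have h2 := (list_prod_err (fun e => gv (exN ⟨T + T⟩ e) / (exD ⟨T + T⟩ e : ℕ)) exVal
    (2 * 2 ^ u) (η * (2 * 2 ^ u * 2 ^ u)) (by linarith) (by positivity) l fun e he => by
      have a1 := ex_err (T + T) u e (hok e he) η hη1 hη2
      have a2 := (hok e he).2.2.2.2.2
      refine ⟨a1, ?_, by linarith⟩
      have := norm_sub_norm_le (gv (exN ⟨T + T⟩ e) / (exD ⟨T + T⟩ e : ℕ)) (exVal e)
      linarith).2
  rw [← apx_quot] at h2
  have h3 : ‖((2 ^ p : ℕ) : ℂ) * (gv (apxN ⟨T + T⟩ l) / (apxD ⟨T + T⟩ l : ℕ)) -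
      2 ^ p * prodVal l‖ ≤ 1 / 2 := by
    push_cast
    rw [← mul_sub, norm_mul, norm_pow, Complex.norm_two]
    have a1 : (2 * (2 * 2 ^ u) : ℝ) ^ l.length ≤ (2 * (2 * 2 ^ u)) ^ u :=
      pow_le_pow_right₀ (by linarith) hl
    have a2 := key (p + (u + 1 + u) + (u + 2) * u + 1) (by rw [hT]; nlinarith)
    have e : η * 2 ^ (p + (u + 1 + u) + (u + 2) * u + 1) =
        2 ^ p * (η * (2 * 2 ^ u * 2 ^ u) * (2 * (2 * 2 ^ u)) ^ u) * 2 := by
      rw [pow_succ, pow_add, pow_add, pow_mul, pow_add 2 (u + 1), pow_succ' 2 u, pow_add 2 u 2]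
      ring_nf
    have a3 : 2 ^ p * ‖gv (apxN ⟨T + T⟩ l) / (apxD ⟨T + T⟩ l : ℕ) - prodVal l‖ ≤
        2 ^ p * (η * (2 * 2 ^ u * 2 ^ u) * (2 * (2 * 2 ^ u)) ^ u) := by
      gcongr
      refine h2.trans ?_
      gcongr
    linarith
  have h4 := (norm_sub_le_norm_sub_add_norm_sub _ _ _).trans (add_le_add h1 h3)
  linarith

end Vale.Agent.P338
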