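import Vale.Agent.P338.SimdDefs

/-! Gaussian integers as pairs, and the approximation algorithm. -/

namespace Vale.Agent.P338

open Vale.Agent.Lib.H23 Polynomial

variable {α : Type} [Enc α]

/-- the value of a pair of integers -/
noncomputable def gv (g : ℤ × ℤ) : ℂ := g.1 + g.2 * Complex.I

def gmul (g h : ℤ × ℤ) : ℤ × ℤ := (g.1 * h.1 - g.2 * h.2, g.1 * h.2 + g.2 * h.1)

def gsum (l : List (ℤ × ℤ)) : ℤ × ℤ := ((l.map fun g => g.1).sum, (l.map fun g => g.2).sum)

def gprod (l : List (ℤ × ℤ)) : ℤ × ℤ := l.foldl gmul (1, 0)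

def ipow (m : ℕ) : ℤ × ℤ :=
  bif eqb (m % 4) 0 then (1, 0) else bif eqb (m % 4) 1 then (0, 1) else
    bif eqb (m % 4) 2 then (-1, 0) else (0, -1)

theorem gv_mul (g h : ℤ × ℤ) : gv (gmul g h) = gv g * gv h := by
  simp only [gv, gmul]
  push_cast
  linear_combination (-(g.2 : ℂ) * h.2) * Complex.I_mul_I

theorem gv_sum (l : List (ℤ × ℤ)) : gv (gsum l) = (l.map gv).sum := by
  induction l with
  | nil => simp [gv, gsum]
  | cons a l ih =>
    rw [List.map_cons, List.sum_cons, ← ih]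
    simp only [gv, gsum, List.map_cons, List.sum_cons]
    push_cast
    ring

theorem gv_foldl (l : List (ℤ × ℤ)) (s : ℤ × ℤ) :
    gv (l.foldl gmul s) = gv s * (l.map gv).prod := by
  induction l generalizing s with
  | nil => simp
  | cons a l ih => rw [List.foldl_cons, ih, gv_mul, List.map_cons, List.prod_cons, mul_assoc]

theorem gv_prod (l : List (ℤ × ℤ)) : gv (gprod l) = (l.map gv).prod := by
  rw [gprod, gv_foldl]
  simp [gv]

theorem gv_ipow (m : ℕ) : gv (ipow m) = Complex.I ^ m := by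
  rw [Complex.I_pow_eq_pow_mod]
  have h : m % 4 < 4 := Nat.mod_lt _ (by norm_num)
  unfold ipow
  generalize m % 4 = r at h
  interval_cases r <;> simp [gv, pow_succ]

@[fun_prop] theorem PT_gmul {f g : α → ℤ × ℤ} (hf : PT f) (hg : PT g) :
    PT (fun x => gmul (f x) (g x)) := by
  unfold gmul
  fun_prop

@[fun_prop] theorem PT_gsum {l : α → List (ℤ × ℤ)} (hl : PT l) : PT (fun x => gsum (l x)) := by
  unfold gsum
  exact PT.pair (PT_isum (PT.map (f := fun _ (g : ℤ × ℤ) => g.1) (by fun_prop) hl))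
    (PT_isum (PT.map (f := fun _ (g : ℤ × ℤ) => g.2) (by fun_prop) hl))

@[fun_prop] theorem PT_ipow {f : α → ℕ} (hf : PT f) : PT (fun x => ipow (f x)) := by
  unfold ipow
  fun_prop

/-- the sum of the absolute values of the two parts -/
def gl1 (g : ℤ × ℤ) : ℕ := g.1.natAbs + g.2.natAbs

theorem gl1_mul (g h : ℤ × ℤ) : gl1 (gmul g h) ≤ gl1 g * gl1 h := by
  have h1 := Int.natAbs_sub_le (g.1 * h.1) (g.2 * h.2)
  have h2 := Int.natAbs_add_le (g.1 * h.2) (g.2 * h.1)
  simp only [Int.natAbs_mul] at h1 h2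
  simp only [gl1, gmul]
  nlinarith

theorem gl1_le (g : ℤ × ℤ) : gl1 g ≤ 2 ^ sz g := by
  have h1 : g.1.natAbs < 2 ^ (sz g.1 + sz g.2) :=
    (natAbs_lt_two_pow_sz g.1).trans_le (Nat.pow_le_pow_right (by omega) (by omega))
  have h2 : g.2.natAbs < 2 ^ (sz g.1 + sz g.2) :=
    (natAbs_lt_two_pow_sz g.2).trans_le (Nat.pow_le_pow_right (by omega) (by omega))
  rw [sz_prod, pow_succ, gl1]
  omega

theorem gl1_foldl (l : List (ℤ × ℤ)) (s : ℤ × ℤ) :
    gl1 (l.foldl gmul s) ≤ gl1 s * 2 ^ sz l := by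
  induction l generalizing s with
  | nil => simp; omega
  | cons a l ih =>
    rw [List.foldl_cons, sz_cons, pow_succ, pow_add]
    have h1 := ih (gmul s a)
    have h2 := gl1_mul s a
    have h3 := gl1_le a
    calc gl1 (l.foldl gmul (gmul s a)) ≤ gl1 (gmul s a) * 2 ^ sz l := h1
      _ ≤ (gl1 s * 2 ^ sz a) * 2 ^ sz l :=
        Nat.mul_le_mul_right _ (h2.trans (Nat.mul_le_mul_left _ h3))
      _ ≤ gl1 s * (2 ^ sz a * 2 ^ sz l * 2) := by nlinarith [Nat.zero_le (gl1 s * 2 ^ sz a * 2 ^ sz l)]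

@[fun_prop] theorem PT_gprod {l : α → List (ℤ × ℤ)} (hl : PT l) : PT (fun x => gprod (l x)) := by
  have key : PT (fun l : List (ℤ × ℤ) => gprod l) := by
    refine PT.foldl (f := fun _ (s a : ℤ × ℤ) => gmul s a) (by fun_prop) PT.id (PT.const (1, 0))
      ⟨8 * X + 19, fun x k => ?_⟩
    have h1 := gl1_foldl (x.take k) (1, 0)
    have h2 := sz_take_le x k
    have h3 : 2 ^ sz (x.take k) ≤ 2 ^ sz x := Nat.pow_le_pow_right (by omega) h2
    have h4 : gl1 (1, 0) = 1 := rfl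
    rw [h4, one_mul] at h1
    have h5 : 0 < 2 ^ sz x := by positivity
    generalize (x.take k).foldl gmul (1, 0) = g at h1 ⊢
    unfold gl1 at h1
    have h6 : g.1.natAbs < 2 ^ (sz x + 1) := by rw [pow_succ]; omega
    have h7 : g.2.natAbs < 2 ^ (sz x + 1) := by rw [pow_succ]; omega
    have h8 := sz_int_le h6
    have h9 := sz_int_le h7
    rw [sz_prod]
    simp only [eval_add, eval_mul, eval_X, eval_ofNat]
    omega
  exact PT.comp key hl

/-- factorial -/
def fac (m : Un) : ℕ := ((List.range m.n).map fun k => k + 1).prod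

theorem fac_eq (m : ℕ) : fac ⟨m⟩ = m.factorial := by
  unfold fac
  induction m with
  | zero => rfl
  | succ m ih =>
    simp only at ih ⊢
    rw [List.range_succ, List.map_append, List.prod_append, ih, Nat.factorial_succ]
    simp [mul_comm]

@[fun_prop] theorem PT_fac {m : α → Un} (hm : PT m) : PT (fun x => fac (m x)) := by
  unfold fac
  exact PT_prod (PT.map (f := fun _ (k : ℕ) => k + 1) (by fun_prop) (PT_range hm))

/-- one term of the series of `2 ^ Q * arctan (1 / c)` -/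
def atnT (Q : Un) (c : ℕ) (k : Un) : ℤ :=
  (bif eqb (k.n % 2) 0 then 1 else -1) *
    ((2 ^ Q.n / (c ^ k.n * c ^ k.n * c * (2 * k.n + 1)) : ℕ) : ℤ)

def atn (Q : Un) (c : ℕ) : ℤ := ((rangeU Q).map (atnT Q c)).sum

/-- approximates `2 ^ Q * π / 4` -/
def piq (Q : Un) : ℕ := (atn Q 2 + atn Q 3).toNat

@[fun_prop] theorem PT_atn {Q : α → Un} {c : α → ℕ} (hQ : PT Q) (hc : PT c) :
    PT (fun x => atn (Q x) (c x)) := by
  have key : PT (fun p : Un × ℕ => atn p.1 p.2) := by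
    unfold atn
    refine PT_isum (PT.map (f := fun (p : Un × ℕ) k => atnT p.1 p.2 k) ?_ (by fun_prop))
    unfold atnT
    fun_prop
  exact PT.comp (g := fun x => (Q x, c x)) key (PT.pair hQ hc)

@[fun_prop] theorem PT_piq {Q : α → Un} (hQ : PT Q) : PT (fun x => piq (Q x)) := by
  unfold piq
  fun_prop

/-- one term of the series of `2 ^ Q * exp (i A / B)` -/
def expT (Q : Un) (A B : ℕ) (m : Un) : ℤ × ℤ :=
  gmul (ipow m.n) (((2 ^ Q.n * A ^ m.n / (B ^ m.n * fac m) : ℕ) : ℤ), 0)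

def expq (Q : Un) (A B : ℕ) : ℤ × ℤ := gsum ((rangeU (unAdd Q ⟨80⟩)).map (expT Q A B))

@[fun_prop] theorem PT_expq {Q : α → Un} {A B : α → ℕ} (hQ : PT Q) (hA : PT A) (hB : PT B) :
    PT (fun x => expq (Q x) (A x) (B x)) := by
  have key : PT (fun p : Un × ℕ × ℕ => expq p.1 p.2.1 p.2.2) := by
    unfold expq
    refine PT_gsum (PT.map (f := fun (p : Un × ℕ × ℕ) k => expT p.1 p.2.1 p.2.2 k) ?_
      (by fun_prop))
    unfold expT
    fun_prop
  exact PT.comp (g := fun x => (Q x, A x, B x)) key (PT.pair hQ (PT.pair hA hB))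

/-- approximates `2 ^ Q * exp (2 π i e / N)` -/
def rootq (Q : Un) (N e : ℕ) : ℤ × ℤ := expq Q (8 * piq Q * (e % N)) (2 ^ Q.n * N)

@[fun_prop] theorem PT_rootq {Q : α → Un} {N e : α → ℕ} (hQ : PT Q) (hN : PT N) (he : PT e) :
    PT (fun x => rootq (Q x) (N x) (e x)) := by
  unfold rootq
  fun_prop

def termq (Q : Un) (t : Term) : ℤ × ℤ := gmul (t.1, t.2.1) (rootq Q t.2.2.1 t.2.2.2)

def exS (Q : Un) (e : Ex) : ℤ × ℤ := gsum (e.2.2.map (termq Q))

@[fun_prop] theorem PT_exS {Q : α → Un} {e : α → Ex} (hQ : PT Q) (he : PT e) :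
    PT (fun x => exS (Q x) (e x)) := by
  have key : PT (fun p : Un × Ex => exS p.1 p.2) := by
    unfold exS
    refine PT_gsum (PT.map (f := fun (p : Un × Ex) t => termq p.1 t) ?_ (by fun_prop))
    unfold termq
    fun_prop
  exact PT.comp (g := fun x => (Q x, e x)) key (PT.pair hQ he)

/-- numerator of the approximation -/
def exN (Q : Un) (e : Ex) : ℤ × ℤ :=
  bif e.1 then gmul (((2 ^ Q.n * e.2.1 : ℕ) : ℤ), 0) ((exS Q e).1, -(exS Q e).2) else exS Q e

/-- denominator of the approximation -/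
def exD (Q : Un) (e : Ex) : ℕ :=
  bif e.1 then ((exS Q e).1 * (exS Q e).1 + (exS Q e).2 * (exS Q e).2).toNat else 2 ^ Q.n * e.2.1

def apxN (Q : Un) (l : List Ex) : ℤ × ℤ := gprod (l.map (exN Q))

def apxD (Q : Un) (l : List Ex) : ℕ := (l.map (exD Q)).prod

@[fun_prop] theorem PT_apxN {Q : α → Un} {l : α → List Ex} (hQ : PT Q) (hl : PT l) :
    PT (fun x => apxN (Q x) (l x)) := by
  have key : PT (fun p : Un × List Ex => apxN p.1 p.2) := by
    unfold apxN
    refine PT_gprod (PT.map (f := fun (p : Un × List Ex) e => exN p.1 e) ?_ (by fun_prop))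
    have k : PT (fun q : (Un × Ex) × ℤ × ℤ => bif q.1.2.1 then
        gmul (((2 ^ q.1.1.n * q.1.2.2.1 : ℕ) : ℤ), 0) (q.2.1, -q.2.2) else q.2) := by fun_prop
    exact PT.comp (g := fun p : (Un × List Ex) × Ex => ((p.1.1, p.2), exS p.1.1 p.2)) k
      (PT.pair (by fun_prop) (PT_exS (by fun_prop) (by fun_prop)))
  exact PT.comp (g := fun x => (Q x, l x)) key (PT.pair hQ hl)

@[fun_prop] theorem PT_apxD {Q : α → Un} {l : α → List Ex} (hQ : PT Q) (hl : PT l) :
    PT (fun x => apxD (Q x) (l x)) := by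
  have key : PT (fun p : Un × List Ex => apxD p.1 p.2) := by
    unfold apxD
    refine PT_prod (PT.map (f := fun (p : Un × List Ex) e => exD p.1 e) ?_ (by fun_prop))
    have k : PT (fun q : (Un × Ex) × ℤ × ℤ => bif q.1.2.1 then
        (q.2.1 * q.2.1 + q.2.2 * q.2.2).toNat else 2 ^ q.1.1.n * q.1.2.2.1) := by fun_prop
    exact PT.comp (g := fun p : (Un × List Ex) × Ex => ((p.1.1, p.2), exS p.1.1 p.2)) k
      (PT.pair (by fun_prop) (PT_exS (by fun_prop) (by fun_prop)))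
  exact PT.comp (g := fun x => (Q x, l x)) key (PT.pair hQ hl)

/-- half of the working precision -/
def precT (p u : Un) : Un := unAdd (unAdd p (unMul u (unAdd u ⟨6⟩))) ⟨12⟩

def precQ (p u : Un) : Un := unAdd (precT p u) (precT p u)

def apxF (x : Un × Un × List Ex) : ℤ × ℤ :=
  (((2 ^ x.1.n : ℕ) : ℤ) * (apxN (precQ x.1 x.2.1) x.2.2).1 / (apxD (precQ x.1 x.2.1) x.2.2 : ℕ),
    ((2 ^ x.1.n : ℕ) : ℤ) * (apxN (precQ x.1 x.2.1) x.2.2).2 / (apxD (precQ x.1 x.2.1) x.2.2 : ℕ))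

theorem PT_apxF : PT apxF := by
  unfold apxF precQ precT
  fun_prop

end Vale.Agent.P338
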