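import Vale.Agent.P338.Arr_A

namespace Vale.Agent.P338

open Vale.Agent.Lib Vale.Agent.Lib.H23 Enc Function

variable {G α β γ π : Type} [Enc α] [Enc β] [Enc γ] [Enc π] {D : Dom G α} {ds ds' : G → List ℕ}
  {f f' : G → (ℕ → ℕ) → List Bool}

theorem Ar.up (h : Ar D ds f) (i c : ℕ) (hi : ∀ g, i + 1 < (ds g).length)
    (hc : ∀ g, (ds g).getD (i + 1) 1 = c) :
    Ar D (fun g => ((ds g).set i c).set (i + 1) ((ds g).getD i 1)) fun g xs =>
      f g (xs ∘ Equiv.swap i (i + 1)) := by
  refine h.tr_of i hi (C := fun _ => c) (fun _ => rfl) hc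
    (F := fun b => (List.range c).map fun j => b.map fun r => r.getD j []) ?_ fun g u => ?_
  · exact Lin.listC _ fun j _ => Lin.map (Lin.getDC j Lin.id (Lin.const [])) Lin.id
  · refine List.map_congr_left fun j hj => ?_
    rw [List.map_map]
    refine List.map_congr_left fun a _ => ?_
    simp [List.getD_eq_getElem?_getD, List.mem_range.1 hj]

theorem Ar.down (h : Ar D ds f) (i c : ℕ) (hi : ∀ g, i + 1 < (ds g).length)
    (hc : ∀ g, (ds g).getD i 1 = c) :
    Ar D (fun g => ((ds g).set i ((ds g).getD (i + 1) 1)).set (i + 1) c) fun g xs =>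
      f g (xs ∘ Equiv.swap i (i + 1)) := by
  refine h.tr_of i hi (A := fun _ => c) hc (fun _ => rfl) (Lin.trC (List.range c)) fun g u => ?_
  exact trC_eq (hc g ▸ getD_pos1 (h.pos g) i) _ u _ fun j hj => List.mem_range.1 hj

theorem Ar.neg (h : Ar D ds f) (i : ℕ) (hi : ∀ g, i < (ds g).length) :
    Ar D ds fun g xs => f g (update xs i (((ds g).getD i 1 - xs i) % (ds g).getD i 1)) := by
  refine h.perm1 i hi (fun g x => ((ds g).getD i 1 - x) % (ds g).getD i 1)
    (fun g x _ => Nat.mod_lt _ (getD_pos1 (h.pos g) i))
    (F := fun b => b.take 1 ++ b.tail.reverse) (by fun_prop) fun g r => ?_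
  obtain ⟨n, hn⟩ : ∃ n, (ds g).getD i 1 = n + 1 :=
    ⟨_, (Nat.succ_pred_eq_of_pos (getD_pos1 (h.pos g) i)).symm⟩
  rw [hn, List.range_succ_eq_map, List.map_cons, List.map_cons, List.map_map, List.map_map]
  simp only [List.take_succ_cons, List.take_zero, List.tail_cons, Nat.sub_zero, Nat.mod_self,
    List.singleton_append, List.cons.injEq, true_and]
  refine List.ext_getElem (by simp) fun k h1 h2 => ?_
  have hk : k < n := by simpa using h2
  simp only [List.getElem_reverse, List.getElem_map, List.getElem_range, List.length_map,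
    List.length_range, Function.comp_apply, Nat.succ_eq_add_one]
  rw [Nat.mod_eq_of_lt (by omega)]
  congr 1
  omega

/-- the elements at even positions -/
def evens (l : List β) : List β :=
  scan (fun (s : Bool) (x : β) => (bif s then [x] else [], !s)) (fun _ => []) true l

theorem Lin.evens : Lin (D0 (List β)) evens :=
  Lin.fsm (by fun_prop) (by fun_prop) 3 sz_bool true Lin.id

omit [Enc β] in
theorem evens_flatMap {ι : Type} (l : List ι) (a b : ι → β) :
    evens (l.flatMap fun k => [a k, b k]) = l.map a := by
  unfold evens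
  induction l with
  | nil => rfl
  | cons k l ih => simp [scan, ← ih]

omit [Enc β] in
theorem map_range_two_mul (n : ℕ) (u : ℕ → β) :
    (List.range (2 * n)).map u = (List.range n).flatMap fun k => [u (2 * k), u (2 * k + 1)] := by
  induction n with
  | zero => rfl
  | succ n ih =>
    rw [show 2 * (n + 1) = 2 * n + 1 + 1 by ring, List.range_succ, List.range_succ,
      List.range_succ (n := n), List.map_append, List.map_append, ih]
    simp

theorem Ar.dbl (h : Ar D ds f) (i : ℕ) (hi : ∀ g, i < (ds g).length) :
    Ar D ds fun g xs => f g (update xs i (2 * xs i % (ds g).getD i 1)) := by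
  refine h.perm1 i hi (fun g x => 2 * x % (ds g).getD i 1)
    (fun g x _ => Nat.mod_lt _ (getD_pos1 (h.pos g) i))
    (F := fun b => evens (b ++ b)) (Lin.evens.comp (Lin.id.append Lin.id)) fun g r => ?_
  generalize (ds g).getD i 1 = Q
  have : (List.range Q).map r ++ (List.range Q).map r =
      (List.range (2 * Q)).map fun y => r (y % Q) := by
    rw [two_mul, List.range_add, List.map_append, List.map_map]
    congr 1 <;> refine List.map_congr_left fun y hy => ?_
    · rw [Nat.mod_eq_of_lt (List.mem_range.1 hy)]
    · simp [Nat.mod_eq_of_lt (List.mem_range.1 hy)]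
  simp only [this, map_range_two_mul, evens_flatMap]

theorem Ar.half (h : Ar D ds f) (i : ℕ) (hi : ∀ g, i < (ds g).length)
    (ho : ∀ g, Odd ((ds g).getD i 1)) :
    Ar D ds fun g xs =>
      f g (update xs i (((ds g).getD i 1 + 1) / 2 * xs i % (ds g).getD i 1)) := by
  have h1 : Lin (D0 (List Unit)) fun l => hlf l :=
    Lin.fsm (by fun_prop) (by fun_prop) 3 sz_bool false Lin.id
  have h2 : Lin (D0 (List (List (List Bool)))) fun b => () :: hlf (b.map fun _ => ()) :=
    (Lin.const ()).cons (h1.comp (Lin.map (Lin.const ()) Lin.id))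
  refine h.perm1 i hi (fun g x => ((ds g).getD i 1 + 1) / 2 * x % (ds g).getD i 1)
    (fun g x _ => Nat.mod_lt _ (getD_pos1 (h.pos g) i))
    (F := fun b => b.take 1 ++ ((b.drop (() :: hlf (b.map fun _ => ())).length).zip
      b.tail).flatMap fun p => [p.1, p.2])
    ((Lin.id.takeC 1).append (Lin.flatMap (by fun_prop) ((Lin.id.dropU h2).zip Lin.id.tail)))
    fun g r => ?_
  obtain ⟨n, hn⟩ := ho g
  rw [hn]
  have e1 : ((((List.range (2 * n + 1)).map r).drop (n + 1)).zip
      ((List.range (2 * n + 1)).map r).tail) =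
        (List.range n).map fun k => (r (n + 1 + k), r (k + 1)) := by
    refine List.ext_getElem (by simp; omega) fun k _ _ => ?_
    simp
  have e2 : (2 * n + 1) / 2 = n := by omega
  have e3 : (2 * n + 1 + 1) / 2 = n + 1 := by omega
  simp only [List.length_cons, hlf_length, List.length_map, List.length_range, e2, e3, e1]
  rw [List.range_succ_eq_map, List.map_cons, List.map_cons, List.map_map (l := List.range (2 * n)),
    List.map_map (l := List.range (2 * n)), List.flatMap_map]
  simp only [List.take_succ_cons, List.take_zero, mul_zero, Nat.zero_mod, List.singleton_append,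
    List.cons.injEq, true_and]
  rw [map_range_two_mul]
  refine List.flatMap_congr fun k hk => ?_
  have hk := List.mem_range.1 hk
  have e4 : (n + 1) * (2 * k + 1) % (2 * n + 1) = n + 1 + k := by
    rw [show (n + 1) * (2 * k + 1) = n + 1 + k + (2 * n + 1) * k by ring, Nat.add_mul_mod_self_left,
      Nat.mod_eq_of_lt (by omega)]
  have e5 : (n + 1) * (2 * k + 1 + 1) % (2 * n + 1) = k + 1 := by
    rw [show (n + 1) * (2 * k + 1 + 1) = k + 1 + (2 * n + 1) * (k + 1) by ring,
      Nat.add_mul_mod_self_left, Nat.mod_eq_of_lt (by omega)]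
  simp [e4, e5]

omit [Enc β] in
theorem arr_low (p : List ℕ) (T c : ℕ) (f : (ℕ → ℕ) → β) :
    arr (p ++ [T * c]) f = (arr (p ++ [T]) fun xs => (List.range c).map fun j =>
      f (update xs p.length (xs p.length * c + j))).flatten := by
  rw [arr_append, arr_append, List.flatten_flatten, map_arr]
  congr 2
  funext xs
  simp only [arr_single, join_at, update_join1]
  induction T with
  | zero => simp
  | succ T ih =>
    rw [Nat.succ_mul, List.range_add, List.map_append, ih, List.range_succ, List.map_append,
      List.flatten_append]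
    simp [Function.comp_def]

/-- Cut into `c` registers along the lowest digit. -/
theorem Ar.regs {p : G → List ℕ} {T : G → ℕ} (c : ℕ) (h : Ar D (fun g => p g ++ [T g * c]) f) :
    Lin D fun g => (List.range c).map fun j => arr (p g ++ [T g]) fun xs =>
      f g (update xs (p g).length (xs (p g).length * c + j)) := by
  refine Lin.listC _ fun j hj => ?_
  have hj := List.mem_range.1 hj
  have h1 := Lin.unflat (N := fun g => arr (p g ++ [T g]) fun xs => (List.range c).map fun j =>
      f g (update xs (p g).length (xs (p g).length * c + j))) (k := fun _ => c)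
    (h.lin.congr fun g => (arr_low _ _ _ _).symm) (LS.const c) (fun _ => by omega)
    (fun g r hr => by
      obtain ⟨xs, -, rfl⟩ := mem_arr.1 hr
      simp)
    (h.cnt.le fun g => by rw [← arr_low, length_arr])
  refine (Lin.map (Lin.getDC j Lin.id (Lin.const [])) h1).congr fun g => ?_
  simp [map_arr, List.getD_eq_getElem?_getD, hj]

/-- Join `c` registers. -/
theorem Ar.unregs {p : G → List ℕ} {T : G → ℕ} (c : ℕ) (hc : 0 < c)
    {r : G → ℕ → (ℕ → ℕ) → List Bool} (hp : LS D p) (hT : LS D T)
    (h0 : ∀ g, ∀ d ∈ p g ++ [T g], 0 < d)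
    (hw : ∀ g, ∀ j < c, ∀ xs, Valid (p g ++ [T g]) xs → Lam (D.S g) ≤ (r g j xs).length)
    (h : Lin D fun g => (List.range c).map fun j => arr (p g ++ [T g]) (r g j)) :
    Ar D (fun g => p g ++ [T g * c]) fun g xs =>
      r g (xs (p g).length % c) (update xs (p g).length (xs (p g).length / c)) := by
  refine ⟨LS.comp (f := fun x : List ℕ × ℕ => x.1 ++ [x.2 * c]) (by fun_prop) (hp.pair hT),
    fun g d hd => ?_, fun g xs hx => hw g _ (Nat.mod_lt _ hc) _ ?_, ?_⟩
  · rcases List.mem_append.1 hd with hd | hd
    · exact h0 g d (List.mem_append_left _ hd)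
    · rw [List.mem_singleton.1 hd]
      exact Nat.mul_pos (h0 g _ (by simp)) hc
  · refine Valid.set (M := T g * c) (by simpa using hx) ?_
    have := hx (p g).length
    simp only [List.getD_eq_getElem?_getD, List.getElem?_concat_length, Option.getD_some]
      at this ⊢
    exact (Nat.div_lt_iff_lt_mul hc).2 this
  refine ((Lin.trC (List.range c)).comp h).flatten.congr fun g => ?_
  have e : ∀ j, arr (p g ++ [T g]) (r g j) = (arr (p g ++ [T g]) id).map (r g j) := fun j => by
    rw [map_arr]; rfl
  simp only [e]
  rw [trC_eq hc _ _ _ fun j hj => List.mem_range.1 hj, map_arr, arr_low]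
  congr 2
  funext xs
  refine List.map_congr_left fun j hj => ?_
  have hj := List.mem_range.1 hj
  have e1 : (xs (p g).length * c + j) % c = j := by
    rw [Nat.mul_add_mod', Nat.mod_eq_of_lt hj]
  have e2 : (xs (p g).length * c + j) / c = xs (p g).length := by
    rw [add_comm, Nat.add_mul_div_right _ _ hc, Nat.div_eq_of_lt hj, zero_add]
  simp [e1, e2]

end Vale.Agent.P338
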