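import Vale.Agent.P338.ArrL

namespace Vale.Agent.P338

open Vale.Agent.Lib Vale.Agent.Lib.H23 Enc Function

variable {G α β γ π : Type} [Enc α] [Enc β] [Enc γ] [Enc π] {D : Dom G α} {ds ds' : G → List ℕ}
  {f f' : G → (ℕ → ℕ) → List Bool}

/-- the mixed radix digits of `n` -/
def digA (p : List ℕ) (n : ℕ) : ℕ → ℕ := fun j => n / (p.drop (j + 1)).prod % p.getD j 1

theorem getD_pos {p : List ℕ} (h : ∀ d ∈ p, 0 < d) (j : ℕ) : 0 < p.getD j 1 := by
  by_cases hj : j < p.length
  · rw [List.getD_eq_getElem _ _ hj]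
    exact h _ (List.getElem_mem hj)
  · rw [List.getD_eq_default _ _ (by omega)]
    exact Nat.one_pos

theorem pos_of_prod {p : List ℕ} (h : 0 < p.prod) : ∀ d ∈ p, 0 < d := fun _ hd =>
  Nat.pos_of_ne_zero fun e => h.ne' (List.prod_eq_zero (e ▸ hd))

theorem valid_digA {p : List ℕ} {n : ℕ} (h : n < p.prod) : Valid p (digA p n) := fun j =>
  Nat.mod_lt _ (getD_pos (pos_of_prod (by omega)) j)

theorem split_at {p : List ℕ} {j : ℕ} (hj : j < p.length) :
    p = p.take j ++ p.getD j 1 :: p.drop (j + 1) := by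
  rw [List.getD_eq_getElem _ _ hj, ← List.drop_eq_getElem_cons hj, List.take_append_drop]

theorem digA_cons {d x n : ℕ} {p : List ℕ} (hx : x < d) (hn : n < p.prod) :
    digA (d :: p) (x * p.prod + n) = consF x (digA p n) := by
  funext j
  cases j with
  | zero =>
    simp only [digA, consF, zero_add, List.drop_succ_cons, List.drop_zero, List.getD_cons_zero]
    rw [add_comm, Nat.add_mul_div_right _ _ (by omega), Nat.div_eq_of_lt hn, zero_add,
      Nat.mod_eq_of_lt hx]
  | succ j =>
    simp only [digA, consF, List.drop_succ_cons, List.getD_cons_succ]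
    by_cases hj : j < p.length
    · have e : p.prod = (p.take j).prod * p.getD j 1 * (p.drop (j + 1)).prod := by
        conv_lhs => rw [split_at hj]
        rw [List.prod_append, List.prod_cons, mul_assoc]
      have h0 : 0 < (p.drop (j + 1)).prod :=
        List.prod_pos fun d hd => pos_of_prod (p := p) (by omega) d (List.mem_of_mem_drop hd)
      rw [e, ← mul_assoc, add_comm, Nat.add_mul_div_right _ _ h0, ← mul_assoc,
        Nat.add_mul_mod_self_right]
    · rw [List.getD_eq_default _ _ (by omega), Nat.mod_one, Nat.mod_one]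

theorem range_mul_map {δ : Type} (d P : ℕ) (F : ℕ → δ) :
    (List.range (d * P)).map F =
      (List.range d).flatMap fun x => (List.range P).map fun n => F (x * P + n) := by
  induction d with
  | zero => simp
  | succ d ih =>
    rw [add_mul, one_mul, List.range_add, List.map_append, ih, List.range_succ,
      List.flatMap_append]
    simp [Function.comp_def]

theorem arr_eq_rangeA {δ : Type} (p : List ℕ) (F : (ℕ → ℕ) → δ) :
    arr p F = (List.range p.prod).map fun n => F (digA p n) := by
  induction p generalizing F with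
  | nil =>
    have : digA [] 0 = fun _ => 0 := by funext j; simp [digA]
    simp [arr, this]
  | cons d p ih =>
    rw [List.prod_cons, range_mul_map, arr]
    refine List.flatMap_congr fun x hx => ?_
    rw [ih]
    refine List.map_congr_left fun n hn => ?_
    rw [digA_cons (List.mem_range.1 hx) (List.mem_range.1 hn)]

theorem PT_digA : PT fun x : List ℕ × ℕ => pre x.1.length (digA x.1 x.2) := by
  have h1 : PT fun x : List ℕ × ℕ => List.range x.1.length :=
    PT.comp (g := fun x : List ℕ × ℕ => x.1) PT_rangeLen (by fun_prop)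
  unfold pre digA
  fun_prop

theorem Ar.congr (h : Ar D ds f) (e : ∀ g, ds' g = ds g)
    (e' : ∀ g xs, Valid (ds g) xs → f' g xs = f g xs) : Ar D ds' f' := by
  obtain rfl : ds' = ds := funext e
  exact ⟨h.hds, h.pos, fun g xs hx => by rw [e' g xs hx]; exact h.fat g xs hx,
    h.lin.congr fun g => arr_congr (e' g)⟩

theorem Ar.view (h : Ar D ds f) (h1 : LS D ds') (h2 : ∀ g, ∀ d ∈ ds' g, 0 < d)
    (e : ∀ g, arr (ds' g) (f' g) = arr (ds g) (f g)) : Ar D ds' f' := by
  refine ⟨h1, h2, fun g xs hx => ?_, h.lin.congr e⟩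
  have : f' g xs ∈ arr (ds g) (f g) := e g ▸ mem_arr.2 ⟨xs, hx, rfl⟩
  obtain ⟨ys, hy, e'⟩ := mem_arr.1 this
  exact e' ▸ h.fat g ys hy

theorem Ar.res {G' : Type} (h : Ar D ds f) (θ : G' → G) :
    Ar (D.res θ) (fun g => ds (θ g)) fun g => f (θ g) :=
  ⟨h.hds.res θ, fun g => h.pos (θ g), fun g => h.fat (θ g), h.lin.res θ⟩

theorem Ar.cnt (h : Ar D ds f) : Bd (fun g => (ds g).prod * Lam (D.S g)) D.B :=
  h.lin.size.le fun g =>
    (Nat.mul_le_mul_left _ (Nat.le_succ _)).trans (le_sz_arr fun xs hx => h.fat g xs hx)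

/-- the list of blocks below the digits `p` -/
theorem Lin.blocks {p s : G → List ℕ} {f : G → (ℕ → ℕ) → β}
    (h : Lin D fun g => arr (p g ++ s g) (f g)) (hs : LS D s)
    (hs0 : ∀ g, ∀ d ∈ s g, 0 < d) (hc : Bd (fun g => (p g ++ s g).prod * Lam (D.S g)) D.B) :
    Lin D fun g => arr (p g) fun xs => arr (s g) fun ys => f g (join (p g).length xs ys) := by
  refine (Lin.chunks (LS.comp (f := fun l : List ℕ => l.prod) (by fun_prop) hs) h
    (fun g => List.prod_pos (hs0 g)) (by simpa only [length_arr] using hc)).congr fun g => ?_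
  rw [arr_append, chunks_flatten (List.prod_pos (hs0 g))]
  intro c hc
  obtain ⟨xs, -, rfl⟩ := mem_arr.1 hc
  exact length_arr _

/-- Work on every block below the digits `p`, the budget depending on the block. -/
theorem Lin.onBlocksG {p s s' : G → List ℕ} {f : G → (ℕ → ℕ) → β}
    (h : Lin D fun g => arr (p g ++ s g) (f g)) (hp : LS D p) (hs : LS D s)
    (hs0 : ∀ g, ∀ d ∈ s g, 0 < d) (hc : Bd (fun g => (p g ++ s g).prod * Lam (D.S g)) D.B)
    {q : G → π} (hq : Lin D q) (out : G → (ℕ → ℕ) → γ) (b : G → (ℕ → ℕ) → ℕ)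
    (hb : ∃ K, ∀ g xs, Valid (p g) xs → sz (q g) +
      sz (arr (s g) fun ys => f g (join (p g).length xs ys)) + Lam (D.S g) ≤ K * b g xs)
    (hB : Bd (fun g => (arr (p g) (b g)).sum) D.B)
    (hf : ∀ (G1 α1 : Type) [Enc α1] (D1 : Dom G1 α1) (θ : G1 → G) (xs : G1 → ℕ → ℕ) (q1 : G1 → π)
      (xl : G1 → List ℕ) (x : G1 → List β), Over D D1 θ (fun r => b (θ r) (xs r)) →
      (∀ r, Valid (p (θ r)) (xs r)) → (∀ r, q1 r = q (θ r)) →
      (∀ r, xl r = pre (p (θ r)).length (xs r)) →
      (∀ r, x r = arr (s (θ r)) fun ys => f (θ r) (join (p (θ r)).length (xs r) ys)) →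
      Lin D1 q1 → LS D1 xl → Lin D1 x →
      Lin D1 fun r => arr (s' (θ r)) fun ys => out (θ r) (join (p (θ r)).length (xs r) ys)) :
    Lin D fun g => arr (p g ++ s' g) (out g) := by
  obtain ⟨K, hb⟩ := hb
  have hN : LS D fun g => (p g).prod := LS.comp (f := fun l : List ℕ => l.prod) (by fun_prop) hp
  obtain ⟨K', hK'⟩ := (Small.nat_le
    (D := D.res fun r : {r : G × ℕ // r.2 < (p r.1).prod} => r.1.1)
    (f := fun r => r.1.2) (hN.2.res _) fun r => r.2.le).bd
  obtain ⟨K'', hK''⟩ := hp.2.bd
  have h1 : Bd (fun g => (p g).prod * Lam (D.S g)) D.B := hc.le fun g => by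
    rw [List.prod_append]
    exact Nat.mul_le_mul_right _ (Nat.le_mul_of_pos_right _ (List.prod_pos (hs0 g)))
  have h2 : Lin D fun g => (List.range (p g).prod).map fun n =>
      (n, arr (s g) fun ys => f g (join (p g).length (digA (p g) n) ys)) :=
    ((Lin.range hN h1).zip (h.blocks hs hs0 hc)).congr fun g => by
      rw [arr_eq_rangeA, ← List.zip_map', List.map_id']
  refine (Lin.mapG (hq.pair hp.1) h2
    (fun g x => arr (s' g) fun ys => out g (join (p g).length (digA (p g) x.1) ys))
    (fun g x => b g (digA (p g) x.1)) ⟨K' * K + K'' * K + 3 * K, ?_⟩ ?_ ?_).flatten.congr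
    fun g => ?_
  · intro g x hx
    obtain ⟨n, hn, rfl⟩ := List.mem_map.1 hx
    have h3 := hb g _ (valid_digA (List.mem_range.1 hn))
    have h4 : sz n ≤ K' * Lam (D.S g) := hK' ⟨(g, n), List.mem_range.1 hn⟩
    have h5 : K' * Lam (D.S g) ≤ K' * (K * b g (digA (p g) n)) := Nat.mul_le_mul_left _ (by omega)
    have h6 := Lam_pos (D.S g)
    have h7 : sz (p g) ≤ K'' * Lam (D.S g) := hK'' g
    have h8 : K'' * Lam (D.S g) ≤ K'' * (K * b g (digA (p g) n)) :=
      Nat.mul_le_mul_left _ (by omega)
    rw [sz_pair, sz_pair]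
    nlinarith
  · refine hB.le fun g => le_of_eq ?_
    rw [arr_eq_rangeA, List.map_map]
    rfl
  · intro G1 D1 θ q1 x ho hx hq1 k1 k2
    have hx' : ∀ r, (x r).1 < (p (θ r)).prod ∧ (x r).2 = arr (s (θ r)) fun ys =>
        f (θ r) (join (p (θ r)).length (digA (p (θ r)) (x r).1) ys) := fun r => by
      obtain ⟨n, hn, e⟩ := List.mem_map.1 (hx r)
      rw [← e]
      exact ⟨List.mem_range.1 hn, rfl⟩
    have k3 : LS D1 fun r => p (θ r) := ⟨k1.snd.congr fun r => by rw [hq1], hp.2.over ho⟩
    have k4 : LS D1 fun r => (x r).1 := ⟨k2.fst, (hN.2.over ho).nat_le fun r => (hx' r).1.le⟩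
    exact hf G1 _ D1 θ (fun r => digA (p (θ r)) (x r).1) (fun r => (q1 r).1) _ (fun r => (x r).2)
      ho (fun r => valid_digA (hx' r).1) (fun r => by rw [hq1]) (fun r => rfl) (fun r => (hx' r).2)
      k1.fst (LS.comp PT_digA (k3.pair k4)) k2.snd
  · rw [arr_append, arr_eq_rangeA, List.map_map]
    rfl

/-- Work on every block below the digits `p`, with a parameter `q` and budget `b g` per block. -/
theorem Lin.onBlocks {p s s' : G → List ℕ} {f : G → (ℕ → ℕ) → β}
    (h : Lin D fun g => arr (p g ++ s g) (f g)) (hp : LS D p) (hs : LS D s)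
    (hs0 : ∀ g, ∀ d ∈ s g, 0 < d) (hc : Bd (fun g => (p g ++ s g).prod * Lam (D.S g)) D.B)
    {q : G → π} (hq : Lin D q) (out : G → (ℕ → ℕ) → γ) (b : G → ℕ)
    (hb : ∃ K, ∀ g xs, Valid (p g) xs → sz (q g) +
      sz (arr (s g) fun ys => f g (join (p g).length xs ys)) + Lam (D.S g) ≤ K * b g)
    (hB : Bd (fun g => (p g).prod * b g) D.B)
    (hf : ∀ (G1 α1 : Type) [Enc α1] (D1 : Dom G1 α1) (θ : G1 → G) (xs : G1 → ℕ → ℕ) (q1 : G1 → π)
      (xl : G1 → List ℕ) (x : G1 → List β), Over D D1 θ (fun r => b (θ r)) →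
      (∀ r, Valid (p (θ r)) (xs r)) → (∀ r, q1 r = q (θ r)) →
      (∀ r, xl r = pre (p (θ r)).length (xs r)) →
      (∀ r, x r = arr (s (θ r)) fun ys => f (θ r) (join (p (θ r)).length (xs r) ys)) →
      Lin D1 q1 → LS D1 xl → Lin D1 x →
      Lin D1 fun r => arr (s' (θ r)) fun ys => out (θ r) (join (p (θ r)).length (xs r) ys)) :
    Lin D fun g => arr (p g ++ s' g) (out g) := by
  refine h.onBlocksG hp hs hs0 hc hq out (fun g _ => b g) hb (hB.le fun g => le_of_eq ?_) hf
  rw [arr_eq_rangeA]
  simp [List.map_const']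

/-- Work on the blocks below the first `i` digits, changing the range of digit `i` to `M'`. -/
theorem Ar.digit (h : Ar D ds f) (i : ℕ) (hi : ∀ g, i < (ds g).length) (M' : G → ℕ)
    {q : G → π} (hq : LS D q) (out : G → (ℕ → ℕ) → γ)
    (hf : ∀ (G1 α1 : Type) [Enc α1] (D1 : Dom G1 α1) (θ : G1 → G) (xs : G1 → ℕ → ℕ),
      LS D1 (fun r => q (θ r)) → LS D1 (fun r => pre i (xs r)) →
      Ar D1 (fun r => (ds (θ r)).getD i 1 :: (ds (θ r)).drop (i + 1))
        (fun r ys => f (θ r) (join i (xs r) ys)) →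
      Lin D1 fun r => arr (M' (θ r) :: (ds (θ r)).drop (i + 1))
        fun ys => out (θ r) (join i (xs r) ys)) :
    Lin D fun g => arr ((ds g).set i (M' g)) (out g) := by
  have hl : ∀ g, ((ds g).take i).length = i := fun g => by have := hi g; simp; omega
  have hp : LS D fun g => (ds g).take i :=
    LS.comp (f := fun l : List ℕ => l.take i) (by fun_prop) h.hds
  have hs : LS D fun g => (ds g).getD i 1 :: (ds g).drop (i + 1) :=
    LS.comp (f := fun l : List ℕ => l.getD i 1 :: l.drop (i + 1)) (by fun_prop) h.hds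
  have hs0 : ∀ g, ∀ d ∈ (ds g).getD i 1 :: (ds g).drop (i + 1), 0 < d := fun g d hd =>
    h.pos g d (by rw [split_at (hi g)]; exact List.mem_append_right _ hd)
  have h1 : Lin D fun g => arr ((ds g).take i ++ (ds g).getD i 1 :: (ds g).drop (i + 1)) (f g) :=
    h.lin.congr fun g => by rw [← split_at (hi g)]
  have hc : Bd (fun g => ((ds g).take i ++ (ds g).getD i 1 :: (ds g).drop (i + 1)).prod *
      Lam (D.S g)) D.B := h.cnt.le fun g => by rw [← split_at (hi g)]
  have hfat : ∀ g xs ys, Valid ((ds g).take i) xs →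
      Valid ((ds g).getD i 1 :: (ds g).drop (i + 1)) ys →
      Lam (D.S g) ≤ (f g (join i xs ys)).length := by
    intro g xs ys hx hy
    have := hx.join hy
    rw [← split_at (hi g), hl] at this
    exact h.fat g _ this
  obtain ⟨K, hK⟩ := (hq.pair hs).2.bd
  refine (h1.onBlocksG (s' := fun g => M' g :: (ds g).drop (i + 1)) hp hs hs0 hc (hq.pair hs).1 out
    (fun g xs => sz (arr ((ds g).getD i 1 :: (ds g).drop (i + 1)) fun ys =>
      f g (join ((ds g).take i).length xs ys))) ⟨K + 2, fun g xs hx => ?_⟩ ?_ ?_).congr fun g => ?_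
  · have h2 := le_sz_arr (ds := (ds g).getD i 1 :: (ds g).drop (i + 1))
      (f := fun ys => f g (join ((ds g).take i).length xs ys)) (w := Lam (D.S g))
      fun ys hy => by rw [hl]; exact hfat g xs ys hx hy
    have h3 := List.prod_pos (hs0 g)
    have h4 := hK g
    dsimp only at h4
    generalize sz (arr ((ds g).getD i 1 :: (ds g).drop (i + 1)) fun ys =>
      f g (join ((ds g).take i).length xs ys)) = Z at h2 ⊢
    have h5 : Lam (D.S g) ≤ Z := by nlinarith
    nlinarith [Nat.mul_le_mul_left K h5]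
  · refine (h1.blocks hs hs0 hc).size.le fun g => ?_
    rw [← map_arr sz]
    exact (Nat.le_add_right _ _).trans (sum_sz_le _).le
  · intro G1 α1 _ D1 θ xs q1 xl x ho hv e1 e2 e3 k1 k2 k3
    simp only [hl] at e2 e3 ⊢
    refine hf G1 α1 D1 θ xs ⟨k1.fst.congr fun r => by rw [e1], hq.2.over ho⟩
      (k2.congr fun r => (e2 r).symm) ⟨⟨k1.snd.congr fun r => by rw [e1], hs.2.over ho⟩,
        fun r => hs0 _, fun r ys hy => ?_, k3.congr fun r => (e3 r).symm⟩
    rw [ho.S]
    exact hfat _ _ _ (hv r) hy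
  · rw [List.set_eq_take_append_cons_drop, if_pos (hi g)]

theorem join_zero (xs ys : ℕ → ℕ) : join 0 xs ys = ys := by
  funext j; simp [join]

theorem join_self (i : ℕ) (xs ys : ℕ → ℕ) : join i xs ys i = ys 0 := by simp [join]

theorem pre_join (i : ℕ) (xs ys : ℕ → ℕ) : pre i (join i xs ys) = pre i xs :=
  List.map_congr_left fun j hj => by simp [join, List.mem_range.1 hj]

theorem update_join (i v x : ℕ) (xs ys : ℕ → ℕ) :
    update (join i xs (consF x ys)) i v = join i xs (consF v ys) := by
  funext j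
  rcases lt_trichotomy j i with h | rfl | h
  · simp [join, h, h.ne]
  · simp [join, consF]
  · obtain ⟨k, rfl⟩ : ∃ k, j = i + (k + 1) := ⟨j - i - 1, by omega⟩
    simp [join, consF]

/-- the rows below the leading digit -/
theorem Ar.rows {M : G → ℕ} {R : G → List ℕ} (h : Ar D (fun g => M g :: R g) f) :
    Lin D fun g => (List.range (M g)).map fun x => arr (R g) fun ys => f g (consF x ys) := by
  refine (Lin.blocks (p := fun g => [M g]) h.lin
    (LS.comp (f := fun l : List ℕ => l.tail) (by fun_prop) h.hds)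
    (fun g d hd => h.pos g d (List.mem_cons_of_mem _ hd)) h.cnt).congr fun g => ?_
  rw [arr_single]
  refine List.map_congr_left fun x _ => congrArg _ (funext fun ys => congrArg _ ?_)
  funext j
  cases j <;> simp [join, consF]

theorem Lin.unrows {M : G → ℕ} {R : G → List ℕ} {F : G → (ℕ → ℕ) → β}
    (h : Lin D fun g => (List.range (M g)).map fun x => arr (R g) fun ys => F g (consF x ys)) :
    Lin D fun g => arr (M g :: R g) (F g) :=
  h.flatten.congr fun g => by rw [arr, List.flatMap_def]

theorem Ar.cnt0 {M : G → ℕ} {R : G → List ℕ} (h : Ar D (fun g => M g :: R g) f) :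
    Bd (fun g => M g * Lam (D.S g)) D.B :=
  h.cnt.le fun g => Nat.mul_le_mul_right _ (Nat.le_mul_of_pos_right _
    (List.prod_pos fun d hd => h.pos g d (List.mem_cons_of_mem _ hd)))

theorem Lin.rep (c : ℕ) {l : G → List β} (hl : Lin D l) :
    Lin D fun g => (List.replicate c (l g)).flatten := by
  induction c with
  | zero => exact Lin.const []
  | succ c ih => exact (hl.append ih).congr fun g => by simp [List.replicate_succ]

theorem window_eq {δ : Type} (F : ℕ → δ) {M M' c k : ℕ} (h0 : 0 < M) (hc : M' ≤ c * M) :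
    ((List.replicate (c + 1) ((List.range M).map F)).flatten.drop (k % M)).take M' =
      (List.range M').map fun x => F ((x + k) % M) := by
  have e : ∀ n, (List.replicate n ((List.range M).map F)).flatten =
      (List.range (n * M)).map fun x => F (x % M) := by
    intro n
    rw [range_mul_map, List.flatMap_def]
    congr 1
    rw [eq_comm, List.eq_replicate_iff]
    refine ⟨by simp, fun b hb => ?_⟩
    obtain ⟨x, -, rfl⟩ := List.mem_map.1 hb
    refine List.map_congr_left fun n hn => ?_
    rw [add_comm, Nat.add_mul_mod_self_right, Nat.mod_eq_of_lt (List.mem_range.1 hn)]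
  have hk := Nat.mod_lt k h0
  rw [e]
  apply List.ext_getElem
  · simp only [List.length_take, List.length_drop, List.length_map, List.length_range]
    rw [add_mul]
    omega
  · intro n h1 h2
    simp [add_comm]

theorem pos_set (h : Ar D ds f) (i : ℕ) {M' : G → ℕ} (h0 : ∀ g, 0 < M' g) :
    ∀ g, ∀ d ∈ (ds g).set i (M' g), 0 < d := fun g d hd => by
  rcases List.mem_or_eq_of_mem_set hd with h1 | rfl
  exacts [h.pos g d h1, h0 g]

theorem set_getD (l : List ℕ) (i : ℕ) : l.set i (l.getD i 1) = l := by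
  by_cases h : i < l.length
  · rw [List.getD_eq_getElem _ _ h, List.set_getElem_self]
  · rw [List.set_eq_of_length_le (by omega)]

/-- Translate the digit `i` by a function of the more significant digits, and change its range
to `M'`. -/
theorem Ar.win (h : Ar D ds f) (i c : ℕ) (hi : ∀ g, i < (ds g).length) {M' : G → ℕ}
    (hM' : LS D M') (h0 : ∀ g, 0 < M' g) (hc : ∀ g, M' g ≤ c * (ds g).getD i 1) {p : G → π}
    (hp : LS D p) {σ : π → List ℕ → ℕ} (hσ : PT fun x : π × List ℕ => σ x.1 x.2) :
    Ar D (fun g => (ds g).set i (M' g)) fun g xs =>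
      f g (update xs i ((xs i + σ (p g) (pre i xs)) % (ds g).getD i 1)) := by
  refine ⟨LS.comp (f := fun x : List ℕ × ℕ => x.1.set i x.2) (by fun_prop) (h.hds.pair hM'),
    pos_set h i h0, fun g xs hx => h.fat g _ (hx.set (Nat.mod_lt _ (getD_pos (h.pos g) i))),
    h.digit i hi M' (hp.pair hM') _ fun G1 α1 _ D1 θ xs k1 k2 k3 => ?_⟩
  have hM : ∀ r, 0 < (ds (θ r)).getD i 1 := fun r => getD_pos (h.pos _) i
  have k4 : LS D1 fun r => σ (p (θ r)) (pre i (xs r)) % (ds (θ r)).getD i 1 :=
    LS.comp (f := fun x : ((π × ℕ) × List ℕ) × List ℕ => σ x.1.1.1 x.1.2 % x.2.headD 1)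
      (PT_mod (PT.comp (g := fun x : ((π × ℕ) × List ℕ) × List ℕ => (x.1.1.1, x.1.2)) hσ
        (by fun_prop)) (by fun_prop)) ((k1.pair k2).pair k3.hds)
  have k5 : LS D1 fun r => M' (θ r) := LS.comp (f := fun x : π × ℕ => x.2) (by fun_prop) k1
  have k6 := Lin.range k4 (k3.cnt0.le fun r => Nat.mul_le_mul_right _ (Nat.mod_lt _ (hM r)).le)
  have k7 := Lin.range k5 ((k3.cnt0.cmul c).le fun r => by
    rw [← mul_assoc]; exact Nat.mul_le_mul_right _ (hc _))
  refine Lin.unrows ((((k3.rows.rep (c + 1)).dropU k6).takeU k7).congr fun r => ?_)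
  rw [List.length_range, List.length_range, window_eq _ (hM r) (hc _)]
  simp only [update_join, pre_join, join_self, consF]

theorem Ar.rot (h : Ar D ds f) (i : ℕ) (hi : ∀ g, i < (ds g).length) {p : G → π}
    (hp : LS D p) {σ : π → List ℕ → ℕ} (hσ : PT fun x : π × List ℕ => σ x.1 x.2) :
    Ar D ds fun g xs => f g (update xs i ((xs i + σ (p g) (pre i xs)) % (ds g).getD i 1)) :=
  (h.win i 1 hi (LS.comp (f := fun l : List ℕ => l.getD i 1) (by fun_prop) h.hds)
    (fun g => getD_pos (h.pos g) i) (fun g => by simp) hp hσ).congr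
    (fun g => (set_getD _ _).symm) fun _ _ _ => rfl

theorem Ar.resize (h : Ar D ds f) (i c : ℕ) (hi : ∀ g, i < (ds g).length) {M' : G → ℕ}
    (hM' : LS D M') (h0 : ∀ g, 0 < M' g) (hc : ∀ g, M' g ≤ c * (ds g).getD i 1) :
    Ar D (fun g => (ds g).set i (M' g)) fun g xs =>
      f g (update xs i (xs i % (ds g).getD i 1)) :=
  h.win i c hi hM' h0 hc (LS.const ()) (σ := fun _ _ => 0) (PT.const 0)

theorem Ar.rev (h : Ar D ds f) (i : ℕ) (hi : ∀ g, i < (ds g).length) :
    Ar D ds fun g xs => f g (update xs i ((ds g).getD i 1 - 1 - xs i)) := by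
  refine ⟨h.hds, h.pos, fun g xs hx => h.fat g _ (hx.update ?_),
    (h.digit i hi (fun g => (ds g).getD i 1) (LS.const ()) _
      fun G1 α1 _ D1 θ xs _ _ k3 => ?_).congr fun g => by rw [set_getD]⟩
  · have := getD_pos (h.pos g) i
    omega
  · refine Lin.unrows (k3.rows.reverse.congr fun r => ?_)
    simp only [update_join, join_self, consF]
    apply List.ext_getElem
    · simp
    · intro n h1 h2
      simp

theorem length_mul_le {l : List (List Bool)} {c K : ℕ} (h : ∀ x ∈ l, c ≤ K * (x.length + 1)) :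
    l.length * c ≤ K * sz l := by
  induction l with
  | nil => simp
  | cons x l ih =>
    have h1 := h x (by simp)
    have h2 := ih fun y hy => h y (by simp [hy])
    have h3 : K * (x.length + 1) ≤ K * sz x := Nat.mul_le_mul_left _ (length_lt_sz x)
    rw [List.length_cons, sz_cons]
    nlinarith

theorem Ar.par (h : Ar D ds f) {q : G → π}
    (hs : ∃ K, ∀ g xs, Valid (ds g) xs → sz (q g) ≤ K * ((f g xs).length + 1)) :
    Bd (fun g => (arr (ds g) (f g)).length * sz (q g)) D.B := by
  obtain ⟨K, hK⟩ := hs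
  refine (h.lin.size.cmul K).le fun g => length_mul_le fun x hx => ?_
  obtain ⟨xs, hv, rfl⟩ := mem_arr.1 hx
  exact hK g xs hv

/-- Cellwise operation with a parameter not longer than the cells. -/
theorem Ar.map1 (h : Ar D ds f) {F : π → List Bool → β}
    (hF : Lin (D0 _) fun x : π × List Bool => F x.1 x.2) {q : G → π} (hq : Lin D q)
    (hs : ∃ K, ∀ g xs, Valid (ds g) xs → sz (q g) ≤ K * ((f g xs).length + 1)) :
    Lin D fun g => arr (ds g) fun xs => F (q g) (f g xs) :=
  (Lin.mapP hF hq h.lin (h.par hs)).congr fun _ => (map_arr _ _).symm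

theorem Ar.map2 (h : Ar D ds f) (h' : Lin D fun g => arr (ds g) (f' g))
    {F : π → List Bool → List Bool → β}
    (hF : Lin (D0 _) fun x : π × List Bool × List Bool => F x.1 x.2.1 x.2.2) {q : G → π}
    (hq : Lin D q) (hs : ∃ K, ∀ g xs, Valid (ds g) xs → sz (q g) ≤ K * ((f g xs).length + 1)) :
    Lin D fun g => arr (ds g) fun xs => F (q g) (f g xs) (f' g xs) := by
  refine (Lin.mapP (F := fun (q : π) (x : List Bool × List Bool) => F q x.1 x.2) hF hq
    (h.lin.zip h') ((h.par hs).le fun g => Nat.mul_le_mul_right _ ?_)).congr fun g => ?_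
  · simp
  · rw [List.zip, zipWith_arr, map_arr]

/-- Double the digit `i`, filling with cells of zeros. -/
theorem Ar.padz (h : Ar D ds f) (i : ℕ) (hi : ∀ g, i < (ds g).length) :
    Ar D (fun g => (ds g).set i (2 * (ds g).getD i 1)) fun g xs =>
      if xs i < (ds g).getD i 1 then f g xs
      else (f g (update xs i (xs i - (ds g).getD i 1))).map fun _ => false := by
  refine ⟨LS.comp (f := fun l : List ℕ => l.set i (2 * l.getD i 1)) (by fun_prop) h.hds,
    pos_set h i fun g => Nat.mul_pos (by norm_num) (getD_pos (h.pos g) i), fun g xs hx => ?_,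
    h.digit i hi _ (LS.const ()) _ fun G1 α1 _ D1 θ xs _ _ k3 => ?_⟩
  · split_ifs with h1
    · have := hx.set h1
      rw [update_eq_self] at this
      exact h.fat g _ this
    · have h2 := hx i
      rw [List.getD_eq_getElem _ _ (by simpa using hi g), List.getElem_set_self] at h2
      rw [List.length_map]
      exact h.fat g _ (hx.set (by omega))
  · have k4 := Lin.map (F := fun x : List (List Bool) => x.map fun y => y.map fun _ => false)
      (by fun_prop) k3.rows
    refine Lin.unrows ((k3.rows.append k4).congr fun r => ?_)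
    simp only [update_join, join_self, consF]
    rw [two_mul, List.range_add, List.map_append, List.map_map, List.map_map]
    congr 1
    · exact List.map_congr_left fun x hx => by simp only [List.mem_range.1 hx, if_true]
    · refine List.map_congr_left fun x _ => ?_
      simp only [comp_apply, map_arr, Nat.add_sub_cancel_left, add_lt_iff_neg_left, not_lt_zero,
        if_false]

end Vale.Agent.P338
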