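import Vale.Agent.P338.Loop

/-! Arrays with mixed radix addresses. An address is a function `ℕ → ℕ` (digit `0` is the most
significant one), a shape is the list of radices. -/

namespace Vale.Agent.P338

open Vale.Agent.Lib Vale.Agent.Lib.H23 Enc Function

def consF (x : ℕ) (xs : ℕ → ℕ) : ℕ → ℕ
  | 0 => x
  | i + 1 => xs i

def arr {β : Type} : List ℕ → ((ℕ → ℕ) → β) → List β
  | [], f => [f fun _ => 0]
  | d :: ds, f => (List.range d).flatMap fun x => arr ds fun xs => f (consF x xs)

def Valid (ds : List ℕ) (xs : ℕ → ℕ) : Prop := ∀ i, xs i < ds.getD i 1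

/-- the first `i` digits -/
def pre (i : ℕ) (xs : ℕ → ℕ) : List ℕ := (List.range i).map xs

/-- the first `i` digits of `xs` followed by `ys` -/
def join (i : ℕ) (xs ys : ℕ → ℕ) : ℕ → ℕ := fun j => if j < i then xs j else ys (j - i)

/-- merge the digits `i` and `i + 1`, the second having radix `M` -/
def mrg (i M : ℕ) (xs : ℕ → ℕ) : ℕ → ℕ :=
  fun j => if j < i then xs j else if j = i then xs i * M + xs (i + 1) else xs (j + 1)

/-- split the digit `i` into quotient and remainder modulo `M` -/
def spl (i M : ℕ) (xs : ℕ → ℕ) : ℕ → ℕ :=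
  fun j => if j < i then xs j else if j = i then xs i / M else if j = i + 1 then xs i % M
    else xs (j - 1)

/-- `arr (ds g) (f g)` is available, and its cells are long -/
structure Ar {G α : Type} [Enc α] (D : Dom G α) (ds : G → List ℕ)
    (f : G → (ℕ → ℕ) → List Bool) : Prop where
  hds : LS D ds
  pos : ∀ g, ∀ d ∈ ds g, 0 < d
  fat : ∀ g xs, Valid (ds g) xs → Lam (D.S g) ≤ (f g xs).length
  lin : Lin D fun g => arr (ds g) (f g)

end Vale.Agent.P338
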