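import Vale.Agent.P338.ArrDefs

namespace Vale.Agent.P338

open Vale.Agent.Lib Vale.Agent.Lib.H23 Enc Function

section Lists

variable {β γ δ : Type} {ds : List ℕ}

theorem valid_cons {d : ℕ} {xs : ℕ → ℕ} :
    Valid (d :: ds) xs ↔ xs 0 < d ∧ Valid ds fun i => xs (i + 1) := by
  constructor
  · intro h
    exact ⟨by simpa using h 0, fun i => by simpa using h (i + 1)⟩
  · rintro ⟨h0, h⟩ i
    cases i with
    | zero => simpa using h0
    | succ i => simpa using h i

theorem valid_nil {xs : ℕ → ℕ} : Valid [] xs ↔ ∀ i, xs i = 0 := by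
  simp [Valid]

theorem Valid.update {xs : ℕ → ℕ} (h : Valid ds xs) {i v : ℕ} (hv : v < ds.getD i 1) :
    Valid ds (update xs i v) := by
  intro j
  by_cases hj : j = i
  · subst hj; simpa using hv
  · rw [update_of_ne hj]; exact h j

theorem Valid.set {xs : ℕ → ℕ} {i M v : ℕ} (h : Valid (ds.set i M) xs) (hv : v < ds.getD i 1) :
    Valid ds (Function.update xs i v) := by
  intro j
  by_cases hj : j = i
  · subst hj; simpa using hv
  · rw [update_of_ne hj]
    have := h j
    rwa [List.getD_eq_getElem?_getD, List.getElem?_set_ne (Ne.symm hj),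
      ← List.getD_eq_getElem?_getD] at this

theorem aL_getD_app_lt {p s : List ℕ} {j : ℕ} (hj : j < p.length) :
    (p ++ s).getD j 1 = p.getD j 1 := by
  rw [List.getD_eq_getElem?_getD, List.getElem?_append_left hj, ← List.getD_eq_getElem?_getD]

theorem aL_getD_app_ge (p s : List ℕ) (j : ℕ) : (p ++ s).getD (p.length + j) 1 = s.getD j 1 := by
  rw [List.getD_eq_getElem?_getD, List.getElem?_append_right (by omega), Nat.add_sub_cancel_left,
    ← List.getD_eq_getElem?_getD]

theorem Valid.join {p s : List ℕ} {xs ys : ℕ → ℕ} (h : Valid p xs) (h' : Valid s ys) :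
    Valid (p ++ s) (join p.length xs ys) := by
  intro j
  unfold P338.join
  by_cases hj : j < p.length
  · rw [if_pos hj, aL_getD_app_lt hj]; exact h j
  · obtain ⟨k, rfl⟩ : ∃ k, j = p.length + k := ⟨j - p.length, by omega⟩
    rw [if_neg hj, aL_getD_app_ge, Nat.add_sub_cancel_left]
    exact h' k

theorem Valid.mrg {p s : List ℕ} {A M : ℕ} {xs : ℕ → ℕ} (h : Valid (p ++ A :: M :: s) xs) :
    Valid (p ++ A * M :: s) (mrg p.length M xs) := by
  intro j
  unfold P338.mrg
  by_cases hj : j < p.length
  · have := h j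
    rw [aL_getD_app_lt hj] at this
    rw [if_pos hj, aL_getD_app_lt hj]; exact this
  · obtain ⟨k, rfl⟩ : ∃ k, j = p.length + k := ⟨j - p.length, by omega⟩
    rw [if_neg hj, aL_getD_app_ge]
    cases k with
    | zero =>
      have h0 := h (p.length + 0)
      have h1 := h (p.length + 1)
      rw [aL_getD_app_ge] at h0 h1
      simp only [List.getD_cons_zero, List.getD_cons_succ, Nat.add_zero] at h0 h1
      simp only [Nat.add_zero, if_true, List.getD_cons_zero]
      nlinarith
    | succ k =>
      have h1 := h (p.length + (k + 2))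
      rw [aL_getD_app_ge] at h1
      rw [if_neg (by omega)]
      simpa [add_assoc] using h1

theorem Valid.spl {p s : List ℕ} {A M : ℕ} {xs : ℕ → ℕ} (h : Valid (p ++ A * M :: s) xs) :
    Valid (p ++ A :: M :: s) (spl p.length M xs) := by
  intro j
  unfold P338.spl
  have h0 := h (p.length + 0)
  rw [aL_getD_app_ge] at h0
  simp only [List.getD_cons_zero, Nat.add_zero] at h0
  have hM : 0 < M := Nat.pos_of_ne_zero fun e => by simp [e] at h0
  by_cases hj : j < p.length
  · have := h j
    rw [aL_getD_app_lt hj] at this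
    rw [if_pos hj, aL_getD_app_lt hj]; exact this
  · obtain ⟨k, rfl⟩ : ∃ k, j = p.length + k := ⟨j - p.length, by omega⟩
    rw [if_neg hj, aL_getD_app_ge]
    match k with
    | 0 =>
      simp only [Nat.add_zero, if_true, List.getD_cons_zero]
      exact Nat.div_lt_of_lt_mul (by rwa [mul_comm] at h0)
    | 1 =>
      rw [if_neg (by omega), if_pos rfl]
      simpa using Nat.mod_lt _ hM
    | k + 2 =>
      have h1 := h (p.length + (k + 1))
      rw [aL_getD_app_ge] at h1
      rw [if_neg (by omega), if_neg (by omega)]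
      have e : p.length + (k + 2) - 1 = p.length + (k + 1) := by omega
      rw [e]
      simpa using h1

theorem getD_pre {i j : ℕ} (h : j < i) (xs : ℕ → ℕ) : (pre i xs).getD j 0 = xs j := by
  simp [pre, List.getD_eq_getElem?_getD, h]

theorem aL_valid_consF {d x : ℕ} {xs : ℕ → ℕ} (hx : x < d) (h : Valid ds xs) :
    Valid (d :: ds) (consF x xs) := valid_cons.2 ⟨hx, h⟩

theorem aL_consF_eta (xs : ℕ → ℕ) : consF (xs 0) (fun i => xs (i + 1)) = xs := by
  funext i; cases i <;> rfl

theorem aL_arr_cons (d : ℕ) (ds : List ℕ) (f : (ℕ → ℕ) → β) :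
    arr (d :: ds) f = (List.range d).flatMap fun x => arr ds fun xs => f (consF x xs) := rfl

theorem aL_arr_nil (f : (ℕ → ℕ) → β) : arr [] f = [f fun _ => 0] := rfl

theorem arr_congr {f f' : (ℕ → ℕ) → β} (h : ∀ xs, Valid ds xs → f xs = f' xs) :
    arr ds f = arr ds f' := by
  induction ds generalizing f f' with
  | nil => rw [aL_arr_nil, aL_arr_nil, h _ (valid_nil.2 fun _ => rfl)]
  | cons d ds ih =>
    rw [aL_arr_cons, aL_arr_cons]
    refine List.flatMap_congr fun x hx => ih fun xs hxs => h _ (aL_valid_consF ?_ hxs)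
    exact List.mem_range.1 hx

theorem length_arr (f : (ℕ → ℕ) → β) : (arr ds f).length = ds.prod := by
  induction ds generalizing f with
  | nil => rfl
  | cons d ds ih => simp [aL_arr_cons, List.length_flatMap, ih]

theorem map_arr (F : β → γ) (f : (ℕ → ℕ) → β) :
    (arr ds f).map F = arr ds fun xs => F (f xs) := by
  induction ds generalizing f with
  | nil => rfl
  | cons d ds ih => simp only [aL_arr_cons, List.map_flatMap, ih]

theorem zipWith_arr (F : β → γ → δ) (f : (ℕ → ℕ) → β) (f' : (ℕ → ℕ) → γ) :
    List.zipWith F (arr ds f) (arr ds f') = arr ds fun xs => F (f xs) (f' xs) := by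
  have h1 := map_arr (ds := ds) f id
  have h2 := map_arr (ds := ds) f' id
  have h3 := map_arr (ds := ds) (fun xs => F (f xs) (f' xs)) id
  simp only [id] at h1 h2 h3
  rw [← h1, ← h2, ← h3, List.zipWith_map, List.zipWith_self]

theorem mem_arr {f : (ℕ → ℕ) → β} {y : β} : y ∈ arr ds f ↔ ∃ xs, Valid ds xs ∧ f xs = y := by
  induction ds generalizing f with
  | nil =>
    rw [aL_arr_nil, List.mem_singleton]
    constructor
    · rintro rfl; exact ⟨_, valid_nil.2 fun _ => rfl, rfl⟩
    · rintro ⟨xs, h, rfl⟩
      congr 1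
      funext i
      exact valid_nil.1 h i
  | cons d ds ih =>
    rw [aL_arr_cons, List.mem_flatMap]
    constructor
    · rintro ⟨x, hx, hy⟩
      obtain ⟨xs, h, rfl⟩ := ih.1 hy
      exact ⟨_, aL_valid_consF (List.mem_range.1 hx) h, rfl⟩
    · rintro ⟨xs, h, rfl⟩
      obtain ⟨h0, h1⟩ := valid_cons.1 h
      exact ⟨xs 0, List.mem_range.2 h0, ih.2 ⟨_, h1, by rw [aL_consF_eta]⟩⟩

theorem arr_inj {f f' : (ℕ → ℕ) → β} (h : arr ds f = arr ds f') {xs : ℕ → ℕ}
    (hx : Valid ds xs) : f xs = f' xs := by
  have h1 := map_arr (ds := ds) f id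
  have h2 := map_arr (ds := ds) f' id
  simp only [id] at h1 h2
  rw [← h1, ← h2, List.map_inj_left] at h
  exact h xs (mem_arr.2 ⟨xs, hx, rfl⟩)

theorem aL_nodup_arr_id (ds : List ℕ) : (arr ds id).Nodup := by
  induction ds with
  | nil => simp [aL_arr_nil]
  | cons d ds ih =>
    rw [aL_arr_cons, List.nodup_flatMap]
    constructor
    · intro x _
      have h1 := map_arr (ds := ds) (consF x) id
      simp only [id] at h1 ⊢
      rw [← h1]
      refine ih.map fun a b e => ?_
      funext i
      exact congrFun e (i + 1)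
    · refine List.nodup_range.pairwise_of_forall_ne fun a _ b _ hab => ?_
      intro y ha hb
      obtain ⟨xs, -, e⟩ := mem_arr.1 ha
      obtain ⟨ys, -, e'⟩ := mem_arr.1 hb
      exact hab (congrFun (e.trans e'.symm) 0)

theorem exists_arr [Inhabited β] {l : List β} (h : l.length = ds.prod) : ∃ f, l = arr ds f := by
  classical
  refine ⟨fun xs => l.getD ((arr ds id).idxOf xs) default, ?_⟩
  have h1 := map_arr (ds := ds) (fun xs => l.getD ((arr ds id).idxOf xs) default) id
  simp only [id] at h1
  rw [← h1]
  refine List.ext_getElem (by rw [List.length_map, length_arr, h]) fun i hi hi' => ?_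
  rw [List.getElem_map]
  have := (aL_nodup_arr_id ds).idxOf_getElem i (by rw [length_arr, ← h]; exact hi)
  erw [this]
  simp [List.getD_eq_getElem?_getD, hi]

theorem arr_single (n : ℕ) (f : (ℕ → ℕ) → β) :
    arr [n] f = (List.range n).map fun i => f (consF i fun _ => 0) := by
  rw [aL_arr_cons, List.map_eq_flatMap]
  rfl

theorem aL_join_succ (n x : ℕ) (xs ys : ℕ → ℕ) :
    join (n + 1) (consF x xs) ys = consF x (join n xs ys) := by
  funext j
  cases j with
  | zero => simp [join, consF]
  | succ j => simp [join, consF]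

theorem aL_join_zero (xs ys : ℕ → ℕ) : join 0 xs ys = ys := by
  funext j; simp [join]

theorem arr_append (p s : List ℕ) (f : (ℕ → ℕ) → β) :
    arr (p ++ s) f = (arr p fun xs => arr s fun ys => f (join p.length xs ys)).flatten := by
  induction p generalizing f with
  | nil => simp [aL_arr_nil, aL_join_zero]
  | cons d p ih =>
    rw [List.cons_append, aL_arr_cons, aL_arr_cons, List.flatten_eq_flatMap, List.flatMap_assoc]
    refine List.flatMap_congr fun x _ => ?_
    rw [ih, List.flatten_eq_flatMap]
    simp only [List.length_cons, aL_join_succ]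

theorem aL_range_mul_flatMap (A M : ℕ) (F : ℕ → List β) :
    (List.range (A * M)).flatMap F =
      (List.range A).flatMap fun a => (List.range M).flatMap fun b => F (a * M + b) := by
  induction A with
  | zero => simp
  | succ A ih =>
    rw [Nat.succ_mul, List.range_add, List.flatMap_append, ih, List.range_succ,
      List.flatMap_append, List.flatMap_map]
    simp

theorem aL_mrg_succ (n M x : ℕ) (xs : ℕ → ℕ) :
    mrg (n + 1) M (consF x xs) = consF x (mrg n M xs) := by
  funext j
  cases j with
  | zero => simp [mrg, consF]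
  | succ j => simp [mrg, consF]

theorem aL_mrg_zero (M a b : ℕ) (xs : ℕ → ℕ) :
    mrg 0 M (consF a (consF b xs)) = consF (a * M + b) xs := by
  funext j
  cases j with
  | zero => simp [mrg, consF]
  | succ j => simp [mrg, consF]

theorem arr_split (p s : List ℕ) (A M : ℕ) (f : (ℕ → ℕ) → β) :
    arr (p ++ A * M :: s) f = arr (p ++ A :: M :: s) fun xs => f (mrg p.length M xs) := by
  induction p generalizing f with
  | nil =>
    simp only [List.nil_append, aL_arr_cons, aL_range_mul_flatMap, List.length_nil, aL_mrg_zero]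
  | cons d p ih =>
    simp only [List.cons_append, aL_arr_cons d, ih, List.length_cons, aL_mrg_succ]

theorem aL_spl_mrg {i M : ℕ} {xs : ℕ → ℕ} (h : xs (i + 1) < M) : spl i M (mrg i M xs) = xs := by
  have hM : 0 < M := by omega
  funext j
  unfold spl mrg
  by_cases h1 : j < i
  · simp [h1]
  · rw [if_neg h1]
    by_cases h2 : j = i
    · subst h2
      simp only [if_true, lt_irrefl, if_false]
      rw [add_comm, Nat.add_mul_div_right _ _ hM, Nat.div_eq_of_lt h, zero_add]
    · rw [if_neg h2]
      by_cases h3 : j = i + 1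
      · subst h3
        simp only [if_true, lt_irrefl, if_false]
        rw [add_comm, Nat.add_mul_mod_self_right, Nat.mod_eq_of_lt h]
      · rw [if_neg h3, if_neg (by omega), if_neg (by omega)]
        congr 1
        omega

theorem arr_merge (p s : List ℕ) (A M : ℕ) (f : (ℕ → ℕ) → β) :
    arr (p ++ A :: M :: s) f = arr (p ++ A * M :: s) fun xs => f (spl p.length M xs) := by
  rw [arr_split]
  refine arr_congr fun xs h => ?_
  have h1 := h (p.length + 1)
  rw [aL_getD_app_ge] at h1
  rw [aL_spl_mrg (by simpa using h1)]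

theorem sz_arr_le {f : (ℕ → ℕ) → List Bool} {w : ℕ} (h : ∀ xs, Valid ds xs → (f xs).length ≤ w) :
    sz (arr ds f) ≤ ds.prod * (4 * w + 2) + 1 := by
  have h1 : ∀ a ∈ arr ds f, sz a ≤ 4 * w + 1 := by
    intro a ha
    obtain ⟨xs, hx, rfl⟩ := mem_arr.1 ha
    have h2 : sz (f xs) ≤ (f xs).length * (3 + 1) + 1 := sz_list_le fun a _ => sz_bool a
    have := h xs hx
    omega
  have := sz_list_le h1
  rwa [length_arr] at this

theorem le_sz_arr {f : (ℕ → ℕ) → List Bool} {w : ℕ} (h : ∀ xs, Valid ds xs → w ≤ (f xs).length) :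
    ds.prod * (w + 1) ≤ sz (arr ds f) := by
  have h1 : ∀ a ∈ arr ds f, w ≤ sz a := by
    intro a ha
    obtain ⟨xs, hx, rfl⟩ := mem_arr.1 ha
    exact (h xs hx).trans (length_lt_sz _).le
  rw [← length_arr (ds := ds) f]
  generalize arr ds f = l at h1
  induction l with
  | nil => simp
  | cons a l ih =>
    have h2 := h1 a (by simp)
    have h3 := ih fun b hb => h1 b (by simp [hb])
    rw [List.length_cons, sz_cons]
    nlinarith

end Lists

end Vale.Agent.P338
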