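import Vale.Agent.P338.ArrA

/-! Rows of arrays: cutting an array at one or two digits. -/

namespace Vale.Agent.P338

open Vale.Agent.Lib Vale.Agent.Lib.H23 Enc Function

section Lists

variable {β : Type}

def rows1 (p : List ℕ) (M : ℕ) (t : List ℕ) (f : (ℕ → ℕ) → β) : List (List (List β)) :=
  arr p fun xs => (List.range M).map fun a => arr t fun ys => f (join p.length xs (consF a ys))

def rows2 (p : List ℕ) (A C : ℕ) (t : List ℕ) (f : (ℕ → ℕ) → β) :
    List (List (List (List β))) :=
  arr p fun xs => (List.range A).map fun a => (List.range C).map fun j =>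
    arr t fun ys => f (join p.length xs (consF a (consF j ys)))

theorem arr_rows1 (p : List ℕ) (M : ℕ) (t : List ℕ) (f : (ℕ → ℕ) → β) :
    arr (p ++ M :: t) f = (rows1 p M t f).flatten.flatten := by
  rw [arr_append, rows1, List.flatten_flatten, map_arr]
  simp only [arr, List.flatMap_def]

theorem arr_rows2 (p : List ℕ) (A C : ℕ) (t : List ℕ) (f : (ℕ → ℕ) → β) :
    arr (p ++ A :: C :: t) f = (rows2 p A C t f).flatten.flatten.flatten := by
  rw [arr_append, rows2, List.flatten_flatten (L := arr p _), map_arr, List.flatten_flatten,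
    map_arr]
  simp only [arr, List.flatMap_def, List.flatten_flatten, List.map_map, Function.comp_def]

theorem split_at1 {ds : List ℕ} {i : ℕ} (hi : i < ds.length) :
    ds = ds.take i ++ ds.getD i 1 :: ds.drop (i + 1) := by
  rw [List.getD_eq_getElem _ _ hi, ← List.drop_eq_getElem_cons hi, List.take_append_drop]

theorem split_at2 {ds : List ℕ} {i : ℕ} (hi : i + 1 < ds.length) :
    ds = ds.take i ++ ds.getD i 1 :: ds.getD (i + 1) 1 :: ds.drop (i + 2) := by
  rw [List.getD_eq_getElem _ _ hi, List.getD_eq_getElem _ _ (by omega : i < ds.length),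
    ← List.drop_eq_getElem_cons hi, ← List.drop_eq_getElem_cons (by omega : i < ds.length),
    List.take_append_drop]

theorem set_at {ds : List ℕ} {i : ℕ} (hi : i < ds.length) (M : ℕ) :
    ds.set i M = ds.take i ++ M :: ds.drop (i + 1) := by
  rw [List.set_eq_take_append_cons_drop, if_pos hi]

theorem set_at2 {ds : List ℕ} {i : ℕ} (hi : i + 1 < ds.length) (A C : ℕ) :
    (ds.set i A).set (i + 1) C = ds.take i ++ A :: C :: ds.drop (i + 2) := by
  have h : (ds.take i).length = i := by simp; omega
  rw [set_at (by omega : i < ds.length), List.set_append_right _ _ (by omega), h,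
    Nat.add_sub_cancel_left, List.set_cons_succ, List.drop_eq_getElem_cons hi, List.set_cons_zero]

theorem update_join1 (i a b : ℕ) (xs ys : ℕ → ℕ) :
    update (join i xs (consF a ys)) i b = join i xs (consF b ys) := by
  funext j
  by_cases h : j = i
  · subst h; simp [join, consF]
  · rw [update_of_ne h]
    unfold join
    split_ifs with h1
    · rfl
    · obtain ⟨k, hk⟩ : ∃ k, j - i = k + 1 := ⟨j - i - 1, by omega⟩
      rw [hk]; rfl

theorem join_at (i a : ℕ) (xs ys : ℕ → ℕ) : join i xs (consF a ys) i = a := by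
  simp [join, consF]

theorem swap_join (i a b : ℕ) (xs ys : ℕ → ℕ) :
    join i xs (consF a (consF b ys)) ∘ Equiv.swap i (i + 1) =
      join i xs (consF b (consF a ys)) := by
  funext j
  rw [Function.comp_apply]
  by_cases h : j = i
  · subst h; simp [join, consF]
  by_cases h' : j = i + 1
  · subst h'; simp [join, consF]
  rw [Equiv.swap_apply_of_ne_of_ne h h']
  unfold join
  split_ifs with h1
  · rfl
  · obtain ⟨k, hk⟩ : ∃ k, j - i = k + 2 := ⟨j - i - 2, by omega⟩
    rw [hk]; rfl

theorem Valid.swap {ds : List ℕ} {i : ℕ} (hi : i + 1 < ds.length) {xs : ℕ → ℕ}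
    (h : Valid ((ds.set i (ds.getD (i + 1) 1)).set (i + 1) (ds.getD i 1)) xs) :
    Valid ds (xs ∘ Equiv.swap i (i + 1)) := by
  intro j
  rw [Function.comp_apply]
  have := h (Equiv.swap i (i + 1) j)
  by_cases h1 : j = i
  · subst h1
    simpa [List.getD_eq_getElem?_getD, List.getElem?_set, hi] using this
  by_cases h2 : j = i + 1
  · subst h2
    simpa [List.getD_eq_getElem?_getD, List.getElem?_set, hi, (by omega : i < ds.length)]
      using this
  rw [Equiv.swap_apply_of_ne_of_ne h1 h2] at this ⊢
  simpa [List.getD_eq_getElem?_getD, List.getElem?_set, Ne.symm h1, Ne.symm h2] using this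

theorem length_flatten_of {k : ℕ} {N : List (List β)} (h : ∀ c ∈ N, c.length = k) :
    N.flatten.length = N.length * k := by
  induction N with
  | nil => simp
  | cons c N ih =>
    rw [List.flatten_cons, List.length_append, ih fun c hc => h c (by simp [hc]),
      h c (by simp), List.length_cons]
    ring

theorem getD_pos1 {ds : List ℕ} (h : ∀ d ∈ ds, 0 < d) (i : ℕ) : 0 < ds.getD i 1 := by
  by_cases hi : i < ds.length
  · rw [List.getD_eq_getElem _ _ hi]; exact h _ (List.getElem_mem hi)
  · rw [List.getD_eq_default _ _ (by omega)]; exact Nat.one_pos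

end Lists

variable {G α β γ : Type} [Enc α] [Enc β] [Enc γ] {D : Dom G α}

theorem Lin.unflat {N : G → List (List β)} {k : G → ℕ} (h : Lin D fun g => (N g).flatten)
    (hk : LS D k) (hk0 : ∀ g, 0 < k g) (hN : ∀ g, ∀ c ∈ N g, c.length = k g)
    (hc : Bd (fun g => (N g).flatten.length * Lam (D.S g)) D.B) : Lin D N :=
  (Lin.chunks hk h hk0 hc).congr fun g => (chunks_flatten (hk0 g) _ (hN g)).symm

theorem Lin.unflat' {N : G → List (List β)} {k : G → ℕ} (h : Lin D fun g => (N g).flatten)
    (hk : LS D k) (hk0 : ∀ g, 0 < k g) (hN : ∀ g, ∀ c ∈ N g, c.length = k g)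
    (hc : Bd (fun g => (N g).flatten.length * Lam (D.S g)) D.B) :
    Lin D N ∧ Bd (fun g => (N g).length * Lam (D.S g)) D.B :=
  ⟨h.unflat hk hk0 hN hc, hc.le fun g => Nat.mul_le_mul_right _ (by
    rw [length_flatten_of (hN g)]; exact Nat.le_mul_of_pos_right _ (hk0 g))⟩

theorem Lin.rows1 {p t : G → List ℕ} {M : G → ℕ} {f : G → (ℕ → ℕ) → β}
    (h : Lin D fun g => arr (p g ++ M g :: t g) (f g)) (hM : LS D M) (ht : LS D t)
    (hM0 : ∀ g, 0 < M g) (ht0 : ∀ g, ∀ d ∈ t g, 0 < d)
    (hc : Bd (fun g => (p g ++ M g :: t g).prod * Lam (D.S g)) D.B) :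
    Lin D fun g => rows1 (p g) (M g) (t g) (f g) := by
  have h1 := Lin.unflat' (N := fun g => (P338.rows1 (p g) (M g) (t g) (f g)).flatten)
    (k := fun g => (t g).prod) (h.congr fun g => (arr_rows1 _ _ _ _).symm)
    (LS.comp (f := fun l : List ℕ => l.prod) (by fun_prop) ht)
    (fun g => List.prod_pos (ht0 g)) (fun g c hc => by
      obtain ⟨b, hb, hc⟩ := List.mem_flatten.1 hc
      obtain ⟨xs, -, rfl⟩ := mem_arr.1 hb
      obtain ⟨a, -, rfl⟩ := List.mem_map.1 hc
      exact length_arr _)
    (hc.le fun g => by rw [← arr_rows1, length_arr])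
  exact h1.1.unflat hM hM0 (fun g c hc => by
    obtain ⟨xs, -, rfl⟩ := mem_arr.1 hc
    simp) h1.2

theorem Lin.rows2 {p t : G → List ℕ} {A C : G → ℕ} {f : G → (ℕ → ℕ) → β}
    (h : Lin D fun g => arr (p g ++ A g :: C g :: t g) (f g)) (hA : LS D A) (hC : LS D C)
    (ht : LS D t) (hA0 : ∀ g, 0 < A g) (hC0 : ∀ g, 0 < C g) (ht0 : ∀ g, ∀ d ∈ t g, 0 < d)
    (hc : Bd (fun g => (p g ++ A g :: C g :: t g).prod * Lam (D.S g)) D.B) :
    Lin D fun g => rows2 (p g) (A g) (C g) (t g) (f g) := by
  have h1 := Lin.unflat'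
    (N := fun g => (P338.rows2 (p g) (A g) (C g) (t g) (f g)).flatten.flatten)
    (k := fun g => (t g).prod) (h.congr fun g => (arr_rows2 _ _ _ _ _).symm)
    (LS.comp (f := fun l : List ℕ => l.prod) (by fun_prop) ht)
    (fun g => List.prod_pos (ht0 g)) (fun g c hc => by
      obtain ⟨b, hb, hc⟩ := List.mem_flatten.1 hc
      obtain ⟨b', hb', hb⟩ := List.mem_flatten.1 hb
      obtain ⟨xs, -, rfl⟩ := mem_arr.1 hb'
      obtain ⟨a, -, rfl⟩ := List.mem_map.1 hb
      obtain ⟨j, -, rfl⟩ := List.mem_map.1 hc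
      exact length_arr _)
    (hc.le fun g => by rw [← arr_rows2, length_arr])
  have h2 := Lin.unflat' (N := fun g => (P338.rows2 (p g) (A g) (C g) (t g) (f g)).flatten)
    h1.1 hC hC0 (fun g c hc => by
      obtain ⟨b, hb, hc⟩ := List.mem_flatten.1 hc
      obtain ⟨xs, -, rfl⟩ := mem_arr.1 hb
      obtain ⟨a, -, rfl⟩ := List.mem_map.1 hc
      simp) h1.2
  exact h2.1.unflat hA hA0 (fun g c hc => by
    obtain ⟨xs, -, rfl⟩ := mem_arr.1 hc
    simp) h2.2

variable {ds : G → List ℕ} {f : G → (ℕ → ℕ) → List Bool}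

/-- rearrange the rows below one digit -/
theorem Ar.perm1 (h : Ar D ds f) (i : ℕ) (hi : ∀ g, i < (ds g).length) (φ : G → ℕ → ℕ)
    (hφ : ∀ g x, x < (ds g).getD i 1 → φ g x < (ds g).getD i 1)
    {F : List (List (List Bool)) → List (List (List Bool))} (hF : Lin (D0 _) F)
    (e : ∀ g (r : ℕ → List (List Bool)), F ((List.range ((ds g).getD i 1)).map r) =
      (List.range ((ds g).getD i 1)).map fun x => r (φ g x)) :
    Ar D ds fun g xs => f g (update xs i (φ g (xs i))) := by
  refine ⟨h.hds, h.pos, fun g xs hx => h.fat g _ (hx.update (hφ g _ (hx i))), ?_⟩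
  have h1 := Lin.rows1 (p := fun g => (ds g).take i) (M := fun g => (ds g).getD i 1)
    (t := fun g => (ds g).drop (i + 1)) (f := f)
    (h.lin.congr fun g => by rw [← split_at1 (hi g)])
    (LS.comp (f := fun l : List ℕ => l.getD i 1) (by fun_prop) h.hds)
    (LS.comp (f := fun l : List ℕ => l.drop (i + 1)) (by fun_prop) h.hds)
    (fun g => getD_pos1 (h.pos g) i) (fun g d hd => h.pos g d (List.mem_of_mem_drop hd))
    (h.cnt.le fun g => by rw [← split_at1 (hi g)])
  refine (Lin.map hF h1).flatten.flatten.congr fun g => ?_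
  have hl : ((ds g).take i).length = i := by have := hi g; simp; omega
  conv_lhs => rw [split_at1 (hi g), arr_rows1]
  simp only [rows1, map_arr, e, hl, join_at, update_join1]

/-- exchange two neighbouring digits -/
theorem Ar.tr_of (h : Ar D ds f) (i : ℕ) (hi : ∀ g, i + 1 < (ds g).length) {A C : G → ℕ}
    (hA : ∀ g, (ds g).getD i 1 = A g) (hC : ∀ g, (ds g).getD (i + 1) 1 = C g)
    {F : List (List (List (List Bool))) → List (List (List (List Bool)))} (hF : Lin (D0 _) F)
    (e : ∀ g (u : ℕ → ℕ → List (List Bool)),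
      F ((List.range (A g)).map fun a => (List.range (C g)).map fun j => u a j) =
        (List.range (C g)).map fun j => (List.range (A g)).map fun a => u a j) :
    Ar D (fun g => ((ds g).set i (C g)).set (i + 1) (A g)) fun g xs =>
      f g (xs ∘ Equiv.swap i (i + 1)) := by
  obtain rfl : A = fun g => (ds g).getD i 1 := funext fun g => (hA g).symm
  obtain rfl : C = fun g => (ds g).getD (i + 1) 1 := funext fun g => (hC g).symm
  refine ⟨LS.comp (f := fun l : List ℕ => (l.set i (l.getD (i + 1) 1)).set (i + 1) (l.getD i 1))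
    (by fun_prop) h.hds, fun g d hd => ?_, fun g xs hx => h.fat g _ (hx.swap (hi g)), ?_⟩
  · rcases List.mem_or_eq_of_mem_set hd with hd | rfl
    · rcases List.mem_or_eq_of_mem_set hd with hd | rfl
      · exact h.pos g d hd
      · exact getD_pos1 (h.pos g) _
    · exact getD_pos1 (h.pos g) _
  have h1 := Lin.rows2 (p := fun g => (ds g).take i) (A := fun g => (ds g).getD i 1)
    (C := fun g => (ds g).getD (i + 1) 1) (t := fun g => (ds g).drop (i + 2)) (f := f)
    (h.lin.congr fun g => by rw [← split_at2 (hi g)])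
    (LS.comp (f := fun l : List ℕ => l.getD i 1) (by fun_prop) h.hds)
    (LS.comp (f := fun l : List ℕ => l.getD (i + 1) 1) (by fun_prop) h.hds)
    (LS.comp (f := fun l : List ℕ => l.drop (i + 2)) (by fun_prop) h.hds)
    (fun g => getD_pos1 (h.pos g) i) (fun g => getD_pos1 (h.pos g) _)
    (fun g d hd => h.pos g d (List.mem_of_mem_drop hd))
    (h.cnt.le fun g => by rw [← split_at2 (hi g)])
  refine (Lin.map hF h1).flatten.flatten.flatten.congr fun g => ?_
  have hl : ((ds g).take i).length = i := by have := hi g; simp; omega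
  rw [set_at2 (hi g), arr_rows2]
  simp only [rows2, map_arr, e, hl, swap_join]

theorem Lin.listC {ι : Type} (l : List ι) {F : ι → G → β} (h : ∀ j ∈ l, Lin D (F j)) :
    Lin D fun g => l.map fun j => F j g := by
  induction l with
  | nil => exact Lin.const []
  | cons j l ih => exact (h j (by simp)).cons (ih fun k hk => h k (by simp [hk]))

/-- zip the lists with the numbers in `l` -/
def trC (l : List ℕ) (b : List (List β)) : List (List β) :=
  match l with
  | [] => (b.getD 0 []).map fun _ => []
  | j :: l => List.zipWith List.cons (b.getD j []) (trC l b)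

theorem Lin.trC (l : List ℕ) : Lin (D0 (List (List β))) (trC l) := by
  induction l with
  | nil =>
    exact Lin.map (F := fun _ : β => ([] : List β)) (Lin.const _)
      (Lin.getDC 0 Lin.id (Lin.const []))
  | cons j l ih =>
    exact Lin.zipWith (F := List.cons) (by fun_prop) (Lin.getDC j Lin.id (Lin.const [])) ih

omit [Enc β] in
theorem trC_eq {ι : Type} {c : ℕ} (hc : 0 < c) (m : List ι) (u : ℕ → ι → β) (l : List ℕ)
    (hl : ∀ j ∈ l, j < c) :
    trC l ((List.range c).map fun j => m.map (u j)) = m.map fun a => l.map fun j => u j a := by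
  induction l with
  | nil => simp [trC, List.getD_eq_getElem?_getD, hc, Function.comp_def]
  | cons j l ih =>
    have hj := hl j (by simp)
    simp only [trC, ih fun k hk => hl k (by simp [hk])]
    simp [List.getD_eq_getElem?_getD, hj, List.zipWith_map]

end Vale.Agent.P338
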