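import Vale.Agent.P338.CLN

namespace Vale.Agent.P338

open Vale.Agent.Lib Vale.Agent.Lib.H23 Enc Function

variable {G α : Type} [Enc α] {D : Dom G α} {f : G → (ℕ → ℕ) → List Bool}

theorem clP_body {Ψ : ℕ → ℕ → ℕ → ℕ} (h0 : ∀ t A, sw A ≤ Ψ t 0 A)
    (h1 : ∀ t n A, n % 361 ≠ 0 → Ψ t (n - 1) A + sw A ≤ Ψ t n A)
    (h2 : ∀ t n A, 0 < n → n % 361 = 0 →
      W * sw A + (361 * W - sav) * Ψ t (n / 361) (t * (n / 361)) ≤ W * Ψ t n A) :
    (clP Ψ).Body fun _ => True := by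
  refine RecA.Body.cond (fun l : List ℕ => eqb (l.length % 361) 0) (by fun_prop) ?_ ?_
  · refine RecA.Body.cond (fun l : List ℕ => eqb l.length 0) (by fun_prop) ?_ ?_
    · exact (clP_zero h0).mono fun j hj => by simpa [clP] using hj.2
    · refine (clP_node h2).mono fun j hj => ⟨?_, by simpa [clP] using hj.1.2⟩
      have : j.qs.length ≠ 0 := by simpa [clP] using hj.2
      omega
  · exact (clP_step h1).mono fun j hj => by simpa [clP] using hj.2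

theorem clP_small (Ψ : ℕ → ℕ → ℕ → ℕ) : ∃ c, ∀ j, (∀ d ∈ (clP Ψ).sh j, 0 < d) →
    sz ((clP Ψ).sh j, (clP Ψ).pr j) ≤ (Nat.size ((clP Ψ).sh j).prod + 2) ^ c := by
  refine ⟨6, fun j hp => ?_⟩
  obtain ⟨n, hn⟩ : ∃ n, n = Nat.size ((clP Ψ).sh j).prod := ⟨_, rfl⟩
  rw [← hn]
  have h0 : ((clP Ψ).sh j).prod < 2 ^ n := by rw [hn]; exact Nat.lt_size_self _
  have h1 : ∀ d ∈ (clP Ψ).sh j, d < 2 ^ n := fun d hd =>
    (Nat.le_of_dvd (List.prod_pos hp) (List.dvd_prod hd)).trans_lt h0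
  have hM : j.M < 2 ^ n := h1 _ (by simp [clP])
  have hM0 : 0 < j.M := hp _ (by simp [clP])
  have h2 : sz ((clP Ψ).sh j) ≤ ((clP Ψ).sh j).length * (4 * n + 1 + 1) + 1 :=
    sz_list_le fun d hd => sz_nat_le (h1 d hd)
  have h3 : sz j.qs ≤ j.qs.length * (4 * n + 1 + 1) + 1 :=
    sz_list_le fun q hq => sz_nat_le ((Nat.le_of_dvd hM0 (j.uni q hq).1).trans_lt hM)
  have h4 : 2 ^ j.qs.length ≤ j.qs.prod :=
    List.pow_card_le_prod _ _ fun q hq => (j.hq q hq).2.1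
  have h5 : j.qs.length < n := (Nat.pow_lt_pow_iff_right (by norm_num)).1
    ((h4.trans (Nat.le_of_dvd hM0 j.uniP.1)).trans_lt hM)
  have h6 : ((clP Ψ).sh j).length = 6 := rfl
  have h7 : j.qs.length * (4 * n + 1 + 1) ≤ n * (4 * n + 1 + 1) := Nat.mul_le_mul_right _ h5.le
  have h8 : 16 ≤ (n + 2) ^ 4 :=
    le_trans (by norm_num) (Nat.pow_le_pow_left (show 2 ≤ n + 2 by omega) 4)
  have h9 : 16 * (n + 2) ^ 2 ≤ (n + 2) ^ 6 := by
    rw [show (n + 2) ^ 6 = (n + 2) ^ 4 * (n + 2) ^ 2 by ring]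
    exact Nat.mul_le_mul_right _ h8
  rw [h6] at h2
  rw [sz_pair]
  show sz ((clP Ψ).sh j) + sz j.qs + 1 ≤ _
  nlinarith

/-- The product of the two point layers of all moduli, in time `(log M) ^ γ` times the volume. -/
theorem Ar.cl {j : G → ClJ}
    (h : Ar D (fun g => [(j g).O, (j g).M, (j g).Mid, (j g).M, (j g).R, (j g).T]) f)
    (hq : LS D fun g => (j g).qs) (hL : Lin D fun g => (⟨(j g).L⟩ : Un))
    (hw : ∀ g xs, Valid [(j g).O, (j g).M, (j g).Mid, (j g).M, (j g).R, (j g).T] xs →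
      (f g xs).length = 2 * (j g).L + 2) (ht : ∀ g, 1 ≤ (j g).t)
    (hB : Bd (fun g => (sw (j g).A + (j g).t * sw (j g).qs.length) *
      ([(j g).O, (j g).M, (j g).Mid, (j g).M, (j g).R, (j g).T].prod * (2 * (j g).L + 3))) D.B) :
    ∃ f' : G → (ℕ → ℕ) → List Bool,
      Ar D (fun g => [(j g).O, (j g).M, (j g).Mid, (j g).M, (j g).R, (j g).T]) f' ∧
      ∀ g, (∀ xs, Valid [(j g).O, (j g).M, (j g).Mid, (j g).M, (j g).R, (j g).T] xs →
        (f' g xs).length = 2 * (j g).L + 2) ∧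
        ∀ cs : ℕ → ℕ, (∀ q ∈ (j g).qs, IsNeg (j g).M q (cs q)) → ∀ xs,
          Valid [(j g).O, (j g).M, (j g).Mid, (j g).M, (j g).R, (j g).T] xs →
          Good (j g).qs (xs 1) → cv (j g).L (f' g xs) =
            lay (j g).L ((j g).qs.map fun q => sig (j g).M (cs q)) (f g) xs := by
  obtain ⟨Ψ, C, h0, h1, h2, h3⟩ := pot2
  obtain ⟨f', k1, k2⟩ := (clP Ψ).run (fun j => by show j.L ≤ 2 * j.L + 2; omega)
    (fun j => sw_pos _) (clP_small Ψ) (clP_body h0 h1 h2) (D := D) (j := j) (f := f)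
    ⟨h, hq, hL, hw⟩ ((hB.cmul C).le fun g => by
      rw [← mul_assoc]
      exact Nat.mul_le_mul_right _ (h3 _ _ _ (ht g)))
  exact ⟨f', k1, k2⟩

end Vale.Agent.P338
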