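import Vale.Agent.P338.ParA
import Vale.Agent.P338.CL
import Vale.Agent.P338.Apx

/-! Availability of the parameters in a domain. -/

namespace Vale.Agent.P338

open Vale.Agent.Lib Vale.Agent.Lib.H23 Enc Function

noncomputable def Pm.tup (m : Pm) : (List ℕ × Un × Un × Un × ℕ) × Un × Un := (m.sm, ⟨m.L⟩, ⟨m.b0⟩)

def Pm.sq (m : Pm) : List ℕ := [m.B, m.B, m.T]

def Pm.big (m : Pm) : List ℕ := [2, m.B', 1, m.B', m.B, m.T]

/-- the cells `f` approximate `2 ^ E * Z` -/
def ARa (L : ℕ) (ds : List ℕ) (E : ℕ) (ε X : ℝ) (Z : (ℕ → ℕ) → ℂ) (f : (ℕ → ℕ) → List Bool) :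
    Prop :=
  ∀ xs, Valid ds xs → (f xs).length = 2 * L + 2 ∧ AR L E ε (Z xs) (cv L (f xs)) ∧ ‖Z xs‖ ≤ X

structure Av {G α : Type} [Enc α] (D : Dom G α) (m : G → Pm) : Prop where
  ok : ∀ g, (m g).OK
  S : ∀ g, D.S g = (m g).S
  tup : Lin D fun g => (m g).tup

variable {G α : Type} [Enc α] {D : Dom G α} {m : G → Pm}

theorem Av.over (h : Av D m) {G1 α1 : Type} [Enc α1] {D1 : Dom G1 α1} {θ : G1 → G} {b : G1 → ℕ}
    (hD : Over D D1 θ b) (ht : Lin D1 fun r => (m (θ r)).tup) : Av D1 fun r => m (θ r) :=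
  ⟨fun r => h.ok _, fun r => (hD.S r).trans (h.S _), ht⟩

theorem small_sm (ok : ∀ g, (m g).OK) (hS : ∀ g, D.S g = (m g).S) :
    Small D fun g => (m g).sm := by
  have hq : Small D fun g => (m g).qs := by
    refine ⟨4, fun g => ?_⟩
    have h := ok g
    have h1 : ∀ q ∈ (m g).qs, sz q ≤ 4 * (m g).S + 1 := fun q hq => by
      refine sz_nat_le ?_
      have h2 := (h.hq q hq).2.2.2
      have h3 := h.hu
      have h4 := h.mods.three q hq
      have h5 : (m g).S < 2 ^ (m g).S := Nat.lt_two_pow_self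
      nlinarith
    have h2 := sz_list_le h1
    have h3 : (m g).qs.length ≤ (m g).S := h.hr.trans h.hS
    have h4 := Nat.mul_le_mul_right (4 * (m g).S + 1 + 1) h3
    rw [hS]
    have h5 : ((m g).S + 2) ^ 4 = ((m g).S + 2) ^ 2 * ((m g).S + 2) ^ 2 := by ring
    have h6 : 4 ≤ ((m g).S + 2) ^ 2 := by nlinarith
    have h7 := Nat.mul_le_mul_right (((m g).S + 2) ^ 2) h6
    nlinarith
  have hT : Small D fun g => (m g).T' := by
    refine Small.nat 1 fun g => ?_
    have h := ok g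
    have h1 := h.hn.2
    have h2 : (m g).n < 2 ^ (m g).S :=
      (Nat.lt_size_self _).trans_le (Nat.pow_le_pow_right (by norm_num) h.hS)
    have h3 : 0 < (m g).b0 * (m g).β * (m g).β := by
      have := h.hβ
      have : 0 < (m g).b0 := Lam_pos _
      positivity
    have h4 := Nat.le_mul_of_pos_left (m g).T' h3
    rw [hS, one_mul, pow_succ]
    nlinarith
  exact hq.pair ((Small.un 1 fun g => by have := (ok g).ht.2; rw [hS]; omega).pair
    ((Small.un 1 fun g => by have := (ok g).hu; rw [hS]; omega).pair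
      ((Small.un 1 fun g => by rw [hS]; omega).pair hT)))

theorem Av.intro (ok : ∀ g, (m g).OK) (hS : ∀ g, D.S g = (m g).S) (h : Lin D fun g => (m g).sm)
    (hB : Bd (fun g => (m g).n) D.B) : Av D m := by
  have h1 : LS D fun g => (m g).sm := ⟨h, small_sm ok hS⟩
  have h2 : LS D fun g => (m g).b0 :=
    (LS.comp (f := fun x : List ℕ × Un × Un × Un × ℕ => Lam x.2.2.2.1.n) (by fun_prop) h1).congr
      fun _ => rfl
  have h3 : LS D fun g => (m g).L :=
    (LS.comp (f := fun x : (List ℕ × Un × Un × Un × ℕ) × ℕ =>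
      18 * (cP * (x.1.2.1.n + 1)) * x.2 + 3 * x.2) (by fun_prop) (h1.pair h2)).congr fun _ => rfl
  have h4 : ∀ g, (m g).L * Lam (D.S g) ≤ (m g).n := fun g => by
    rw [hS]
    exact (Nat.mul_le_mul_right _ (by omega)).trans (ok g).hL3
  have h5 : ∀ g, (m g).b0 * Lam (D.S g) ≤ (m g).n := fun g =>
    (Nat.mul_le_mul_right _ (by unfold Pm.L; omega)).trans (h4 g)
  exact ⟨ok, hS, h.pair ((Lin.un h3 (hB.le h4)).pair (Lin.un h2 (hB.le h5)))⟩

theorem sz_tup : ∃ K, ∀ m : Pm, m.OK → sz m.tup ≤ K * (m.L + 1) := by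
  let D : Dom {m : Pm // m.OK} Unit :=
    { inp := fun _ => ()
      env := fun _ _ => True
      B := fun m => Lam m.1.S
      S := fun m => m.1.S
      hB := Bd.const _ fun _ => Lam_pos _
      hL := Bd.refl _
      inh := fun _ => ⟨Prg.skip, trivial⟩ }
  obtain ⟨K, hK⟩ := (small_sm (D := D) (m := fun m => m.1) (fun m => m.2) fun _ => rfl).bd
  refine ⟨K + 4, fun m h => ?_⟩
  have h1 : sz m.sm ≤ K * m.b0 := hK ⟨m, h⟩
  have h2 : m.b0 ≤ m.L := by unfold Pm.L; omega
  have h3 := Nat.mul_le_mul_left K h2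
  rw [Pm.tup, sz_pair, sz_pair (⟨m.L⟩ : Un), sz_un, sz_un]
  dsimp only
  nlinarith

theorem Pm.OK.fat {m : Pm} (h : m.OK) : Lam m.S ≤ 2 * m.L + 2 := by
  have : m.b0 ≤ m.L := by unfold Pm.L; omega
  unfold Pm.b0 at this
  omega

theorem Pm.OK.two_le {m : Pm} (h : m.OK) : 2 ≤ m.L := by
  have h1 : m.b0 ≤ m.L := by unfold Pm.L; omega
  have h2 := le_Lam m.S
  unfold Pm.b0 at h1
  omega

theorem Pm.OK.β_eq {m : Pm} (h : m.OK) : 2 * m.β = m.B + 1 := by
  have h1 : Odd m.qs.prod :=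
    List.prod_induction (fun x => Odd x) (fun _ _ => Odd.mul) odd_one h.mods.odd
  have h2 : Odd m.B := h1.pow
  obtain ⟨k, hk⟩ := h2
  unfold Pm.β
  omega

theorem Pm.OK.rp {m : Pm} (h : m.OK) : m.r + m.p = 3 * m.b0 ∧ 1 ≤ m.p := by
  have := h.hp
  unfold Pm.p
  omega

theorem Pm.OK.sq_pos {m : Pm} (h : m.OK) : ∀ d ∈ m.sq, 0 < d := by
  have h1 : 0 < m.B := pow_pos h.mods.pos 2
  have h2 : 0 < m.T := by have := h.hT'; unfold Pm.T; omega
  intro d hd
  simp only [Pm.sq, List.mem_cons, List.not_mem_nil, or_false] at hd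
  rcases hd with rfl | rfl | rfl <;> assumption

theorem Pm.OK.big_pos {m : Pm} (h : m.OK) : ∀ d ∈ m.big, 0 < d := by
  have h0 : 0 < m.B' := h.mods.pos
  have h1 : 0 < m.B := pow_pos h.mods.pos 2
  have h2 : 0 < m.T := by have := h.hT'; unfold Pm.T; omega
  intro d hd
  simp only [Pm.big, List.mem_cons, List.not_mem_nil, or_false] at hd
  rcases hd with rfl | rfl | rfl | rfl | rfl | rfl
  exacts [two_pos, h0, one_pos, h0, h1, h2]

theorem Pm.prod_sq (m : Pm) : m.sq.prod = m.N := by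
  simp [Pm.sq, Pm.N]

theorem Pm.prod_big (m : Pm) : m.big.prod = 2 * m.N := by
  simp only [Pm.big, Pm.N, Pm.B, Pm.B', List.prod_cons, List.prod_nil]
  ring

theorem Av.sm (h : Av D m) : LS D fun g => (m g).sm := ⟨h.tup.fst, small_sm h.ok h.S⟩

theorem Av.qs (h : Av D m) : LS D fun g => (m g).qs := by
  exact (LS.comp (f := fun x : List ℕ × Un × Un × Un × ℕ => x.1) (by fun_prop) h.sm).congr
    fun _ => rfl

theorem Av.t (h : Av D m) : LS D fun g => (⟨(m g).t⟩ : Un) := by
  exact (LS.comp (f := fun x : List ℕ × Un × Un × Un × ℕ => x.2.1) (by fun_prop) h.sm).congr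
    fun _ => rfl

theorem Av.u (h : Av D m) : LS D fun g => (⟨(m g).u⟩ : Un) := by
  exact (LS.comp (f := fun x : List ℕ × Un × Un × Un × ℕ => x.2.2.1) (by fun_prop) h.sm).congr
    fun _ => rfl

theorem Av.r (h : Av D m) : LS D fun g => (⟨(m g).r⟩ : Un) := by
  exact (LS.comp (f := fun x : List ℕ × Un × Un × Un × ℕ => unLen x.1) (by fun_prop) h.sm).congr
    fun _ => rfl

theorem Av.T' (h : Av D m) : LS D fun g => (m g).T' := by
  exact (LS.comp (f := fun x : List ℕ × Un × Un × Un × ℕ => x.2.2.2.2) (by fun_prop) h.sm).congr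
    fun _ => rfl

theorem Av.T (h : Av D m) : LS D fun g => (m g).T := by
  exact (LS.comp (f := fun x : List ℕ × Un × Un × Un × ℕ => 2 * x.2.2.2.2) (by fun_prop) h.sm).congr
    fun _ => rfl

theorem Av.B' (h : Av D m) : LS D fun g => (m g).B' := by
  exact (LS.comp (f := fun x : List ℕ × Un × Un × Un × ℕ => x.1.prod) (by fun_prop) h.sm).congr
    fun _ => rfl

theorem Av.B (h : Av D m) : LS D fun g => (m g).B := by
  exact (LS.comp (f := fun x : ℕ => x * x) (by fun_prop) h.B').congr fun _ => sq _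

theorem Av.β (h : Av D m) : LS D fun g => (m g).β := by
  exact (LS.comp (f := fun x : ℕ => (x + 1) / 2) (by fun_prop) h.B).congr fun _ => rfl

theorem Av.P (h : Av D m) : LS D fun g => (m g).P := by
  exact (LS.comp (f := fun x : List ℕ × Un × Un × Un × ℕ => cP * (x.2.1.n + 1)) (by fun_prop) h.sm).congr
    fun _ => rfl

theorem Av.sq (h : Av D m) : LS D fun g => (m g).sq := by
  exact (LS.comp (f := fun x : ℕ × ℕ => [x.1, x.1, x.2]) (by fun_prop) (h.B.pair h.T)).congr
    fun _ => rfl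

theorem Av.big (h : Av D m) : LS D fun g => (m g).big := by
  exact (LS.comp (f := fun x : ℕ × ℕ × ℕ => [2, x.1, 1, x.1, x.2.1, x.2.2]) (by fun_prop)
    (h.B'.pair (h.B.pair h.T))).congr fun _ => rfl

theorem Av.L (h : Av D m) : Lin D fun g => (⟨(m g).L⟩ : Un) := h.tup.snd.fst

theorem Av.b0 (h : Av D m) : Lin D fun g => (⟨(m g).b0⟩ : Un) := h.tup.snd.snd

theorem Av.w (h : Av D m) : Lin D fun g => (⟨2 * (m g).L + 2⟩ : Un) := by
  exact (h.L.unAdd (h.L.unAdd (Lin.const ⟨2⟩))).congr fun g => by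
    simp only [unAdd, Un.mk.injEq]; omega

theorem Av.p (h : Av D m) : Lin D fun g => (⟨(m g).p⟩ : Un) := by
  exact ((h.b0.unAdd (h.b0.unAdd h.b0)).unL.dropU h.r.1.unL).ofL fun g => by
    simp only [unAdd, Pm.p, List.length_drop, List.length_replicate]; omega

theorem Av.E (h : Av D m) : Lin D fun g => (⟨(m g).E⟩ : Un) := by
  exact (h.L.unL.dropU (h.b0.unAdd (h.b0.unAdd h.b0)).unL).ofL fun g => by
    simp only [unAdd, Pm.L, List.length_drop, List.length_replicate]; omega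

theorem sz_pre_le {p : List ℕ} {xs : ℕ → ℕ} (h : Valid p xs) :
    sz (pre p.length xs) ≤ 5 * sz p := by
  induction p generalizing xs with
  | nil => simp [pre]
  | cons d p ih =>
    obtain ⟨h0, h1⟩ := valid_cons.1 h
    have h2 := ih h1
    have h3 := sz_nat_le (h0.trans (lt_two_pow_sz d))
    have e : pre (d :: p).length xs = xs 0 :: pre p.length fun i => xs (i + 1) := by
      simp [pre, List.range_succ_eq_map]
    rw [e, sz_cons, sz_cons]
    omega

/-- `Lin.onBlocks` with a relational specification -/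
theorem Lin.onBlocksE {β γ π : Type} [Enc β] [Enc γ] [Enc π] [Inhabited γ]
    {p s s' : G → List ℕ}
    {f : G → (ℕ → ℕ) → β}
    (h : Lin D fun g => arr (p g ++ s g) (f g)) (hp : LS D p) (hs : LS D s)
    (hs0 : ∀ g, ∀ d ∈ s g, 0 < d) (hc : Bd (fun g => (p g ++ s g).prod * Lam (D.S g)) D.B)
    {q : G → π} (hq : Lin D q) (b : G → ℕ)
    (hb : ∃ K, ∀ g xs, Valid (p g) xs → sz (q g) +
      sz (arr (s g) fun ys => f g (join (p g).length xs ys)) + Lam (D.S g) ≤ K * b g)
    (hB : Bd (fun g => (p g).prod * b g) D.B) (Pr : G → (ℕ → ℕ) → (ℕ → ℕ) → γ → Prop)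
    (hf : ∀ (G1 α1 : Type) [Enc α1] (D1 : Dom G1 α1) (θ : G1 → G) (xs : G1 → ℕ → ℕ),
      Over D D1 θ (fun r => b (θ r)) → (∀ r, Valid (p (θ r)) (xs r)) →
      Lin D1 (fun r => q (θ r)) → LS D1 (fun r => pre (p (θ r)).length (xs r)) →
      Lin D1 (fun r => arr (s (θ r)) fun ys => f (θ r) (join (p (θ r)).length (xs r) ys)) →
      ∃ o : G1 → (ℕ → ℕ) → γ, Lin D1 (fun r => arr (s' (θ r)) (o r)) ∧
        ∀ r ys, Valid (s' (θ r)) ys → Pr (θ r) (xs r) ys (o r ys)) :
    ∃ out : G → (ℕ → ℕ) → γ, Lin D (fun g => arr (p g ++ s' g) (out g)) ∧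
      ∀ g xs ys, Valid (p g) xs → Valid (s' g) ys →
        Pr g xs ys (out g (join (p g).length xs ys)) := by
  classical
  obtain ⟨K, hK⟩ := hb
  obtain ⟨K', hK'⟩ := hp.2.bd
  have hpre : Small (D.res fun r : {x : G × (ℕ → ℕ) // Valid (p x.1) x.2} => r.1.1)
      fun r => pre (p r.1.1).length r.1.2 := by
    obtain ⟨k, hk⟩ := hp.2
    refine ⟨k + 3, fun r => (sz_pre_le r.2).trans ?_⟩
    have h1 := hk r.1.1
    have h2 : 8 ≤ (D.S r.1.1 + 2) ^ 3 :=
      le_trans (by norm_num) (Nat.pow_le_pow_left (show 2 ≤ D.S r.1.1 + 2 by omega) 3)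
    show _ ≤ (D.S r.1.1 + 2) ^ (k + 3)
    rw [pow_add]
    nlinarith
  let D1 : Dom {x : G × (ℕ → ℕ) // Valid (p x.1) x.2} (π × List ℕ × List β) :=
    D.sub (fun r => r.1.1) (fun r => (q r.1.1, pre (p r.1.1).length r.1.2,
      arr (s r.1.1) fun ys => f r.1.1 (join (p r.1.1).length r.1.2 ys))) (fun r => b r.1.1)
      ⟨3 * K + 5 * K' * K, fun r => by
        have h1 := hK r.1.1 r.1.2 r.2
        have h2 := sz_pre_le r.2
        have h3 : sz (p r.1.1) ≤ K' * Lam (D.S r.1.1) := hK' r.1.1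
        have h4 := le_Lam (D.S r.1.1)
        have h5 : K' * Lam (D.S r.1.1) ≤ K' * (K * b r.1.1) := Nat.mul_le_mul_left _ (by omega)
        dsimp only
        rw [sz_pair, sz_pair]
        nlinarith⟩
      ⟨K, fun r => by have h1 := hK r.1.1 r.1.2 r.2; dsimp only; omega⟩
  have k0 : Lin D1 D1.inp := Lin.inp
  obtain ⟨o, ho, hP⟩ := hf _ _ D1 (fun r => r.1.1) (fun r => r.1.2)
    ⟨fun _ _ he => he, fun _ => rfl, fun _ => rfl⟩ (fun r => r.2) k0.fst ⟨k0.snd.fst, hpre⟩
    k0.snd.snd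
  let out : G → (ℕ → ℕ) → γ := fun g zs =>
    if h : Valid (p g) (join (p g).length zs fun _ => 0) then
      o ⟨(g, join (p g).length zs fun _ => 0), h⟩ fun j => zs (j + (p g).length)
    else default
  have hout : ∀ g xs ys (hx : Valid (p g) xs),
      out g (join (p g).length xs ys) = o ⟨(g, xs), hx⟩ ys := by
    intro g xs ys hx
    have e1 : (join (p g).length (join (p g).length xs ys) fun _ => 0) = xs := by
      funext j
      by_cases hj : j < (p g).length
      · simp [join, hj]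
      · have := hx j
        rw [List.getD_eq_default _ _ (by omega)] at this
        simp only [join, if_neg hj]
        omega
    have e2 : (fun j => join (p g).length xs ys (j + (p g).length)) = ys := by
      funext j; simp [join]
    simp only [out, e1, e2, dif_pos hx]
  refine ⟨out, h.onBlocks hp hs hs0 hc hq out b ⟨K, hK⟩ hB ?_, fun g xs ys hx hy => ?_⟩
  · intro G2 α2 _ D2 θ xs q1 xl x hO hv e1 e2 e3 k1 k2 k3
    refine (Lin.seq (D' := D1) (fun r => ⟨(θ r, xs r), hv r⟩)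
      ((k1.pair (k2.1.pair k3)).congr fun r => by rw [e1, e2, e3]; rfl) ho
      (fun r e he => hO.env r e he) (hO.bd (Bd.refl _))).congr fun r => ?_
    simp only [hout _ _ _ (hv r)]
  · rw [hout g xs ys hx]
    exact hP ⟨(g, xs), hx⟩ ys hy

theorem Valid.unjoin {p s : List ℕ} {zs : ℕ → ℕ} (h : Valid (p ++ s) zs) :
    ∃ xs ys, Valid p xs ∧ Valid s ys ∧ zs = P338.join p.length xs ys := by
  refine ⟨P338.join p.length zs fun _ => 0, fun j => zs (j + p.length), fun j => ?_, fun j => ?_, ?_⟩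
  · by_cases hj : j < p.length
    · have := h j
      rw [aL_getD_app_lt hj] at this
      simpa [P338.join, hj] using this
    · rw [List.getD_eq_default _ _ (by omega)]
      simp [P338.join, hj]
  · have := h (p.length + j)
    rw [aL_getD_app_ge, add_comm] at this
    exact this
  · funext j
    by_cases hj : j < p.length
    · simp [P338.join, hj]
    · simp only [P338.join, if_neg hj]
      congr 1
      omega

end Vale.Agent.P338
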