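import Vale.Agent.P338.CellB

/-! Linear time arithmetic on bit lists and on residues modulo `2 ^ (2 L) + 1`. -/

namespace Vale.Agent.P338

open Vale.Agent.Lib Vale.Agent.Lib.H23 Enc Finset

variable {G α : Type} [Enc α] {D : Dom G α}

theorem kron_length_lt_sz (x : List Bool) : x.length < sz x := by
  have := sum_sz_le x
  omega

theorem kron_sz_le (x : List Bool) : sz x ≤ 4 * x.length + 1 := by
  induction x with
  | nil => simp
  | cons b x ih =>
    have := sz_bool b
    rw [sz_cons, List.length_cons]
    omega

theorem kron_budget {n w : ℕ} {f : ℕ → List Bool} (h : ∀ i < n, w ≤ (f i).length) :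
    n * w ≤ sz ((List.range n).map f) := by
  induction n with
  | zero => simp
  | succ n ih =>
    have h1 := ih fun i hi => h i (by omega)
    have h2 := sz_append ((List.range n).map f) [f n]
    have h3 := kron_length_lt_sz (f n)
    have h4 := h n (by omega)
    rw [List.range_succ, List.map_append, List.map_singleton, Nat.succ_mul]
    rw [sz_cons, sz_nil] at h2
    omega

theorem kron_ev_succ (s n : ℕ) (f : ℕ → ℕ) :
    ev s (n + 1) f = f 0 + 2 ^ s * ev s n fun i => f (i + 1) := by
  unfold ev
  rw [Finset.sum_range_succ', Finset.mul_sum, add_comm]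
  simp only [mul_zero, pow_zero, mul_one]
  congr 1
  exact Finset.sum_congr rfl fun i _ => by ring

theorem kron_digit (s : ℕ) : ∀ (c n : ℕ) (f : ℕ → ℕ), c < n → (∀ i, f i < 2 ^ s) →
    ev s n f / 2 ^ (s * c) % 2 ^ s = f c := by
  intro c
  induction c with
  | zero =>
    intro n f hn hf
    obtain ⟨n, rfl⟩ : ∃ k, n = k + 1 := ⟨n - 1, by omega⟩
    rw [kron_ev_succ, mul_zero, pow_zero, Nat.div_one, Nat.add_mul_mod_self_left,
      Nat.mod_eq_of_lt (hf 0)]
  | succ c ih =>
    intro n f hn hf
    obtain ⟨n, rfl⟩ : ∃ k, n = k + 1 := ⟨n - 1, by omega⟩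
    rw [kron_ev_succ, Nat.mul_succ, add_comm (s * c) s, pow_add, ← Nat.div_div_eq_div_mul,
      Nat.add_mul_div_left _ _ (by positivity), Nat.div_eq_of_lt (hf 0), zero_add]
    exact ih n (fun i => f (i + 1)) (by omega) fun i => hf _

theorem kron_grp {s : ℕ} (hs : 0 < s) : ∀ (n : ℕ) (P : List Bool), s * n ≤ P.length →
    grp ((List.replicate n (mks s)).flatten.zip P) =
      (List.range n).map fun c => (P.drop (s * c)).take s := by
  intro n
  induction n with
  | zero => intro P _; rfl
  | succ n ih =>
    intro P hP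
    rw [Nat.mul_succ] at hP
    have h1 : (P.take s).length = s := by
      rw [List.length_take]
      omega
    have h2 : P.take s ≠ [] := by
      intro h
      rw [h] at h1
      simp at h1
      omega
    have h3 := grp_block (P.take s) h2 ((List.replicate n (mks s)).flatten.zip (P.drop s))
    rw [h1] at h3
    rw [List.replicate_succ, List.flatten_cons]
    conv_lhs => rw [← List.take_append_drop s P]
    rw [List.zip_append (by rw [length_mks hs, h1]), h3,
      ih _ (by rw [List.length_drop]; omega), List.range_succ_eq_map, List.map_cons, List.map_map]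
    congr 1
    refine List.map_congr_left fun c _ => ?_
    simp only [Function.comp, List.drop_drop, Nat.succ_eq_add_one]
    rw [Nat.mul_succ, add_comm]

theorem kron_length (s n : ℕ) (a : ℕ → List Bool) :
    ((List.range n).map fun i => fit s (a i)).flatten.length = s * n := by
  induction n with
  | zero => simp
  | succ n ih =>
    rw [List.range_succ, List.map_append, List.flatten_append, List.length_append, ih]
    simp [length_fit, Nat.mul_succ]

theorem kron_val {L T : ℕ} {a b : ℕ → List Bool} (h2 : 2 ≤ L) (hT : T ≤ 2 ^ (2 * L - 4))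
    (hl : ∀ i < T, (a i).length = 2 * L + 2 ∧ (b i).length = 2 * L + 2) {c : ℕ} (hc : c < T) :
    valL (((mulL ((List.range T).map fun i => fit (6 * L) (a i)).flatten
      ((List.range T).map fun i => fit (6 * L) (b i)).flatten).drop (6 * L * c)).take (6 * L)) =
      ∑ p ∈ antidiagonal c, valL (a p.1) * valL (b p.2) := by
  have hv : ∀ a : ℕ → List Bool, (∀ i < T, (a i).length = 2 * L + 2) →
      valL ((List.range T).map fun i => fit (6 * L) (a i)).flatten =
        ev (6 * L) T fun i => if i < T then valL (a i) else 0 := by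
    intro a ha
    rw [valL_flatten (s := 6 * L) fun i _ => length_fit _ _]
    refine Finset.sum_congr rfl fun i hi => ?_
    have hi' := mem_range.1 hi
    have h3 := valL_lt (a i)
    rw [ha i hi'] at h3
    dsimp only
    rw [valL_fit, if_pos hi', Nat.mod_eq_of_lt
      (h3.trans_le (Nat.pow_le_pow_right (by norm_num) (by omega)))]
  have hb : ∀ a : ℕ → List Bool, (∀ i < T, (a i).length = 2 * L + 2) → ∀ i,
      (if i < T then valL (a i) else 0) < 2 ^ (2 * L + 2) := by
    intro a ha i
    split_ifs with hi
    · have h3 := valL_lt (a i)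
      rwa [ha i hi] at h3
    · positivity
  rw [valL_take, valL_drop, valL_mulL (by rw [kron_length, kron_length]),
    hv a fun i hi => (hl i hi).1, hv b fun i hi => (hl i hi).2, ev_mul,
    ← ev_one (B := 2 * T) (by omega) (6 * L)
      (F := fun k k' => (if k < T then valL (a k) else 0) * if k' < T then valL (b k') else 0)
      (fun k k' h => by
        rcases h with h | h
        · rw [if_neg (not_lt.2 h), zero_mul]
        · rw [if_neg (not_lt.2 h), mul_zero]),
    kron_digit _ c _ _ (by omega)]
  · refine Finset.sum_congr rfl fun p hp => ?_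
    have := mem_antidiagonal.1 hp
    rw [if_pos (by omega), if_pos (by omega)]
  · intro k
    have e : 2 ^ (6 * L) = 2 ^ (2 * L - 4) * (2 ^ (2 * L + 2) * 2 ^ (2 * L + 2)) := by
      rw [← pow_add, ← pow_add]
      congr 1
      omega
    have hpos : 0 < 2 ^ (2 * L + 2) * 2 ^ (2 * L + 2) := by positivity
    refine (anti_le (β := T) (X := 2 ^ (2 * L + 2) * 2 ^ (2 * L + 2) - 1)
      (f := fun p => (if p.1 < T then valL (a p.1) else 0) * if p.2 < T then valL (b p.2) else 0)
      (fun p h => by rw [if_neg (not_lt.2 h), zero_mul]) fun p => ?_).trans_lt ?_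
    · exact Nat.le_sub_one_of_lt (Nat.mul_lt_mul'' (hb a (fun i hi => (hl i hi).1) _)
        (hb b (fun i hi => (hl i hi).2) _))
    · rw [e]
      exact (Nat.mul_le_mul_right _ hT).trans_lt
        (Nat.mul_lt_mul_of_pos_left (Nat.sub_lt hpos one_pos) (by positivity))

/-- Product of polynomials with residue coefficients by one call of the multiplication. -/
theorem exists_kron {L T τ : G → ℕ} {a b : G → ℕ → List Bool}
    (hL : Lin D fun g => (⟨L g⟩ : Un)) (ha : Lin D fun g => (List.range (T g)).map (a g))
    (hb : Lin D fun g => (List.range (T g)).map (b g)) (h2 : ∀ g, 2 ≤ L g)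
    (hT : ∀ g, T g ≤ 2 ^ (2 * L g - 4))
    (hl : ∀ g, ∀ i < T g, (a g i).length = 2 * L g + 2 ∧ (b g i).length = 2 * L g + 2)
    (hm : ∀ g env, D.env g env → MulOK env (6 * L g * T g) (τ g)) (hτ : Bd τ D.B) :
    ∃ o : G → ℕ → List Bool, (Lin D fun g => (List.range (T g)).map (o g)) ∧
      ∀ g, ∀ c < T g, (o g c).length = 2 * L g + 2 ∧
        cv (L g) (o g c) = ∑ p ∈ antidiagonal c, cv (L g) (a g p.1) * cv (L g) (b g p.2) := by
  obtain ⟨cred, hc1, hc2⟩ := exists_cred
  have bud : Bd (fun g => T g * (2 * L g + 2)) D.B :=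
    ha.size.le fun g => kron_budget fun i hi => (hl g i hi).1.ge
  have h6 : Lin D fun g => (⟨6 * L g⟩ : Un) := by
    have k2 := hL.unAdd hL
    refine ((k2.unAdd k2).unAdd k2).congr fun g => ?_
    simp only [unAdd]
    congr 1
    omega
  have bud6 : ∀ a : G → ℕ → List Bool, Bd (fun g => ((List.range (T g)).map (a g)).length *
      sz (⟨6 * L g⟩ : Un)) D.B := fun a => (bud.cmul 6).le fun g => by
    rw [List.length_map, List.length_range, sz_un]
    nlinarith
  have pack : ∀ a : G → ℕ → List Bool, (Lin D fun g => (List.range (T g)).map (a g)) →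
      Lin D fun g => ((List.range (T g)).map fun i => fit (6 * L g) (a g i)).flatten := by
    intro a ha
    refine (Lin.mapP (F := fun (u : Un) (x : List Bool) => fit u.n x) (by fun_prop) h6 ha
      (bud6 a)).flatten.congr fun g => ?_
    rw [List.map_map]
    rfl
  have hP : Lin D fun g => mulL ((List.range (T g)).map fun i => fit (6 * L g) (a g i)).flatten
      ((List.range (T g)).map fun i => fit (6 * L g) (b g i)).flatten :=
    ((pack a ha).pair (pack b hb)).app Prg.call
      (fun g env he => hm g env he _ _ (kron_length _ _ _) (kron_length _ _ _)) hτ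
  have hM : Lin D fun g => (List.replicate (T g) (mks (6 * L g))).flatten := by
    refine (Lin.mapP (F := fun (u : Un) (_ : List Bool) => mks u.n) (by fun_prop) h6 ha
      (bud6 a)).flatten.congr fun g => ?_
    rw [List.map_const', List.length_map, List.length_range]
  have hG := (hM.zip hP).grp.congr (f := fun g => (List.range (T g)).map fun c =>
    ((mulL ((List.range (T g)).map fun i => fit (6 * L g) (a g i)).flatten
      ((List.range (T g)).map fun i => fit (6 * L g) (b g i)).flatten).drop (6 * L g * c)).take
        (6 * L g)) fun g => by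
      have := h2 g
      rw [kron_grp (by omega)]
      rw [length_mulL, kron_length]
      omega
  refine ⟨fun g c => cred ⟨L g⟩
    (((mulL ((List.range (T g)).map fun i => fit (6 * L g) (a g i)).flatten
      ((List.range (T g)).map fun i => fit (6 * L g) (b g i)).flatten).drop (6 * L g * c)).take
        (6 * L g)), ?_, fun g c hc => ?_⟩
  · refine (Lin.mapP hc1 hL hG (bud.le fun g => ?_)).congr fun g => ?_
    · rw [List.length_map, List.length_range, sz_un]
      exact Nat.mul_le_mul_left _ (by dsimp only; omega)
    · rw [List.map_map]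
      rfl
  · obtain ⟨e1, e2⟩ := hc2 (L g) _ (List.length_take_le (6 * L g)
      ((mulL ((List.range (T g)).map fun i => fit (6 * L g) (a g i)).flatten
        ((List.range (T g)).map fun i => fit (6 * L g) (b g i)).flatten).drop (6 * L g * c)))
    refine ⟨e1, e2.trans ?_⟩
    unfold cv
    rw [kron_val (h2 g) (hT g) (hl g) hc]
    push_cast
    rfl

/-- Multiply every cell of a list by the cell `y`. -/
theorem exists_cmul {L T τ : G → ℕ} {a : G → ℕ → List Bool} {y : G → List Bool}
    (hL : Lin D fun g => (⟨L g⟩ : Un)) (ha : Lin D fun g => (List.range (T g)).map (a g))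
    (hy : Lin D y) (h2 : ∀ g, 2 ≤ L g)
    (hl : ∀ g, (y g).length = 2 * L g + 2 ∧ ∀ i < T g, (a g i).length = 2 * L g + 2)
    (hm : ∀ g env, D.env g env → MulOK env (2 * L g + 2) (τ g))
    (hτ : Bd (fun g => T g * τ g) D.B) :
    ∃ F : G → List Bool → List Bool,
      (Lin D fun g => (List.range (T g)).map fun i => F g (a g i)) ∧
      ∀ g x, x.length = 2 * L g + 2 → (F g x).length = 2 * L g + 2 ∧
        cv (L g) (F g x) = cv (L g) (y g) * cv (L g) x := by
  obtain ⟨cred, hc1, hc2⟩ := exists_cred
  have bud : Bd (fun g => T g * (2 * L g + 2)) D.B :=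
    ha.size.le fun g => kron_budget fun i hi => ((hl g).2 i hi).ge
  refine ⟨fun g x => cred ⟨L g⟩ (mulL (y g) x), ?_, fun g x hx => ?_⟩
  · have h0 : Bd (fun g => Lam ((fun _ => 0) g)) D.B := Bd.const (Lam 0) D.pos
    have hx : ∀ g, ∀ x ∈ (List.range (T g)).map (a g), x.length = 2 * L g + 2 := by
      intro g x hx
      obtain ⟨i, hi, rfl⟩ := List.mem_map.1 hx
      exact (hl g).2 i (List.mem_range.1 hi)
    refine (Lin.ws (h := h0)).1 ((Lin.mapG (D := D.ws _ h0) (Lin.pair hL hy) ha
      (fun g x => cred ⟨L g⟩ (mulL (y g) x)) (fun g _ => τ g + (2 * L g + 2))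
      ⟨12 + Lam 0, fun g x hx' => ?_⟩ ?_ ?_).congr fun g => ?_)
    · have a1 := kron_sz_le x
      have a2 := kron_sz_le (y g)
      rw [hx g x hx'] at a1
      rw [(hl g).1] at a2
      show sz ((⟨L g⟩ : Un), y g) + sz x + Lam 0 ≤ _
      rw [sz_pair, sz_un]
      dsimp only
      nlinarith [Nat.zero_le (Lam 0 * τ g), Nat.zero_le (Lam 0 * L g)]
    · refine (hτ.add bud).le fun g => ?_
      rw [List.map_const', List.sum_replicate, List.length_map, List.length_range, smul_eq_mul,
        mul_add]
    · intro G1 D1 θ q1 x ho hx' hq k1 k2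
      have k3 : Lin D1 fun p => mulL (y (θ p)) (x p) :=
        (k1.snd.pair k2).app (t := fun p => τ (θ p)) Prg.call
          (fun p env he => by
            rw [hq p]
            exact hm (θ p) env (ho.env p env he) _ _ (hl _).1 (hx _ _ (hx' p)))
          (Bd.of_le fun p => by rw [ho.B]; omega)
      refine (hc1.comp (k1.fst.pair k3)).congr fun p => ?_
      rw [hq p]
    · rw [List.map_map]
      rfl
  · have := h2 g
    obtain ⟨e1, e2⟩ := hc2 (L g) (mulL (y g) x) (by rw [length_mulL, (hl g).1]; omega)
    refine ⟨e1, e2.trans ?_⟩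
    unfold cv
    rw [valL_mulL ((hl g).1.trans hx.symm), Nat.cast_mul]

end Vale.Agent.P338
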