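import Vale.Agent.P338.TRD
import Vale.Agent.P338.Cell
import Vale.Agent.P338.ARLem

namespace Vale.Agent.P338

open Vale.Agent.Lib Vale.Agent.Lib.H23 Enc Function

structure ClJ where
  O : ℕ
  M : ℕ
  Mid : ℕ
  R : ℕ
  T : ℕ
  L : ℕ
  t : ℕ
  A : ℕ
  d : ℕ
  d' : ℕ
  qs : List ℕ
  hL : 1 ≤ L
  cop : qs.Pairwise Nat.Coprime
  hq : ∀ q ∈ qs, Odd q ∧ 1 < q ∧ q ∣ M ∧ q.Coprime (M / q) ∧ q ≤ 2 ^ t
  hM : M ≤ 2 ^ A
  hR : M ≤ R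
  hd : qs.length < 2 ^ d
  hA : A < 2 ^ d'
  ht : t * qs.length < 2 ^ d'
  hT : W ^ (d + d') ∣ T

/-- the layer on residues -/
noncomputable def lay (L : ℕ) (σs : List ((ℕ → ℕ) → ℕ → ℕ)) (f : (ℕ → ℕ) → List Bool) :
    (ℕ → ℕ) → ZMod (mm L) :=
  layer (hf L * (1 + 2 ^ L)) (hf L * (1 - 2 ^ L)) σs fun ys => cv L (f ys)

/-- product of two point layers, one for every modulus in `qs` -/
noncomputable def clP (Ψ : ℕ → ℕ → ℕ → ℕ) : RecA ClJ (List ℕ) where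
  sh j := [j.O, j.M, j.Mid, j.M, j.R, j.T]
  pr j := j.qs
  u j := j.L
  w j := 2 * j.L + 2
  μ j := j.qs.length
  β j := sw j.A
  Φ j := Ψ j.t j.qs.length j.A
  Spec j f f' := ∀ cs : ℕ → ℕ, (∀ q ∈ j.qs, IsNeg j.M q (cs q)) → ∀ xs,
    Valid [j.O, j.M, j.Mid, j.M, j.R, j.T] xs → Good j.qs (xs 1) →
      cv j.L (f' xs) = lay j.L (j.qs.map fun q => sig j.M (cs q)) f xs

end Vale.Agent.P338
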