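import Vale.Agent.P338.CLZ

namespace Vale.Agent.P338

open Vale.Agent.Lib Vale.Agent.Lib.H23 Enc Function

variable {G α : Type} [Enc α] {D : Dom G α} {Ψ : ℕ → ℕ → ℕ → ℕ}

/-- After a costly computation of `x`, a domain where `x` and `p` are available. -/
theorem Cost.andThenE {β π : Type} [Enc β] [Enc π] {x : G → β} {p : G → π} {t : G → ℕ}
    (hx : Cost D t x) (hs : Bd (fun g => sz (x g)) D.B) (hp : Lin D p) :
    ∃ D1 : Dom G (β × π), Over D D1 id D.B ∧ Lin D1 x ∧ Lin D1 p ∧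
      ∀ y : G → List (List Bool), Lin D1 y → Cost D t y := by
  have hs' : Bd (fun g => sz (x g, p g)) D.B :=
    ((hs.add hp.size).add (Bd.const 1 D.pos)).le fun g => by rw [sz_pair]
  exact ⟨_, (Over.refl D).wi _ hs', (Lin.inp (D := D.wi _ hs')).fst,
    (Lin.inp (D := D.wi _ hs')).snd, fun y hy =>
      ((hx.pair hp).wi (h := hs') (hy.cost fun _ => 0)).mono fun g => by simp⟩

theorem RecA.In.fat {J π : Type} [Enc π] {P : RecA J π} {j : G → J}
    {f : G → (ℕ → ℕ) → List Bool} (h : P.In D j f) (g : G) : Lam (D.S g) ≤ P.w (j g) := by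
  have hv : Valid (P.sh (j g)) fun _ => 0 := fun n => getD_pos1 (h.ar.pos g) n
  rw [← h.len g _ hv]
  exact h.ar.fat g _ hv

theorem bd_arr {ds : G → List ℕ} {f : G → (ℕ → ℕ) → List Bool} {w b B : G → ℕ}
    (hp : ∀ g, ∀ d ∈ ds g, 0 < d) (h : ∀ g xs, Valid (ds g) xs → (f g xs).length = w g)
    (hb : ∀ g, 0 < b g) (hB : Bd (fun g => b g * ((ds g).prod * (w g + 1))) B) :
    Bd (fun g => sz (arr (ds g) (f g))) B := by
  refine (hB.cmul 5).le fun g => ?_
  have h1 : sz (arr (ds g) (f g)) ≤ (ds g).prod * (4 * w g + 2) + 1 :=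
    sz_arr_le fun xs hx => (h g xs hx).le
  have h2 : 0 < (ds g).prod := List.prod_pos (hp g)
  have h3 : (ds g).prod * (w g + 1) ≤ b g * ((ds g).prod * (w g + 1)) :=
    Nat.le_mul_of_pos_left _ (hb g)
  nlinarith

theorem ClJ.uni (j : ClJ) : ∀ q ∈ j.qs, Uni j.M q := fun q hq =>
  ⟨(j.hq q hq).2.2.1, (j.hq q hq).2.2.2.1⟩

theorem ClJ.uniP (j : ClJ) : Uni j.M j.qs.prod := Uni.list j.uni j.cop

theorem ClJ.eM (j : ClJ) : j.qs.prod * (j.M / j.qs.prod) = j.M := Nat.mul_div_cancel' j.uniP.1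

theorem ClJ.hd' (j : ClJ) : ∃ d, j.A < 2 ^ d ∧ W ^ d ∣ j.T :=
  ⟨j.d', j.hA, (pow_dvd_pow W (Nat.le_add_left _ _)).trans j.hT⟩

theorem ClJ.prod_pos (j : ClJ) : 0 < j.qs.prod :=
  List.prod_pos fun q hq => by have := (j.hq q hq).2.1; omega

/-- the instance on the product of the moduli -/
def ClJ.down (j : ClJ) (h : 0 < j.M) : ClJ where
  O := j.O
  M := j.qs.prod
  Mid := j.M / j.qs.prod * j.Mid
  R := j.M / j.qs.prod * j.R
  T := j.T
  L := j.L
  t := j.t
  A := j.t * j.qs.length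
  d := j.d
  d' := j.d'
  qs := j.qs
  hL := j.hL
  cop := j.cop
  hq q hq := by
    obtain ⟨h1, h2, -, -, h5⟩ := j.hq q hq
    have := Uni.sub j.cop hq (by omega)
    exact ⟨h1, h2, this.1, this.2, h5⟩
  hM := by
    rw [pow_mul]
    exact List.prod_le_pow_card _ _ fun q hq => (j.hq q hq).2.2.2.2
  hR := by
    have h1 : j.qs.prod ≤ j.M := Nat.le_of_dvd h j.uniP.1
    have h2 : 0 < j.M / j.qs.prod := Nat.div_pos h1 j.prod_pos
    exact (h1.trans j.hR).trans (Nat.le_mul_of_pos_left _ h2)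
  hd := j.hd
  hA := j.ht
  ht := j.ht
  hT := j.hT

/-- the instance without the first modulus -/
def ClJ.tl (j : ClJ) : ClJ :=
  { j with
    qs := j.qs.tail
    cop := j.cop.sublist (List.tail_sublist _)
    hq := fun q hq => j.hq q (List.mem_of_mem_tail hq)
    hd := by have := j.hd; rw [List.length_tail]; omega
    ht := by
      rw [List.length_tail]
      exact (Nat.mul_le_mul_left _ (Nat.sub_le _ _)).trans_lt j.ht }

theorem map_eq_range {β : Type} (l : List ℕ) (F : ℕ → β) :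
    l.map F = (List.range l.length).map fun s => F (l.getD s 1) := by
  refine List.ext_getElem (by simp) fun i h1 h2 => ?_
  simp only [List.length_map] at h1
  simp [h1]

/-- One recursive call gives the layers of the products `pv s * rs s`, where `pv = (j r).qs`. -/
theorem cl_edge {j0 : G → ClJ} {κ : G → ℕ} (hc : (clP Ψ).Call D j0 κ) {G1 α1 : Type} [Enc α1]
    {D1 : Dom G1 α1} {θ : G1 → G} {b : G1 → ℕ} (hD : Over D D1 θ b) {j : G1 → ClJ}
    {f : G1 → (ℕ → ℕ) → List Bool} (h : (clP Ψ).In D1 j f)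
    (hμ : ∀ r, (j r).qs.length < (j0 (θ r)).qs.length)
    (hp : ∀ r, ((clP Ψ).sh (j r)).prod ≤ ((clP Ψ).sh (j0 (θ r))).prod)
    {rs : G1 → List ℕ} (h2 : LS D1 rs) (hl : ∀ r, (rs r).length = (j r).qs.length)
    (hcop : ∀ r, ((j r).qs ++ rs r).Pairwise Nat.Coprime) (hr : ∀ r, ∀ x ∈ rs r, Uni (j r).M x)
    (hB : Bd (fun r => sw (j r).A * (clP Ψ).vol (j r)) D1.B) :
    ∃ f' : G1 → (ℕ → ℕ) → List Bool,
      Cost D1 (fun r => κ (θ r) *
          (Ψ (j r).t (j r).qs.length ((j r).t * (j r).qs.length) * (clP Ψ).vol (j r)))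
        (fun r => arr ((clP Ψ).sh (j r)) (f' r)) ∧
      ∀ r, (∀ xs, Valid ((clP Ψ).sh (j r)) xs → (f' r xs).length = 2 * (j r).L + 2) ∧
        ∀ es : ℕ → ℕ, (∀ s < (j r).qs.length,
          IsNeg (j r).M ((j r).qs.getD s 1 * (rs r).getD s 1) (es s)) →
          ∀ xs, Valid ((clP Ψ).sh (j r)) xs → Good (j r).qs (xs 1) → cv (j r).L (f' r xs) =
            lay (j r).L ((List.range (j r).qs.length).map fun s => sig (j r).M (es s)) (f r) xs := by
  have hM : ∀ r, 0 < (j r).M := fun r => h.ar.pos r _ (by simp [clP])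
  let M2 : G1 → ℕ := fun r => (j r).M / (j r).qs.prod
  have eM : ∀ r, (j r).qs.prod * M2 r = (j r).M := fun r => (j r).eM
  have eS : ∀ r, [(j r).O, (j r).qs.prod * M2 r, (j r).Mid, (j r).qs.prod * M2 r, (j r).R,
      (j r).T] = (clP Ψ).sh (j r) := fun r => by rw [eM]; rfl
  have hc1 : ∀ r, (j r).qs.prod.Coprime (M2 r) := fun r => (j r).uniP.2
  have hr1 : ∀ r, (rs r).Pairwise Nat.Coprime ∧ ∀ x ∈ rs r, Uni (M2 r) x := fun r => by
    obtain ⟨-, k1, k2⟩ := List.pairwise_append.1 (hcop r)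
    exact ⟨k1, fun x hx => Uni.div (hM r) (j r).uniP (hr r x hx)
      (Nat.coprime_list_prod_left_iff.2 fun q hq => k2 q hq x hx)⟩
  have hR : ∀ r, (j r).qs.prod * M2 r ≤ (j r).R := fun r => by rw [eM]; exact (j r).hR
  have hA : ∀ r, (j r).qs.prod * M2 r ≤ 2 ^ (j r).A := fun r => by rw [eM]; exact (j r).hM
  have hB1 : Bd (fun r => sw (j r).A * ([(j r).O, (j r).qs.prod * M2 r, (j r).Mid,
      (j r).qs.prod * M2 r, (j r).R, (j r).T].prod * (2 * (j r).L + 2 + 1))) D1.B :=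
    hB.le fun r => by rw [eS]; rfl
  have hw : ∀ r xs, Valid [(j r).O, (j r).qs.prod * M2 r, (j r).Mid, (j r).qs.prod * M2 r,
      (j r).R, (j r).T] xs → (f r xs).length = 2 * (j r).L + 2 := fun r xs hx =>
    h.len r xs (eS r ▸ hx)
  have a1 := Ar.zad (h.ar.congr eS fun _ _ _ => rfl) h.pr h2 hc1 hr1 hw hR hA
    (fun r => (j r).hd') hB1
  let j1 : G1 → ClJ := fun r => (j r).down (hM r)
  have eP : ∀ r, ((clP Ψ).sh (j1 r)).prod = ((clP Ψ).sh (j r)).prod := fun r => by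
    rw [← eS r]
    show [(j r).O, (j r).qs.prod, M2 r * (j r).Mid, (j r).qs.prod, M2 r * (j r).R,
      (j r).T].prod = _
    simp only [List.prod_cons, List.prod_nil]
    ring
  have eV : ∀ r, (clP Ψ).vol (j1 r) = (clP Ψ).vol (j r) := fun r => by
    unfold RecA.vol
    rw [eP]
    rfl
  have hin : (clP Ψ).In D1 j1 fun r ys =>
      f r (zad (j r).qs (rs r) (M2 r) (j r).Mid (j r).R ys) :=
    ⟨a1, h.pr, h.u, fun r ys hy => hw r _ (Valid.zad hy)⟩
  obtain ⟨f2, c2, o2⟩ := hc G1 α1 D1 θ b j1 _ hD hμ (fun r => (eP r).trans_le (hp r)) hin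
  have hM2 : LS D1 M2 :=
    (LS.comp (f := fun x : List ℕ × List ℕ => x.1.getD 1 0 / x.2.prod) (by fun_prop)
      (h.ar.hds.pair h.pr)).congr fun r => rfl
  obtain ⟨D2, ov, l1, l2, fin⟩ := c2.andThenE
    (bd_arr (b := fun r => sw (j r).A) hin.ar.pos (fun r => (o2 r).1) (fun r => sw_pos _)
      (hB.le fun r => le_of_eq (congrArg _ (eV r))))
    ((hin.ar.hds.1.pair h.pr.1).pair (h2.1.pair hM2.1))
  have a2 : Ar D2 (fun r => (clP Ψ).sh (j1 r)) f2 :=
    ⟨⟨l2.fst.fst, hin.ar.hds.2.over ov⟩, hin.ar.pos, fun r xs hx => by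
      rw [(o2 r).1 xs hx, ov.S]; exact hin.fat r, l1⟩
  obtain ⟨Z, a3, hZ⟩ := Ar.unzad (w := fun r => 2 * (j r).L + 2) (pv := fun r => (j r).qs)
    (rs := rs) (O := fun r => (j r).O) (M2 := M2) (Mid := fun r => (j r).Mid)
    (R := fun r => (j r).R) (T := fun r => (j r).T) (A := fun r => (j r).A) a2
    ⟨l2.fst.snd, h.pr.2.over ov⟩ ⟨l2.snd.fst, h2.2.over ov⟩ ⟨l2.snd.snd, hM2.2.over ov⟩ hc1 hr1
    (fun r => (o2 r).1) hR hA (fun r => (j r).hd') (ov.bd hB1)
  refine ⟨fun r xs => f2 r (Z r xs), ((fin _ a3.lin).congr fun r => by rw [eS]).mono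
    fun r => le_of_eq (by rw [eV]; rfl), fun r => ⟨fun xs hx => ?_, fun es hes xs hx hg => ?_⟩⟩
  · exact (o2 r).1 _ (hZ r xs (by rw [eS]; exact hx)).1
  · obtain ⟨v, e⟩ := hZ r xs (by rw [eS]; exact hx)
    have hP := (j r).prod_pos
    have hsub : ∀ q ∈ (j r).qs, Uni (j r).qs.prod q := fun q hq =>
      Uni.sub (j r).cop hq (by have := ((j r).hq q hq).2.1; omega)
    have g1 : Good (j r).qs (Z r xs 1) := (good_zad (hc1 r) hP).1 (by rw [e]; exact hg)
    refine ((o2 r).2 (fun q => ngc (j r).qs.prod q) (fun q hq => ngc_spec hP (hsub q hq)) _ v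
      g1).trans ?_
    conv_rhs => rw [← e]
    show lay (j r).L ((j r).qs.map fun q => sig (j r).qs.prod (ngc (j r).qs.prod q)) _ _ = _
    rw [map_eq_range]
    unfold lay
    refine layer_conj _ _ (ok := fun ys => Valid [(j r).O, (j r).qs.prod, M2 r * (j r).Mid,
      (j r).qs.prod, M2 r * (j r).R, (j r).T] ys ∧ Good (j r).qs (ys 1))
      (zad (j r).qs (rs r) (M2 r) (j r).Mid (j r).R) ?_ (fun ys => cv (j r).L (f r ys)) ⟨v, g1⟩
    rw [List.forall₂_map_left_iff, List.forall₂_map_right_iff, List.forall₂_same]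
    intro s hs y hy
    have hs : s < (j r).qs.length := List.mem_range.1 hs
    have hq : (j r).qs.getD s 1 ∈ (j r).qs := by
      rw [List.getD_eq_getElem _ _ hs]
      exact List.getElem_mem hs
    have n1 := ngc_spec hP (hsub _ hq)
    refine ⟨⟨hy.1.sig, Good.sig (fun q hq => (hsub q hq).1) (IsNeg.sq (hsub _ hq) n1) hy.2⟩, ?_⟩
    rw [zad_sig hy.1 hy.2 (hl r) (hcop r) (fun q hq => ((j r).hq q hq).1) (hc1 r) (hr1 r).2 hs n1
      (e := es s) (by rw [eM]; exact hes s hs), eM]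

theorem clP_zero (h : ∀ t A, sw A ≤ Ψ t 0 A) : (clP Ψ).Body fun j => j.qs.length = 0 := by
  intro G α _ D j f κ hc hin _ hB
  refine ⟨f, fun _ => 0, hin.ar.lin.cost _, fun g => ⟨⟨hin.len g, fun cs _ xs _ _ => ?_⟩, ?_⟩⟩
  · rw [List.length_eq_zero_iff.1 (hc g)]
    rfl
  · rw [zero_add, hB g]
    refine Nat.mul_le_mul_right _ ?_
    show sw (j g).A ≤ Ψ (j g).t (j g).qs.length (j g).A
    rw [hc g]
    exact h _ _

theorem clP_step (h : ∀ t n A, n % 361 ≠ 0 → Ψ t (n - 1) A + sw A ≤ Ψ t n A) :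
    (clP Ψ).Body fun j => j.qs.length % 361 ≠ 0 := by
  intro G α _ D j f κ hc hin hcall hB
  have hM : ∀ g, 0 < (j g).M := fun g => hin.ar.pos g _ (by simp [clP])
  have hne : ∀ g, 0 < (j g).qs.length := fun g => by
    have : (j g).qs.length % 361 ≠ 0 := hc g
    omega
  have hq : ∀ g, (j g).qs = (j g).qs.headD 1 :: (j g).qs.tail := fun g => by
    have := hne g
    cases hh : (j g).qs with
    | nil => rw [hh] at this; simp at this
    | cons a l => rfl
  have hm : ∀ g, (j g).qs.headD 1 ∈ (j g).qs := fun g => by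
    rw [hq g]
    exact List.mem_cons_self
  have hB1 : Bd (fun g => sw (j g).A * (((clP Ψ).sh (j g)).prod * (2 * (j g).L + 2 + 1))) D.B :=
    Bd.of_le fun g => (hB g).ge
  have hin1 : (clP Ψ).In D (fun g => (j g).tl) f :=
    ⟨hin.ar, LS.comp (f := fun l : List ℕ => l.tail) (by fun_prop) hin.pr, hin.u, hin.len⟩
  obtain ⟨f1, c1, o1⟩ := hcall G α D id D.B (fun g => (j g).tl) f (Over.refl D) (fun g => by
    show (j g).qs.tail.length < (j g).qs.length
    have := hne g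
    rw [List.length_tail]
    omega) (fun g => le_rfl) hin1
  obtain ⟨D2, ov, l1, l2, fin⟩ := c1.andThenE
    (bd_arr (b := fun g => sw (j g).A) hin.ar.pos (fun g => (o1 g).1) (fun g => sw_pos _) hB1)
    ((hin.ar.hds.1.pair hin.pr.1).pair hin.u)
  have hsh : LS D2 fun g => (clP Ψ).sh (j g) := ⟨l2.fst.fst, hin.ar.hds.2.over ov⟩
  have hqs : LS D2 fun g => (j g).qs := ⟨l2.fst.snd, hin.pr.2.over ov⟩
  have a2 : Ar D2 (fun g => (clP Ψ).sh (j g)) f1 :=
    ⟨hsh, hin.ar.pos, fun g xs hx => by rw [(o1 g).1 xs hx, ov.S]; exact hin.fat g, l1⟩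
  have hcc : LS D2 fun g => ngc (j g).M ((j g).qs.headD 1) :=
    (LS.comp (f := fun x : List ℕ × List ℕ => ngc (x.1.getD 1 0) (x.2.headD 1)) (by fun_prop)
      (hsh.pair hqs)).congr fun g => rfl
  have n1 : ∀ g, IsNeg (j g).M ((j g).qs.headD 1) (ngc (j g).M ((j g).qs.headD 1)) := fun g =>
    ngc_spec (hM g) ((j g).uni _ (hm g))
  have a3 := a2.negD (p := fun g => [(j g).O]) (m := fun g => [(j g).Mid])
    (s := fun g => [(j g).R]) (M := fun g => (j g).M) (T := fun g => (j g).T)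
    (A := fun g => (j g).A) (w := fun g => 2 * (j g).L + 2) 1 3 1 (fun _ => rfl) (fun _ => rfl)
    (fun _ => rfl) (fun _ => rfl) (fun g => (o1 g).1) (fun g => (j g).hM) (fun g => (j g).hd')
    (ov.bd hB1) hcc (c := fun c _ => c) (by fun_prop)
    (fun g _ _ => IsNeg.sq ((j g).uni _ (hm g)) (n1 g))
  obtain ⟨F, hF, hF'⟩ := exists_clay
  have l3 := a2.map2 a3.lin hF l2.snd ⟨1, fun g xs hx => by
    rw [(o1 g).1 xs hx, sz_un]
    show 2 * (j g).L + 1 ≤ 1 * (2 * (j g).L + 2 + 1)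
    omega⟩
  refine ⟨fun g xs => F ⟨(j g).L⟩ (f1 g xs)
      (f1 g (sig (j g).M (ngc (j g).M ((j g).qs.headD 1)) xs)),
    fun g => Ψ (j g).t ((j g).qs.length - 1) (j g).A * (clP Ψ).vol (j g),
    (fin _ l3).mono fun g => le_of_eq ?_,
    fun g => ⟨⟨fun xs hx => ?_, fun cs hcs xs hx hg => ?_⟩, ?_⟩⟩
  · show κ g * (Ψ (j g).t (j g).qs.tail.length (j g).A * _) = _
    rw [List.length_tail]
    rfl
  · exact (hF' _ _ _ (j g).hL ((o1 g).1 xs hx) ((o1 g).1 _ (Valid.sig hx))).1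
  · have ht : ∀ q ∈ (j g).qs.tail, q ∈ (j g).qs := fun q => List.mem_of_mem_tail
    have g2 : Good (j g).qs (sig (j g).M (ngc (j g).M ((j g).qs.headD 1)) xs 1) :=
      Good.sig (fun q hq => ((j g).uni q hq).1) (IsNeg.sq ((j g).uni _ (hm g)) (n1 g)) hg
    have e1 := (o1 g).2 cs (fun q hq => hcs q (ht q hq)) xs hx fun q hq => hg q (ht q hq)
    have e2 := (o1 g).2 cs (fun q hq => hcs q (ht q hq)) _ (Valid.sig hx)
      fun q hq => g2 q (ht q hq)
    refine (hF' _ _ _ (j g).hL ((o1 g).1 xs hx) ((o1 g).1 _ (Valid.sig hx))).2.trans ?_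
    conv_rhs => rw [hq g]
    rw [List.map_cons, sig_congr (IsNeg.unique ((j g).uni _ (hm g)) (hcs _ (hm g)) (n1 g))]
    exact congrArg₂ (· + ·) (congrArg _ e1) (congrArg _ e2)
  · rw [hB g]
    show Ψ (j g).t ((j g).qs.length - 1) (j g).A * (clP Ψ).vol (j g) +
      sw (j g).A * (clP Ψ).vol (j g) ≤ Ψ (j g).t (j g).qs.length (j g).A * (clP Ψ).vol (j g)
    rw [← add_mul]
    exact Nat.mul_le_mul_right _ (h _ _ _ (hc g))

end Vale.Agent.P338
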