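import Vale.Agent.P338.ARLem

/-! The global transform over the complex numbers, and the convolution theorem. -/

namespace Vale.Agent.P338

open Finset
open Vale.Agent.P344 (al be)

/-- admissible list of moduli -/
structure Mods (qs : List ℕ) : Prop where
  cop : qs.Pairwise Nat.Coprime
  odd : ∀ q ∈ qs, Odd q
  three : ∀ q ∈ qs, 3 ≤ q

theorem Mods.nodup {qs : List ℕ} (hq : Mods qs) : qs.Nodup := by
  refine (List.Pairwise.and_mem.1 hq.cop).imp fun {a b} h hab => ?_
  have h1 := h.2.2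
  have h2 := hq.three a h.1
  rw [hab, Nat.coprime_self] at h1
  omega

theorem modEq_prod_pow {qs : List ℕ} (h : qs.Pairwise Nat.Coprime) (k : ℕ) {a b : ℕ}
    (hab : ∀ q ∈ qs, a ≡ b [MOD q ^ k]) : a ≡ b [MOD qs.prod ^ k] := by
  induction qs with
  | nil => simpa using Nat.modEq_one
  | cons q l ih =>
    rw [List.pairwise_cons] at h
    rw [List.prod_cons, mul_pow]
    exact (Nat.modEq_and_modEq_iff_modEq_mul
      (Nat.Coprime.pow _ _ (Nat.coprime_list_prod_right_iff.2 h.1))).1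
      ⟨hab q List.mem_cons_self, ih h.2 fun q hq => hab q (List.mem_cons_of_mem _ hq)⟩

theorem layer_sum {X ι : Type} (α β : ℂ) (σs : List (X → X)) (s : Finset ι) (c : ι → ℂ)
    (F : ι → X → ℂ) (y : X) :
    layer α β σs (fun y => ∑ w ∈ s, c w * F w y) y = ∑ w ∈ s, c w * layer α β σs (F w) y := by
  induction σs generalizing y with
  | nil => rfl
  | cons σ σs ih =>
    simp only [layer, ih, Finset.mul_sum, ← Finset.sum_add_distrib]
    exact Finset.sum_congr rfl fun _ _ => by ring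

theorem layer_prod {X : Type} {A : ℕ → Type} (α β : ℂ) (ok : X → Prop) (s : Finset ℕ)
    (loc : ∀ q, X → A q) (σ : ℕ → X → X) (fl : ∀ q, A q → A q)
    (h1 : ∀ q ∈ s, ∀ y, ok y → ok (σ q y))
    (h2 : ∀ q ∈ s, ∀ y, ok y → loc q (σ q y) = fl q (loc q y))
    (h3 : ∀ q ∈ s, ∀ q' ∈ s, q' ≠ q → ∀ y, ok y → loc q' (σ q y) = loc q' y)
    (f : ∀ q, A q → ℂ) (l : List ℕ) (hl : l.Nodup) (hs : ∀ q ∈ l, q ∈ s) {y : X} (hy : ok y) :
    layer α β (l.map σ) (fun y => ∏ q ∈ s, f q (loc q y)) y =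
      ∏ q ∈ s, if q ∈ l then α * f q (loc q y) + β * f q (fl q (loc q y)) else f q (loc q y) := by
  induction l generalizing y with
  | nil => simp [layer]
  | cons q l ih =>
    rw [List.nodup_cons] at hl
    have hq := hs q List.mem_cons_self
    have ih' := @ih hl.2 fun q hq => hs q (List.mem_cons_of_mem _ hq)
    simp only [List.map_cons, layer]
    rw [ih' hy, ih' (h1 q hq y hy), ← Finset.mul_prod_erase _ _ hq, ← Finset.mul_prod_erase _ _ hq,
      ← Finset.mul_prod_erase _ _ hq, if_neg hl.1, if_neg hl.1, if_pos List.mem_cons_self,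
      h2 q hq y hy, ← mul_assoc, ← mul_assoc, add_mul]
    congr 2 <;> refine Finset.prod_congr rfl fun q' hq' => ?_
    · simp [Finset.ne_of_mem_erase hq']
    · rw [h3 q hq q' (Finset.mem_of_mem_erase hq') (Finset.ne_of_mem_erase hq') y hy]
      simp [Finset.ne_of_mem_erase hq']

theorem prodVal_flatMap (qs : List ℕ) (f : ℕ → List Ex) :
    prodVal (qs.flatMap f) = (qs.map fun q => prodVal (f q)).prod := by
  induction qs with
  | nil => simp [prodVal]
  | cons q l ih =>
    unfold prodVal at ih ⊢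
    simp only [List.flatMap_cons, List.map_append, List.prod_append, List.map_cons,
      List.prod_cons, ih]

theorem chi_eq (N : ℕ) (z : ℤ) : chi N z = Complex.exp (2 * Real.pi * Complex.I / N) ^ z := by
  rw [chi, ← Complex.exp_int_mul]
  congr 1
  ring

theorem chi_add (N : ℕ) (z w : ℤ) : chi N (z + w) = chi N z * chi N w := by
  rw [chi, chi, chi, ← Complex.exp_add]
  congr 1
  push_cast; ring

theorem chi_eq_one_iff {N : ℕ} (hN : N ≠ 0) (z : ℤ) : chi N z = 1 ↔ (N : ℤ) ∣ z := by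
  rw [chi_eq, (Complex.isPrimitiveRoot_exp N hN).zpow_eq_one_iff_dvd]

theorem chi_congr {N : ℕ} (hN : N ≠ 0) {z w : ℤ} (h : z ≡ w [ZMOD N]) : chi N z = chi N w := by
  have : w = z + (w - z) := by ring
  rw [this, chi_add, (chi_eq_one_iff hN _).2 h.dvd, mul_one]

theorem ker_mod {N : ℕ} (hN : N ≠ 0) (fl : Bool) (j k : ℕ) :
    ker N fl (j % N) (k % N) = ker N fl j k := by
  have h : ((j % N : ℕ) : ℤ) * (k % N : ℕ) ≡ j * k [ZMOD N] := by
    push_cast
    exact (Int.mod_modEq _ _).mul (Int.mod_modEq _ _)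
  unfold ker
  rw [chi_congr hN h, chi_congr hN h.neg]

theorem role_congr {q v w : ℕ} (h : (v : ZMod q) = w) : role q v = role q w := by
  rw [ZMod.natCast_eq_natCast_iff'] at h
  unfold role
  rw [h]

theorem role_neg {q v w : ℕ} (hq : Odd q) (h : (v : ZMod q) = -w) (hw : (w : ZMod q) ≠ 0) :
    role q v = !role q w := by
  have h0 : 0 < q := hq.pos
  have h1 : q ∣ v % q + w % q := by
    rw [← ZMod.natCast_eq_zero_iff]
    push_cast
    rw [ZMod.natCast_mod, ZMod.natCast_mod, h, neg_add_cancel]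
  have h2 : w % q ≠ 0 := fun h => hw (by
    rw [ZMod.natCast_eq_zero_iff]; exact Nat.dvd_of_mod_eq_zero h)
  have h3 := Nat.mod_lt v h0
  have h4 := Nat.mod_lt w h0
  obtain ⟨t, ht⟩ := h1
  have h5 : t = 1 := by
    rcases t with _ | _ | t
    · omega
    · rfl
    · nlinarith
  obtain ⟨m, hm⟩ := hq
  unfold role
  rw [h5] at ht
  by_cases h6 : q < 2 * (w % q) <;> simp [h6] <;> omega

/-- the addresses reachable from `xs` -/
def Om (qs : List ℕ) (xs ys : ℕ → ℕ) : Prop :=
  (∀ i, i ≠ 1 → i ≠ 3 → i ≠ 4 → ys i = xs i) ∧ ys 1 < qs.prod ∧ ys 3 < qs.prod ∧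
    ys 4 < qs.prod ^ 2 ∧ ∀ q ∈ qs, ((ys 1 : ZMod q) = xs 1 ∧ (ys 3 : ZMod q) = xs 3) ∨
      ((ys 1 : ZMod q) = -xs 1 ∧ (ys 3 : ZMod q) = -xs 3)

/-- local coordinates -/
def loc (q : ℕ) (ys : ℕ → ℕ) : Bool × ZMod (q ^ 2) := (role q (ys 1), (ys 4 : ZMod (q ^ 2)))

theorem Om.finite (qs : List ℕ) (xs : ℕ → ℕ) : {ys | Om qs xs ys}.Finite := by
  refine (((Set.finite_lt_nat qs.prod).prod ((Set.finite_lt_nat qs.prod).prod
    (Set.finite_lt_nat (qs.prod ^ 2)))).image fun t =>
      Function.update (Function.update (Function.update xs 1 t.1) 3 t.2.1) 4 t.2.2).subset ?_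
  rintro ys ⟨a1, a2, a3, a4, -⟩
  refine ⟨(ys 1, ys 3, ys 4), ⟨a2, a3, a4⟩, funext fun i => ?_⟩
  by_cases h4 : i = 4
  · simp [h4]
  by_cases h3 : i = 3
  · simp [h3]
  by_cases h1 : i = 1
  · simp [h1]
  simp [h1, h3, h4, a1 i h1 h3 h4]

theorem Om.same {qs : List ℕ} (hq : Mods qs) {xs ys ws : ℕ → ℕ} (hg : Good qs (xs 1))
    (hy : Om qs xs ys) (hw : Om qs xs ws) (h : ∀ q ∈ qs, role q (ys 1) = role q (ws 1)) :
    ys = Function.update ws 4 (ys 4) := by
  have key : ∀ q ∈ qs, (ys 1 : ZMod q) = ws 1 ∧ (ys 3 : ZMod q) = ws 3 := by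
    intro q hq'
    have h0 : (xs 1 : ZMod q) ≠ 0 := fun h => hg q hq' (by
      rw [ZMod.natCast_eq_zero_iff] at h; exact Nat.mod_eq_zero_of_dvd h)
    have h1 := h q hq'
    rcases hy.2.2.2.2 q hq' with a | a <;> rcases hw.2.2.2.2 q hq' with b | b
    · exact ⟨a.1.trans b.1.symm, a.2.trans b.2.symm⟩
    · rw [role_congr a.1, role_neg (hq.odd q hq') b.1 h0] at h1
      simp at h1
    · rw [role_congr b.1, role_neg (hq.odd q hq') a.1 h0] at h1
      simp at h1
    · exact ⟨a.1.trans b.1.symm, a.2.trans b.2.symm⟩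
  have k2 : ∀ a b, a < qs.prod → b < qs.prod → (∀ q ∈ qs, (a : ZMod q) = b) → a = b := by
    intro a b ha hb hab
    have := modEq_prod_pow hq.cop 1 (a := a) (b := b) fun q hq' => by
      rw [pow_one]; exact (ZMod.natCast_eq_natCast_iff _ _ _).1 (hab q hq')
    rw [pow_one] at this
    exact Nat.ModEq.eq_of_lt_of_lt this ha hb
  funext i
  by_cases h4 : i = 4
  · simp [h4]
  rw [Function.update_of_ne h4]
  by_cases h3 : i = 3
  · rw [h3]; exact k2 _ _ hy.2.2.1 hw.2.2.1 fun q hq' => (key q hq').2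
  by_cases h1 : i = 1
  · rw [h1]; exact k2 _ _ hy.2.1 hw.2.1 fun q hq' => (key q hq').1
  rw [hy.1 i h1 h3 h4, hw.1 i h1 h3 h4]

theorem Om.inj {qs : List ℕ} (hq : Mods qs) {xs ys ws : ℕ → ℕ} (hg : Good qs (xs 1))
    (hy : Om qs xs ys) (hw : Om qs xs ws) (h : ∀ q ∈ qs, loc q ys = loc q ws) : ys = ws := by
  have h1 := hy.same hq hg hw fun q hq' => congrArg Prod.fst (h q hq')
  have h2 : ys 4 = ws 4 := (modEq_prod_pow hq.cop 2 fun q hq' =>
    (ZMod.natCast_eq_natCast_iff _ _ _).1 (congrArg Prod.snd (h q hq'))).eq_of_lt_of_lt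
      hy.2.2.2.1 hw.2.2.2.1
  rw [h1, h2, Function.update_eq_self]

theorem Mods.pos {qs : List ℕ} (hq : Mods qs) : 0 < qs.prod :=
  List.prod_pos fun q h => by have := hq.three q h; omega

theorem cast_sig {qs : List ℕ} (hq : Mods qs) {q q' c : ℕ} (h : q ∈ qs) (h' : q' ∈ qs)
    (hc : IsNeg qs.prod q c) (v : ℕ) :
    ((c * v % qs.prod : ℕ) : ZMod q') = if q' = q then -(v : ZMod q') else v := by
  have e : ((c * v % qs.prod : ℕ) : ZMod q') = c * v := by
    rw [← Nat.cast_mul, ZMod.natCast_eq_natCast_iff]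
    exact (Nat.mod_modEq _ _).of_dvd (List.dvd_prod h')
  rw [e]
  split_ifs with hh
  · subst hh
    have := (ZMod.natCast_eq_zero_iff _ _).2 hc.1
    push_cast at this
    linear_combination (v : ZMod q') * this
  · have h1 : q' ∣ qs.prod / q := by
      have hco : Nat.Coprime q' q := by
        have : Std.Symm Nat.Coprime := ⟨fun _ _ => Nat.Coprime.symm⟩
        exact hq.cop.forall h' h hh
      exact hco.dvd_of_dvd_mul_left (by
        rw [Nat.mul_div_cancel' (List.dvd_prod h)]; exact List.dvd_prod h')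
    rw [(ZMod.natCast_eq_natCast_iff _ _ _).2 (hc.2.of_dvd h1), Nat.cast_one, one_mul]

theorem Om.sig {qs : List ℕ} (hq : Mods qs) {xs ys : ℕ → ℕ} {q c : ℕ} (h : q ∈ qs)
    (hc : IsNeg qs.prod q c) (hy : Om qs xs ys) : Om qs xs (sig qs.prod c ys) := by
  refine ⟨fun i h1 h3 h4 => ?_, ?_, ?_, ?_, fun q' hq' => ?_⟩
  · simp [P338.sig, h1, h3, hy.1 i h1 h3 h4]
  · simpa [P338.sig] using Nat.mod_lt _ hq.pos
  · simpa [P338.sig] using Nat.mod_lt _ hq.pos
  · simpa [P338.sig] using hy.2.2.2.1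
  · have e1 : P338.sig qs.prod c ys 1 = c * ys 1 % qs.prod := by simp [P338.sig]
    have e3 : P338.sig qs.prod c ys 3 = c * ys 3 % qs.prod := by simp [P338.sig]
    rw [e1, e3, cast_sig hq h hq' hc, cast_sig hq h hq' hc]
    split_ifs
    · rcases hy.2.2.2.2 q' hq' with a | a
      · exact Or.inr ⟨by rw [a.1], by rw [a.2]⟩
      · exact Or.inl ⟨by rw [a.1, neg_neg], by rw [a.2, neg_neg]⟩
    · exact hy.2.2.2.2 q' hq'

theorem gstep_prod {qs : List ℕ} (hq : Mods qs) {cs : ℕ → ℕ}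
    (hc : ∀ q ∈ qs, IsNeg qs.prod q (cs q)) {st : ℕ → Step} {g : ℕ → ℕ}
    (hg : ∀ v, ∀ q ∈ qs, g v ≡ stShift (st q) (role q v) [MOD q ^ 2]) {xs : ℕ → ℕ}
    (hgood : Good qs (xs 1)) {ι : Type} (s : Finset ι) (c : ι → ℂ)
    (f : ι → ∀ q, Bool × ZMod (q ^ 2) → ℂ) {Z : (ℕ → ℕ) → ℂ}
    (hZ : ∀ ys, Om qs xs ys → Z ys = ∑ w ∈ s, c w * ∏ q ∈ qs.toFinset, f w q (loc q ys))
    {ys : ℕ → ℕ} (hy : Om qs xs ys) : gstep qs cs st g Z ys =
      ∑ w ∈ s, c w * ∏ q ∈ qs.toFinset, stRun (q ^ 2) (st q) (f w q) (loc q ys) := by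
  have hσ : ∀ q ∈ qs.toFinset, ∀ y, Om qs xs y → Om qs xs (sig qs.prod (cs q) y) :=
    fun q h y hy => hy.sig hq (List.mem_toFinset.1 h) (hc q (List.mem_toFinset.1 h))
  unfold gstep
  rw [layer_congr al be (ok := Om qs xs) (F' := fun y => ∑ w ∈ s, c w * ∏ q ∈ qs.toFinset,
      f w q ((loc q y).1, (loc q y).2 + stShift (st q) (loc q y).1)) (by
        intro σ hσ'
        obtain ⟨q, h, rfl⟩ := List.mem_map.1 hσ'
        exact hσ q (List.mem_toFinset.2 h)) (fun y hy => by
        rw [hZ]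
        · refine Finset.sum_congr rfl fun w _ => congrArg _ (Finset.prod_congr rfl fun q h => ?_)
          have h' := List.mem_toFinset.1 h
          congr 1
          simp only [loc, shf, Function.update_self, ne_eq, OfNat.one_ne_ofNat, not_false_eq_true,
            Function.update_of_ne, Prod.mk.injEq, true_and]
          rw [← Nat.cast_add, ZMod.natCast_eq_natCast_iff]
          exact ((Nat.mod_modEq _ _).of_dvd (pow_dvd_pow_of_dvd (List.dvd_prod h') 2)).trans
            ((hg _ q h').add_left _)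
        · refine ⟨fun i h1 h3 h4 => ?_, ?_, ?_, ?_, ?_⟩
          · simp [shf, h4, hy.1 i h1 h3 h4]
          · simpa [shf] using hy.2.1
          · simpa [shf] using hy.2.2.1
          · simpa [shf] using Nat.mod_lt _ (pow_pos hq.pos 2)
          · simpa [shf] using hy.2.2.2.2) hy, layer_sum, Finset.mul_sum]
  refine Finset.sum_congr rfl fun w _ => ?_
  rw [layer_prod al be (Om qs xs) qs.toFinset loc (fun q => sig qs.prod (cs q))
    (fun q p => (!p.1, p.2)) hσ ?_ ?_ (fun q p => f w q (p.1, p.2 + stShift (st q) p.1)) qs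
    hq.nodup (fun q h => List.mem_toFinset.2 h) hy, mul_left_comm, dlist, prodVal_flatMap,
    ← List.prod_toFinset _ hq.nodup, ← Finset.prod_mul_distrib]
  · congr 1
    refine Finset.prod_congr rfl fun q h => ?_
    rw [if_pos (List.mem_toFinset.1 h)]
    simp only [stRun, loc, ZMod.val_natCast]
  · intro q h y hy
    have h' := List.mem_toFinset.1 h
    have h0 : (xs 1 : ZMod q) ≠ 0 := fun h => hgood q h' (by
      rw [ZMod.natCast_eq_zero_iff] at h; exact Nat.mod_eq_zero_of_dvd h)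
    have h1 : (y 1 : ZMod q) ≠ 0 := by
      rcases hy.2.2.2.2 q h' with a | a <;> rw [a.1]
      exacts [h0, neg_ne_zero.2 h0]
    have := cast_sig hq h' h' (hc q h') (y 1)
    rw [if_pos rfl] at this
    simp [loc, sig, role_neg (hq.odd q h') this h1]
  · intro q h q' h' hne y _
    have := cast_sig hq (List.mem_toFinset.1 h) (List.mem_toFinset.1 h')
      (hc q (List.mem_toFinset.1 h)) (y 1)
    rw [if_neg hne] at this
    simp [loc, sig, role_congr this]

/-- Synchronised local programs compute the tensor product of the local transforms on every good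
row. -/
theorem grun_eq {qs : List ℕ} (hq : Mods qs) {cs : ℕ → ℕ} (hc : ∀ q ∈ qs, IsNeg qs.prod q (cs q))
    {P : ℕ → List Step} {len : ℕ} (hlen : ∀ q ∈ qs, (P q).length = len) {fl : Bool}
    (hP : ∀ q ∈ qs, ∀ [NeZero (q ^ 2)], ∀ (x : Bool × ZMod (q ^ 2) → ℂ) (b : Bool)
      (j : ZMod (q ^ 2)), runP (q ^ 2) (P q) x (b, j) =
        ∑ k : ZMod (q ^ 2), ker (q ^ 2) fl j.val k.val * x (b, k))
    {g : ℕ → ℕ → ℕ} (hg : ∀ i < len, ∀ v, ∀ q ∈ qs,
      g i v ≡ stShift ((P q).getD i default) (role q v) [MOD q ^ 2])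
    (Z : (ℕ → ℕ) → ℂ) {xs : ℕ → ℕ} (h1 : xs 1 < qs.prod) (h3 : xs 3 < qs.prod)
    (h4 : xs 4 < qs.prod ^ 2) (hgood : Good qs (xs 1)) :
    (List.range len).foldl (fun Z i => gstep qs cs (fun q => (P q).getD i default) (g i) Z) Z xs =
      dft qs fl 4 Z xs := by
  classical
  set s := (Om.finite qs xs).toFinset with hs
  have hsm : ∀ w, w ∈ s ↔ Om qs xs w := fun w => Set.Finite.mem_toFinset _
  have hx : Om qs xs xs := ⟨fun _ _ _ _ => rfl, h1, h3, h4, fun _ _ => Or.inl ⟨rfl, rfl⟩⟩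
  have key : ∀ n ≤ len, ∀ ys, Om qs xs ys →
      (List.range n).foldl (fun Z i => gstep qs cs (fun q => (P q).getD i default) (g i) Z) Z ys =
      ∑ w ∈ s, Z w * ∏ q ∈ qs.toFinset, runP (q ^ 2) ((P q).take n)
        (fun p => if p = loc q w then 1 else 0) (loc q ys) := by
    intro n
    induction n with
    | zero =>
      intro _ ys hy
      simp only [List.range_zero, List.foldl_nil, List.take_zero, runP]
      rw [Finset.sum_eq_single ys (fun w hw hne => ?_) (fun h => absurd ((hsm ys).2 hy) h)]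
      · simp
      · have : ¬ ∀ q ∈ qs, loc q ys = loc q w := fun h =>
          hne (hy.inj hq hgood ((hsm w).1 hw) h).symm
        push Not at this
        obtain ⟨q, h, hne⟩ := this
        rw [Finset.prod_eq_zero (List.mem_toFinset.2 h) (if_neg hne), mul_zero]
    | succ n ih =>
      intro hn ys hy
      rw [List.range_succ, List.foldl_append, List.foldl_cons, List.foldl_nil,
        gstep_prod hq hc (hg n hn) hgood s Z _ (ih (by omega)) hy]
      refine Finset.sum_congr rfl fun w _ => congrArg _ (Finset.prod_congr rfl fun q h => ?_)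
      have hl : n < (P q).length := by rw [hlen q (List.mem_toFinset.1 h)]; omega
      rw [List.take_succ_eq_append_getElem hl, List.getD_eq_getElem _ _ hl]
      simp only [runP, List.foldl_append, List.foldl_cons, List.foldl_nil]
  rw [key len le_rfl xs hx]
  have e : ∀ w, ∏ q ∈ qs.toFinset, runP (q ^ 2) ((P q).take len)
      (fun p => if p = loc q w then 1 else 0) (loc q xs) =
      if ∀ q ∈ qs, role q (w 1) = role q (xs 1) then kern qs fl (xs 4) (w 4) else 0 := by
    intro w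
    have e1 : ∀ q ∈ qs.toFinset, runP (q ^ 2) ((P q).take len)
        (fun p => if p = loc q w then 1 else 0) (loc q xs) =
        if role q (w 1) = role q (xs 1) then ker (q ^ 2) fl (xs 4) (w 4) else 0 := by
      intro q h
      have h' := List.mem_toFinset.1 h
      have hq0 : q ^ 2 ≠ 0 := by have := hq.three q h'; positivity
      have : NeZero (q ^ 2) := ⟨hq0⟩
      rw [← hlen q h', List.take_length, show loc q xs = (role q (xs 1), ((xs 4 : ℕ) : ZMod _))
        from rfl, hP q h',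
        Finset.sum_eq_single ((w 4 : ℕ) : ZMod (q ^ 2)) (fun k _ hk => by simp [loc, hk])
          (by simp), ZMod.val_natCast, ZMod.val_natCast, ker_mod hq0]
      simp [loc, eq_comm]
    rw [Finset.prod_congr rfl e1]
    split_ifs with h
    · rw [kern, ← List.prod_toFinset _ hq.nodup]
      exact Finset.prod_congr rfl fun q hq' => if_pos (h q (List.mem_toFinset.1 hq'))
    · push Not at h
      obtain ⟨q, h, hne⟩ := h
      exact Finset.prod_eq_zero (List.mem_toFinset.2 h) (if_neg hne)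
  simp only [e, mul_ite, mul_zero]
  rw [← Finset.sum_filter, dft]
  refine Finset.sum_nbij' (fun w => w 4) (fun y => Function.update xs 4 y) ?_ ?_ ?_ ?_ ?_
  · intro w hw
    exact Finset.mem_range.2 ((hsm w).1 (Finset.mem_filter.1 hw).1).2.2.2.1
  · intro y hy
    refine Finset.mem_filter.2 ⟨(hsm _).2 ⟨fun i _ _ h => by simp [h], ?_, ?_, ?_, ?_⟩, by simp⟩
    · simpa using h1
    · simpa using h3
    · simpa using hy
    · simp
  · intro w hw
    rw [Finset.mem_filter] at hw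
    exact (((hsm w).1 hw.1).same hq hgood hx hw.2).symm
  · intro y _
    simp
  · intro w hw
    rw [Finset.mem_filter] at hw
    rw [← ((hsm w).1 hw.1).same hq hgood hx hw.2, mul_comm]

/-- exchange the digits `0` and `1` -/
def tr {R : Type} (Z : (ℕ → ℕ) → R) (xs : ℕ → ℕ) : R := Z (xs ∘ Equiv.swap 0 1)

noncomputable def dft2 (qs : List ℕ) (fl : Bool) (Z : (ℕ → ℕ) → ℂ) : (ℕ → ℕ) → ℂ :=
  tr (dft qs fl 1 (tr (dft qs fl 1 Z)))

/-- product of polynomials along the digit `2` -/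
def pmul {R : Type} [CommSemiring R] (X Y : (ℕ → ℕ) → R) (xs : ℕ → ℕ) : R :=
  ∑ p ∈ antidiagonal (xs 2), X (Function.update xs 2 p.1) * Y (Function.update xs 2 p.2)

/-- three dimensional acyclic convolution -/
def conv3 {R : Type} [CommSemiring R] (a b : ℕ → ℕ → ℕ → R) (k l c : ℕ) : R :=
  ∑ p ∈ antidiagonal k, ∑ q ∈ antidiagonal l, ∑ r ∈ antidiagonal c, a p.1 q.1 r.1 * b p.2 q.2 r.2

theorem sum_anti {R : Type} [AddCommMonoid R] {β n : ℕ} (hn : β ≤ n) {F : ℕ → ℕ → R}
    (hF : ∀ k k', β ≤ k ∨ β ≤ k' → F k k' = 0) (x : ℕ) :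
    ∑ p ∈ antidiagonal x, F p.1 p.2 =
      ∑ k ∈ range n, ∑ k' ∈ range n, if k + k' = x then F k k' else 0 := by
  rw [← Finset.sum_product', ← Finset.sum_filter]
  symm
  refine Finset.sum_subset (fun p hp => ?_) fun p hp hp' => hF _ _ ?_
  · exact mem_antidiagonal.2 (mem_filter.1 hp).2
  · simp only [mem_filter, mem_product, mem_range, HasAntidiagonal.mem_antidiagonal] at hp hp'
    omega

theorem prod_chi {qs : List ℕ} (hq : qs.Pairwise Nat.Coprime) (h0 : ∀ q ∈ qs, q ≠ 0) :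
    ∃ n : ℤ, IsCoprime n ((qs.prod ^ 2 : ℕ) : ℤ) ∧
      ∀ z, (qs.map fun q => chi (q ^ 2) z).prod = chi (qs.prod ^ 2) (n * z) := by
  induction qs with
  | nil =>
    exact ⟨1, by simpa using isCoprime_one_left, fun z => by
      simpa using ((chi_eq_one_iff one_ne_zero z).2 (by simp)).symm⟩
  | cons q l ih =>
    rw [List.pairwise_cons] at hq
    obtain ⟨n, hn, h⟩ := ih hq.2 fun q hq => h0 q (List.mem_cons_of_mem _ hq)
    have hco : IsCoprime ((q ^ 2 : ℕ) : ℤ) ((l.prod ^ 2 : ℕ) : ℤ) := Nat.isCoprime_iff_coprime.2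
      (Nat.Coprime.pow _ _ (Nat.coprime_list_prod_right_iff.2 hq.1))
    refine ⟨(l.prod ^ 2 : ℕ) + n * (q ^ 2 : ℕ), ?_, fun z => ?_⟩
    · rw [List.prod_cons, mul_pow, Nat.cast_mul]
      exact (hco.symm.add_mul_right_left n).mul_right (by
        simpa using (hn.mul_left hco).add_mul_right_left 1 |>.of_isCoprime_of_dvd_left
          (dvd_of_eq (by push_cast; ring)))
    · rw [List.map_cons, List.prod_cons, h, chi, chi, chi, ← Complex.exp_add]
      have a1 : (q : ℂ) ≠ 0 := by exact_mod_cast h0 q List.mem_cons_self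
      have a2 : ((l.prod : ℕ) : ℂ) ≠ 0 := by
        exact_mod_cast List.prod_ne_zero fun h => h0 0 (List.mem_cons_of_mem _ h) rfl
      congr 1
      simp only [List.prod_cons, Nat.cast_pow, Nat.cast_mul, Int.cast_mul, Int.cast_add,
        Int.cast_pow, Int.cast_natCast]
      field_simp

theorem sum_chi {N : ℕ} (hN : N ≠ 0) (z : ℤ) :
    ∑ y ∈ range N, chi N (y * z) = if (N : ℤ) ∣ z then (N : ℂ) else 0 := by
  have e : ∀ y : ℕ, chi N (y * z) = chi N z ^ y := fun y => by
    rw [chi_eq, chi_eq, mul_comm (y : ℤ), zpow_mul, zpow_natCast]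
  simp only [e]
  split_ifs with h
  · simp [(chi_eq_one_iff hN z).2 h]
  · rw [geom_sum_eq (mt (chi_eq_one_iff hN z).1 h), ← e,
      (chi_eq_one_iff hN _).2 (dvd_mul_right _ _), sub_self, zero_div]

theorem kern_orth {qs : List ℕ} (hq : Mods qs) {x k k' : ℕ} (hx : x < qs.prod ^ 2)
    (hk : k + k' < qs.prod ^ 2) :
    ∑ y ∈ range (qs.prod ^ 2), kern qs true x y * (kern qs false y k * kern qs false y k') =
      if k + k' = x then 1 else 0 := by
  obtain ⟨n, hn, h⟩ := prod_chi hq.cop fun q h => by have := hq.three q h; omega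
  have hB : qs.prod ^ 2 ≠ 0 := by omega
  have e : ∀ y, kern qs true x y * (kern qs false y k * kern qs false y k') =
      ((qs.prod ^ 2 : ℕ) : ℂ)⁻¹ * chi (qs.prod ^ 2) (y * (n * (k + k' - x))) := by
    intro y
    rw [mul_left_comm (y : ℤ), ← h]
    unfold kern
    clear h hn hx hk hB hq
    induction qs with
    | nil => simp
    | cons q l ih =>
      simp only [List.map_cons, List.prod_cons]
      rw [show ∀ a b c d e f : ℂ, a * b * (c * d * (e * f)) = a * (c * e) * (b * (d * f)) from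
        fun _ _ _ _ _ _ => by ring, ih]
      simp only [ker, cond_true, cond_false]
      rw [mul_assoc _ (chi _ _), ← chi_add, ← chi_add,
        show -((x : ℤ) * y) + (y * k + y * k') = y * (k + k' - x) by ring]
      push_cast
      rw [mul_pow, mul_inv]
      ring
  simp only [e]
  rw [← Finset.mul_sum, sum_chi hB]
  have e2 : ((qs.prod ^ 2 : ℕ) : ℤ) ∣ n * (k + k' - x) ↔ k + k' = x := by
    refine ⟨fun h => ?_, fun h => by rw [← h]; simp⟩
    have := Int.eq_zero_of_abs_lt_dvd (hn.symm.dvd_of_dvd_mul_left h) (by rw [abs_lt]; omega)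
    omega
  simp only [e2]
  split_ifs
  · exact inv_mul_cancel₀ (by exact_mod_cast hB)
  · exact mul_zero _

theorem conv_one {qs : List ℕ} (hq : Mods qs) {β : ℕ} (hβ : 2 * β ≤ qs.prod ^ 2 + 1)
    {F : ℕ → ℕ → ℂ} (hF : ∀ k k', β ≤ k ∨ β ≤ k' → F k k' = 0) {x : ℕ} (hx : x < qs.prod ^ 2) :
    ∑ y ∈ range (qs.prod ^ 2), kern qs true x y * ∑ k ∈ range (qs.prod ^ 2),
      ∑ k' ∈ range (qs.prod ^ 2), kern qs false y k * kern qs false y k' * F k k' =
      ∑ p ∈ antidiagonal x, F p.1 p.2 := by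
  rw [sum_anti (n := qs.prod ^ 2) (by omega) hF]
  simp only [Finset.mul_sum]
  rw [Finset.sum_comm]
  refine Finset.sum_congr rfl fun k _ => ?_
  rw [Finset.sum_comm]
  refine Finset.sum_congr rfl fun k' _ => ?_
  by_cases h : β ≤ k ∨ β ≤ k'
  · simp [hF k k' h]
  · simp only [← mul_assoc _ _ (F k k')]
    rw [← Finset.sum_mul, kern_orth hq hx (by omega)]
    simp

theorem dft2_eq (qs : List ℕ) (fl : Bool) (Z : (ℕ → ℕ) → ℂ) (xs : ℕ → ℕ) :
    dft2 qs fl Z xs = ∑ y ∈ range (qs.prod ^ 2), kern qs fl (xs 0) y *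
      ∑ y' ∈ range (qs.prod ^ 2), kern qs fl (xs 1) y' *
        Z (Function.update (Function.update xs 0 y) 1 y') := by
  have e : ∀ y, Function.update (xs ∘ Equiv.swap 0 1) 1 y ∘ Equiv.swap 0 1 =
      Function.update xs 0 y := by
    intro y
    funext i
    by_cases h0 : i = 0
    · simp [h0]
    by_cases h1 : i = 1
    · simp [h1]
    simp [h0, h1, Equiv.swap_apply_of_ne_of_ne]
  simp [dft2, tr, dft, e]

theorem conv_thm {qs : List ℕ} (hq : Mods qs) {β : ℕ} (hβ : 2 * β ≤ qs.prod ^ 2 + 1)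
    {a b : ℕ → ℕ → ℕ → ℂ} (ha : ∀ k l c, β ≤ k ∨ β ≤ l → a k l c = 0)
    (hb : ∀ k l c, β ≤ k ∨ β ≤ l → b k l c = 0) {xs : ℕ → ℕ} (h0 : xs 0 < qs.prod ^ 2)
    (h1 : xs 1 < qs.prod ^ 2) :
    dft2 qs true (pmul (dft2 qs false fun ys => a (ys 0) (ys 1) (ys 2))
      (dft2 qs false fun ys => b (ys 0) (ys 1) (ys 2))) xs = conv3 a b (xs 0) (xs 1) (xs 2) := by
  unfold conv3
  rw [← conv_one hq hβ (F := fun k k' => ∑ q ∈ antidiagonal (xs 1), ∑ r ∈ antidiagonal (xs 2),
    a k q.1 r.1 * b k' q.2 r.2) (fun k k' h => Finset.sum_eq_zero fun _ _ =>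
      Finset.sum_eq_zero fun _ _ => by
        rcases h with h | h
        · rw [ha _ _ _ (Or.inl h), zero_mul]
        · rw [hb _ _ _ (Or.inl h), mul_zero]) h0, dft2_eq]
  refine Finset.sum_congr rfl fun y _ => congrArg _ ?_
  have e : ∀ k k', ∑ q ∈ antidiagonal (xs 1), ∑ r ∈ antidiagonal (xs 2),
      a k q.1 r.1 * b k' q.2 r.2 = _ := fun k k' =>
    (conv_one hq hβ (F := fun l l' => ∑ r ∈ antidiagonal (xs 2), a k l r.1 * b k' l' r.2)
      (fun l l' h => Finset.sum_eq_zero fun _ _ => by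
        rcases h with h | h
        · rw [ha _ _ _ (Or.inr h), zero_mul]
        · rw [hb _ _ _ (Or.inr h), mul_zero]) h1).symm
  simp only [e, pmul, dft2_eq]
  simp only [Function.update_self, ne_eq, zero_ne_one, not_false_eq_true, Function.update_of_ne,
    OfNat.ofNat_ne_one, OfNat.ofNat_ne_zero, OfNat.zero_ne_ofNat, OfNat.one_ne_ofNat]
  set K := kern qs false
  set N := range (qs.prod ^ 2)
  have e2 : ∀ y', ∑ p ∈ antidiagonal (xs 2), (∑ k ∈ N, K y k * ∑ l ∈ N, K y' l * a k l p.1) *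
      ∑ k ∈ N, K y k * ∑ l ∈ N, K y' l * b k l p.2 =
      ∑ k ∈ N, ∑ k' ∈ N, K y k * K y k' * ∑ l ∈ N, ∑ l' ∈ N, K y' l * K y' l' *
        ∑ r ∈ antidiagonal (xs 2), a k l r.1 * b k' l' r.2 := by
    intro y'
    simp only [Finset.sum_mul_sum]
    rw [Finset.sum_comm]
    refine Finset.sum_congr rfl fun k _ => ?_
    rw [Finset.sum_comm]
    refine Finset.sum_congr rfl fun k' _ => ?_
    simp only [mul_mul_mul_comm (K y k), Finset.sum_mul_sum]
    rw [← Finset.mul_sum, Finset.sum_comm]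
    refine congrArg _ (Finset.sum_congr rfl fun l _ => ?_)
    rw [Finset.sum_comm]
    refine Finset.sum_congr rfl fun l' _ => ?_
    rw [Finset.mul_sum]
    exact Finset.sum_congr rfl fun r _ => by ring
  simp only [e2]
  simp only [Finset.mul_sum N _ (kern qs true (xs 1) _)]
  rw [Finset.sum_comm]
  refine Finset.sum_congr rfl fun k _ => ?_
  rw [Finset.sum_comm]
  refine Finset.sum_congr rfl fun k' _ => ?_
  rw [Finset.mul_sum]
  refine Finset.sum_congr rfl fun y' _ => ?_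
  simp only [← Finset.mul_sum]
  ring

/-- evaluation at `2 ^ s` -/
def ev (s n : ℕ) (f : ℕ → ℕ) : ℕ := ∑ i ∈ range n, f i * 2 ^ (s * i)

theorem ev_one {β B : ℕ} (hB : 2 * β ≤ B + 1) (s : ℕ) {F : ℕ → ℕ → ℕ}
    (hF : ∀ k k', β ≤ k ∨ β ≤ k' → F k k' = 0) :
    (ev s B fun k => ∑ p ∈ antidiagonal k, F p.1 p.2) = ev s β fun k => ev s β fun k' => F k k' := by
  unfold ev
  simp only [sum_anti le_rfl hF, Finset.sum_mul]
  rw [Finset.sum_comm]
  refine Finset.sum_congr rfl fun k hk => ?_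
  rw [Finset.sum_comm]
  refine Finset.sum_congr rfl fun k' hk' => ?_
  rw [mem_range] at hk hk'
  rw [Finset.sum_eq_single (k + k') (fun i _ hi => by simp [hi.symm])
    (fun h => absurd (mem_range.2 (by omega)) h), if_pos rfl]
  ring

theorem ev_sum {ι : Type} (s n : ℕ) (t : Finset ι) (f : ι → ℕ → ℕ) :
    (ev s n fun k => ∑ i ∈ t, f i k) = ∑ i ∈ t, ev s n (f i) := by
  unfold ev
  simp only [Finset.sum_mul]
  exact Finset.sum_comm

theorem ev_mul (s n : ℕ) (f g : ℕ → ℕ) :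
    ev s n f * ev s n g = ev s n fun k => ev s n fun k' => f k * g k' := by
  unfold ev
  rw [Finset.sum_mul_sum]
  simp only [Finset.sum_mul]
  exact Finset.sum_congr rfl fun _ _ => Finset.sum_congr rfl fun _ _ => by ring

theorem ev_zero (s n : ℕ) {f : ℕ → ℕ} (h : ∀ k, f k = 0) : ev s n f = 0 := by
  simp [ev, h]

theorem ev_conv3 {β B T' T : ℕ} (hB : 2 * β ≤ B + 1) (hT : 2 * T' ≤ T + 1) (s1 s2 s3 : ℕ)
    {a b : ℕ → ℕ → ℕ → ℕ} (ha : ∀ k l c, β ≤ k ∨ β ≤ l ∨ T' ≤ c → a k l c = 0)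
    (hb : ∀ k l c, β ≤ k ∨ β ≤ l ∨ T' ≤ c → b k l c = 0) :
    (ev s3 B fun k => ev s2 B fun l => ev s1 T fun c => conv3 a b k l c) =
      (ev s3 β fun k => ev s2 β fun l => ev s1 T' fun c => a k l c) *
        ev s3 β fun k => ev s2 β fun l => ev s1 T' fun c => b k l c := by
  have z : ∀ k k' l l' c c', (β ≤ k ∨ β ≤ k') ∨ (β ≤ l ∨ β ≤ l') ∨ (T' ≤ c ∨ T' ≤ c') →
      a k l c * b k' l' c' = 0 := by
    intro k k' l l' c c' h
    rw [mul_eq_zero]
    by_contra hc
    have h1 := mt (ha k l c) (not_or.1 hc).1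
    have h2 := mt (hb k' l' c') (not_or.1 hc).2
    omega
  simp only [conv3, ev_sum, ev_mul]
  rw [← ev_one hB s3 fun k k' h => ev_zero _ _ fun l => ev_zero _ _ fun l' =>
    ev_zero _ _ fun c => ev_zero _ _ fun c' => z _ _ _ _ _ _ (Or.inl h)]
  refine congrArg _ (funext fun k => Finset.sum_congr rfl fun p _ => ?_)
  rw [← ev_one hB s2 fun l l' h => ev_zero _ _ fun c => ev_zero _ _ fun c' =>
    z _ _ _ _ _ _ (Or.inr (Or.inl h))]
  refine congrArg _ (funext fun l => Finset.sum_congr rfl fun q _ => ?_)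
  exact ev_one hT s1 (F := fun c c' => a p.1 q.1 c * b p.2 q.2 c')
    fun c c' h => z _ _ _ _ _ _ (Or.inr (Or.inr h))

theorem anti_le {β X k : ℕ} {f : ℕ × ℕ → ℕ} (h0 : ∀ p, β ≤ p.1 → f p = 0) (h1 : ∀ p, f p ≤ X) :
    ∑ p ∈ antidiagonal k, f p ≤ β * X := by
  rw [← Finset.sum_filter_of_ne (p := fun p => p.1 < β)
    (fun p _ h => not_le.1 fun h' => h (h0 p h'))]
  refine (Finset.sum_le_card_nsmul _ _ X fun p _ => h1 p).trans (Nat.mul_le_mul_right _ ?_)
  rw [← Finset.card_range β]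
  refine Finset.card_le_card_of_injOn Prod.fst (fun p hp => ?_) fun p hp q hq h => ?_
  · simpa using (mem_filter.1 hp).2
  · have a1 := mem_antidiagonal.1 (mem_filter.1 hp).1
    have a2 := mem_antidiagonal.1 (mem_filter.1 hq).1
    exact Prod.ext h (by omega)

theorem conv3_le {β T' X : ℕ} {a b : ℕ → ℕ → ℕ → ℕ}
    (ha : ∀ k l c, β ≤ k ∨ β ≤ l ∨ T' ≤ c → a k l c = 0) (ha' : ∀ k l c, a k l c ≤ X)
    (hb' : ∀ k l c, b k l c ≤ X) (k l c : ℕ) : conv3 a b k l c ≤ β * β * T' * (X * X) := by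
  rw [mul_assoc, mul_assoc]
  exact anti_le (fun p h => by simp [ha _ _ _ (Or.inl h)]) fun p =>
    anti_le (fun q h => by simp [ha _ _ _ (Or.inr (Or.inl h))]) fun q =>
      anti_le (fun r h => by simp [ha _ _ _ (Or.inr (Or.inr h))]) fun r =>
        Nat.mul_le_mul (ha' _ _ _) (hb' _ _ _)

theorem conv3_cast (a b : ℕ → ℕ → ℕ → ℕ) (k l c : ℕ) :
    ((conv3 a b k l c : ℕ) : ℂ) = conv3 (fun k l c => (a k l c : ℂ)) (fun k l c => (b k l c : ℂ)) k l c := by
  simp [conv3]

/-- at least half of the residues are good -/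
theorem good_count {qs : List ℕ} (hq : Mods qs) (h : ∀ q ∈ qs, 2 * qs.length ≤ q) :
    qs.prod ≤ 2 * ((List.range qs.prod).filter (goodb qs)).length := by
  classical
  have e : ((List.range qs.prod).filter (goodb qs)).length =
      ((range qs.prod).filter fun v => goodb qs v = true).card := by
    rw [← List.toFinset_card_of_nodup (List.nodup_range.filter _)]
    congr 1
    ext v
    simp
  have e2 := Finset.card_filter_add_card_filter_not (s := range qs.prod)
    (fun v => goodb qs v = true)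
  rw [card_range] at e2
  have h1 : ((range qs.prod).filter fun v => ¬ goodb qs v = true) ⊆
      qs.toFinset.biUnion fun q => (range qs.prod).filter fun v => v % q = 0 := by
    intro v hv
    rw [mem_filter, goodb_iff] at hv
    unfold Good at hv
    push Not at hv
    obtain ⟨hv, q, hq, h⟩ := hv
    exact mem_biUnion.2 ⟨q, List.mem_toFinset.2 hq, mem_filter.2 ⟨hv, h⟩⟩
  have h2 : ∀ q ∈ qs.toFinset, 2 * qs.length *
      ((range qs.prod).filter fun v => v % q = 0).card ≤ qs.prod := by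
    intro q hq'
    have hq'' := List.mem_toFinset.1 hq'
    have : ((range qs.prod).filter fun v => v % q = 0).card ≤ qs.prod / q := by
      rw [← Finset.card_range (qs.prod / q)]
      refine Finset.card_le_card_of_injOn (· / q) (fun v hv => ?_) fun v hv w hw hvw => ?_
      · simpa using Nat.div_lt_div_of_lt_of_dvd (List.dvd_prod hq'')
          (mem_range.1 (mem_filter.1 hv).1)
      · have a1 := Nat.div_add_mod v q
        have a2 := Nat.div_add_mod w q
        rw [(mem_filter.1 hv).2] at a1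
        rw [(mem_filter.1 hw).2] at a2
        simp only at hvw
        rw [← a1, ← a2, hvw]
    exact (Nat.mul_le_mul (h q hq'') this).trans (Nat.mul_div_le _ _)
  have h3 := Nat.mul_le_mul_left (2 * qs.length) ((card_le_card h1).trans card_biUnion_le)
  rw [Finset.mul_sum] at h3
  have h4 := h3.trans ((Finset.sum_le_card_nsmul _ _ _ h2).trans
    (Nat.mul_le_mul_right _ (List.toFinset_card_le qs)))
  rw [e]
  rcases Nat.eq_zero_or_pos qs.length with h5 | h5
  · rw [List.length_eq_zero_iff.1 h5]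
    simp [goodb]
  · rw [mul_comm 2, mul_assoc] at h4
    have := Nat.le_of_mul_le_mul_left h4 h5
    omega

end Vale.Agent.P338
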