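import Vale.Agent.P338.CLDefs
import Vale.Agent.P338.Global

/-! Number theory for the layer procedure. -/

namespace Vale.Agent.P338

open Vale.Agent.Lib Vale.Agent.Lib.H23 Enc Function

/-- `P` is a unitary divisor of `M` -/
def Uni (M P : ℕ) : Prop := P ∣ M ∧ P.Coprime (M / P)

/-- minus one modulo `P`, one modulo `M / P` -/
def ngc (M P : ℕ) : ℕ := crt M [(P, P - 1), (M / P, 1)]

/-- the number below `M1 * M2` which is `M2 * hi` modulo `M1` and `lo` modulo `M2` -/
def jn (M1 M2 hi lo : ℕ) : ℕ := (hi + (M1 - 1) * invMod M2 M1 * lo) % M1 * M2 + lo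

/-- negate the components `rs` selected by the roles of `v` modulo `pv` -/
def ctl (M2 : ℕ) (pv rs : List ℕ) (v : ℕ) : ℕ :=
  ngc M2 (((pv.zip rs).filter fun p => role p.1 v).map Prod.snd).prod

/-- from addresses of shape `[O, M1, M2 * Mid, M1, M2 * R, T]` to shape
`[O, M1 * M2, Mid, M1 * M2, R, T]` -/
def zad (pv rs : List ℕ) (M2 Mid R : ℕ) (ys : ℕ → ℕ) : ℕ → ℕ
  | 1 => jn pv.prod M2 (ys 1) (ctl M2 pv rs (ys 1) * (ys 2 / Mid) % M2)
  | 2 => ys 2 % Mid
  | 3 => jn pv.prod M2 (ys 3) (ctl M2 pv rs (ys 1) * (ys 4 / R) % M2)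
  | 4 => ys 4 % R
  | i => ys i

variable {M P P' c c' : ℕ}

@[fun_prop] theorem PT_ngc {α : Type} [Enc α] {M P : α → ℕ} (hM : PT M) (hP : PT P) :
    PT fun a => ngc (M a) (P a) := by
  unfold ngc
  exact PT_crt hM (PT.cons (PT.pair hP (PT.sub hP (PT.const 1)))
    (PT.cons (PT.pair (PT_div hM hP) (PT.const 1)) (PT.const [])))

@[fun_prop] theorem PT_role {α : Type} [Enc α] {q v : α → ℕ} (hq : PT q) (hv : PT v) :
    PT fun a => role (q a) (v a) := by
  exact (PT.ltb hq (PT.mul (PT.const 2) (PT_mod hv hq))).congr fun _ => rfl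

@[fun_prop] theorem PT_ctl {α : Type} [Enc α] {M v : α → ℕ} {pv rs : α → List ℕ} (hM : PT M)
    (h1 : PT pv) (h2 : PT rs) (hv : PT v) : PT fun a => ctl (M a) (pv a) (rs a) (v a) := by
  unfold ctl
  refine PT_ngc hM (PT_prod (PT.map (f := fun _ (p : ℕ × ℕ) => p.2) (by fun_prop)
    (PT_filter (f := fun a (p : ℕ × ℕ) => role p.1 (v a)) ?_ (PT.zip h1 h2))))
  exact PT_role (by fun_prop) (PT.comp (g := fun q : α × ℕ × ℕ => q.1) hv (by fun_prop))

theorem Uni.pos (h : Uni M P) : 0 < P := by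
  rcases Nat.eq_zero_or_pos P with rfl | h0
  · have := h.2
    simp at this
  · exact h0

theorem Uni.modEq (h : Uni M P) {a b : ℕ} (h1 : a ≡ b [MOD P]) (h2 : a ≡ b [MOD M / P]) :
    a ≡ b [MOD M] := by
  have := (Nat.modEq_and_modEq_iff_modEq_mul h.2).1 ⟨h1, h2⟩
  rwa [Nat.mul_div_cancel' h.1] at this

theorem neg_unique {q a b : ℕ} (ha : q ∣ a + 1) (hb : q ∣ b + 1) : a ≡ b [MOD q] :=
  Nat.ModEq.add_right_cancel' 1
    ((Nat.modEq_zero_iff_dvd.2 ha).trans (Nat.modEq_zero_iff_dvd.2 hb).symm)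

theorem neg_mul_one {q a b : ℕ} (ha : q ∣ a + 1) (hb : b ≡ 1 [MOD q]) : q ∣ a * b + 1 := by
  have h : a * b + 1 ≡ a * 1 + 1 [MOD q] := (hb.mul_left a).add_right 1
  rw [mul_one] at h
  exact Nat.modEq_zero_iff_dvd.1 (h.trans (Nat.modEq_zero_iff_dvd.2 ha))

theorem Uni.split (h : Uni M P) (h' : Uni M P') (hc : P.Coprime P') :
    ∃ k, M = P * P' * k ∧ M / P = P' * k ∧ M / P' = P * k ∧ M / (P * P') = k := by
  obtain ⟨k, hk⟩ := hc.mul_dvd_of_dvd_of_dvd h.1 h'.1
  have h0 := h.pos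
  have h0' := h'.pos
  refine ⟨k, hk, ?_, ?_, ?_⟩
  · rw [hk, mul_assoc, Nat.mul_div_cancel_left _ h0]
  · rw [hk, mul_comm P P', mul_assoc, Nat.mul_div_cancel_left _ h0']
  · rw [hk, Nat.mul_div_cancel_left _ (Nat.mul_pos h0 h0')]

theorem ngc_spec (hM : 0 < M) (h : Uni M P) : IsNeg M P (ngc M P) := by
  have hP := h.pos
  have h1 : ∀ p ∈ [(P, P - 1), (M / P, 1)], p.1 ∣ M ∧ Nat.Coprime p.1 (M / p.1) := by
    intro p hp
    simp only [List.mem_cons, List.not_mem_nil, or_false] at hp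
    rcases hp with rfl | rfl
    · exact h
    · refine ⟨Nat.div_dvd_of_dvd h.1, ?_⟩
      show Nat.Coprime (M / P) (M / (M / P))
      rw [Nat.div_div_self h.1 hM.ne']
      exact h.2.symm
  have h2 : ([(P, P - 1), (M / P, 1)].map Prod.fst).Pairwise Nat.Coprime := by
    simpa using h.2
  have e1 := crt_spec hM h1 h2 (p := (P, P - 1)) (by simp)
  have e2 := crt_spec hM h1 h2 (p := (M / P, 1)) (by simp)
  refine ⟨?_, e2⟩
  have e3 : ngc M P + 1 ≡ P - 1 + 1 [MOD P] := e1.add_right 1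
  rw [Nat.sub_add_cancel hP] at e3
  exact (Nat.modEq_zero_iff_dvd).1 (e3.trans (Nat.modEq_zero_iff_dvd.2 dvd_rfl))

theorem IsNeg.sq (h : Uni M P) (hc : IsNeg M P c) : c * c ≡ 1 [MOD M] := by
  refine h.modEq ?_ (by simpa using hc.2.mul hc.2)
  have h1 : P ∣ (c * c + c) := by
    have : c * c + c = c * (c + 1) := by ring
    rw [this]
    exact Dvd.dvd.mul_left hc.1 c
  refine Nat.ModEq.add_right_cancel' c ?_
  refine (Nat.modEq_zero_iff_dvd.2 h1).trans ?_
  rw [add_comm]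
  exact (Nat.modEq_zero_iff_dvd.2 hc.1).symm

theorem IsNeg.unique (h : Uni M P) (hc : IsNeg M P c) (hc' : IsNeg M P c') : c ≡ c' [MOD M] := by
  exact h.modEq (neg_unique hc.1 hc'.1) (hc.2.trans hc'.2.symm)

theorem IsNeg.congr (h : P ∣ M) (hc : IsNeg M P c) (e : c ≡ c' [MOD M]) : IsNeg M P c' := by
  refine ⟨?_, ((e.of_dvd (Nat.div_dvd_of_dvd h)).symm).trans hc.2⟩
  have h1 : c' + 1 ≡ c + 1 [MOD P] := (e.of_dvd h).symm.add_right 1
  exact Nat.modEq_zero_iff_dvd.1 (h1.trans (Nat.modEq_zero_iff_dvd.2 hc.1))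

theorem isNeg_one : IsNeg M 1 1 := by
  exact ⟨one_dvd _, Nat.ModEq.refl _⟩

theorem uni_one : Uni M 1 := by
  exact ⟨one_dvd _, Nat.coprime_one_left _⟩

theorem Uni.mul (h : Uni M P) (h' : Uni M P') (hc : P.Coprime P') : Uni M (P * P') := by
  obtain ⟨k, hk, e1, e2, e3⟩ := h.split h' hc
  refine ⟨⟨k, hk⟩, ?_⟩
  have a1 := h.2
  have a2 := h'.2
  rw [e1] at a1
  rw [e2] at a2
  rw [e3]
  exact Nat.Coprime.mul_left (Nat.Coprime.coprime_mul_left_right a1)
    (Nat.Coprime.coprime_mul_left_right a2)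

theorem IsNeg.mul (h : Uni M P) (h' : Uni M P') (hP : P.Coprime P') (hc : IsNeg M P c)
    (hc' : IsNeg M P' c') : IsNeg M (P * P') (c * c') := by
  obtain ⟨k, hk, e1, e2, e3⟩ := h.split h' hP
  have a1 := hc.2
  have a2 := hc'.2
  rw [e1] at a1
  rw [e2] at a2
  refine ⟨hP.mul_dvd_of_dvd_of_dvd (neg_mul_one hc.1 (a2.of_mul_right k)) ?_, ?_⟩
  · rw [mul_comm]
    exact neg_mul_one hc'.1 (a1.of_mul_right k)
  · rw [e3]
    simpa using (a1.of_mul_left P').mul (a2.of_mul_left P)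

theorem Uni.list {l : List ℕ} (h : ∀ q ∈ l, Uni M q) (hl : l.Pairwise Nat.Coprime) :
    Uni M l.prod := by
  induction l with
  | nil => exact uni_one
  | cons q l ih =>
    rw [List.pairwise_cons] at hl
    rw [List.prod_cons]
    exact (h q List.mem_cons_self).mul (ih (fun r hr => h r (List.mem_cons_of_mem _ hr)) hl.2)
      (Nat.coprime_list_prod_right_iff.2 hl.1)

theorem Uni.prod {ι : Type} {s : Finset ι} {q : ι → ℕ} (h : ∀ i ∈ s, Uni M (q i))
    (hl : ∀ i ∈ s, ∀ j ∈ s, i ≠ j → (q i).Coprime (q j)) : Uni M (∏ i ∈ s, q i) := by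
  induction s using Finset.cons_induction with
  | empty => simpa using uni_one
  | cons a s ha ih =>
    rw [Finset.prod_cons]
    refine (h a (Finset.mem_cons_self _ _)).mul
      (ih (fun i hi => h i (Finset.mem_cons_of_mem hi)) fun i hi j hj =>
        hl i (Finset.mem_cons_of_mem hi) j (Finset.mem_cons_of_mem hj)) ?_
    exact Nat.Coprime.prod_right fun i hi => hl a (Finset.mem_cons_self _ _) i
      (Finset.mem_cons_of_mem hi) fun e => ha (e ▸ hi)

theorem IsNeg.prod {ι : Type} {s : Finset ι} {q c : ι → ℕ} (h : ∀ i ∈ s, Uni M (q i))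
    (hl : ∀ i ∈ s, ∀ j ∈ s, i ≠ j → (q i).Coprime (q j)) (hc : ∀ i ∈ s, IsNeg M (q i) (c i)) :
    IsNeg M (∏ i ∈ s, q i) (∏ i ∈ s, c i) := by
  induction s using Finset.cons_induction with
  | empty => simpa using isNeg_one
  | cons a s ha ih =>
    rw [Finset.prod_cons, Finset.prod_cons]
    have h' : ∀ i ∈ s, Uni M (q i) := fun i hi => h i (Finset.mem_cons_of_mem hi)
    have hl' : ∀ i ∈ s, ∀ j ∈ s, i ≠ j → (q i).Coprime (q j) := fun i hi j hj =>
      hl i (Finset.mem_cons_of_mem hi) j (Finset.mem_cons_of_mem hj)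
    refine IsNeg.mul (h a (Finset.mem_cons_self _ _)) (Uni.prod h' hl') ?_
      (hc a (Finset.mem_cons_self _ _)) (ih h' hl' fun i hi => hc i (Finset.mem_cons_of_mem hi))
    exact Nat.Coprime.prod_right fun i hi => hl a (Finset.mem_cons_self _ _) i
      (Finset.mem_cons_of_mem hi) fun e => ha (e ▸ hi)

theorem Uni.sub {l : List ℕ} (hl : l.Pairwise Nat.Coprime) {q : ℕ} (hq : q ∈ l) (h0 : 0 < q) :
    Uni l.prod q := by
  have hp := List.perm_cons_erase hq
  have h1 : l.prod = q * (l.erase q).prod := by rw [hp.prod_eq, List.prod_cons]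
  have h2 : (q :: l.erase q).Pairwise Nat.Coprime :=
    (hp.pairwise_iff fun h => Nat.Coprime.symm h).1 hl
  rw [List.pairwise_cons] at h2
  refine ⟨⟨_, h1⟩, ?_⟩
  rw [h1, Nat.mul_div_cancel_left _ h0]
  exact Nat.coprime_list_prod_right_iff.2 h2.1

theorem Uni.div (hM : 0 < M) (h : Uni M P) (h' : Uni M P') (hc : P.Coprime P') :
    Uni (M / P) P' := by
  obtain ⟨k, hk, e1, e2, e3⟩ := h.split h' hc
  have a2 := h'.2
  rw [e2] at a2
  rw [e1]
  refine ⟨dvd_mul_right _ _, ?_⟩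
  rw [Nat.mul_div_cancel_left _ h'.pos]
  exact Nat.Coprime.coprime_mul_left_right a2

theorem sig_congr (e : c ≡ c' [MOD M]) : sig M c = sig M c' := by
  funext xs
  unfold sig
  rw [show c * xs 1 % M = c' * xs 1 % M from e.mul_right _,
    show c * xs 3 % M = c' * xs 3 % M from e.mul_right _]

theorem sig_one' (xs : ℕ → ℕ) : sig M c xs 1 = c * xs 1 % M := by
  simp [sig]

theorem sig_three (xs : ℕ → ℕ) : sig M c xs 3 = c * xs 3 % M := by
  simp [sig]

theorem sig_other {xs : ℕ → ℕ} {i : ℕ} (h1 : i ≠ 1) (h3 : i ≠ 3) : sig M c xs i = xs i := by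
  simp [sig, h1, h3]

theorem sig_sig (xs : ℕ → ℕ) : sig M c (sig M c' xs) = sig M (c * c') xs := by
  funext i
  by_cases h3 : i = 3
  · subst h3
    rw [sig_three, sig_three, sig_three, Nat.mul_mod_mod, mul_assoc]
  by_cases h1 : i = 1
  · subst h1
    rw [sig_one', sig_one', sig_one', Nat.mul_mod_mod, mul_assoc]
  rw [sig_other h1 h3, sig_other h1 h3, sig_other h1 h3]

theorem sig_one {xs : ℕ → ℕ} (h1 : xs 1 < M) (h3 : xs 3 < M) : sig M 1 xs = xs := by
  funext i
  by_cases e3 : i = 3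
  · subst e3
    rw [sig_three, one_mul, Nat.mod_eq_of_lt h3]
  by_cases e1 : i = 1
  · subst e1
    rw [sig_one', one_mul, Nat.mod_eq_of_lt h1]
  rw [sig_other e1 e3]

theorem Valid.sig {O Mid R T : ℕ} {xs : ℕ → ℕ} (h : Valid [O, M, Mid, M, R, T] xs) :
    Valid [O, M, Mid, M, R, T] (sig M c xs) := by
  have hM : 0 < M := lt_of_le_of_lt (Nat.zero_le _) (h 1)
  intro i
  by_cases e3 : i = 3
  · subst e3
    rw [sig_three]
    exact Nat.mod_lt _ hM
  by_cases e1 : i = 1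
  · subst e1
    rw [sig_one']
    exact Nat.mod_lt _ hM
  rw [sig_other e1 e3]
  exact h i

theorem Good.sig {qs : List ℕ} (hq : ∀ q ∈ qs, q ∣ M) (hc : c * c ≡ 1 [MOD M]) {xs : ℕ → ℕ}
    (h : Good qs (xs 1)) : Good qs (sig M c xs 1) := by
  intro q hm h0
  apply h q hm
  rw [sig_one', Nat.mod_mod_of_dvd _ (hq q hm)] at h0
  have h1 : c * c * xs 1 ≡ 1 * xs 1 [MOD q] := (hc.of_dvd (hq q hm)).mul_right _
  have h2 : q ∣ c * c * xs 1 := by
    rw [mul_assoc]
    exact Dvd.dvd.mul_left (Nat.dvd_of_mod_eq_zero h0) c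
  rw [one_mul] at h1
  exact Nat.mod_eq_zero_of_dvd
    (Nat.modEq_zero_iff_dvd.1 (h1.symm.trans (Nat.modEq_zero_iff_dvd.2 h2)))

theorem layer_conj {X Y R : Type} [Mul R] [Add R] (α β : R) {ok : Y → Prop} (Z : Y → X)
    {σs : List (X → X)} {τs : List (Y → Y)}
    (h : List.Forall₂ (fun σ τ => ∀ y, ok y → ok (τ y) ∧ Z (τ y) = σ (Z y)) σs τs) (F : X → R)
    {y : Y} (hy : ok y) : layer α β τs (fun y => F (Z y)) y = layer α β σs F (Z y) := by
  induction h generalizing y with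
  | nil => rfl
  | cons h1 _ ih =>
    simp only [layer]
    rw [ih hy, ih (h1 y hy).1, (h1 y hy).2]

section

variable {pv rs : List ℕ} {O M2 Mid R T : ℕ} {ys : ℕ → ℕ}

theorem snd_zip_sublist (a b : List ℕ) : ((a.zip b).map Prod.snd).Sublist b := by
  induction a generalizing b with
  | nil => simp
  | cons x a ih =>
    cases b with
    | nil => simp
    | cons y b => simpa using ih b

theorem ctl_uni (hc : rs.Pairwise Nat.Coprime) (hr : ∀ x ∈ rs, Uni M2 x) (v : ℕ) :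
    Uni M2 (((pv.zip rs).filter fun p => role p.1 v).map Prod.snd).prod := by
  have hs : (((pv.zip rs).filter fun p => role p.1 v).map Prod.snd).Sublist rs :=
    (List.filter_sublist.map _).trans (snd_zip_sublist _ _)
  exact Uni.list (fun q hq => hr q (hs.subset hq)) (hc.sublist hs)

theorem jn_lt {M1 M2 hi lo : ℕ} (h1 : 0 < M1) (h2 : lo < M2) : jn M1 M2 hi lo < M1 * M2 := by
  unfold jn
  have := Nat.mod_lt (hi + (M1 - 1) * invMod M2 M1 * lo) h1
  generalize (hi + (M1 - 1) * invMod M2 M1 * lo) % M1 = a at this ⊢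
  calc a * M2 + lo < a * M2 + M2 := by omega
    _ = (a + 1) * M2 := by ring
    _ ≤ M1 * M2 := Nat.mul_le_mul_right _ this

theorem jn_lo (M1 M2 hi lo : ℕ) : jn M1 M2 hi lo ≡ lo [MOD M2] := by
  unfold jn
  simp [Nat.ModEq]

theorem jn_hi {M1 M2 : ℕ} (hc : M1.Coprime M2) (h0 : 0 < M1) (hi lo : ℕ) :
    jn M1 M2 hi lo ≡ M2 * hi [MOD M1] := by
  unfold jn
  have h1 := invMod_spec hc.symm
  have h2 : (hi + (M1 - 1) * invMod M2 M1 * lo) % M1 * M2 + lo ≡
      (hi + (M1 - 1) * invMod M2 M1 * lo) * M2 + lo [MOD M1] :=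
    ((Nat.mod_modEq _ _).mul_right _).add_right _
  refine h2.trans ?_
  have h3 : (hi + (M1 - 1) * invMod M2 M1 * lo) * M2 + lo =
      M2 * hi + ((M1 - 1) * lo * (M2 * invMod M2 M1) + lo) := by ring
  rw [h3]
  have h4 : (M1 - 1) * lo * (M2 * invMod M2 M1) + lo ≡ (M1 - 1) * lo * 1 + lo [MOD M1] :=
    (h1.mul_left _).add_right _
  have h5 : (M1 - 1) * lo * 1 + lo = M1 * lo := by
    obtain ⟨m, rfl⟩ : ∃ m, M1 = m + 1 := ⟨M1 - 1, by omega⟩
    simp only [Nat.add_sub_cancel]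
    ring
  rw [h5] at h4
  have h6 : M1 * lo ≡ 0 [MOD M1] := Nat.modEq_zero_iff_dvd.2 (dvd_mul_right _ _)
  simpa using (Nat.ModEq.refl (M2 * hi)).add (h4.trans h6)

theorem jn_mul {M1 M2 c e k k' : ℕ} (hc : M1.Coprime M2) (h1 : 0 < M1) (h2 : 0 < M2)
    (he : e ≡ c [MOD M1]) (hk : k' ≡ e * k [MOD M2]) (y z : ℕ) :
    jn M1 M2 (c * y % M1) (k' * z % M2) = e * jn M1 M2 y (k * z % M2) % (M1 * M2) := by
  have a1 : jn M1 M2 (c * y % M1) (k' * z % M2) ≡ e * jn M1 M2 y (k * z % M2) [MOD M1] := by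
    refine (jn_hi hc h1 _ _).trans (Nat.ModEq.trans ?_ (he.mul (jn_hi hc h1 _ _)).symm)
    refine ((Nat.mod_modEq _ _).mul_left _).trans ?_
    rw [mul_left_comm]
  have a2 : jn M1 M2 (c * y % M1) (k' * z % M2) ≡ e * jn M1 M2 y (k * z % M2) [MOD M2] := by
    refine (jn_lo _ _ _ _).trans (Nat.ModEq.trans ?_ ((jn_lo _ _ _ _).mul_left e).symm)
    refine (Nat.mod_modEq _ _).trans (Nat.ModEq.trans ?_ ((Nat.mod_modEq _ _).mul_left e).symm)
    rw [← mul_assoc]
    exact hk.mul_right z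
  have a3 := (Nat.modEq_and_modEq_iff_modEq_mul hc).1 ⟨a1, a2⟩
  rw [← Nat.mod_eq_of_lt (jn_lt h1 (Nat.mod_lt _ h2))]
  exact a3

theorem ctl_sq (h0 : 0 < M2) (hc : rs.Pairwise Nat.Coprime) (hr : ∀ x ∈ rs, Uni M2 x) (v : ℕ) :
    ctl M2 pv rs v * ctl M2 pv rs v ≡ 1 [MOD M2] := by
  have hu := ctl_uni (pv := pv) hc hr v
  exact (ngc_spec h0 hu).sq hu

theorem Valid.zad (h : Valid [O, pv.prod, M2 * Mid, pv.prod, M2 * R, T] ys) :
    Valid [O, pv.prod * M2, Mid, pv.prod * M2, R, T] (zad pv rs M2 Mid R ys) := by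
  have h1 : 0 < pv.prod := lt_of_le_of_lt (Nat.zero_le _) (h 1)
  have h2 : 0 < M2 * Mid := lt_of_le_of_lt (Nat.zero_le _) (h 2)
  have h4 : 0 < M2 * R := lt_of_le_of_lt (Nat.zero_le _) (h 4)
  have hM : 0 < M2 := Nat.pos_of_mul_pos_right h2
  intro i
  match i with
  | 0 => exact h 0
  | 1 => exact jn_lt h1 (Nat.mod_lt _ hM)
  | 2 => exact Nat.mod_lt _ (Nat.pos_of_mul_pos_left h2)
  | 3 => exact jn_lt h1 (Nat.mod_lt _ hM)
  | 4 => exact Nat.mod_lt _ (Nat.pos_of_mul_pos_left h4)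
  | i + 5 => exact h (i + 5)

theorem good_zad (hc : pv.prod.Coprime M2) (h0 : 0 < pv.prod) :
    Good pv (zad pv rs M2 Mid R ys 1) ↔ Good pv (ys 1) := by
  refine forall₂_congr fun q hq => not_congr ?_
  have hd : q ∣ pv.prod := List.dvd_prod hq
  have h1 : zad pv rs M2 Mid R ys 1 ≡ M2 * ys 1 [MOD q] := (jn_hi hc h0 _ _).of_dvd hd
  rw [show zad pv rs M2 Mid R ys 1 % q = M2 * ys 1 % q from h1, ← Nat.dvd_iff_mod_eq_zero,
    ← Nat.dvd_iff_mod_eq_zero]
  exact (Nat.Coprime.coprime_dvd_left hd hc).dvd_mul_left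

theorem ctl_flip' {a b a' b' : List ℕ} {p r v v' e : ℕ} (h0 : 0 < M2)
    (hl : a.length = a'.length) (hc : (a' ++ r :: b').Pairwise Nat.Coprime)
    (hr : ∀ x ∈ a' ++ r :: b', Uni M2 x) (ha : ∀ q ∈ a, role q v' = role q v)
    (hb : ∀ q ∈ b, role q v' = role q v) (hp : role p v' = true) (hp' : role p v = false)
    (he : IsNeg M2 r e) :
    ctl M2 (a ++ p :: b) (a' ++ r :: b') v' ≡ e * ctl M2 (a ++ p :: b) (a' ++ r :: b') v
      [MOD M2] := by
  have u1 := ctl_uni (pv := a ++ p :: b) hc hr v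
  have u2 := ctl_uni (pv := a ++ p :: b) hc hr v'
  have s1 := ngc_spec h0 u1
  have s2 := ngc_spec h0 u2
  have hs : ((((a ++ p :: b).zip (a' ++ r :: b')).filter fun x => role x.1 v').map
      Prod.snd).Sublist (a' ++ r :: b') :=
    (List.filter_sublist.map _).trans (snd_zip_sublist _ _)
  have hc' := hc.sublist hs
  have fa : (a.zip a').filter (fun x => role x.1 v') = (a.zip a').filter fun x => role x.1 v :=
    List.filter_congr fun x hx => ha _ (List.of_mem_zip hx).1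
  have fb : (b.zip b').filter (fun x => role x.1 v') = (b.zip b').filter fun x => role x.1 v :=
    List.filter_congr fun x hx => hb _ (List.of_mem_zip hx).1
  obtain ⟨A, hA⟩ : ∃ A, A = ((a.zip a').filter fun x => role x.1 v).map Prod.snd := ⟨_, rfl⟩
  obtain ⟨B, hB⟩ : ∃ B, B = ((b.zip b').filter fun x => role x.1 v).map Prod.snd := ⟨_, rfl⟩
  have E1 : ((((a ++ p :: b).zip (a' ++ r :: b')).filter fun x => role x.1 v).map Prod.snd) =
      A ++ B := by
    rw [List.zip_append hl, List.zip_cons_cons, List.filter_append,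
      List.filter_cons_of_neg (by simpa using hp'), List.map_append, hA, hB]
  have E2 : ((((a ++ p :: b).zip (a' ++ r :: b')).filter fun x => role x.1 v').map Prod.snd) =
      A ++ r :: B := by
    rw [List.zip_append hl, List.zip_cons_cons, List.filter_append,
      List.filter_cons_of_pos (by simpa using hp), List.map_append, List.map_cons, fa, fb, hA, hB]
  unfold ctl
  rw [E1, List.prod_append] at u1 s1
  rw [E2, List.prod_append, List.prod_cons] at u2 s2
  rw [E2] at hc'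
  rw [E1, E2, List.prod_append, List.prod_append, List.prod_cons]
  have hcr : r.Coprime (A.prod * B.prod) := by
    rw [List.pairwise_append, List.pairwise_cons] at hc'
    refine Nat.Coprime.mul_right ?_ (Nat.coprime_list_prod_right_iff.2 hc'.2.1.1)
    exact Nat.coprime_list_prod_right_iff.2 fun x hx =>
      (hc'.2.2 x hx r List.mem_cons_self).symm
  have s3 := IsNeg.mul (hr r (by simp)) u1 hcr he s1
  rw [mul_left_comm] at s3
  exact s2.unique u2 s3

theorem ctl_flip {v c e s : ℕ} (h0 : 0 < M2) (hg : Good pv v) (hl : rs.length = pv.length)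
    (hc : rs.Pairwise Nat.Coprime) (ho : ∀ q ∈ pv, Odd q) (hr : ∀ x ∈ rs, Uni M2 x)
    (hs : s < pv.length) (hs' : s < rs.length) (h1 : IsNeg pv.prod pv[s] c)
    (h2 : IsNeg M2 rs[s] e) :
    ctl M2 pv rs (c * v % pv.prod) ≡ e * ctl M2 pv rs v [MOD M2] := by
  have hpm : pv[s] ∈ pv := List.getElem_mem hs
  have hrm : rs[s] ∈ rs := List.getElem_mem hs'
  have hop := ho _ hpm
  have hgp := hg _ hpm
  have hur := hr _ hrm
  have d1 : pv = pv.take s ++ pv[s] :: pv.drop (s + 1) := by simp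
  have d2 : rs = rs.take s ++ rs[s] :: rs.drop (s + 1) := by simp
  have hl' : (pv.take s).length = (rs.take s).length := by simp [hl]
  generalize pv.take s = a at *
  generalize pv.drop (s + 1) = b at *
  generalize rs.take s = a' at *
  generalize rs.drop (s + 1) = b' at *
  generalize pv[s] = p at *
  generalize rs[s] = r at *
  subst d1 d2
  have hprod : (a ++ p :: b).prod = p * (a.prod * b.prod) := by
    rw [List.prod_append, List.prod_cons, mul_left_comm]
  have hdiv : (a ++ p :: b).prod / p = a.prod * b.prod := by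
    rw [hprod, Nat.mul_div_cancel_left _ hop.pos]
  have c1 := h1.2
  rw [hdiv] at c1
  have key : ∀ q, q ∣ a.prod * b.prod → role q (c * v % (a ++ p :: b).prod) = role q v := by
    intro q hq
    apply role_congr
    rw [ZMod.natCast_eq_natCast_iff]
    refine ((Nat.mod_modEq _ _).of_dvd ?_).trans ?_
    · rw [hprod]
      exact Dvd.dvd.mul_left hq p
    · simpa using (c1.of_dvd hq).mul_right v
  have ha : ∀ q ∈ a, role q (c * v % (a ++ p :: b).prod) = role q v := fun q hq =>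
    key q (Dvd.dvd.mul_right (List.dvd_prod hq) _)
  have hb : ∀ q ∈ b, role q (c * v % (a ++ p :: b).prod) = role q v := fun q hq =>
    key q (Dvd.dvd.mul_left (List.dvd_prod hq) _)
  have hp : role p (c * v % (a ++ p :: b).prod) = !role p v := by
    apply role_neg hop
    · have k1 : ((c * v % (a ++ p :: b).prod : ℕ) : ZMod p) = (c * v : ℕ) := by
        rw [ZMod.natCast_eq_natCast_iff]
        exact (Nat.mod_modEq _ _).of_dvd (List.dvd_prod hpm)
      have k2 : ((c + 1 : ℕ) : ZMod p) = 0 := (ZMod.natCast_eq_zero_iff _ _).2 h1.1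
      rw [k1]
      push_cast at k2 ⊢
      linear_combination (v : ZMod p) * k2
    · intro k
      exact hgp (Nat.mod_eq_zero_of_dvd ((ZMod.natCast_eq_zero_iff _ _).1 k))
  cases hv : role p v with
  | false =>
    rw [hv] at hp
    exact ctl_flip' h0 hl' hc hr ha hb hp hv h2
  | true =>
    rw [hv] at hp
    have k := ctl_flip' h0 hl' hc hr (fun q hq => (ha q hq).symm) (fun q hq => (hb q hq).symm)
      hv hp h2
    have k2 := (h2.sq hur).mul_right
      (ctl M2 (a ++ p :: b) (a' ++ r :: b') (c * v % (a ++ p :: b).prod))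
    rw [one_mul, mul_assoc] at k2
    exact k2.symm.trans (k.mul_left e).symm

theorem zad_sig (h : Valid [O, pv.prod, M2 * Mid, pv.prod, M2 * R, T] ys) (hg : Good pv (ys 1))
    (hl : rs.length = pv.length) (hc : (pv ++ rs).Pairwise Nat.Coprime) (ho : ∀ q ∈ pv, Odd q)
    (hM : pv.prod.Coprime M2) (hr : ∀ x ∈ rs, Uni M2 x) {s c e : ℕ} (hs : s < pv.length)
    (h1 : IsNeg pv.prod (pv.getD s 1) c)
    (h2 : IsNeg (pv.prod * M2) (pv.getD s 1 * rs.getD s 1) e) :
    zad pv rs M2 Mid R (sig pv.prod c ys) = sig (pv.prod * M2) e (zad pv rs M2 Mid R ys) := by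
  have h0 : 0 < pv.prod := lt_of_le_of_lt (Nat.zero_le _) (h 1)
  have h2' : 0 < M2 * Mid := lt_of_le_of_lt (Nat.zero_le _) (h 2)
  have hM2 : 0 < M2 := Nat.pos_of_mul_pos_right h2'
  rw [List.pairwise_append] at hc
  obtain ⟨hcp, hcr, -⟩ := hc
  have hs' : s < rs.length := hl ▸ hs
  rw [List.getD_eq_getElem _ _ hs] at h1 h2
  rw [List.getD_eq_getElem _ _ hs'] at h2
  have hpm : pv[s] ∈ pv := List.getElem_mem hs
  have hrm : rs[s] ∈ rs := List.getElem_mem hs'
  have hup : Uni pv.prod pv[s] := Uni.sub hcp hpm (ho _ hpm).pos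
  have hur : Uni M2 rs[s] := hr _ hrm
  have hdiv : pv.prod * M2 / (pv[s] * rs[s]) = pv.prod / pv[s] * (M2 / rs[s]) :=
    (Nat.div_mul_div_comm hup.1 hur.1).symm
  have he2 := h2.2
  rw [hdiv] at he2
  have e1 : IsNeg pv.prod pv[s] e := ⟨(dvd_mul_right _ _).trans h2.1, he2.of_mul_right _⟩
  have e2 : IsNeg M2 rs[s] e := ⟨(dvd_mul_left _ _).trans h2.1, he2.of_mul_left _⟩
  have hec : e ≡ c [MOD pv.prod] := e1.unique hup h1
  have hk := ctl_flip hM2 hg hl hcr ho hr hs hs' h1 e2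
  funext i
  match i with
  | 0 => rw [sig_other (by omega) (by omega)]; exact sig_other (by omega) (by omega)
  | 1 =>
    rw [sig_one']
    show jn pv.prod M2 (sig pv.prod c ys 1)
      (ctl M2 pv rs (sig pv.prod c ys 1) * (sig pv.prod c ys 2 / Mid) % M2) = _
    rw [sig_one', sig_other (by omega) (by omega)]
    exact jn_mul hM h0 hM2 hec hk _ _
  | 2 =>
    rw [sig_other (by omega) (by omega)]
    show sig pv.prod c ys 2 % Mid = ys 2 % Mid
    rw [sig_other (by omega) (by omega)]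
  | 3 =>
    rw [sig_three]
    show jn pv.prod M2 (sig pv.prod c ys 3)
      (ctl M2 pv rs (sig pv.prod c ys 1) * (sig pv.prod c ys 4 / R) % M2) = _
    rw [sig_one', sig_three, sig_other (by omega) (by omega)]
    exact jn_mul hM h0 hM2 hec hk _ _
  | 4 =>
    rw [sig_other (by omega) (by omega)]
    show sig pv.prod c ys 4 % R = ys 4 % R
    rw [sig_other (by omega) (by omega)]
  | i + 5 => rw [sig_other (by omega) (by omega)]; exact sig_other (by omega) (by omega)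

end

end Vale.Agent.P338
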