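import Vale.Agent.P338.Net_One

/-! The frames of the second network: `ZMod 4` valued quadratic forms. -/

namespace Vale.Agent.P338

namespace Net2

open Set Matrix
open scoped Kronecker
open Vale.Agent.P344 (Tri card_Tri SumSq tv tv_dot tv_self sumSq_one sumSq_one_add
  sumSq_one_add_add exists_two_notMem add_self_mat add_self_zmod2 m2_cancel vecMulVec_kron)

theorem lift2_add (s t : ZMod 2) : lift2 (s + t) = lift2 s + lift2 t + 2 * lift2 (s * t) := by
  revert s t; decide

theorem two_lift2_add (s t : ZMod 2) : 2 * lift2 (s + t) = 2 * lift2 s + 2 * lift2 t := by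
  revert s t; decide

theorem lift2_zero : lift2 0 = 0 := rfl

theorem two_lift2_sum {ι : Type} (I : Finset ι) (f : ι → ZMod 2) :
    2 * lift2 (∑ i ∈ I, f i) = ∑ i ∈ I, 2 * lift2 (f i) := by
  classical
  induction I using Finset.induction_on with
  | empty => simp [lift2_zero]
  | insert a I ha ih => rw [Finset.sum_insert ha, Finset.sum_insert ha, two_lift2_add, ih]

section General

variable {N : Type} [Fintype N] [DecidableEq N]

def EdG (q q' : (N → ZMod 2) → ZMod 4) : Prop :=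
  ∃ u w : N → ZMod 2, ∀ ξ, q' ξ = q ξ + lift2 (u ⬝ᵥ ξ) + 2 * lift2 (w ⬝ᵥ ξ)

/-- `q` is a quadratic lift of the bilinear form `B`. -/
def IsL (B : Matrix N N (ZMod 2)) (q : (N → ZMod 2) → ZMod 4) : Prop :=
  q 0 = 0 ∧ ∀ ξ η, q (ξ + η) = q ξ + q η + 2 * lift2 (ξ ⬝ᵥ B *ᵥ η)

omit [DecidableEq N] in
theorem IsL.add {B B' : Matrix N N (ZMod 2)} {q q' : (N → ZMod 2) → ZMod 4} (h : IsL B q)
    (h' : IsL B' q') : IsL (B + B') (q + q') := by
  refine ⟨by simp [h.1, h'.1], fun ξ η => ?_⟩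
  simp only [Pi.add_apply, h.2, h'.2, Matrix.add_mulVec, dotProduct_add, two_lift2_add]
  ring

omit [DecidableEq N] in
theorem IsL.zero : IsL (0 : Matrix N N (ZMod 2)) 0 :=
  ⟨rfl, fun ξ η => by simp [lift2_zero]⟩

omit [DecidableEq N] in
theorem IsL.sq (u : N → ZMod 2) : IsL (vecMulVec u u) fun ξ => lift2 (u ⬝ᵥ ξ) := by
  refine ⟨by simp [lift2_zero], fun ξ η => ?_⟩
  have : ξ ⬝ᵥ vecMulVec u u *ᵥ η = (u ⬝ᵥ ξ) * (u ⬝ᵥ η) := by
    simp only [dotProduct, Matrix.mulVec, vecMulVec_apply, Finset.mul_sum, Finset.sum_mul]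
    rw [Finset.sum_comm]
    refine Finset.sum_congr rfl fun i _ => Finset.sum_congr rfl fun j _ => by ring
  simp only [dotProduct_add, this, lift2_add]

theorem IsL.one : IsL (1 : Matrix N N (ZMod 2)) q1 := by
  refine ⟨by simp [q1, lift2_zero], fun ξ η => ?_⟩
  simp only [Matrix.one_mulVec, dotProduct, two_lift2_sum, q1, Pi.add_apply, lift2_add,
    Finset.sum_add_distrib]

theorem IsL.transfer {B : Matrix N N (ZMod 2)} {q q' : (N → ZMod 2) → ZMod 4} (h : IsL B q)
    (h' : IsL B q') : ∃ w : N → ZMod 2, ∀ ξ, q' ξ = q ξ + 2 * lift2 (w ⬝ᵥ ξ) := by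
  let d : (N → ZMod 2) → ZMod 4 := fun ξ => q' ξ - q ξ
  have d0 : d 0 = 0 := by simp [d, h.1, h'.1]
  have hadd : ∀ ξ η, d (ξ + η) = d ξ + d η := fun ξ η => by
    simp only [d, h.2, h'.2]
    ring
  have hsum : ∀ (I : Finset N) (f : N → N → ZMod 2), d (∑ i ∈ I, f i) = ∑ i ∈ I, d (f i) := by
    intro I f
    induction I using Finset.induction_on with
    | empty => simp [d0]
    | insert a I ha ih => rw [Finset.sum_insert ha, Finset.sum_insert ha, hadd, ih]
  refine ⟨fun a => if d (Pi.single a 1) = 0 then 0 else 1, fun ξ => ?_⟩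
  rw [← sub_eq_iff_eq_add']
  show d ξ = _
  conv_lhs => rw [← Finset.univ_sum_single ξ]
  rw [hsum, dotProduct, two_lift2_sum]
  refine Finset.sum_congr rfl fun a _ => ?_
  rcases Vale.Agent.P344.zmod2_cases (ξ a) with h0 | h0
  · simp [h0, d0, lift2_zero]
  · rw [h0]
    have h2 : d (Pi.single a 1) + d (Pi.single a 1) = 0 := by
      rw [← hadd, add_self_zmod2, d0]
    generalize d (Pi.single a 1) = z at h2
    revert z
    decide

omit [DecidableEq N] in
theorem exists_lift {B : Matrix N N (ZMod 2)} {l : ℕ} (h : SumSq B l) : ∃ q, IsL B q := by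
  classical
  obtain ⟨ι, I, U, hI, rfl⟩ := h
  clear hI
  induction I using Finset.induction_on with
  | empty => exact ⟨0, by simpa using IsL.zero⟩
  | insert a I ha ih =>
    obtain ⟨q, hq⟩ := ih
    rw [Finset.sum_insert ha]
    exact ⟨_, (IsL.sq (U a)).add hq⟩

theorem edge_of {B : Matrix N N (ZMod 2)} {q q' : (N → ZMod 2) → ZMod 4} (u : N → ZMod 2)
    (h : IsL B q) (h' : IsL (B + vecMulVec u u) q') : EdG q q' := by
  obtain ⟨w, hw⟩ := (h.add (IsL.sq u)).transfer h'
  exact ⟨u, w, hw⟩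

theorem path0 {ι : Type} (U : ι → N → ZMod 2) (I : Finset ι) :
    ∀ (B : Matrix N N (ZMod 2)) (q q' : (N → ZMod 2) → ZMod 4) (u : N → ZMod 2), IsL B q →
      IsL (B + ∑ i ∈ I, vecMulVec (U i) (U i) + vecMulVec u u) q' →
      NPath EdG (I.card + 1) q q' := by
  classical
  induction I using Finset.induction_on with
  | empty =>
    intro B q q' u h h'
    exact NPath.step (edge_of u h (by simpa using h')) (NPath.refl _ _)
  | insert a I ha ih =>
    intro B q q' u h h'
    rw [Finset.sum_insert ha, ← add_assoc] at h'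
    rw [Finset.card_insert_of_notMem ha]
    have h1 := h.add (IsL.sq (U a))
    exact NPath.step (edge_of (U a) h h1) (ih _ _ _ u h1 h')

theorem path_of {B B' D : Matrix N N (ZMod 2)} {q q' : (N → ZMod 2) → ZMod 4} {l : ℕ}
    (hD : SumSq D l) (hl : 1 ≤ l) (h : IsL B q) (h' : IsL B' q') (e : B' = B + D) :
    NPath EdG l q q' := by
  classical
  obtain ⟨ι, I, U, hI, rfl⟩ := hD
  subst e
  rcases I.eq_empty_or_nonempty with rfl | ⟨a, ha⟩
  · exact (path0 U ∅ B q q' 0 h (by simpa using h')).mono hl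
  · refine (path0 U (I.erase a) B q q' (U a) h ?_).mono ?_
    · rwa [add_assoc, Finset.sum_erase_add _ _ ha]
    · rw [Finset.card_erase_add_one ha]
      exact hI

omit [DecidableEq N] in
theorem map_ed {N' : Type} [Fintype N'] (ε : N ≃ N') (q q' : (N → ZMod 2) → ZMod 4)
    (h : EdG q q') : EdG (fun ξ : N' → ZMod 2 => q (ξ ∘ ε)) (fun ξ => q' (ξ ∘ ε)) := by
  obtain ⟨u, w, e⟩ := h
  have key : ∀ (v : N → ZMod 2) (ξ : N' → ZMod 2), (v ∘ ε.symm) ⬝ᵥ ξ = v ⬝ᵥ (ξ ∘ ε) := by
    intro v ξ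
    refine (Equiv.sum_comp ε fun i => (v ∘ ε.symm) i * ξ i).symm.trans ?_
    simp [dotProduct]
  exact ⟨u ∘ ε.symm, w ∘ ε.symm, fun ξ => by rw [key, key]; exact e _⟩

end General

abbrev K : Type := Localization.Away (2 : ℤ)

noncomputable def hf : K := IsLocalization.Away.invSelf (2 : ℤ)

theorem two_hf : 2 * hf = 1 := by
  have := IsLocalization.Away.mul_invSelf (S := K) (2 : ℤ)
  rwa [map_ofNat] at this

noncomputable def al (S : Tri) (r : Option (Fin 19)) : K :=
  r.elim (-hf) fun r => if r ∈ S.1 then hf else 0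

noncomputable def be (r : Option (Fin 19)) (S : Tri) : K :=
  r.elim 1 fun r => if r ∈ S.1 then 1 else 0

theorem corr_ne (S S' : Tri) (h : netCorr al be S S' ≠ 0) : tv S ⬝ᵥ tv S' = 0 := by
  have e : ∑ r, al S r * be r S' = ((S.1 ∩ S'.1).card : K) * hf - hf := by
    simp only [Fintype.sum_option, al, be, Option.elim, ite_zero_mul_ite_zero, mul_one,
      ← Finset.mem_inter]
    rw [Finset.sum_ite_mem, Finset.univ_inter]
    simp only [Finset.sum_const, nsmul_eq_mul]
    ring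
  rw [netCorr, e] at h
  rw [tv_dot]
  obtain ⟨h3, h4⟩ := Net1.inter_three S S'
  generalize (S.1 ∩ S'.1).card = c at *
  interval_cases c
  · rfl
  · rw [if_neg fun e => absurd (h4.2 e) (by norm_num)] at h
    exact absurd (by simp) h
  · rfl
  · rw [if_pos (h4.1 rfl)] at h
    exact absurd (by push_cast; linear_combination two_hf) h

abbrev H : Type := Fin 19

/-- The rank one form of a triple. -/
def PP (S : Tri) : Matrix H H (ZMod 2) := Vale.Agent.P344.sq (tv S)

theorem ss_P (S : Tri) : SumSq (PP S) 1 := SumSq.sq _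

theorem ss_one : SumSq (1 : Matrix H H (ZMod 2)) 19 := by simpa using sumSq_one (H := H)

theorem ss_Q (S : Tri) : SumSq (1 + PP S) 18 := by
  obtain ⟨p, q, -, hp, -⟩ := exists_two_notMem S.1 (by rw [S.2]; norm_num)
  simpa [PP] using sumSq_one_add (tv_self S) (p := p) (by simp [tv, hp])

theorem ss_G (S S' : Tri) (hd : tv S ⬝ᵥ tv S' = 0) : SumSq (1 + PP S + PP S') 17 := by
  obtain ⟨p, q, hpq, hp, hq⟩ := exists_two_notMem (S.1 ∪ S'.1)
    ((Finset.card_union_le _ _).trans (by rw [S.2, S'.2]))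
  rw [Finset.mem_union, not_or] at hp hq
  simpa [PP] using sumSq_one_add_add (tv_self S) (tv_self S') hd hpq (by simp [tv, hp.1])
    (by simp [tv, hp.2]) (by simp [tv, hq.2])

/-- Transport of a frame. -/
def fr (ε : H × H ≃ Fin 361) (q : (H × H → ZMod 2) → ZMod 4) : (Fin 361 → ZMod 2) → ZMod 4 :=
  fun ξ => q (ξ ∘ ε)

theorem fr_path (ε : H × H ≃ Fin 361) {B B' D : Matrix (H × H) (H × H) (ZMod 2)}
    {q q' : (H × H → ZMod 2) → ZMod 4} {l : ℕ}
    (hD : SumSq D l) (hl : 1 ≤ l) (h : IsL B q) (h' : IsL B' q') (e : B' = B + D) :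
    NPath Ed2 l (fr ε q) (fr ε q') :=
  (path_of hD hl h h' e).map _ (map_ed ε)

theorem stageHyp_of (ε : H × H ≃ Fin 361)
    (F : Matrix H H (ZMod 2) → Matrix (H × H) (H × H) (ZMod 2))
    (hF : ∀ B D l, SumSq D l → ∃ D', SumSq D' l ∧ F (B + D) = F B + D')
    {o e : (H × H → ZMod 2) → ZMod 4} {p x : Tri → (H × H → ZMod 2) → ZMod 4}
    (ho : IsL (F 0) o) (hp : ∀ a, IsL (F (PP a)) (p a)) (hx : ∀ a, IsL (F (1 + PP a)) (x a))
    (he : IsL (F 1) e) :
    StageHyp Ed2 al be 17 (fr ε o) (fun a => fr ε (p a)) (fun a => fr ε (x a)) (fr ε e) := by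
  have key : ∀ {B B' D : Matrix H H (ZMod 2)} {q q' : (H × H → ZMod 2) → ZMod 4} {l : ℕ},
      SumSq D l → 1 ≤ l → IsL (F B) q → IsL (F B') q' → B' = B + D →
      NPath Ed2 l (fr ε q) (fr ε q') := by
    intro B B' D q q' l hD hl h h' e
    obtain ⟨D', hD', e'⟩ := hF B D l hD
    exact fr_path ε hD' hl h h' (by rw [e, e'])
  have k2 : ∀ a a', tv a ⬝ᵥ tv a' = 0 → NPath Ed2 17 (fr ε (p a)) (fr ε (x a')) := fun a a' h =>
    key (ss_G a a' h) (by norm_num) (hp a) (hx a') (by rw [add_right_comm]; exact m2_cancel _ _)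
  exact ⟨fun a => key (ss_P a) le_rfl ho (hp a) (zero_add _).symm,
    fun a' a h => k2 a a' (by rw [dotProduct_comm]; exact corr_ne a' a h),
    fun a' a h => k2 a' a (corr_ne a' a h),
    fun a => key (ss_Q a) (by norm_num) ho (hx a) (zero_add _).symm,
    fun a => key (ss_Q a) (by norm_num) (hp a) he (m2_cancel _ _),
    fun a => key (ss_P a) le_rfl (hx a) he (by rw [add_assoc, add_self_mat, add_zero]),
    key ss_one (by norm_num) ho he (zero_add _).symm,
    key ss_one (by norm_num) he ho (add_self_mat _).symm⟩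

theorem netHyp (ε : H × H ≃ Fin 361) : ∃ (Ap Ax Bp : Tri → Tri → (H × H → ZMod 2) → ZMod 4)
    (Ae Bo : Tri → (H × H → ZMod 2) → ZMod 4), NetHyp Ed2 al be 17 (fr ε 0) (fr ε q1)
    (fun b a => fr ε (Ap b a)) (fun b a => fr ε (Ax b a)) (fun b => fr ε (Ae b))
    (fun a => fr ε (Bo a)) (fun a b => fr ε (Bp a b)) (fun a b => fr ε (Ap b a + q1)) := by
  choose Ap hAp using fun b a => exists_lift ((ss_P a).kron (ss_P b))
  choose Ax hAx using fun b a => exists_lift ((ss_Q a).kron (ss_P b))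
  choose Ae hAe using fun b => exists_lift (ss_one.kron (ss_P b))
  choose Bo hBo using fun a => exists_lift ((ss_Q a).kron ss_one)
  have e1 : ∀ a, (1 + PP a) ⊗ₖ (1 : Matrix H H (ZMod 2)) + PP a ⊗ₖ 1 = 1 := fun a => by
    rw [add_kronecker, one_kronecker_one, add_assoc, add_self_mat, add_zero]
  refine ⟨Ap, Ax, fun a b => Bo a + Ap b a, Ae, Bo, fun b => ?_, fun a => ?_, fun b => ?_,
    fun a b => ?_, fun a b => ?_, fun a => ?_⟩
  · exact stageHyp_of ε (fun B => B ⊗ₖ PP b)
      (fun B D l h => ⟨_, by simpa using h.kron (ss_P b), add_kronecker _ _ _⟩)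
      (by simpa only [zero_kronecker] using IsL.zero) (hAp b) (hAx b) (hAe b)
  · refine stageHyp_of ε (fun B => (1 + PP a) ⊗ₖ 1 + PP a ⊗ₖ B)
      (fun B D l h => ⟨_, by simpa using (ss_P a).kron h, by rw [kronecker_add, add_assoc]⟩)
      (by simpa only [kronecker_zero, add_zero] using hBo a) (fun b => (hBo a).add (hAp b a))
      (fun b => ?_) ?_
    · rw [kronecker_add, ← add_assoc, e1, add_comm]
      exact (hAp b a).add IsL.one
    · rw [e1]
      exact IsL.one
  · exact fr_path ε (ss_one.kron (ss_Q b)) (by norm_num) (hAe b) IsL.one (by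
      rw [kronecker_add, one_kronecker_one]; exact m2_cancel _ _)
  · exact fr_path ε ((ss_Q a).kron (ss_Q b)) (by norm_num) (hAx b a) (hBo a) (by
      rw [kronecker_add]; exact m2_cancel _ _)
  · exact fr_path ε ((ss_Q a).kron (ss_Q b)) (by norm_num) (hAe b) ((hBo a).add (hAp b a)) (by
      rw [kronecker_add, add_kronecker 1 (PP a) (PP b),
        add_left_comm ((1 + PP a) ⊗ₖ (1 : Matrix H H (ZMod 2))), ← add_assoc,
        add_self_mat, zero_add])
  · exact fr_path ε ((ss_Q a).kron ss_one) (by norm_num) IsL.zero (hBo a) (zero_add _).symm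

theorem fr_q1 (ε : H × H ≃ Fin 361) : fr ε q1 = q1 := by
  funext ξ
  exact Equiv.sum_comp ε fun i => lift2 (ξ i)

end Net2

open Set Matrix Net2 in
theorem net2' : ∃ q : Fin W → (Fin 361 → ZMod 2) → ZMod 4,
    Net (Localization.Away (2 : ℤ)) Ed2
      (range fun i => (q i, (Pi.single i 1 : Fin W → Localization.Away (2 : ℤ)))) (361 * W - sav)
      (range fun i => (q i + q1, (Pi.single i 1 : Fin W → Localization.Away (2 : ℤ)))) := by
  let ε : H × H ≃ Fin 361 := Fintype.equivFinOfCardEq (by simp)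
  let κ := Fintype.equivFinOfCardEq card_reg
  have := nonempty_Tri
  obtain ⟨Ap, Ax, Bp, Ae, Bo, hN⟩ := netHyp ε
  have h := network_fin hN κ
  refine ⟨fun i => netFr (fr ε 0) (fun p => fr ε (Ap p.2 p.1)) (κ.symm i), ?_⟩
  refine (h.mono_right ?_).mono_num ?_
  · rintro _ ⟨i, rfl⟩
    refine ⟨i, Prod.ext ?_ rfl⟩
    beta_reduce
    rw [← fr_q1 ε]
    rcases κ.symm i with (p | p) | p
    · exact (zero_add _).symm
    · rfl
    · exact (zero_add _).symm
  · rw [Vale.Agent.P344.card_Tri, Fintype.card_option, Fintype.card_fin, W_eq, sav_eq]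
    norm_num [netE, netStE]

end Vale.Agent.P338
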