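import Vale.Agent.P338.NetDefs
import Vale.Agent.P338.Net_Two

namespace Vale.Agent.P338

open Set Matrix

theorem net1 : ∃ ρ : Fin W → Matrix (Fin 400) (Fin 400) ℤ, (∀ i, ρ i * ρ i = 4) ∧
    Net (ZMod 2) Ed1 (range fun i => (ρ i, (Pi.single i 1 : Fin W → ZMod 2))) (400 * W - sav)
      (range fun i => (-ρ i, (Pi.single i 1 : Fin W → ZMod 2))) :=
  net1'

theorem net2 : ∃ q : Fin W → (Fin 361 → ZMod 2) → ZMod 4,
    Net (Localization.Away (2 : ℤ)) Ed2
      (range fun i => (q i, (Pi.single i 1 : Fin W → Localization.Away (2 : ℤ)))) (361 * W - sav)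
      (range fun i => (q i + q1, (Pi.single i 1 : Fin W → Localization.Away (2 : ℤ)))) :=
  net2'

end Vale.Agent.P338
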