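import Vale.Agent.P338.CLN_E
import Vale.Agent.P338.Net

namespace Vale.Agent.P338

open Vale.Agent.Lib Vale.Agent.Lib.H23 Enc Function Matrix

theorem cln_final {w e s P P' p v : ℕ} (h : w * s + e * P' ≤ w * P) :
    e * (P' * (p * v)) + s * (w * p * v) ≤ P * (w * p * v) := by
  have := Nat.mul_le_mul_right (p * v) h
  calc e * (P' * (p * v)) + s * (w * p * v) = (w * s + e * P') * (p * v) := by ring
    _ ≤ w * P * (p * v) := this
    _ = P * (w * p * v) := by ring

theorem cln_sig_update (M c v : ℕ) (xs : ℕ → ℕ) :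
    update (sig M c xs) 5 v = sig M c (update xs 5 v) := by
  funext i
  unfold sig
  by_cases h5 : i = 5
  · subst h5
    simp
  · by_cases h3 : i = 3
    · subst h3
      simp
    · by_cases h1 : i = 1
      · subst h1
        simp
      · simp [h1, h3, h5]

theorem cln_valid_reg {O M Mid R T T' c i : ℕ} (e : T' * c = T) (hi : i < c) {xs : ℕ → ℕ}
    (h : Valid [O, M, Mid, M, R, T'] xs) :
    Valid [O, M, Mid, M, R, T] (update xs 5 (xs 5 * c + i)) := by
  refine Valid.set (i := 5) (M := T') h ?_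
  have h5 : xs 5 < T' := h 5
  show _ < T
  have : (xs 5 + 1) * c ≤ T' * c := Nat.mul_le_mul_right _ h5
  rw [add_mul, one_mul] at this
  omega

theorem cln_valid_unreg {O M Mid R T T' c : ℕ} (e : T' * c = T) (hc : 0 < c) {xs : ℕ → ℕ}
    (h : Valid [O, M, Mid, M, R, T] xs) :
    Valid [O, M, Mid, M, R, T'] (update xs 5 (xs 5 / c)) := by
  refine Valid.set (i := 5) (M := T) h ?_
  have h5 : xs 5 < T := h 5
  show _ < T'
  exact (Nat.div_lt_iff_lt_mul hc).2 (e ▸ h5)

theorem cln_node {Ψ : ℕ → ℕ → ℕ → ℕ} {n e c : ℕ} (hn : 2 ≤ n) (hcW : c = W)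
    {Ed : ((Fin n → ZMod 2) → ZMod 4) → ((Fin n → ZMod 2) → ZMod 4) → Prop}
    (hEd : ∀ B B', Ed B B' → ∃ u w : Fin n → ZMod 2,
      ∀ ξ, B' ξ = B ξ + lift2 (u ⬝ᵥ ξ) + 2 * lift2 (w ⬝ᵥ ξ))
    {q : Fin c → (Fin n → ZMod 2) → ZMod 4}
    (net : Net (Localization.Away (2 : ℤ)) Ed
      (Set.range fun i => (q i, (Pi.single i 1 : Fin c → Localization.Away (2 : ℤ)))) e
      (Set.range fun i => (q i + q1, (Pi.single i 1 : Fin c → Localization.Away (2 : ℤ)))))
    (h : ∀ t m A, 0 < m → m % n = 0 → c * sw A + e * Ψ t (m / n) (t * (m / n)) ≤ c * Ψ t m A) :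
    (clP Ψ).Body fun j => 0 < j.qs.length ∧ j.qs.length % n = 0 := by
  intro G α _ D j f κ hj hin hcall hDB
  have c0 : 0 < c := hcW ▸ W_pos
  have h0 : ∀ g, 0 < (j g).qs.length := fun g => (hj g).1
  have hT : ∀ g, (j g).T / W * c = (j g).T := fun g => hcW ▸ (j g).T_eq (h0 g)
  have hpr : ∀ g, c * (j g).rs.prod =
      [(j g).O, (j g).M, (j g).Mid, (j g).M, (j g).R, (j g).T].prod := fun g =>
    hcW ▸ (j g).rs_prod (h0 g)
  have hDB' : ∀ g, D.B g = sw (j g).A * (c * (j g).rs.prod * (2 * (j g).L + 2 + 1)) := fun g => by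
    rw [hDB g, hpr g]
    rfl
  have har : Ar D (fun g => [(j g).O, (j g).M, (j g).Mid, (j g).M, (j g).R, (j g).T]) f := hin.ar
  have hlen : ∀ g xs, Valid [(j g).O, (j g).M, (j g).Mid, (j g).M, (j g).R, (j g).T] xs →
      (f g xs).length = 2 * (j g).L + 2 := hin.len
  have hq : LS D fun g => (j g).qs := hin.pr
  have hL : Lin D fun g => (⟨(j g).L⟩ : Un) := hin.u
  have hM : ∀ g, 0 < (j g).M := fun g => har.pos g _ (by simp)
  have hpos : ∀ g, ∀ d ∈ (j g).rs, 0 < d := fun g => pos_of_prod (by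
    have h1 := List.prod_pos (har.pos g)
    rw [← hpr g] at h1
    exact Nat.pos_of_mul_pos_left h1)
  have hfat : ∀ g, Lam (D.S g) ≤ 2 * (j g).L + 2 := fun g => by
    have hv : Valid [(j g).O, (j g).M, (j g).Mid, (j g).M, (j g).R, (j g).T] fun _ => 0 :=
      fun i => getD_pos (har.pos g) i
    exact hlen g _ hv ▸ har.fat g _ hv
  have hp5 : LS D fun g => [(j g).O, (j g).M, (j g).Mid, (j g).M, (j g).R] :=
    (LS.comp (f := fun l : List ℕ => l.take 5) (by fun_prop) har.hds).congr fun g => rfl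
  have hT' : LS D fun g => (j g).T / W :=
    (LS.comp (f := fun x : List ℕ × ℕ => x.1.getD 5 1 / x.2) (by fun_prop)
      (har.hds.pair (LS.const W))).congr fun g => rfl
  have hrs : LS D fun g => (j g).rs :=
    (LS.comp (f := fun x : List ℕ × ℕ => x.1 ++ [x.2]) (by fun_prop) (hp5.pair hT')).congr
      fun g => rfl
  have hB1 : Bd (fun g => sw (j g).A * ((j g).rs.prod * (2 * (j g).L + 2 + 1))) D.B :=
    Bd.of_le fun g => by
      rw [hDB' g]
      exact Nat.mul_le_mul_left _ (Nat.mul_le_mul_right _ (Nat.le_mul_of_pos_left _ c0))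
  have hregs := Ar.regs (p := fun g => [(j g).O, (j g).M, (j g).Mid, (j g).M, (j g).R])
    (T := fun g => (j g).T / W) c (har.congr (fun g => by rw [hT g]; rfl) fun _ _ _ => rfl)
  have φ : ∀ g, Localization.Away (2 : ℤ) →+* ZMod (mm (j g).L) := fun g =>
    Classical.choice (exists_phi (j g).hL)
  choose V V0 V1 Va Ve using fun g => cln_val (O := (j g).O) (Mid := (j g).Mid) (R := (j g).R)
    (T := (j g).T / W) (j g).hL (fun (x : Fin n) s => ngc (j g).M (cq n (j g).qs x s))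
    (fun x s hs => cq_sq (j g) (hM g) x hs) ((j g).qs.map (ngc (j g).M))
    (cq_multiset (hj g).2 _) (φ g) q fun i xs => f g (update xs 5 (xs 5 * c + i))
  let Rel : G → ((Fin n → ZMod 2) → ZMod 4) → (Fin c → Localization.Away (2 : ℤ)) →
      List (List Bool) → Prop := fun g B l a => ∃ F : (ℕ → ℕ) → List Bool,
    a = arr (j g).rs F ∧ (∀ xs, Valid (j g).rs xs → (F xs).length = 2 * (j g).L + 2) ∧
      ∀ xs, Valid (j g).rs xs → Good (j g).qs (xs 1) → cv (j g).L (F xs) = V g B l xs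
  have hsz : ∀ g B l a, Rel g B l a → sz a ≤ 5 * D.B g := by
    rintro g B l a ⟨F, rfl, h1, -⟩
    refine (cln_size (hpos g) h1).trans (Nat.mul_le_mul_left _ ?_)
    rw [hDB' g]
    exact (Nat.mul_le_mul_right _ (Nat.le_mul_of_pos_left _ c0)).trans
      (Nat.le_mul_of_pos_left _ (sw_pos _))
  have mkAr : ∀ (α1 : Type) [Enc α1] (D1 : Dom G α1), Over D D1 id D.B →
      Lin D1 (fun g => (j g).rs) → ∀ F : G → (ℕ → ℕ) → List Bool,
      (∀ g xs, Valid (j g).rs xs → (F g xs).length = 2 * (j g).L + 2) →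
      Lin D1 (fun g => arr (j g).rs (F g)) → Ar D1 (fun g => (j g).rs) F :=
    fun α1 _ D1 hD h1 F h2 h3 => ⟨⟨h1, hrs.2.over hD⟩, hpos, fun g xs hx => by
      rw [h2 g xs hx, hD.S]
      exact hfat g, h3⟩
  have sys : NetSys (Localization.Away (2 : ℤ)) Ed D
      (fun g => ((j g).rs, (j g).qs, (⟨(j g).L⟩ : Un)))
      (fun g => κ g * (Ψ (j g).t ((j g).qs.length / n) ((j g).t * ((j g).qs.length / n)) *
        ((j g).rs.prod * (2 * (j g).L + 2 + 1)))) Rel := by
    refine ⟨⟨5, hsz⟩, fun B B' hE α1 _ D1 l a hD hr hp ha => ?_,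
      fun z B α1 _ D1 l l' a a' hD hr hr' hp ha ha' => ?_⟩
    · obtain ⟨u, w, huw⟩ := hEd B B' hE
      choose F e1 e2 e3 using hr
      obtain ⟨F', k1, k2⟩ := cln_edge hn hcall h0 hD
        (mkAr α1 D1 hD hp.fst F e2 (ha.congr fun g => (e1 g).symm)) ⟨hp.snd.fst, hq.2.over hD⟩
        hp.snd.snd e2 (hD.bd hB1) u w
      refine ⟨_, k1, fun g => ⟨F' g, rfl, (k2 g).1, fun xs hx hg => ?_⟩⟩
      rw [(k2 g).2 (V g B l) (e3 g) xs hx hg, Ve g B B' u w huw l xs hx]
    · choose F e1 e2 e3 using hr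
      choose F' e1' e2' e3' using hr'
      obtain ⟨cm, m1, m2⟩ := exists_csmul z
      obtain ⟨ca, a1, a2⟩ := exists_cadd
      have hs : ∀ F : G → (ℕ → ℕ) → List Bool,
          (∀ g xs, Valid (j g).rs xs → (F g xs).length = 2 * (j g).L + 2) →
          ∃ K, ∀ g xs, Valid (j g).rs xs → sz (⟨(j g).L⟩ : Un) ≤ K * ((F g xs).length + 1) :=
        fun F hF => ⟨1, fun g xs hx => by rw [sz_un, hF g xs hx]; dsimp only; omega⟩
      have l1 := (mkAr α1 D1 hD hp.fst F' e2' (ha'.congr fun g => (e1' g).symm)).map1 m1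
        hp.snd.snd (hs F' e2')
      have l2 := (mkAr α1 D1 hD hp.fst F e2 (ha.congr fun g => (e1 g).symm)).map2 l1 a1
        hp.snd.snd (hs F e2)
      refine ⟨_, l2, fun g => ⟨_, rfl, fun xs hx => ?_, fun xs hx hg => ?_⟩⟩
      · exact (a2 _ _ _ (j g).hL (e2 g xs hx) (m2 _ _ (φ g) (j g).hL (e2' g xs hx)).1).1
      · rw [(a2 _ _ _ (j g).hL (e2 g xs hx) (m2 _ _ (φ g) (j g).hL (e2' g xs hx)).1).2,
          (m2 _ _ (φ g) (j g).hL (e2' g xs hx)).2, e3 g xs hx hg, e3' g xs hx hg, Va]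
  obtain ⟨a', k1, k2⟩ := sys.extract net (hrs.1.pair (hq.1.pair hL))
    (a := fun g i => arr (j g).rs fun xs => f g (update xs 5 (xs 5 * c + i))) hregs
    fun g i => ⟨_, rfl, fun xs hx => hlen g _ (cln_valid_reg (hT g) i.2 hx),
      fun xs hx _ => (V0 g i xs hx).symm⟩
  have hs : Bd (fun g => sz ((List.range c).map (a' g))) D.B := by
    refine ⟨c * 6 + 1, fun g => ?_⟩
    have h1 := sz_list_le (l := (List.range c).map (a' g)) (B := 5 * D.B g) fun a ha => by
      obtain ⟨i, hi, rfl⟩ := List.mem_map.1 ha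
      exact hsz g _ _ _ (k2 g ⟨i, List.mem_range.1 hi⟩)
    rw [List.length_map, List.length_range] at h1
    have h2 := D.pos g
    have h3 : c * (5 * D.B g + 1) ≤ c * (6 * D.B g) := Nat.mul_le_mul_left _ (by omega)
    calc sz ((List.range c).map (a' g)) ≤ c * (6 * D.B g) + D.B g := by omega
      _ = (c * 6 + 1) * D.B g := by ring
  choose F e1 e2 e3 using k2
  let r : G → ℕ → (ℕ → ℕ) → List Bool := fun g i => if hi : i < c then F g ⟨i, hi⟩ else fun _ => []
  have hr : ∀ g i (hi : i < c), r g i = F g ⟨i, hi⟩ := fun g i hi => dif_pos hi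
  refine ⟨fun g xs => r g (xs 5 % c) (update xs 5 (xs 5 / c)), fun g => e *
    (Ψ (j g).t ((j g).qs.length / n) ((j g).t * ((j g).qs.length / n)) *
      ((j g).rs.prod * (2 * (j g).L + 2 + 1))), (Cost.andThen (t' := fun _ => 0) k1 hs
      (hp5.1.pair hT'.1) fun D2 hD2 m1 m2 => ?_).mono fun g => le_of_eq (by ring),
    fun g => ⟨⟨fun xs hx => ?_, fun cs hcs xs hx hg => ?_⟩, ?_⟩⟩
  · have := Ar.unregs (D := D2) (p := fun g => [(j g).O, (j g).M, (j g).Mid, (j g).M, (j g).R])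
      (T := fun g => (j g).T / W) c c0 (r := r) ⟨m2.fst, hp5.2.over hD2⟩ ⟨m2.snd, hT'.2.over hD2⟩
      hpos (fun g i hi xs hx => by
        rw [hr g i hi, e2 g ⟨i, hi⟩ xs hx, hD2.S]
        exact hfat g)
      (m1.congr fun g => List.map_congr_left fun i hi => by
        rw [hr g i (List.mem_range.1 hi)]
        exact (e1 g ⟨i, List.mem_range.1 hi⟩).symm)
    refine (this.lin.congr fun g => ?_).cost _
    rw [hT g]
    rfl
  · beta_reduce
    rw [hr g _ (Nat.mod_lt _ c0)]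
    exact e2 g _ _ (cln_valid_unreg (hT g) c0 hx)
  · have hv := cln_valid_unreg (hT g) c0 hx
    beta_reduce
    rw [hr g _ (Nat.mod_lt _ c0), e3 g _ _ hv (by simpa using hg), V1 g _ _ hv]
    unfold lay
    have key := layer_conj (hf (j g).L * (1 + 2 ^ (j g).L)) (hf (j g).L * (1 - 2 ^ (j g).L))
      (ok := fun _ => True) (fun ys : ℕ → ℕ => update ys 5 (ys 5 * c + xs 5 % c))
      (σs := (j g).qs.map fun q => sig (j g).M (cs q))
      (τs := ((j g).qs.map (ngc (j g).M)).map (sig (j g).M)) (by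
        rw [List.map_map, List.forall₂_map_left_iff, List.forall₂_map_right_iff,
          List.forall₂_same]
        refine fun q hq ys _ => ⟨trivial, ?_⟩
        rw [Function.comp_apply, sig_congr ((ngc_spec (hM g) ((j g).uniq hq)).unique
          ((j g).uniq hq) (hcs q hq)), cln_sig_update]
        simp [sig])
      (fun ys => cv (j g).L (f g ys)) (y := update xs 5 (xs 5 / c)) trivial
    rw [key]
    congr 1
    simp [Nat.div_add_mod']
  · rw [hDB' g]
    have := cln_final (p := (j g).rs.prod) (v := 2 * (j g).L + 2 + 1)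
      (h (j g).t _ (j g).A (hj g).1 (hj g).2)
    refine this.trans (le_of_eq ?_)
    rw [hpr g]
    rfl

theorem clP_node {Ψ : ℕ → ℕ → ℕ → ℕ} (h : ∀ t n A, 0 < n → n % 361 = 0 →
    W * sw A + (361 * W - sav) * Ψ t (n / 361) (t * (n / 361)) ≤ W * Ψ t n A) :
    (clP Ψ).Body fun j => 0 < j.qs.length ∧ j.qs.length % 361 = 0 := by
  obtain ⟨q, hq⟩ := net2
  exact cln_node (by norm_num) rfl (fun _ _ h => h) hq h

end Vale.Agent.P338
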