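import Mathlib
import Vale.Agent.P338.PTX
import Vale.Agent.P344.Tensor

/-! Two register programs: every step shifts the two registers, applies the two point layer
`al * x + be * (other register)` at every position, and multiplies by a diagonal. -/

namespace Vale.Agent.P338

open Vale.Agent.P344 (al be)

/-- `exp (2 π i z / N)` -/
noncomputable def chi (N : ℕ) (z : ℤ) : ℂ := Complex.exp (2 * Real.pi * Complex.I * z / N)

/-- `(a, b, N, e)` stands for `(a + b i) * exp (2 π i e / N)` -/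
abbrev Term : Type := ℤ × ℤ × ℕ × ℕ

/-- `(inv, den, terms)` stands for the sum of the terms divided by `den`, inverted if `inv` -/
abbrev Ex : Type := Bool × ℕ × List Term

noncomputable def termVal (t : Term) : ℂ := (t.1 + t.2.1 * Complex.I) * chi t.2.2.1 t.2.2.2

noncomputable def exVal (e : Ex) : ℂ :=
  bif e.1 then ((e.2.2.map termVal).sum / e.2.1)⁻¹ else (e.2.2.map termVal).sum / e.2.1

noncomputable def prodVal (l : List Ex) : ℂ := (l.map exVal).prod

def ExOK (u : ℕ) (e : Ex) : Prop :=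
  0 < e.2.1 ∧ e.2.1 ≤ 2 ^ u ∧ e.2.2.length ≤ u ∧
    (∀ t ∈ e.2.2, t.1.natAbs ≤ 2 ^ u ∧ t.2.1.natAbs ≤ 2 ^ u ∧ 0 < t.2.2.1 ∧ t.2.2.1 ≤ u) ∧
    1 ≤ 2 ^ u * ‖exVal e‖ ∧ ‖exVal e‖ ≤ 2 ^ u

theorem ExOK.mono {u v : ℕ} {e : Ex} (h : ExOK u e) (huv : u ≤ v) : ExOK v e := by
  obtain ⟨h1, h2, h3, h4, h5, h6⟩ := h
  have hp : 2 ^ u ≤ 2 ^ v := Nat.pow_le_pow_right (by norm_num) huv
  have hp' : (2 : ℝ) ^ u ≤ 2 ^ v := by exact_mod_cast hp
  refine ⟨h1, h2.trans hp, h3.trans huv, fun t ht => ?_, h5.trans (by gcongr), h6.trans hp'⟩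
  obtain ⟨a, b, c, d⟩ := h4 t ht
  exact ⟨a.trans hp, b.trans hp, c, d.trans huv⟩

/-- shift of register `false`, shift of register `true`, and the two diagonal tables -/
abbrev Step : Type := ℕ × ℕ × List (List Ex) × List (List Ex)

def stShift (s : Step) (b : Bool) : ℕ := bif b then s.2.1 else s.1

def stTab (s : Step) (b : Bool) (y : ℕ) : List Ex := (bif b then s.2.2.2 else s.2.2.1).getD y []

noncomputable def stRun (q : ℕ) (s : Step) (x : Bool × ZMod q → ℂ) : Bool × ZMod q → ℂ :=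
  fun p => prodVal (stTab s p.1 p.2.val) *
    (al * x (p.1, p.2 + stShift s p.1) + be * x (!p.1, p.2 + stShift s (!p.1)))

noncomputable def runP (q : ℕ) (P : List Step) (x : Bool × ZMod q → ℂ) : Bool × ZMod q → ℂ :=
  P.foldl (fun x s => stRun q s x) x

/-- kernel of the Fourier transform (`false`) and of its inverse (`true`) -/
noncomputable def ker (N : ℕ) (fl : Bool) (j k : ℕ) : ℂ :=
  bif fl then (N : ℂ)⁻¹ * chi N (-(j * k : ℤ)) else chi N (j * k : ℤ)

/-- iterated two point layers -/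
def layer {X R : Type} [Mul R] [Add R] (α β : R) : List (X → X) → (X → R) → X → R
  | [], F => F
  | σ :: σs, F => fun x => α * layer α β σs F x + β * layer α β σs F (σ x)

/-- multiply the digits `1` and `3` by `c` modulo `M` -/
def sig (M c : ℕ) (xs : ℕ → ℕ) : ℕ → ℕ :=
  Function.update (Function.update xs 1 (c * xs 1 % M)) 3 (c * xs 3 % M)

/-- `c` is minus one modulo `q` and one modulo `M / q` -/
def IsNeg (M q c : ℕ) : Prop := q ∣ c + 1 ∧ c ≡ 1 [MOD M / q]

def Good (qs : List ℕ) (v : ℕ) : Prop := ∀ q ∈ qs, v % q ≠ 0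

def goodb (qs : List ℕ) (v : ℕ) : Bool := qs.all fun q => !(Vale.Agent.Lib.H23.eqb (v % q) 0)

theorem goodb_iff (qs : List ℕ) (v : ℕ) : goodb qs v = true ↔ Good qs v := by
  simp [goodb, Good]

def role (q v : ℕ) : Bool := decide (q < 2 * (v % q))

/-- translate the digit `4` by `g` of the digit `1` modulo `B` -/
def shf (B : ℕ) (g : ℕ → ℕ) (xs : ℕ → ℕ) : ℕ → ℕ :=
  Function.update xs 4 ((xs 4 + g (xs 1)) % B)

/-- the factors of the global diagonal entry -/
def dlist (qs : List ℕ) (st : ℕ → Step) (v y : ℕ) : List Ex :=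
  qs.flatMap fun q => stTab (st q) (role q v) (y % q ^ 2)

/-- one global step over the complex numbers -/
noncomputable def gstep (qs : List ℕ) (cs : ℕ → ℕ) (st : ℕ → Step) (g : ℕ → ℕ)
    (Z : (ℕ → ℕ) → ℂ) (xs : ℕ → ℕ) : ℂ :=
  prodVal (dlist qs st (xs 1) (xs 4)) *
    layer al be (qs.map fun q => sig qs.prod (cs q)) (fun ys => Z (shf (qs.prod ^ 2) g ys)) xs

noncomputable def kern (qs : List ℕ) (fl : Bool) (j k : ℕ) : ℂ :=
  (qs.map fun q => ker (q ^ 2) fl j k).prod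

/-- transform along the digit `i` -/
noncomputable def dft (qs : List ℕ) (fl : Bool) (i : ℕ) (Z : (ℕ → ℕ) → ℂ) (xs : ℕ → ℕ) : ℂ :=
  ∑ y ∈ Finset.range (qs.prod ^ 2), kern qs fl (xs i) y * Z (Function.update xs i y)

/-- the modulus -/
def mm (L : ℕ) : ℕ := 2 ^ (2 * L) + 1

theorem two_pow_sq (L : ℕ) : (2 ^ L : ZMod (mm L)) * 2 ^ L = ((-1 : ℤ) : ZMod (mm L)) := by
  have h : ((mm L : ℕ) : ZMod (mm L)) = 0 := ZMod.natCast_self _
  unfold mm at h
  push_cast at h ⊢
  rw [← pow_add, ← two_mul]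
  exact eq_neg_of_add_eq_zero_left h

noncomputable def psi (L : ℕ) : GaussianInt →+* ZMod (mm L) :=
  Zsqrtd.lift ⟨2 ^ L, two_pow_sq L⟩

/-- the inverse of two -/
def hf (L : ℕ) : ZMod (mm L) := -2 ^ (2 * L - 1)

/-- the residue `x` comes from a Gaussian integer close to `2 ^ E * z` -/
def AR (L E : ℕ) (ε : ℝ) (z : ℂ) (x : ZMod (mm L)) : Prop :=
  ∃ g : GaussianInt, psi L g = x ∧ ‖(g : ℂ) - 2 ^ E * z‖ ≤ 2 ^ E * ε

end Vale.Agent.P338
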