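import Vale.Agent.P338.Quad
import Vale.Agent.P338.SimdDefs

/-! The frames of the second network, acting on functions on a set with commuting involutions. -/

namespace Vale.Agent.P338

open Finset Matrix

section FrAux

variable {R Γ : Type} (X : Type) [CommRing R] [CommMonoid Γ] [MulAction Γ X]

/-- the action of the monoid on functions -/
def frHom : Γ →* Module.End R (X → R) where
  toFun γ := LinearMap.funLeft R R fun x => γ • x
  map_one' := by
    ext F x
    simp [LinearMap.funLeft]
  map_mul' γ δ := by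
    refine LinearMap.ext fun F => funext fun x => ?_
    simp only [Module.End.mul_apply, LinearMap.funLeft_apply]
    rw [mul_comm, mul_smul]

/-- the action of the monoid algebra on functions -/
noncomputable def frAct : MonoidAlgebra R Γ →ₐ[R] Module.End R (X → R) :=
  MonoidAlgebra.lift R (Module.End R (X → R)) Γ (frHom X)

variable {X}

theorem frAct_of (γ : Γ) (F : X → R) (x : X) :
    frAct X (MonoidAlgebra.of R Γ γ) F x = F (γ • x) := by
  rw [frAct, MonoidAlgebra.lift_of]
  rfl

theorem frAct_layer (a b : R) (l : List Γ) (F : X → R) :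
    frAct X (l.map fun γ => algebraMap R (MonoidAlgebra R Γ) a +
      algebraMap R (MonoidAlgebra R Γ) b * MonoidAlgebra.of R Γ γ).prod F =
      layer a b (l.map fun γ x => γ • x) F := by
  induction l with
  | nil => simp [layer]
  | cons γ l ih =>
    funext x
    rw [List.map_cons, List.prod_cons, map_mul, Module.End.mul_apply, ih, List.map_cons, layer,
      map_add, map_mul, AlgHom.commutes, AlgHom.commutes, LinearMap.add_apply,
      Module.End.mul_apply, Module.algebraMap_end_apply, Module.algebraMap_end_apply, Pi.add_apply,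
      Pi.smul_apply, Pi.smul_apply, frAct_of, smul_eq_mul, smul_eq_mul]

theorem Tv_of {N : Type} [Fintype N] (T : N → Γ) (u : N → ZMod 2) :
    Tv (fun c => MonoidAlgebra.of R Γ (T c)) u = MonoidAlgebra.of R Γ (∏ c, T c ^ (u c).val) := by
  simp only [Tv, map_prod, map_pow]

theorem fr_prod_range {A : Type} [CommMonoid A] (k : ℕ) (f : ℕ → A) :
    ((List.range k).map f).prod = ∏ s ∈ range k, f s := by
  induction k with
  | zero => simp
  | succ k ih => rw [List.prod_range_succ, prod_range_succ, ih]

theorem fr_map_sum {A B N : Type} (f : A → B) (s : Finset N) (m : N → Multiset A) :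
    (∑ c ∈ s, m c).map f = ∑ c ∈ s, (m c).map f :=
  map_sum (Multiset.mapAddMonoidHom f) m s

end FrAux

theorem exists_frames {R Γ X N : Type} [CommRing R] [CommMonoid Γ] [MulAction Γ X] [Fintype N]
    [DecidableEq N] {h I : R} (hh : 2 * h = 1) (hI : I * I = -1) (k : ℕ) (T : N → ℕ → Γ)
    (hT : ∀ c, ∀ s < k, T c s * T c s = 1) (l : List Γ)
    (hl : (l : Multiset Γ) = ∑ c, (((List.range k).map (T c) : List Γ) : Multiset Γ)) :
    ∃ Fr : ((N → ZMod 2) → ZMod 4) → (X → R) →ₗ[R] X → R,
      (∀ q F, Fr q (Fr (-q) F) = F) ∧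
      (∀ q F, Fr (q + q1) (Fr (-q) F) =
        layer (h * (1 + I)) (h * (1 - I)) (l.map fun γ x => γ • x) F) ∧
      ∀ (q q' : (N → ZMod 2) → ZMod 4) (u w : N → ZMod 2),
        (∀ ξ, q' ξ = q ξ + lift2 (u ⬝ᵥ ξ) + 2 * lift2 (w ⬝ᵥ ξ)) → ∀ F x, Fr q' F x =
          layer (h * (1 + I)) (h * (1 - I))
            ((List.range k).map fun s x => (∏ c, T c s ^ (u c).val) • x) (Fr q F)
            ((∏ s ∈ range k, ∏ c, T c s ^ (w c).val) • x) := by
  set ι := algebraMap R (MonoidAlgebra R Γ) with hι
  have hh' : 2 * ι h = 1 := by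
    rw [← map_one ι, ← hh, map_mul, map_ofNat]
  have hI' : ι I * ι I = -1 := by
    rw [← map_mul, hI, map_neg, map_one]
  have ha : ι h * (1 + ι I) = ι (h * (1 + I)) := by simp
  have hb : ι h * (1 - ι I) = ι (h * (1 - I)) := by simp
  let U : ℕ → N → MonoidAlgebra R Γ := fun s c => MonoidAlgebra.of R Γ (T c s)
  have hU : ∀ s ∈ range k, ∀ c, U s c * U s c = 1 := fun s hs c => by
    simp only [U]
    rw [← map_mul, hT c s (mem_range.1 hs), map_one]
  let P : ((N → ZMod 2) → ZMod 4) → MonoidAlgebra R Γ := fun q =>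
    ∏ s ∈ range k, Aq (ι h) (ι I) (U s) q
  have hP : ∀ q q', P q * P q' = P (q + q') := fun q q' => by
    simp only [P]
    rw [← prod_mul_distrib]
    exact prod_congr rfl fun s hs => (Aq_add hh' hI' (hU s hs) q q').symm
  refine ⟨fun q => frAct X (P q), fun q F => ?_, fun q F => ?_, fun q q' u w e F x => ?_⟩
  · rw [← Module.End.mul_apply, ← map_mul, hP, add_neg_cancel]
    have : P 0 = 1 := prod_eq_one fun s _ => Aq_zero hh'
    rw [this, map_one, Module.End.one_apply]
  · rw [← Module.End.mul_apply, ← map_mul, hP, add_neg_cancel_comm, ← frAct_layer]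
    congr 2
    have e1 : P q1 = ∏ s ∈ range k, ∏ c, (ι (h * (1 + I)) + ι (h * (1 - I)) * U s c) :=
      prod_congr rfl fun s hs => by rw [Aq_q1 hh' hI' (hU s hs), ha, hb]
    rw [e1, prod_comm, ← Multiset.prod_coe, ← Multiset.map_coe, hl, fr_map_sum,
      Multiset.prod_sum]
    refine prod_congr rfl fun c _ => ?_
    rw [Multiset.map_coe, Multiset.prod_coe, List.map_map, fr_prod_range]
    rfl
  · have e1 : P q' = MonoidAlgebra.of R Γ (∏ s ∈ range k, ∏ c, T c s ^ (w c).val) *
        ((((List.range k).map fun s => ∏ c, T c s ^ (u c).val).map fun γ =>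
          ι (h * (1 + I)) + ι (h * (1 - I)) * MonoidAlgebra.of R Γ γ).prod * P q) := by
      rw [List.map_map, fr_prod_range, map_prod]
      simp only [P]
      rw [← prod_mul_distrib, ← prod_mul_distrib]
      refine prod_congr rfl fun s hs => ?_
      rw [Aq_edge hh' hI' (hU s hs) e, ha, hb]
      simp only [U, Tv_of, Function.comp_apply]
    show frAct X (P q') F x = _
    rw [e1, map_mul, map_mul, Module.End.mul_apply, Module.End.mul_apply, frAct_of, frAct_layer,
      List.map_map]
    rfl

end Vale.Agent.P338
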