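import Vale.Agent.P338.CLM
import Vale.Agent.P338.Frames

/-! The logical values of the registers of the second network, as functions of the address. -/

namespace Vale.Agent.P338

open Finset Matrix

theorem cln_sq_prod {ι : Type} {M : ℕ} (s : Finset ι) {f : ι → ℕ}
    (h : ∀ i ∈ s, f i * f i ≡ 1 [MOD M]) : (∏ i ∈ s, f i) * (∏ i ∈ s, f i) ≡ 1 [MOD M] := by
  classical
  induction s using Finset.induction_on with
  | empty => simp [Nat.ModEq]
  | insert a s ha ih =>
    rw [Finset.prod_insert ha, mul_mul_mul_comm]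
    simpa using (h a (by simp)).mul (ih fun i hi => h i (by simp [hi]))

theorem cln_sq_pow {M c : ℕ} (h : c * c ≡ 1 [MOD M]) (e : ℕ) : c ^ e * c ^ e ≡ 1 [MOD M] := by
  rw [← mul_pow]
  simpa using h.pow e

theorem cln_multiset {β : Type} (n : ℕ) (F : ℕ → List β) :
    (((List.range n).flatMap F : List β) : Multiset β) = ∑ x : Fin n, (F x : Multiset β) := by
  induction n with
  | zero => simp
  | succ n ih =>
    rw [List.range_succ, List.flatMap_append, ← Multiset.coe_add, ih, Fin.sum_univ_castSucc]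
    simp

theorem cln_layer_one {X R : Type} [CommRing R] {α β : R} (h : α + β = 1) {σs : List (X → X)}
    (F : X → R) {x : X} (hσ : ∀ σ ∈ σs, σ x = x) : layer α β σs F x = F x := by
  induction σs with
  | nil => rfl
  | cons σ σs ih =>
    have h1 := ih fun τ hτ => hσ τ (by simp [hτ])
    simp only [layer, hσ σ (by simp), h1]
    rw [← add_mul, h, one_mul]

theorem cln_val {n k O M Mid R T L : ℕ} {ι K : Type} [Fintype ι] [DecidableEq ι] [CommRing K]
    (hL : 1 ≤ L) (c : Fin n → ℕ → ℕ) (hc : ∀ a, ∀ s < k, c a s * c a s ≡ 1 [MOD M])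
    (l : List ℕ) (hl : (l : Multiset ℕ) = ∑ a, (((List.range k).map (c a) : List ℕ) : Multiset ℕ))
    (φ : K →+* ZMod (mm L)) (q : ι → (Fin n → ZMod 2) → ZMod 4)
    (reg : ι → (ℕ → ℕ) → List Bool) :
    ∃ V : ((Fin n → ZMod 2) → ZMod 4) → (ι → K) → (ℕ → ℕ) → ZMod (mm L),
      (∀ i xs, Valid [O, M, Mid, M, R, T] xs → V (q i) (Pi.single i 1) xs = cv L (reg i xs)) ∧
      (∀ i xs, Valid [O, M, Mid, M, R, T] xs →
        V (q i + q1) (Pi.single i 1) xs = lay L (l.map (sig M)) (reg i) xs) ∧
      (∀ B a b z xs, V B (a + z • b) xs = V B a xs + φ z * V B b xs) ∧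
      ∀ (B B' : (Fin n → ZMod 2) → ZMod 4) (u w : Fin n → ZMod 2),
        (∀ ξ, B' ξ = B ξ + lift2 (u ⬝ᵥ ξ) + 2 * lift2 (w ⬝ᵥ ξ)) → ∀ a xs,
        Valid [O, M, Mid, M, R, T] xs → V B' a xs =
          layer (hf L * (1 + 2 ^ L)) (hf L * (1 - 2 ^ L))
            ((List.range k).map fun s => sig M (∏ x, c x s ^ (u x).val)) (V B a)
            (sig M (∏ s ∈ range k, ∏ x, c x s ^ (w x).val) xs) := by
  classical
  let X := {xs : ℕ → ℕ // Valid [O, M, Mid, M, R, T] xs}
  let act : MulAction (ZMod M) X :=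
    { smul := fun γ x => ⟨sig M γ.val x.1, x.2.sig⟩
      one_smul := fun x => Subtype.ext (by
        show sig M (1 : ZMod M).val x.1 = x.1
        rw [ZMod.val_one_eq_one_mod, sig_congr (Nat.mod_modEq 1 M)]
        exact sig_one (by simpa using x.2 1) (by simpa using x.2 3))
      mul_smul := fun γ δ x => Subtype.ext (by
        show sig M (γ * δ).val x.1 = sig M γ.val (sig M δ.val x.1)
        rw [sig_sig, ZMod.val_mul, sig_congr (Nat.mod_modEq _ M)]) }
  have hsm : ∀ (e : ℕ) (x : X), ((e : ZMod M) • x).1 = sig M e x.1 := fun e x => by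
    show sig M (e : ZMod M).val x.1 = _
    rw [ZMod.val_natCast, sig_congr (Nat.mod_modEq _ M)]
  have hI : (2 ^ L : ZMod (mm L)) * 2 ^ L = -1 := by
    have := two_pow_sq L
    push_cast at this
    exact this
  obtain ⟨Fr, f1, f2, f3⟩ := exists_frames (R := ZMod (mm L)) (Γ := ZMod M) (X := X) (N := Fin n)
    (two_mul_hf hL) hI k (fun a s => (c a s : ZMod M))
    (fun a s hs => by
      have := (ZMod.natCast_eq_natCast_iff _ _ _).2 (hc a s hs)
      push_cast at this
      exact this)
    (l.map Nat.cast) (by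
      rw [← Multiset.map_coe, hl, ← Multiset.coe_mapAddMonoidHom, map_sum]
      refine Finset.sum_congr rfl fun a _ => ?_
      rw [Multiset.coe_mapAddMonoidHom, Multiset.map_coe, List.map_map]
      rfl)
  let Y : (ι → K) → X → ZMod (mm L) := fun a =>
    ∑ i, φ (a i) • Fr (-q i) fun x => cv L (reg i x.1)
  have hY : ∀ i, Y (Pi.single i 1) = Fr (-q i) fun x => cv L (reg i x.1) := fun i => by
    simp only [Y]
    rw [Finset.sum_eq_single i (fun j _ hj => by simp [Pi.single_eq_of_ne hj]) (by simp)]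
    simp
  have conj : ∀ (es : List ℕ) (F : (ℕ → ℕ) → ZMod (mm L)) (x : X),
      layer (hf L * (1 + 2 ^ L)) (hf L * (1 - 2 ^ L)) (es.map fun (e : ℕ) x => (e : ZMod M) • x)
        (fun y : X => F y.1) x =
      layer (hf L * (1 + 2 ^ L)) (hf L * (1 - 2 ^ L)) (es.map (sig M)) F x.1 := fun es F x => by
    refine layer_conj _ _ (ok := fun _ => True) Subtype.val ?_ F trivial
    rw [List.forall₂_map_left_iff, List.forall₂_map_right_iff, List.forall₂_same]
    exact fun e _ y _ => ⟨trivial, hsm e y⟩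
  refine ⟨fun B a xs => if h : Valid [O, M, Mid, M, R, T] xs then Fr B (Y a) ⟨xs, h⟩ else 0,
    fun i xs hx => ?_, fun i xs hx => ?_, fun B a b z xs => ?_, fun B B' u w e a xs hx => ?_⟩
  · simp only [dif_pos hx, hY, f1]
  · simp only [dif_pos hx, hY, f2, List.map_map]
    exact conj l (fun ys => cv L (reg i ys)) ⟨xs, hx⟩
  · have : Y (a + z • b) = Y a + φ z • Y b := by
      simp only [Y, Finset.smul_sum, ← Finset.sum_add_distrib, Pi.add_apply, Pi.smul_apply,
        smul_eq_mul, map_add, map_mul, add_smul, mul_smul]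
    by_cases hx : Valid [O, M, Mid, M, R, T] xs
    · simp only [dif_pos hx, this, map_add, map_smul, Pi.add_apply, Pi.smul_apply, smul_eq_mul]
    · simp [dif_neg hx]
  · simp only [dif_pos hx]
    rw [f3 B B' u w e]
    have h1 := conj ((List.range k).map fun s => ∏ x, c x s ^ (u x).val)
      (fun ys => if h : Valid [O, M, Mid, M, R, T] ys then Fr B (Y a) ⟨ys, h⟩ else 0)
      (((∏ s ∈ range k, ∏ x, c x s ^ (w x).val : ℕ) : ZMod M) • ⟨xs, hx⟩)
    rw [hsm, List.map_map, List.map_map] at h1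
    have h2 : (fun y : X => if h : Valid [O, M, Mid, M, R, T] y.1 then Fr B (Y a) ⟨y.1, h⟩ else 0) =
        Fr B (Y a) := by
      funext y
      rw [dif_pos y.2]
    rw [h2] at h1
    push_cast at h1
    refine Eq.trans ?_ h1
    congr 1
    refine List.map_congr_left fun s _ => ?_
    funext x
    simp

end Vale.Agent.P338
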