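import Vale.Agent.P338.CLE
import Vale.Agent.P338.CLN_V

/-! One edge of the second network. -/

namespace Vale.Agent.P338

open Vale.Agent.Lib Vale.Agent.Lib.H23 Enc Function Finset

/-- the modulus number `s` of the chunk `x` -/
def cq (n : ℕ) (qs : List ℕ) (x s : ℕ) : ℕ := qs.getD (x * (qs.length / n) + s) 1

theorem cln_getD_cop {qs : List ℕ} (h : qs.Pairwise Nat.Coprime) {a b : ℕ} (hab : a ≠ b) :
    (qs.getD a 1).Coprime (qs.getD b 1) := by
  by_cases ha : a < qs.length
  · by_cases hb : b < qs.length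
    · rw [List.getD_eq_getElem _ _ ha, List.getD_eq_getElem _ _ hb]
      rcases lt_or_gt_of_ne hab with h1 | h1
      · exact List.pairwise_iff_getElem.1 h a b ha hb h1
      · exact (List.pairwise_iff_getElem.1 h b a hb ha h1).symm
    · rw [List.getD_eq_default _ _ (not_lt.1 hb)]
      exact Nat.coprime_one_right _
  · rw [List.getD_eq_default _ _ (not_lt.1 ha)]
    exact Nat.coprime_one_left _

theorem cq_cop {n : ℕ} {qs : List ℕ} (h : qs.Pairwise Nat.Coprime) {x y s s' : ℕ}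
    (hs : s < qs.length / n) (hs' : s' < qs.length / n) (hne : x ≠ y ∨ s ≠ s') :
    (cq n qs x s).Coprime (cq n qs y s') := by
  refine cln_getD_cop h fun e => ?_
  generalize qs.length / n = k at *
  have h1 : (x * k + s) / k = (y * k + s') / k := by rw [e]
  rw [add_comm, Nat.add_mul_div_right _ _ (by omega), Nat.div_eq_of_lt hs, add_comm (y * k),
    Nat.add_mul_div_right _ _ (by omega), Nat.div_eq_of_lt hs', zero_add, zero_add] at h1
  subst h1
  omega

theorem cq_mem {n : ℕ} {qs : List ℕ} {x s : ℕ} (hx : x < n) (hs : s < qs.length / n) :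
    cq n qs x s ∈ qs := by
  have h1 : n * (qs.length / n) ≤ qs.length := Nat.mul_div_le _ _
  have h2 : (x + 1) * (qs.length / n) ≤ n * (qs.length / n) := Nat.mul_le_mul_right _ hx
  have h3 : x * (qs.length / n) + s < qs.length := by
    rw [add_mul, one_mul] at h2
    omega
  unfold cq
  rw [List.getD_eq_getElem _ _ h3]
  exact List.getElem_mem h3

theorem cq_multiset {n : ℕ} {qs : List ℕ} (h : qs.length % n = 0) (F : ℕ → ℕ) :
    ((qs.map F : List ℕ) : Multiset ℕ) = ∑ x : Fin n,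
      (((List.range (qs.length / n)).map fun s => F (cq n qs x s) : List ℕ) : Multiset ℕ) := by
  rw [← cln_multiset n fun x => (List.range (qs.length / n)).map fun s => F (cq n qs x s)]
  have e : n * (qs.length / n) = qs.length := Nat.mul_div_cancel' (Nat.dvd_of_mod_eq_zero h)
  unfold cq
  rw [← range_mul_map n (qs.length / n) fun a => F (qs.getD a 1), e]
  congr 1
  refine List.ext_getElem (by simp) fun i h1 h2 => ?_
  have : i < qs.length := by simpa using h1
  simp [List.getD_eq_getElem?_getD, this]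

theorem PT_cq {α : Type} [Enc α] (n x : ℕ) {qs : α → List ℕ} {s : α → ℕ} (h : PT qs)
    (hs : PT s) : PT fun a => cq n (qs a) x (s a) := by
  unfold cq
  fun_prop

theorem PT_rangeDiv (n : ℕ) : PT fun qs : List ℕ => List.range (qs.length / n) := by
  have h1 : PT fun qs : List ℕ => qs.take (qs.length / n) := by fun_prop
  refine (PT.comp PT_rangeLen h1).congr fun qs => ?_
  rw [List.length_take, min_eq_left (Nat.div_le_self _ _)]

theorem PT_finProd {α ι : Type} [Enc α] (S : Finset ι) {f : ι → α → ℕ} (h : ∀ i, PT (f i)) :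
    PT fun a => ∏ i ∈ S, f i a := by
  classical
  induction S using Finset.induction_on with
  | empty => exact (PT.const 1).congr fun a => by simp
  | insert i S hi ih => exact ((h i).mul ih).congr fun a => by rw [Finset.prod_insert hi]

theorem PT_powC {α : Type} [Enc α] {f : α → ℕ} (h : PT f) (e : ℕ) : PT fun a => f a ^ e := by
  induction e with
  | zero => exact (PT.const 1).congr fun a => by simp
  | succ e ih => exact (ih.mul h).congr fun a => by rw [pow_succ]

theorem ClJ.uniq (j : ClJ) {q : ℕ} (hq : q ∈ j.qs) : Uni j.M q :=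
  ⟨(j.hq q hq).2.2.1, (j.hq q hq).2.2.2.1⟩

theorem ClJ.d_pos (j : ClJ) (h : 0 < j.qs.length) : 1 ≤ j.d := by
  have := j.hd
  by_contra h1
  rw [show j.d = 0 by omega] at this
  omega

theorem ClJ.T_eq (j : ClJ) (h : 0 < j.qs.length) : j.T / W * W = j.T := by
  have h1 := j.d_pos h
  exact Nat.div_mul_cancel ((dvd_pow_self W (by omega)).trans j.hT)

theorem ClJ.T_dvd (j : ClJ) (h : 0 < j.qs.length) : W ^ (j.d - 1 + j.d') ∣ j.T / W := by
  have h1 := j.d_pos h
  refine Nat.dvd_of_mul_dvd_mul_right W_pos ?_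
  rw [j.T_eq h, ← pow_succ, show j.d - 1 + j.d' + 1 = j.d + j.d' by omega]
  exact j.hT

/-- the instance on one register for the chunk `x` -/
def ClJ.sub (j : ClJ) {n : ℕ} (hn : 2 ≤ n) (h : 0 < j.qs.length) (x : Fin n) : ClJ where
  O := j.O
  M := j.M
  Mid := j.Mid
  R := j.R
  T := j.T / W
  L := j.L
  t := j.t
  A := j.A
  d := j.d - 1
  d' := j.d'
  qs := (List.range (j.qs.length / n)).map (cq n j.qs x)
  hL := j.hL
  cop := by
    rw [List.pairwise_map]
    exact List.nodup_range.pairwise_of_forall_ne fun a ha b hb hab =>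
      cq_cop j.cop (List.mem_range.1 ha) (List.mem_range.1 hb) (Or.inr hab)
  hq := fun q hq => by
    obtain ⟨s, hs, rfl⟩ := List.mem_map.1 hq
    exact j.hq _ (cq_mem x.2 (List.mem_range.1 hs))
  hM := j.hM
  hR := j.hR
  hd := by
    have h1 := j.d_pos h
    have h2 := j.hd
    have h3 : n * (j.qs.length / n) ≤ j.qs.length := Nat.mul_div_le _ _
    have h4 : 2 * (j.qs.length / n) ≤ n * (j.qs.length / n) := Nat.mul_le_mul_right _ hn
    rw [show j.d = j.d - 1 + 1 by omega, pow_succ] at h2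
    rw [List.length_map, List.length_range]
    omega
  hA := j.hA
  ht := by
    rw [List.length_map, List.length_range]
    exact (Nat.mul_le_mul_left _ (Nat.div_le_self _ _)).trans_lt j.ht
  hT := j.T_dvd h

/-- the shape of one register -/
def ClJ.rs (j : ClJ) : List ℕ := [j.O, j.M, j.Mid, j.M, j.R, j.T / W]

theorem ClJ.rs_prod (j : ClJ) (h : 0 < j.qs.length) :
    W * j.rs.prod = [j.O, j.M, j.Mid, j.M, j.R, j.T].prod := by
  have key : ∀ a b c d T T' w : ℕ, T' * w = T →
      w * [a, b, c, b, d, T'].prod = [a, b, c, b, d, T].prod := by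
    rintro a b c d T T' w rfl
    simp only [List.prod_cons, List.prod_nil]
    ring
  exact key _ _ _ _ _ _ _ (j.T_eq h)

theorem ClJ.rs_le (j : ClJ) (h : 0 < j.qs.length) :
    j.rs.prod ≤ [j.O, j.M, j.Mid, j.M, j.R, j.T].prod := by
  rw [← j.rs_prod h]
  exact Nat.le_mul_of_pos_left _ W_pos

theorem cln_prod_pow {n : ℕ} (u : Fin n → ZMod 2) (c : Fin n → ℕ) :
    ∏ x, c x ^ (u x).val = ∏ x ∈ univ.filter fun x => u x = 1, c x := by
  rw [Finset.prod_filter]
  refine Finset.prod_congr rfl fun x _ => ?_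
  rcases QuadAux.z2 (u x) with h | h <;> simp [h, QuadAux.val1]

variable {G α : Type} [Enc α] {D : Dom G α} {Ψ : ℕ → ℕ → ℕ → ℕ}

theorem cln_lay {n : ℕ} (hn : 2 ≤ n) {j : G → ClJ} {κ : G → ℕ} (hc : (clP Ψ).Call D j κ)
    (h0 : ∀ g, 0 < (j g).qs.length) {α1 : Type} [Enc α1] {D1 : Dom G α1} (hD : Over D D1 id D.B)
    {F : G → (ℕ → ℕ) → List Bool} (hF : Ar D1 (fun g => (j g).rs) F)
    (hq : LS D1 fun g => (j g).qs) (hL : Lin D1 fun g => (⟨(j g).L⟩ : Un))
    (hw : ∀ g xs, Valid (j g).rs xs → (F g xs).length = 2 * (j g).L + 2)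
    (hB : Bd (fun g => sw (j g).A * ((j g).rs.prod * (2 * (j g).L + 2 + 1))) D1.B)
    (u : Fin n → ZMod 2) :
    ∃ F' : G → (ℕ → ℕ) → List Bool,
      Cost D1 (fun g => κ g * (Ψ (j g).t ((j g).qs.length / n) ((j g).t * ((j g).qs.length / n)) *
        ((j g).rs.prod * (2 * (j g).L + 2 + 1)))) (fun g => arr (j g).rs (F' g)) ∧
      ∀ g, (∀ xs, Valid (j g).rs xs → (F' g xs).length = 2 * (j g).L + 2) ∧
        ∀ xs, Valid (j g).rs xs → Good (j g).qs (xs 1) → cv (j g).L (F' g xs) =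
          lay (j g).L ((List.range ((j g).qs.length / n)).map fun s =>
            sig (j g).M (∏ x : Fin n, ngc (j g).M (cq n (j g).qs x s) ^ (u x).val)) (F g) xs := by
  classical
  by_cases hu : u = 0
  · refine ⟨F, hF.lin.cost _, fun g => ⟨hw g, fun xs hx _ => ?_⟩⟩
    unfold lay
    refine (cln_layer_one ?_ (fun ys => cv (j g).L (F g ys)) fun σ hσ => ?_).symm
    · linear_combination two_mul_hf (j g).hL
    · obtain ⟨s, -, rfl⟩ := List.mem_map.1 hσ
      simp only [hu, Pi.zero_apply, ZMod.val_zero, pow_zero, Finset.prod_const_one]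
      exact sig_one (by simpa [ClJ.rs] using hx 1) (by simpa [ClJ.rs] using hx 3)
  obtain ⟨c0, hc0⟩ : ∃ c0, u c0 = 1 := by
    by_contra hne
    push Not at hne
    exact hu (funext fun x => (QuadAux.z2 (u x)).resolve_right (hne x))
  have hmem : c0 ∈ univ.filter fun x => u x = 1 := by simp [hc0]
  generalize hS : (univ.filter fun x => u x = 1) = S at hmem
  have hlen : ∀ g, ((j g).sub hn (h0 g) c0).qs.length = (j g).qs.length / n := fun g => by
    simp [ClJ.sub]
  have p1 : PT fun qs : List ℕ => (List.range (qs.length / n)).map (cq n qs c0) :=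
    PT.map (f := fun qs s => cq n qs c0 s) (PT_cq n c0 PT.id.fst PT.id.snd) (PT_rangeDiv n)
  have p2 : PT fun qs : List ℕ => (List.range (qs.length / n)).map fun s =>
      ∏ x ∈ S.erase c0, cq n qs x s :=
    PT.map (f := fun qs s => ∏ x ∈ S.erase c0, cq n qs x s)
      (PT_finProd _ fun x => PT_cq n x PT.id.fst PT.id.snd) (PT_rangeDiv n)
  obtain ⟨F', k1, k2⟩ := cl_edge (Ψ := Ψ) hc hD (j := fun g => (j g).sub hn (h0 g) c0) (f := F)
    ⟨hF, (LS.comp p1 hq :), hL, hw⟩
    (fun g => by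
      rw [hlen]
      exact Nat.div_lt_self (h0 g) (by omega))
    (fun g => (j g).rs_le (h0 g))
    (rs := fun g => (List.range ((j g).qs.length / n)).map fun s =>
      ∏ x ∈ S.erase c0, cq n (j g).qs x s) (LS.comp p2 hq :)
    (fun g => by rw [hlen]; simp)
    (fun g => by
      refine List.pairwise_append.2 ⟨((j g).sub hn (h0 g) c0).cop, ?_, fun a ha b hb => ?_⟩
      · rw [List.pairwise_map]
        refine List.nodup_range.pairwise_of_forall_ne fun a ha b hb hab => ?_
        exact Nat.Coprime.prod_left fun x _ => Nat.Coprime.prod_right fun y _ =>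
          cq_cop (j g).cop (List.mem_range.1 ha) (List.mem_range.1 hb) (Or.inr hab)
      · obtain ⟨s, hs, rfl⟩ := List.mem_map.1 ha
        obtain ⟨s', hs', rfl⟩ := List.mem_map.1 hb
        exact Nat.Coprime.prod_right fun y hy =>
          cq_cop (j g).cop (List.mem_range.1 hs) (List.mem_range.1 hs')
            (Or.inl fun e => (Finset.mem_erase.1 hy).1 (Fin.ext e.symm)))
    (fun g x hx => by
      obtain ⟨s, hs, rfl⟩ := List.mem_map.1 hx
      have hs := List.mem_range.1 hs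
      exact Uni.prod (fun y _ => (j g).uniq (cq_mem y.2 hs)) fun y _ z _ hyz =>
        cq_cop (j g).cop hs hs (Or.inl fun e => hyz (Fin.ext e)))
    hB
  refine ⟨F', k1.mono fun g => le_of_eq (by rw [hlen]; rfl), fun g => ⟨(k2 g).1, fun xs hx hg => ?_⟩⟩
  have hM : 0 < (j g).M := hF.pos g _ (by simp [ClJ.rs])
  have := (k2 g).2 (fun s => ∏ x : Fin n, ngc (j g).M (cq n (j g).qs x s) ^ (u x).val)
    (fun s hs => ?_) xs hx fun q hq => ?_
  · rw [hlen] at this
    exact this
  · rw [hlen] at hs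
    have e : ((j g).sub hn (h0 g) c0).qs.getD s 1 *
        ((List.range ((j g).qs.length / n)).map fun s =>
          ∏ x ∈ S.erase c0, cq n (j g).qs x s).getD s 1 = ∏ x ∈ S, cq n (j g).qs x s := by
      rw [← Finset.mul_prod_erase S _ hmem]
      simp [ClJ.sub, List.getD_eq_getElem?_getD, hs]
    rw [e, cln_prod_pow, hS]
    exact IsNeg.prod (fun y _ => (j g).uniq (cq_mem y.2 hs))
      (fun y _ z _ hyz => cq_cop (j g).cop hs hs (Or.inl fun e => hyz (Fin.ext e)))
      fun y _ => ngc_spec hM ((j g).uniq (cq_mem y.2 hs))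
  · obtain ⟨s, hs, rfl⟩ := List.mem_map.1 hq
    exact hg _ (cq_mem c0.2 (List.mem_range.1 hs))

theorem cln_prod_range (k : ℕ) (f : ℕ → ℕ) :
    ∏ s ∈ range k, f s = ((List.range k).map f).prod := by
  induction k with
  | zero => simp
  | succ k ih => rw [Finset.prod_range_succ, ih, List.range_succ]; simp

theorem cln_size {ds : List ℕ} {w : ℕ} {F : (ℕ → ℕ) → List Bool} (h0 : ∀ d ∈ ds, 0 < d)
    (hw : ∀ xs, Valid ds xs → (F xs).length = w) : sz (arr ds F) ≤ 5 * (ds.prod * (w + 1)) := by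
  have h1 := sz_arr_le (ds := ds) (f := F) (w := w) fun xs hx => (hw xs hx).le
  have h2 : 0 < ds.prod := List.prod_pos h0
  nlinarith

theorem cq_sq (j : ClJ) (hM : 0 < j.M) {n : ℕ} (x : Fin n) {s : ℕ} (hs : s < j.qs.length / n) :
    ngc j.M (cq n j.qs x s) * ngc j.M (cq n j.qs x s) ≡ 1 [MOD j.M] :=
  (ngc_spec hM (j.uniq (cq_mem x.2 hs))).sq (j.uniq (cq_mem x.2 hs))

theorem cln_edge {n : ℕ} (hn : 2 ≤ n) {j : G → ClJ} {κ : G → ℕ} (hc : (clP Ψ).Call D j κ)
    (h0 : ∀ g, 0 < (j g).qs.length) {α1 : Type} [Enc α1] {D1 : Dom G α1} (hD : Over D D1 id D.B)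
    {F : G → (ℕ → ℕ) → List Bool} (hF : Ar D1 (fun g => (j g).rs) F)
    (hq : LS D1 fun g => (j g).qs) (hL : Lin D1 fun g => (⟨(j g).L⟩ : Un))
    (hw : ∀ g xs, Valid (j g).rs xs → (F g xs).length = 2 * (j g).L + 2)
    (hB : Bd (fun g => sw (j g).A * ((j g).rs.prod * (2 * (j g).L + 2 + 1))) D1.B)
    (u w : Fin n → ZMod 2) :
    ∃ F' : G → (ℕ → ℕ) → List Bool,
      Cost D1 (fun g => κ g * (Ψ (j g).t ((j g).qs.length / n) ((j g).t * ((j g).qs.length / n)) *
        ((j g).rs.prod * (2 * (j g).L + 2 + 1)))) (fun g => arr (j g).rs (F' g)) ∧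
      ∀ g, (∀ xs, Valid (j g).rs xs → (F' g xs).length = 2 * (j g).L + 2) ∧
        ∀ V : (ℕ → ℕ) → ZMod (mm (j g).L),
          (∀ xs, Valid (j g).rs xs → Good (j g).qs (xs 1) → cv (j g).L (F g xs) = V xs) →
          ∀ xs, Valid (j g).rs xs → Good (j g).qs (xs 1) → cv (j g).L (F' g xs) =
            layer (hf (j g).L * (1 + 2 ^ (j g).L)) (hf (j g).L * (1 - 2 ^ (j g).L))
              ((List.range ((j g).qs.length / n)).map fun s =>
                sig (j g).M (∏ x : Fin n, ngc (j g).M (cq n (j g).qs x s) ^ (u x).val)) V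
              (sig (j g).M (∏ s ∈ range ((j g).qs.length / n),
                ∏ x : Fin n, ngc (j g).M (cq n (j g).qs x s) ^ (w x).val) xs) := by
  obtain ⟨F1, k1, k2⟩ := cln_lay hn hc h0 hD hF hq hL hw hB u
  have hM : ∀ g, 0 < (j g).M := fun g => hF.pos g _ (by simp [ClJ.rs])
  let cw : G → ℕ := fun g => ∏ s ∈ range ((j g).qs.length / n),
    ∏ x : Fin n, ngc (j g).M (cq n (j g).qs x s) ^ (w x).val
  have hcw : ∀ g, cw g * cw g ≡ 1 [MOD (j g).M] := fun g =>
    cln_sq_prod _ fun s hs => cln_sq_prod _ fun x _ =>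
      cln_sq_pow (cq_sq (j g) (hM g) x (Finset.mem_range.1 hs)) _
  have p1 : PT fun p : List ℕ × List ℕ => ((List.range (p.2.length / n)).map fun s =>
      ∏ x : Fin n, ngc (p.1.getD 1 1) (cq n p.2 x s) ^ (w x).val).prod :=
    PT_prod (PT.map (f := fun (p : List ℕ × List ℕ) s =>
        ∏ x : Fin n, ngc (p.1.getD 1 1) (cq n p.2 x s) ^ (w x).val)
      (PT_finProd _ fun x => PT_powC (PT_ngc (by fun_prop)
        (PT_cq n x PT.id.fst.snd PT.id.snd)) _)
      (PT.comp (g := fun p : List ℕ × List ℕ => p.2) (PT_rangeDiv n) PT.id.snd))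
  have l1 : LS D1 cw := (LS.comp p1 (hF.hds.pair hq)).congr fun g => by
    simp only [cw, cln_prod_range]
    rfl
  have hfat : ∀ g, Lam (D1.S g) ≤ 2 * (j g).L + 2 := fun g => by
    have hv : Valid (j g).rs fun _ => 0 := fun i => getD_pos (hF.pos g) i
    exact hw g _ hv ▸ hF.fat g _ hv
  have hs : Bd (fun g => sz (arr (j g).rs (F1 g))) D1.B := (hB.cmul 5).le fun g =>
    (cln_size (hF.pos g) (k2 g).1).trans
      (Nat.mul_le_mul_left _ (Nat.le_mul_of_pos_left _ (sw_pos _)))
  refine ⟨fun g xs => F1 g (sig (j g).M (cw g) xs), (Cost.andThen (t' := fun _ => 0) k1 hs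
    (hF.hds.1.pair l1.1) fun D2 hD2 m1 m2 => ?_).mono fun g => by simp, fun g =>
      ⟨fun xs hx => (k2 g).1 _ hx.sig, fun V hV xs hx hg => ?_⟩⟩
  · have a2 : Ar D2 (fun g => (j g).rs) F1 :=
      ⟨⟨m2.fst, hF.hds.2.over hD2⟩, hF.pos, fun g xs hx => by
        rw [(k2 g).1 xs hx, hD2.S]
        exact hfat g, m1⟩
    exact (a2.negD (p := fun g => [(j g).O]) (m := fun g => [(j g).Mid]) (s := fun g => [(j g).R])
      (M := fun g => (j g).M) (T := fun g => (j g).T / W) (A := fun g => (j g).A) 1 3 1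
      (fun _ => rfl) (fun _ => rfl) (fun _ => rfl) (fun _ => rfl) (fun g => (k2 g).1)
      (fun g => (j g).hM)
      (fun g => ⟨(j g).d', (j g).hA, (pow_dvd_pow _ (Nat.le_add_left _ _)).trans
        ((j g).T_dvd (h0 g))⟩) (hD2.bd hB) (q := cw) ⟨m2.snd, l1.2.over hD2⟩
      (c := fun q _ => q) PT.id.fst fun g _ _ => hcw g).lin.cost _
  · have hdv : ∀ q ∈ (j g).qs, q ∣ (j g).M := fun q hq => ((j g).uniq hq).1
    rw [(k2 g).2 _ hx.sig (Good.sig hdv (hcw g) hg)]
    refine layer_congr _ _ (ok := fun ys => Valid (j g).rs ys ∧ Good (j g).qs (ys 1))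
      (fun σ hσ ys hy => ?_) (fun ys hy => hV ys hy.1 hy.2) ⟨hx.sig, Good.sig hdv (hcw g) hg⟩
    obtain ⟨s, hs, rfl⟩ := List.mem_map.1 hσ
    exact ⟨hy.1.sig, Good.sig hdv (cln_sq_prod _ fun x _ =>
      cln_sq_pow (cq_sq (j g) (hM g) x (List.mem_range.1 hs)) _) hy.2⟩

end Vale.Agent.P338
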