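import Vale.Agent.P338.CLM

/-! The change of address `zad` and its inverse in the calculus. -/

namespace Vale.Agent.P338

open Vale.Agent.Lib Vale.Agent.Lib.H23 Enc Function

section Fine

variable {G α : Type} [Enc α] {D : Dom G α} {f : G → (ℕ → ℕ) → List Bool}
  {pv rs : G → List ℕ} {O M1 M2 Mid R T A w : G → ℕ}

theorem Ar.splitZ {p s : G → List ℕ} {B M : G → ℕ} (i : ℕ)
    (h : Ar D (fun g => p g ++ B g * M g :: s g) f) (hi : ∀ g, (p g).length = i)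
    (hL : LS D fun g => p g ++ B g :: M g :: s g) :
    Ar D (fun g => p g ++ B g :: M g :: s g) fun g xs => f g (mrg i (M g) xs) := by
  refine h.view hL (fun g d hd => ?_) fun g => ?_
  · have h0 : 0 < B g * M g := h.pos g _ (by simp)
    simp only [List.mem_append, List.mem_cons] at hd
    rcases hd with hd | rfl | rfl | hd
    · exact h.pos g d (by simp [hd])
    · exact Nat.pos_of_mul_pos_right h0
    · exact Nat.pos_of_mul_pos_left h0
    · exact h.pos g d (by simp [hd])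
  · rw [arr_split, hi]

theorem Ar.mergeZ {p s : G → List ℕ} {B M : G → ℕ} (i : ℕ)
    (h : Ar D (fun g => p g ++ B g :: M g :: s g) f) (hi : ∀ g, (p g).length = i)
    (hL : LS D fun g => p g ++ B g * M g :: s g) :
    Ar D (fun g => p g ++ B g * M g :: s g) fun g xs => f g (spl i (M g) xs) := by
  refine h.view hL (fun g d hd => ?_) fun g => ?_
  · simp only [List.mem_append, List.mem_cons] at hd
    rcases hd with hd | rfl | hd
    · exact h.pos g d (by simp [hd])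
    · exact Nat.mul_pos (h.pos g _ (by simp)) (h.pos g _ (by simp))
    · exact h.pos g d (by simp [hd])
  · rw [arr_merge, hi]

theorem Ar.fineTr1
    (h : Ar D (fun g => [O g, M1 g, M2 g, Mid g, M1 g, M2 g, R g, T g]) f)
    (hw : ∀ g xs, Valid [O g, M1 g, M2 g, Mid g, M1 g, M2 g, R g, T g] xs →
      (f g xs).length = w g)
    (hA : ∀ g, M1 g ≤ 2 ^ A g) (hd : ∀ g, ∃ d, A g < 2 ^ d ∧ W ^ d ∣ T g)
    (hB : Bd (fun g => sw (A g) *
      ([O g, M1 g, M2 g, Mid g, M1 g, M2 g, R g, T g].prod * (w g + 1))) D.B)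
    {k : G → ℕ} (hk : LS D k) :
    Ar D (fun g => [O g, M1 g, M2 g, Mid g, M1 g, M2 g, R g, T g]) fun g xs =>
      f g (update xs 1 ((xs 1 + k g * xs 2) % M1 g)) := by
  refine (h.trD (p := fun g => [O g]) (s := fun g => [M2 g, Mid g, M1 g, M2 g, R g]) (M := M1)
    (T := T) 1 5 (fun _ => rfl) (fun _ => rfl) (fun _ => rfl) hw (fun g => ?_) hA hd hB hk
    (σ := fun k l => k * l.getD 2 0) (by fun_prop)).congr (fun _ => rfl) fun g xs _ => ?_
  · have h2 := h.pos g (M2 g) (by simp)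
    have h3 := h.pos g (Mid g) (by simp)
    have h4 := h.pos g (R g) (by simp)
    have : [M2 g, Mid g, M1 g, M2 g, R g].prod = M1 g * (M2 g * Mid g * M2 g * R g) := by
      simp only [List.prod_cons, List.prod_nil]; ring
    rw [this]
    exact Nat.le_mul_of_pos_right _ (by positivity)
  · rw [getD_pre (by omega), update_of_ne (by omega)]

theorem Ar.fineTr4
    (h : Ar D (fun g => [O g, M1 g, M2 g, Mid g, M1 g, M2 g, R g, T g]) f)
    (hw : ∀ g xs, Valid [O g, M1 g, M2 g, Mid g, M1 g, M2 g, R g, T g] xs →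
      (f g xs).length = w g) (hR : ∀ g, M1 g ≤ R g)
    (hA : ∀ g, M1 g ≤ 2 ^ A g) (hd : ∀ g, ∃ d, A g < 2 ^ d ∧ W ^ d ∣ T g)
    (hB : Bd (fun g => sw (A g) *
      ([O g, M1 g, M2 g, Mid g, M1 g, M2 g, R g, T g].prod * (w g + 1))) D.B)
    {k : G → ℕ} (hk : LS D k) :
    Ar D (fun g => [O g, M1 g, M2 g, Mid g, M1 g, M2 g, R g, T g]) fun g xs =>
      f g (update xs 4 ((xs 4 + k g * xs 5) % M1 g)) := by
  refine (h.trD (p := fun g => [O g, M1 g, M2 g, Mid g]) (s := fun g => [M2 g, R g]) (M := M1)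
    (T := T) 4 2 (fun _ => rfl) (fun _ => rfl) (fun _ => rfl) hw (fun g => ?_) hA hd hB hk
    (σ := fun k l => k * l.getD 5 0) (by fun_prop)).congr (fun _ => rfl) fun g xs _ => ?_
  · have h2 := h.pos g (M2 g) (by simp)
    have : [M2 g, R g].prod = R g * M2 g := by
      simp only [List.prod_cons, List.prod_nil]; ring
    rw [this]
    exact (hR g).trans (Nat.le_mul_of_pos_right _ h2)
  · rw [getD_pre (by omega), update_of_ne (by omega)]

theorem Ar.fineNeg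
    (h : Ar D (fun g => [O g, M1 g, M2 g, Mid g, M1 g, M2 g, R g, T g]) f)
    (hw : ∀ g xs, Valid [O g, M1 g, M2 g, Mid g, M1 g, M2 g, R g, T g] xs →
      (f g xs).length = w g)
    (hA : ∀ g, M2 g ≤ 2 ^ A g) (hd : ∀ g, ∃ d, A g < 2 ^ d ∧ W ^ d ∣ T g)
    (hB : Bd (fun g => sw (A g) *
      ([O g, M1 g, M2 g, Mid g, M1 g, M2 g, R g, T g].prod * (w g + 1))) D.B)
    (h1 : LS D pv) (h2 : LS D rs) (h3 : LS D M2)
    (hr : ∀ g, (rs g).Pairwise Nat.Coprime ∧ ∀ x ∈ rs g, Uni (M2 g) x) :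
    Ar D (fun g => [O g, M1 g, M2 g, Mid g, M1 g, M2 g, R g, T g]) fun g xs =>
      f g (update (update xs 2 (ctl (M2 g) (pv g) (rs g) (xs 1) * xs 2 % M2 g)) 5
        (ctl (M2 g) (pv g) (rs g) (xs 1) * xs 5 % M2 g)) := by
  refine (h.negD (p := fun g => [O g, M1 g]) (m := fun g => [Mid g, M1 g]) (s := fun g => [R g])
    (M := M2) (T := T) 2 5 1 (fun _ => rfl) (fun _ => rfl) (fun _ => rfl) (fun _ => rfl) hw hA hd
    hB (h3.pair (h1.pair h2)) (c := fun q l => ctl q.1 q.2.1 q.2.2 (l.getD 1 0)) (by fun_prop)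
    fun g xs _ => ctl_sq (h.pos g (M2 g) (by simp)) (hr g).1 (hr g).2 _).congr (fun _ => rfl)
    fun g xs _ => ?_
  simp only [getD_pre (show 1 < 2 by omega)]

theorem LS.getZ {ds : G → List ℕ} (h : LS D ds) (i : ℕ) : LS D fun g => (ds g).getD i 1 :=
  LS.comp (f := fun l : List ℕ => l.getD i 1) (by fun_prop) h

theorem LS.consZ {a : G → ℕ} {l : G → List ℕ} (ha : LS D a) (hl : LS D l) :
    LS D fun g => a g :: l g :=
  LS.comp (f := fun x : ℕ × List ℕ => x.1 :: x.2) (by fun_prop) (ha.pair hl)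

theorem LS.mulZ {a b : G → ℕ} (ha : LS D a) (hb : LS D b) : LS D fun g => a g * b g :=
  LS.comp (f := fun x : ℕ × ℕ => x.1 * x.2) (by fun_prop) (ha.pair hb)

theorem LS.divZ {a b : G → ℕ} (ha : LS D a) (hb : LS D b) : LS D fun g => a g / b g :=
  LS.comp (f := fun x : ℕ × ℕ => x.1 / x.2) (by fun_prop) (ha.pair hb)

theorem LS.invZ {a b : G → ℕ} (ha : LS D a) (hb : LS D b) : LS D fun g => invMod (a g) (b g) := by
  have h := LS.comp (f := fun x : ℕ × ℕ => invMod x.1 x.2) (by fun_prop) (ha.pair hb)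
  exact h

theorem LS.predZ {a : G → ℕ} (ha : LS D a) : LS D fun g => a g - 1 :=
  LS.comp (f := fun x : ℕ => x - 1) (by fun_prop) ha

theorem LS.prodZ {a : G → List ℕ} (ha : LS D a) : LS D fun g => (a g).prod :=
  LS.comp (f := fun l : List ℕ => l.prod) (by fun_prop) ha

theorem LS.nilZ : LS D fun _ => ([] : List ℕ) := LS.const _

theorem Ar.fineA (h : Ar D (fun g => [O g, M1 g * M2 g, Mid g, M1 g * M2 g, R g, T g]) f)
    (l1 : LS D M1) (l2 : LS D M2) :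
    Ar D (fun g => [O g, M1 g, M2 g, Mid g, M1 g, M2 g, R g, T g]) fun g xs =>
      f g (mrg 3 (M2 g) (mrg 1 (M2 g) xs)) := by
  have lO : LS D O := h.hds.getZ 0
  have lMid : LS D Mid := h.hds.getZ 2
  have lR : LS D R := h.hds.getZ 4
  have lT : LS D T := h.hds.getZ 5
  have t : LS D fun g => [Mid g, M1 g, M2 g, R g, T g] :=
    lMid.consZ (l1.consZ (l2.consZ (lR.consZ (lT.consZ LS.nilZ))))
  have s1 : Ar D (fun g => [O g, M1 g * M2 g, Mid g, M1 g, M2 g, R g, T g])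
      fun g xs => f g (mrg 3 (M2 g) xs) :=
    Ar.splitZ (p := fun g => [O g, M1 g * M2 g, Mid g]) (s := fun g => [R g, T g])
      (B := M1) (M := M2) 3 h (fun _ => rfl) (lO.consZ ((l1.mulZ l2).consZ t))
  exact Ar.splitZ (p := fun g => [O g]) (s := fun g => [Mid g, M1 g, M2 g, R g, T g])
    (B := M1) (M := M2) 1 s1 (fun _ => rfl) (lO.consZ (l1.consZ (l2.consZ t)))

theorem Ar.fineB (h : Ar D (fun g => [O g, M1 g, M2 g * Mid g, M1 g, M2 g * R g, T g]) f)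
    (l2 : LS D M2) :
    Ar D (fun g => [O g, M1 g, M2 g, Mid g, M1 g, M2 g, R g, T g]) fun g xs =>
      f g (mrg 4 (R g) (mrg 2 (Mid g) xs)) := by
  have p0 : ∀ g, 0 < M2 g * R g := fun g => h.pos g _ (by simp)
  have p2 : ∀ g, 0 < M2 g := fun g => Nat.pos_of_mul_pos_right (p0 g)
  have lO : LS D O := h.hds.getZ 0
  have l1 : LS D M1 := h.hds.getZ 1
  have lMM : LS D fun g => M2 g * Mid g := h.hds.getZ 2
  have lMR : LS D fun g => M2 g * R g := h.hds.getZ 4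
  have lT : LS D T := h.hds.getZ 5
  have lMid : LS D Mid := (lMM.divZ l2).congr fun g => (Nat.mul_div_cancel_left _ (p2 g)).symm
  have lR : LS D R := (lMR.divZ l2).congr fun g => (Nat.mul_div_cancel_left _ (p2 g)).symm
  have t : LS D fun g => [M1 g, M2 g, R g, T g] :=
    l1.consZ (l2.consZ (lR.consZ (lT.consZ LS.nilZ)))
  have s1 : Ar D (fun g => [O g, M1 g, M2 g * Mid g, M1 g, M2 g, R g, T g])
      fun g xs => f g (mrg 4 (R g) xs) :=
    Ar.splitZ (p := fun g => [O g, M1 g, M2 g * Mid g, M1 g]) (s := fun g => [T g])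
      (B := M2) (M := R) 4 h (fun _ => rfl) (lO.consZ (l1.consZ (lMM.consZ t)))
  exact Ar.splitZ (p := fun g => [O g, M1 g]) (s := fun g => [M1 g, M2 g, R g, T g])
    (B := M2) (M := Mid) 2 s1 (fun _ => rfl) (lO.consZ (l1.consZ (l2.consZ (lMid.consZ t))))

theorem Ar.coarseA (h : Ar D (fun g => [O g, M1 g, M2 g, Mid g, M1 g, M2 g, R g, T g]) f) :
    Ar D (fun g => [O g, M1 g * M2 g, Mid g, M1 g * M2 g, R g, T g]) fun g xs =>
      f g (spl 4 (M2 g) (spl 1 (M2 g) xs)) := by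
  have lO : LS D O := h.hds.getZ 0
  have l1 : LS D M1 := h.hds.getZ 1
  have l2 : LS D M2 := h.hds.getZ 2
  have lMid : LS D Mid := h.hds.getZ 3
  have lR : LS D R := h.hds.getZ 6
  have lT : LS D T := h.hds.getZ 7
  have t : LS D fun g => [Mid g, M1 g * M2 g, R g, T g] :=
    lMid.consZ ((l1.mulZ l2).consZ (lR.consZ (lT.consZ LS.nilZ)))
  have s1 : Ar D (fun g => [O g, M1 g, M2 g, Mid g, M1 g * M2 g, R g, T g])
      fun g xs => f g (spl 4 (M2 g) xs) :=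
    Ar.mergeZ (p := fun g => [O g, M1 g, M2 g, Mid g]) (s := fun g => [R g, T g])
      (B := M1) (M := M2) 4 h (fun _ => rfl) (lO.consZ (l1.consZ (l2.consZ t)))
  exact Ar.mergeZ (p := fun g => [O g]) (s := fun g => [Mid g, M1 g * M2 g, R g, T g])
    (B := M1) (M := M2) 1 s1 (fun _ => rfl) (lO.consZ ((l1.mulZ l2).consZ t))

theorem Ar.coarseB (h : Ar D (fun g => [O g, M1 g, M2 g, Mid g, M1 g, M2 g, R g, T g]) f) :
    Ar D (fun g => [O g, M1 g, M2 g * Mid g, M1 g, M2 g * R g, T g]) fun g xs =>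
      f g (spl 5 (R g) (spl 2 (Mid g) xs)) := by
  have lO : LS D O := h.hds.getZ 0
  have l1 : LS D M1 := h.hds.getZ 1
  have l2 : LS D M2 := h.hds.getZ 2
  have lMid : LS D Mid := h.hds.getZ 3
  have lR : LS D R := h.hds.getZ 6
  have lT : LS D T := h.hds.getZ 7
  have t : LS D fun g => [M1 g, M2 g * R g, T g] :=
    l1.consZ ((l2.mulZ lR).consZ (lT.consZ LS.nilZ))
  have s1 : Ar D (fun g => [O g, M1 g, M2 g, Mid g, M1 g, M2 g * R g, T g])
      fun g xs => f g (spl 5 (R g) xs) :=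
    Ar.mergeZ (p := fun g => [O g, M1 g, M2 g, Mid g, M1 g]) (s := fun g => [T g])
      (B := M2) (M := R) 5 h (fun _ => rfl) (lO.consZ (l1.consZ (l2.consZ (lMid.consZ t))))
  exact Ar.mergeZ (p := fun g => [O g, M1 g]) (s := fun g => [M1 g, M2 g * R g, T g])
    (B := M2) (M := Mid) 2 s1 (fun _ => rfl) (lO.consZ (l1.consZ ((l2.mulZ lMid).consZ t)))

end Fine

section Valids

variable {O M1 M2 Mid R T : ℕ} {xs : ℕ → ℕ}

theorem Valid.fine1 (h : Valid [O, M1, M2, Mid, M1, M2, R, T] xs) (v : ℕ) :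
    Valid [O, M1, M2, Mid, M1, M2, R, T] (Function.update xs 1 (v % M1)) :=
  h.update (Nat.mod_lt _ (Nat.zero_lt_of_lt (h 1)))

theorem Valid.fine4 (h : Valid [O, M1, M2, Mid, M1, M2, R, T] xs) (v : ℕ) :
    Valid [O, M1, M2, Mid, M1, M2, R, T] (Function.update xs 4 (v % M1)) :=
  h.update (Nat.mod_lt _ (Nat.zero_lt_of_lt (h 1)))

theorem Valid.fine25 (h : Valid [O, M1, M2, Mid, M1, M2, R, T] xs) (v v' : ℕ) :
    Valid [O, M1, M2, Mid, M1, M2, R, T]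
      (Function.update (Function.update xs 2 (v % M2)) 5 (v' % M2)) :=
  (h.update (Nat.mod_lt _ (Nat.zero_lt_of_lt (h 2)))).update
    (Nat.mod_lt _ (Nat.zero_lt_of_lt (h 2)))

theorem jn_inv {M1 M2 k x : ℕ} (hx : x < M1 * M2) :
    ((x / M2 + k * (x % M2)) % M1 + (M1 - 1) * k * (x % M2)) % M1 * M2 + x % M2 = x := by
  have h1 : 0 < M1 := Nat.pos_of_mul_pos_right (Nat.zero_lt_of_lt hx)
  have h2 : x / M2 < M1 := Nat.div_lt_of_lt_mul (by rwa [mul_comm] at hx)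
  obtain ⟨m, rfl⟩ : ∃ m, M1 = m + 1 := ⟨M1 - 1, by omega⟩
  have e : x / M2 + k * (x % M2) + m * k * (x % M2) = x / M2 + (m + 1) * (k * (x % M2)) := by ring
  rw [Nat.add_sub_cancel, Nat.mod_add_mod, e, Nat.add_mul_mod_self_left, Nat.mod_eq_of_lt h2,
    mul_comm, Nat.div_add_mod]

theorem neg_inv {M c y : ℕ} (hc : c * c ≡ 1 [MOD M]) (hy : y < M) : c * (c * y % M) % M = y := by
  have h : c * (c * y % M) ≡ 1 * y [MOD M] :=
    ((Nat.mod_modEq _ _).mul_left c).trans (by rw [← mul_assoc]; exact hc.mul_right y)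
  rw [h, one_mul, Nat.mod_eq_of_lt hy]

theorem mrg_div {a b M : ℕ} (hb : b < M) : (a * M + b) / M = a := by
  rw [add_comm, Nat.add_mul_div_right _ _ (by omega), Nat.div_eq_of_lt hb, zero_add]

theorem mrg_mod {a b M : ℕ} (hb : b < M) : (a * M + b) % M = b := by
  rw [add_comm, Nat.add_mul_mod_self_right, Nat.mod_eq_of_lt hb]

/-- the steps of `zad` on fine addresses -/
def fzA (M1 M2 k c : ℕ) (xs : ℕ → ℕ) : ℕ → ℕ
  | 1 => (xs 1 + k * (c * xs 2 % M2)) % M1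
  | 2 => c * xs 2 % M2
  | 4 => (xs 4 + k * (c * xs 5 % M2)) % M1
  | 5 => c * xs 5 % M2
  | i => xs i

/-- the steps of the inverse of `zad` on fine addresses -/
def fzB (M1 M2 k : ℕ) (c : ℕ → ℕ) (xs : ℕ → ℕ) : ℕ → ℕ
  | 1 => (xs 1 + k * xs 2) % M1
  | 2 => c ((xs 1 + k * xs 2) % M1) * xs 2 % M2
  | 4 => (xs 4 + k * xs 5) % M1
  | 5 => c ((xs 1 + k * xs 2) % M1) * xs 5 % M2
  | i => xs i

theorem Valid.fzB (h : Valid [O, M1, M2, Mid, M1, M2, R, T] xs) (k : ℕ) (c : ℕ → ℕ) :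
    Valid [O, M1, M2, Mid, M1, M2, R, T] (fzB M1 M2 k c xs) := by
  have h1 : 0 < M1 := Nat.zero_lt_of_lt (h 1)
  have h2 : 0 < M2 := Nat.zero_lt_of_lt (h 2)
  intro i
  match i with
  | 0 => exact h 0
  | 1 => exact Nat.mod_lt _ h1
  | 2 => exact Nat.mod_lt _ h2
  | 3 => exact h 3
  | 4 => exact Nat.mod_lt _ h1
  | 5 => exact Nat.mod_lt _ h2
  | i + 6 => exact h (i + 6)

theorem zad_eq (pv rs : List ℕ) (M2 Mid R : ℕ) (ys : ℕ → ℕ) :
    zad pv rs M2 Mid R ys = mrg 3 M2 (mrg 1 M2 (fzA pv.prod M2 ((pv.prod - 1) * invMod M2 pv.prod)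
      (ctl M2 pv rs (spl 5 R (spl 2 Mid ys) 1)) (spl 5 R (spl 2 Mid ys)))) := by
  funext i
  match i with
  | 0 => rfl
  | 1 => rfl
  | 2 => rfl
  | 3 => rfl
  | 4 => rfl
  | i + 5 =>
    simp only [zad, mrg, spl, fzA]
    simp [show ¬ i + 5 < 3 by omega, show ¬ i + 5 + 1 + 1 < 5 by omega]

theorem zad_inv {pv rs : List ℕ} (hx : Valid [O, pv.prod * M2, Mid, pv.prod * M2, R, T] xs)
    (hs : ∀ v, ctl M2 pv rs v * ctl M2 pv rs v ≡ 1 [MOD M2]) :
    zad pv rs M2 Mid R (mrg 4 R (mrg 2 Mid (fzB pv.prod M2 (invMod M2 pv.prod) (ctl M2 pv rs)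
      (spl 4 M2 (spl 1 M2 xs))))) = xs := by
  have x1 : xs 1 < pv.prod * M2 := hx 1
  have x2 : xs 2 < Mid := hx 2
  have x3 : xs 3 < pv.prod * M2 := hx 3
  have x4 : xs 4 < R := hx 4
  have p2 : 0 < M2 := Nat.pos_of_mul_pos_left (Nat.zero_lt_of_lt x1)
  funext i
  match i with
  | 0 => rfl
  | 1 =>
    show jn _ _ ((xs 1 / M2 + _ * (xs 1 % M2)) % _)
      (_ * ((_ * (xs 1 % M2) % M2 * Mid + xs 2) / Mid) % M2) = _
    rw [mrg_div x2]
    erw [neg_inv (hs _) (Nat.mod_lt _ p2)]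
    exact jn_inv x1
  | 2 => exact mrg_mod x2
  | 3 =>
    show jn _ _ ((xs 3 / M2 + _ * (xs 3 % M2)) % _)
      (_ * ((_ * (xs 3 % M2) % M2 * R + xs 4) / R) % M2) = _
    rw [mrg_div x4]
    erw [neg_inv (hs _) (Nat.mod_lt _ p2)]
    exact jn_inv x3
  | 4 => exact mrg_mod x4
  | i + 5 =>
    simp only [zad, mrg, spl, fzB]
    simp [show ¬ i + 5 < 4 by omega, show ¬ i + 5 + 1 + 1 < 4 by omega]

end Valids

section Steps

variable {G α : Type} [Enc α] {D : Dom G α} {f : G → (ℕ → ℕ) → List Bool}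
  {pv rs : G → List ℕ} {O M1 M2 Mid R T A w : G → ℕ}

theorem Ar.fzA
    (h : Ar D (fun g => [O g, M1 g, M2 g, Mid g, M1 g, M2 g, R g, T g]) f)
    (hw : ∀ g xs, Valid [O g, M1 g, M2 g, Mid g, M1 g, M2 g, R g, T g] xs →
      (f g xs).length = w g) (hR : ∀ g, M1 g * M2 g ≤ R g)
    (hA : ∀ g, M1 g * M2 g ≤ 2 ^ A g) (hd : ∀ g, ∃ d, A g < 2 ^ d ∧ W ^ d ∣ T g)
    (hB : Bd (fun g => sw (A g) *
      ([O g, M1 g * M2 g, Mid g, M1 g * M2 g, R g, T g].prod * (w g + 1))) D.B)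
    (h1 : LS D pv) (h2 : LS D rs)
    (hr : ∀ g, (rs g).Pairwise Nat.Coprime ∧ ∀ x ∈ rs g, Uni (M2 g) x)
    {k : G → ℕ} (hk : LS D k) :
    Ar D (fun g => [O g, M1 g, M2 g, Mid g, M1 g, M2 g, R g, T g]) fun g xs =>
      f g (fzA (M1 g) (M2 g) (k g) (ctl (M2 g) (pv g) (rs g) (xs 1)) xs) := by
  have a1 : ∀ g, M1 g ≤ M1 g * M2 g := fun g => Nat.le_mul_of_pos_right _ (h.pos g _ (by simp))
  have a2 : ∀ g, M2 g ≤ M1 g * M2 g := fun g => Nat.le_mul_of_pos_left _ (h.pos g _ (by simp))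
  have hB' : Bd (fun g => sw (A g) * ([O g, M1 g, M2 g, Mid g, M1 g, M2 g, R g,
      T g].prod * (w g + 1))) D.B := hB.le fun g => le_of_eq (by
    simp only [List.prod_cons, List.prod_nil]; ring)
  have s3 := Ar.fineTr1 h hw (fun g => (a1 g).trans (hA g)) hd hB' hk
  have s4 := Ar.fineTr4 s3 (fun g xs hx => hw g _ (hx.fine1 _)) (fun g => (a1 g).trans (hR g))
    (fun g => (a1 g).trans (hA g)) hd hB' hk
  have s5 := Ar.fineNeg s4 (fun g xs hx => hw g _ ((hx.fine4 _).fine1 _))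
    (fun g => (a2 g).trans (hA g)) hd hB' h1 h2 (h.hds.getZ 2) hr
  refine s5.congr (fun _ => rfl) fun g xs _ => ?_
  congr 1
  funext i
  match i with
  | 0 => rfl
  | 1 => rfl
  | 2 => rfl
  | 3 => rfl
  | 4 => rfl
  | 5 => rfl
  | i + 6 => simp [P338.fzA]

theorem Ar.fzB
    (h : Ar D (fun g => [O g, M1 g, M2 g, Mid g, M1 g, M2 g, R g, T g]) f)
    (hw : ∀ g xs, Valid [O g, M1 g, M2 g, Mid g, M1 g, M2 g, R g, T g] xs →
      (f g xs).length = w g) (hR : ∀ g, M1 g * M2 g ≤ R g)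
    (hA : ∀ g, M1 g * M2 g ≤ 2 ^ A g) (hd : ∀ g, ∃ d, A g < 2 ^ d ∧ W ^ d ∣ T g)
    (hB : Bd (fun g => sw (A g) *
      ([O g, M1 g * M2 g, Mid g, M1 g * M2 g, R g, T g].prod * (w g + 1))) D.B)
    (h1 : LS D pv) (h2 : LS D rs)
    (hr : ∀ g, (rs g).Pairwise Nat.Coprime ∧ ∀ x ∈ rs g, Uni (M2 g) x)
    {k : G → ℕ} (hk : LS D k) :
    Ar D (fun g => [O g, M1 g, M2 g, Mid g, M1 g, M2 g, R g, T g]) fun g xs =>
      f g (fzB (M1 g) (M2 g) (k g) (ctl (M2 g) (pv g) (rs g)) xs) := by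
  have a1 : ∀ g, M1 g ≤ M1 g * M2 g := fun g => Nat.le_mul_of_pos_right _ (h.pos g _ (by simp))
  have a2 : ∀ g, M2 g ≤ M1 g * M2 g := fun g => Nat.le_mul_of_pos_left _ (h.pos g _ (by simp))
  have hB' : Bd (fun g => sw (A g) * ([O g, M1 g, M2 g, Mid g, M1 g, M2 g, R g,
      T g].prod * (w g + 1))) D.B := hB.le fun g => le_of_eq (by
    simp only [List.prod_cons, List.prod_nil]; ring)
  have s3 := Ar.fineNeg h hw (fun g => (a2 g).trans (hA g)) hd hB' h1 h2 (h.hds.getZ 2) hr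
  have s4 := Ar.fineTr4 s3 (fun g xs hx => hw g _ (hx.fine25 _ _)) (fun g => (a1 g).trans (hR g))
    (fun g => (a1 g).trans (hA g)) hd hB' hk
  have s5 := Ar.fineTr1 s4 (fun g xs hx => hw g _ ((hx.fine4 _).fine25 _ _))
    (fun g => (a1 g).trans (hA g)) hd hB' hk
  refine s5.congr (fun _ => rfl) fun g xs _ => ?_
  congr 1
  funext i
  match i with
  | 0 => rfl
  | 1 => rfl
  | 2 => rfl
  | 3 => rfl
  | 4 => rfl
  | 5 => rfl
  | i + 6 => simp [P338.fzB]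

end Steps

variable {G α : Type} [Enc α] {D : Dom G α} {f : G → (ℕ → ℕ) → List Bool}
  {pv rs : G → List ℕ} {O M2 Mid R T A w : G → ℕ}

theorem Ar.zad
    (h : Ar D (fun g => [O g, (pv g).prod * M2 g, Mid g, (pv g).prod * M2 g, R g, T g]) f)
    (h1 : LS D pv) (h2 : LS D rs) (hc : ∀ g, (pv g).prod.Coprime (M2 g))
    (hr : ∀ g, (rs g).Pairwise Nat.Coprime ∧ ∀ x ∈ rs g, Uni (M2 g) x)
    (hw : ∀ g xs, Valid [O g, (pv g).prod * M2 g, Mid g, (pv g).prod * M2 g, R g, T g] xs →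
      (f g xs).length = w g)
    (hR : ∀ g, (pv g).prod * M2 g ≤ R g) (hA : ∀ g, (pv g).prod * M2 g ≤ 2 ^ A g)
    (hd : ∀ g, ∃ d, A g < 2 ^ d ∧ W ^ d ∣ T g)
    (hB : Bd (fun g => sw (A g) *
      ([O g, (pv g).prod * M2 g, Mid g, (pv g).prod * M2 g, R g, T g].prod * (w g + 1))) D.B) :
    Ar D (fun g => [O g, (pv g).prod, M2 g * Mid g, (pv g).prod, M2 g * R g, T g]) fun g ys =>
      f g (zad (pv g) (rs g) (M2 g) (Mid g) (R g) ys) := by
  have p0 : ∀ g, 0 < (pv g).prod * M2 g := fun g => h.pos g _ (by simp)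
  have p1 : ∀ g, 0 < (pv g).prod := fun g => Nat.pos_of_mul_pos_right (p0 g)
  have lP : LS D fun g => (pv g).prod * M2 g := h.hds.getZ 1
  have l1 : LS D fun g => (pv g).prod := h1.prodZ
  have l2 : LS D M2 := (lP.divZ l1).congr fun g => (Nat.mul_div_cancel_left _ (p1 g)).symm
  have lk : LS D fun g => ((pv g).prod - 1) * invMod (M2 g) (pv g).prod :=
    l1.predZ.mulZ (l2.invZ l1)
  have s2 := Ar.fineA (M1 := fun g => (pv g).prod) h l1 l2
  have s3 := Ar.fzA (w := w) s2 (fun g xs hx =>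
    hw g _ (Valid.mrg (p := [O g, (pv g).prod * M2 g, Mid g]) (Valid.mrg (p := [O g]) hx)))
    hR hA hd hB h1 h2 hr lk
  exact s3.coarseB.congr (fun _ => rfl) fun g ys _ => congrArg (f g) (zad_eq _ _ _ _ _ ys)

theorem Ar.unzad
    (h : Ar D (fun g => [O g, (pv g).prod, M2 g * Mid g, (pv g).prod, M2 g * R g, T g]) f)
    (h1 : LS D pv) (h2 : LS D rs) (h3 : LS D M2) (hc : ∀ g, (pv g).prod.Coprime (M2 g))
    (hr : ∀ g, (rs g).Pairwise Nat.Coprime ∧ ∀ x ∈ rs g, Uni (M2 g) x)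
    (hw : ∀ g xs, Valid [O g, (pv g).prod, M2 g * Mid g, (pv g).prod, M2 g * R g, T g] xs →
      (f g xs).length = w g)
    (hR : ∀ g, (pv g).prod * M2 g ≤ R g) (hA : ∀ g, (pv g).prod * M2 g ≤ 2 ^ A g)
    (hd : ∀ g, ∃ d, A g < 2 ^ d ∧ W ^ d ∣ T g)
    (hB : Bd (fun g => sw (A g) *
      ([O g, (pv g).prod * M2 g, Mid g, (pv g).prod * M2 g, R g, T g].prod * (w g + 1))) D.B) :
    ∃ Z : G → (ℕ → ℕ) → ℕ → ℕ,
      Ar D (fun g => [O g, (pv g).prod * M2 g, Mid g, (pv g).prod * M2 g, R g, T g])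
        (fun g xs => f g (Z g xs)) ∧
      ∀ g xs, Valid [O g, (pv g).prod * M2 g, Mid g, (pv g).prod * M2 g, R g, T g] xs →
        Valid [O g, (pv g).prod, M2 g * Mid g, (pv g).prod, M2 g * R g, T g] (Z g xs) ∧
          P338.zad (pv g) (rs g) (M2 g) (Mid g) (R g) (Z g xs) = xs := by
  have p0 : ∀ g, 0 < M2 g * R g := fun g => h.pos g _ (by simp)
  have p2 : ∀ g, 0 < M2 g := fun g => Nat.pos_of_mul_pos_right (p0 g)
  have l1 : LS D fun g => (pv g).prod := h.hds.getZ 1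
  have lk : LS D fun g => invMod (M2 g) (pv g).prod := h3.invZ l1
  have v2 : ∀ g xs, Valid [O g, (pv g).prod, M2 g, Mid g, (pv g).prod, M2 g, R g, T g] xs →
      Valid [O g, (pv g).prod, M2 g * Mid g, (pv g).prod, M2 g * R g, T g]
        (mrg 4 (R g) (mrg 2 (Mid g) xs)) := fun g xs hx =>
    Valid.mrg (p := [O g, (pv g).prod, M2 g * Mid g, (pv g).prod])
      (Valid.mrg (p := [O g, (pv g).prod]) hx)
  have s2 := Ar.fineB (M1 := fun g => (pv g).prod) h h3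
  have s3 := Ar.fzB (w := w) s2 (fun g xs hx => hw g _ (v2 g xs hx)) hR hA hd hB h1 h2 hr lk
  refine ⟨fun g xs => mrg 4 (R g) (mrg 2 (Mid g) (P338.fzB (pv g).prod (M2 g)
    (invMod (M2 g) (pv g).prod) (ctl (M2 g) (pv g) (rs g)) (spl 4 (M2 g) (spl 1 (M2 g) xs)))),
    s3.coarseA, fun g xs hx => ⟨v2 g _ ?_, zad_inv hx (ctl_sq (p2 g) (hr g).1 (hr g).2)⟩⟩
  exact (Valid.spl (p := [O g, (pv g).prod, M2 g, Mid g]) (Valid.spl (p := [O g]) hx)).fzB _ _

end Vale.Agent.P338
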