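import Vale.Agent.P338.CellDefs

/-! Linear time arithmetic on bit lists and on residues modulo `2 ^ (2 L) + 1`. -/

namespace Vale.Agent.P338

open Vale.Agent.Lib Vale.Agent.Lib.H23 Enc Finset

variable {G α : Type} [Enc α] {D : Dom G α}

theorem valL_lt (x : List Bool) : valL x < 2 ^ x.length := by
  induction x with
  | nil => simp [valL]
  | cons b l ih =>
    have := Bool.toNat_le b
    simp only [valL, List.length_cons, pow_succ]
    omega

theorem valL_append (x y : List Bool) : valL (x ++ y) = valL x + 2 ^ x.length * valL y := by
  induction x with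
  | nil => simp [valL]
  | cons b l ih =>
    simp only [List.cons_append, valL, ih, List.length_cons, pow_succ]
    ring

theorem valL_false (k : ℕ) : valL (List.replicate k false) = 0 := by
  induction k with
  | zero => rfl
  | succ k ih => simp [List.replicate_succ, valL, ih]

theorem valL_bits (n : ℕ) : valL n.bits = n := by
  induction n using Nat.binaryRec' with
  | zero => rfl
  | bit b n h ih =>
    rw [Nat.bits_append_bit n b h, valL, ih, Nat.bit_val]
    omega

theorem valL_take (k : ℕ) (x : List Bool) : valL (x.take k) = valL x % 2 ^ k := by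
  have h := valL_append (x.take k) (x.drop k)
  rw [List.take_append_drop] at h
  have h1 := valL_lt (x.take k)
  rcases le_total k x.length with hk | hk
  · rw [List.length_take, min_eq_left hk] at h h1
    rw [h, Nat.add_mul_mod_self_left, Nat.mod_eq_of_lt h1]
  · rw [List.take_of_length_le hk, Nat.mod_eq_of_lt
      ((valL_lt x).trans_le (Nat.pow_le_pow_right (by norm_num) hk))]

theorem valL_drop (k : ℕ) (x : List Bool) : valL (x.drop k) = valL x / 2 ^ k := by
  have h := valL_append (x.take k) (x.drop k)
  rw [List.take_append_drop] at h
  have h1 := valL_lt (x.take k)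
  rcases le_total k x.length with hk | hk
  · rw [List.length_take, min_eq_left hk] at h h1
    rw [h, Nat.add_mul_div_left _ _ (by positivity), Nat.div_eq_of_lt h1, zero_add]
  · rw [List.drop_of_length_le hk, Nat.div_eq_of_lt
      ((valL_lt x).trans_le (Nat.pow_le_pow_right (by norm_num) hk))]
    rfl

theorem valL_inj {x y : List Bool} (h : x.length = y.length) (h' : valL x = valL y) : x = y := by
  induction x generalizing y with
  | nil => exact (List.length_eq_zero_iff.1 h.symm).symm
  | cons a x ih =>
    cases y with
    | nil => simp at h
    | cons b y =>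
      simp only [valL] at h'
      have e : a = b ∧ valL x = valL y := by
        cases a <;> cases b <;> simp at h' ⊢ <;> omega
      rw [e.1, ih (by simpa using h) e.2]

theorem length_fit (k : ℕ) (x : List Bool) : (fit k x).length = k := by
  simp [fit]

theorem valL_fit (k : ℕ) (x : List Bool) : valL (fit k x) = valL x % 2 ^ k := by
  rw [fit, valL_take, valL_append, valL_false]
  simp

theorem valL_flatten {s n : ℕ} {f : ℕ → List Bool} (h : ∀ i < n, (f i).length = s) :
    valL ((List.range n).map f).flatten = ev s n fun i => valL (f i) := by
  have key : ((List.range n).map f).flatten.length = s * n ∧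
      valL ((List.range n).map f).flatten = ev s n fun i => valL (f i) := by
    induction n with
    | zero => simp [ev, valL]
    | succ n ih =>
      obtain ⟨h1, h2⟩ := ih fun i hi => h i (by omega)
      rw [List.range_succ, List.map_append, List.flatten_append, valL_append, List.length_append,
        h1, h2]
      simp only [List.map_cons, List.map_nil, List.flatten_cons, List.flatten_nil,
        List.append_nil, h n (by omega), ev, sum_range_succ]
      exact ⟨by ring, by ring⟩
  exact key.2

theorem val_eq (x : List Bool) : val x = valL x.reverse := by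
  induction x using List.reverseRecOn with
  | nil => rfl
  | append_singleton l b ih =>
    unfold val at ih ⊢
    rw [List.foldl_append, ih, List.reverse_append]
    simp only [List.foldl_cons, List.foldl_nil, List.reverse_cons, List.reverse_nil,
      List.nil_append, List.singleton_append, valL]
    ring

theorem reverse_eq_bin (l : List Bool) : l.reverse = bin l.length (valL l) := by
  unfold bin
  congr 1
  induction l with
  | nil => rfl
  | cons b l ih =>
    rw [List.length_cons, List.range_succ_eq_map, List.map_cons, List.map_map]
    have e : valL (b :: l) = Nat.bit b (valL l) := by rw [Nat.bit_val, valL]; omega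
    rw [e, Nat.testBit_bit_zero]
    congr 1
    conv_lhs => rw [ih]
    refine List.map_congr_left fun i _ => ?_
    simp [Nat.testBit_bit_succ]

theorem length_mulL (x y : List Bool) : (mulL x y).length = 2 * x.length := by
  rw [mulL, length_fit]

theorem valL_mulL {x y : List Bool} (h : x.length = y.length) :
    valL (mulL x y) = valL x * valL y := by
  rw [mulL, valL_fit, valL_bits, Nat.mod_eq_of_lt]
  rw [two_mul, pow_add]
  exact Nat.mul_lt_mul'' (valL_lt x) (h ▸ valL_lt y)

@[fun_prop] theorem PT_valL {β : Type} [Enc β] {x : β → List Bool} (h : PT x) :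
    PT fun b => valL (x b) := by
  refine (PT.valMSB (PT.reverse h)).congr fun b => ?_
  induction x b with
  | nil => rfl
  | cons a l ih =>
    unfold valMSB at ih ⊢
    rw [List.reverse_cons, List.foldl_append, ← ih, valL]
    simp only [List.foldl_cons, List.foldl_nil, Nat.bit_val]
    omega

@[fun_prop] theorem PT_mulL {β : Type} [Enc β] {x y : β → List Bool} (h : PT x) (h' : PT y) :
    PT fun b => mulL (x b) (y b) := by
  have h1 : PT fun b => ((valL (x b) * valL (y b)).bits ++
      List.replicate (unAdd (unLen (x b)) (unLen (x b))).n false).take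
        (unAdd (unLen (x b)) (unLen (x b))).n := by fun_prop
  exact h1.congr fun b => by simp [mulL, fit, unAdd, unLen, two_mul]

@[fun_prop] theorem PT_Lam {β : Type} [Enc β] {u : β → Un} (h : PT u) :
    PT fun b => Lam (u b).n := by
  have h1 : PT fun b => ((u b).n + 2) ^
      (unMin (((u b).n + 2).size - 1) (unSize ((u b).n + 2))).n := by fun_prop
  refine h1.congr fun b => ?_
  simp only [Lam, unMin, unSize]
  congr 1
  have h2 : 0 < ((u b).n + 2).size := Nat.size_pos.2 (by omega)
  rw [min_eq_left (by omega)]
  refine (Nat.log_eq_iff (Or.inr ⟨by norm_num, by omega⟩)).2 ⟨Nat.lt_size.1 (by omega), ?_⟩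
  rw [Nat.sub_add_cancel h2]
  exact Nat.lt_size_self _

theorem Lin.unL {u : G → Un} (hu : Lin D u) : Lin D fun g => List.replicate (u g).n () :=
  hu.of_enc fun _ => rfl

theorem Lin.ofL {u : G → Un} {l : G → List Unit} (hl : Lin D l)
    (h : ∀ g, (u g).n = (l g).length) : Lin D u :=
  hl.of_enc fun g => by
    show enc (List.replicate (u g).n ()) = _
    rw [h, ← List.eq_replicate_of_mem (l := l g) (a := ()) fun _ _ => rfl]

theorem Lin.repU {u : G → Un} (hu : Lin D u) (b : Bool) :
    Lin D fun g => List.replicate (u g).n b :=
  (Lin.map (F := fun _ : Unit => b) (by fun_prop) hu.unL).congr fun g => by simp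

@[fun_prop] theorem Lin.fit {u : G → Un} {x : G → List Bool} (hu : Lin D u) (hx : Lin D x) :
    Lin D fun g => fit (u g).n (x g) := by
  exact ((hx.append (hu.repU false)).takeU hu.unL).congr fun g => by simp [P338.fit]

@[fun_prop] theorem Lin.unAdd {u v : G → Un} (hu : Lin D u) (hv : Lin D v) :
    Lin D fun g => unAdd (u g) (v g) := by
  exact (hu.unL.append hv.unL).ofL fun g => by simp [P338.unAdd]

@[fun_prop] theorem Lin.unLen {β : Type} [Enc β] {l : G → List β} (hl : Lin D l) :
    Lin D fun g => unLen (l g) := by
  exact (Lin.map (F := fun _ : β => ()) (by fun_prop) hl).ofL fun g => by simp [P338.unLen]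

@[fun_prop] theorem Lin.mks {u : G → Un} (hu : Lin D u) : Lin D fun g => mks (u g).n := by
  exact ((hu.repU false).tail.append (Lin.const [true])).congr fun g => by
    simp [P338.mks, List.tail_replicate]

@[fun_prop] theorem Lin.replicateU {u : G → Un} (hu : Lin D u) (b : Bool) :
    Lin D fun g => List.replicate (u g).n b := by
  exact hu.repU b

/-- one step of the addition with carry -/
def addSt (c : Bool) (p : Bool × Bool) : List Bool × Bool :=
  ([xor p.1 (xor p.2 c)], (p.1 && p.2) || (c && (p.1 || p.2)))

theorem addSt_spec (x : List Bool) : ∀ (y : List Bool) (c : Bool), x.length = y.length →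
    (scan addSt (fun c => [c]) c (x.zip y)).length = x.length + 1 ∧
      valL (scan addSt (fun c => [c]) c (x.zip y)) = valL x + valL y + c.toNat := by
  induction x with
  | nil =>
    intro y c h
    obtain rfl := List.length_eq_zero_iff.1 h.symm
    simp [scan, valL]
  | cons a x ih =>
    intro y c h
    cases y with
    | nil => simp at h
    | cons b y =>
      obtain ⟨h1, h2⟩ := ih y (addSt c (a, b)).2 (by simpa using h)
      rw [List.zip_cons_cons, scan]
      refine ⟨by simp [addSt] at h1 ⊢; exact h1, ?_⟩
      have e : (addSt c (a, b)).1 = [xor a (xor b c)] := rfl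
      rw [e, List.singleton_append, valL, h2, valL, valL]
      cases a <;> cases b <;> cases c <;> simp [addSt] <;> omega

/-- pad `x` to the length of `y` -/
def padTo (x y : List Bool) : List Bool := x ++ (y.drop x.length).map fun _ => false

theorem length_padTo (x y : List Bool) : (padTo x y).length = max x.length y.length := by
  simp [padTo]; omega

theorem valL_padTo (x y : List Bool) : valL (padTo x y) = valL x := by
  rw [padTo, List.map_const', valL_append, valL_false]
  simp

theorem Lin.padTo {x y : G → List Bool} (hx : Lin D x) (hy : Lin D y) :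
    Lin D fun g => padTo (x g) (y g) :=
  hx.append (Lin.map (F := fun _ : Bool => false) (by fun_prop) (hy.dropU hx))

theorem exists_addB : ∃ addB : List Bool → List Bool → List Bool,
    Lin (D0 _) (fun p : List Bool × List Bool => addB p.1 p.2) ∧
    ∀ x y, (addB x y).length = max x.length y.length + 1 ∧ valL (addB x y) = valL x + valL y := by
  refine ⟨fun x y => scan addSt (fun c => [c]) false ((padTo x y).zip (padTo y x)), ?_,
    fun x y => ?_⟩
  · refine Lin.fsm (by unfold addSt; fun_prop) (by fun_prop) 3 sz_bool false ?_
    exact (Lin.padTo Lin.id.fst Lin.id.snd).zip (Lin.padTo Lin.id.snd Lin.id.fst)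
  · obtain ⟨h1, h2⟩ := addSt_spec (padTo x y) (padTo y x) false
      (by rw [length_padTo, length_padTo, max_comm])
    rw [length_padTo] at h1
    rw [valL_padTo, valL_padTo] at h2
    exact ⟨h1, h2⟩

theorem length_flatten_map {s n : ℕ} {f : ℕ → List Bool} (h : ∀ i < n, (f i).length = s) :
    ((List.range n).map f).flatten.length = s * n := by
  induction n with
  | zero => simp
  | succ n ih =>
    rw [List.range_succ, List.map_append, List.flatten_append, List.length_append,
      ih fun i hi => h i (by omega)]
    simp only [List.map_cons, List.map_nil, List.flatten_cons, List.flatten_nil,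
      List.append_nil, h n (by omega)]
    ring

/-- evaluation of overlapping blocks at `2 ^ s` -/
theorem exists_evB : ∃ evB : Un → List (List Bool) → List Bool,
    (∀ {G α : Type} [Enc α] {D : Dom G α} {s : G → Un} {l : G → List (List Bool)}, Lin D s →
      Lin D l → Bd (fun g => (l g).length * ((s g).n + 1)) D.B → Lin D fun g => evB (s g) (l g)) ∧
    ∀ (s n : ℕ) (f : ℕ → List Bool), (∀ i < n, (f i).length ≤ 3 * s) →
      (evB ⟨s⟩ ((List.range n).map f)).length = s * (n + 2) + 2 ∧
        valL (evB ⟨s⟩ ((List.range n).map f)) = ev s n fun i => valL (f i) := by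
  obtain ⟨addB, hl, hs⟩ := exists_addB
  refine ⟨fun s l => addB (l.map (fit s.n)).flatten
    (addB (List.replicate s.n false ++ (l.map fun x => fit s.n (x.drop s.n)).flatten)
      (List.replicate s.n false ++ (List.replicate s.n false ++
        (l.map fun x => fit s.n ((x.drop s.n).drop s.n)).flatten))), ?_, fun s n f hf => ?_⟩
  · intro G α _ D s l h1 h2 h3
    have h4 : Bd (fun g => (l g).length * sz (s g)) D.B :=
      (h3.cmul 2).le fun g => by rw [sz_un]; nlinarith
    have d1 : Lin (D0 _) fun p : Un × List Bool => p.2.drop p.1.n :=
      (Lin.id.snd.dropU Lin.id.fst.unL).congr fun p => by simp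
    have d2 : Lin (D0 _) fun p : Un × List Bool => (p.2.drop p.1.n).drop p.1.n :=
      (d1.dropU Lin.id.fst.unL).congr fun p => by simp
    have a1 := (Lin.mapP (F := fun (s : Un) (x : List Bool) => fit s.n x)
      (Lin.fit Lin.id.fst Lin.id.snd) h1 h2 h4).flatten
    have a2 := (Lin.mapP (F := fun (s : Un) (x : List Bool) => fit s.n (x.drop s.n))
      (Lin.fit Lin.id.fst d1) h1 h2 h4).flatten
    have a3 := (Lin.mapP (F := fun (s : Un) (x : List Bool) => fit s.n ((x.drop s.n).drop s.n))
      (Lin.fit Lin.id.fst d2) h1 h2 h4).flatten
    have z := h1.repU false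
    exact hl.comp (a1.pair (hl.comp ((z.append a2).pair (z.append (z.append a3)))))
  · simp only [List.map_map, Function.comp_def]
    have l1 := length_flatten_map (s := s) (n := n) (f := fun i => fit s (f i))
      fun i _ => length_fit _ _
    have l2 := length_flatten_map (s := s) (n := n) (f := fun i => fit s ((f i).drop s))
      fun i _ => length_fit _ _
    have l3 := length_flatten_map (s := s) (n := n) (f := fun i => fit s (((f i).drop s).drop s))
      fun i _ => length_fit _ _
    have v1 := valL_flatten (s := s) (n := n) (f := fun i => fit s (f i))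
      fun i _ => length_fit _ _
    have v2 := valL_flatten (s := s) (n := n) (f := fun i => fit s ((f i).drop s))
      fun i _ => length_fit _ _
    have v3 := valL_flatten (s := s) (n := n) (f := fun i => fit s (((f i).drop s).drop s))
      fun i _ => length_fit _ _
    constructor
    · rw [(hs _ _).1, (hs _ _).1]
      simp only [List.length_append, List.length_replicate, l1, l2, l3, mul_add]
      omega
    · rw [(hs _ _).2, (hs _ _).2]
      simp only [valL_append, valL_false, List.length_replicate, v1, v2, v3, zero_add, ev,
        mul_sum, ← sum_add_distrib]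
      refine sum_congr rfl fun i hi => ?_
      have b1 : valL (f i) < 2 ^ s * 2 ^ s * 2 ^ s := by
        refine (valL_lt _).trans_le ?_
        rw [← pow_add, ← pow_add]
        exact Nat.pow_le_pow_right (by norm_num) (by have := hf i (mem_range.1 hi); omega)
      have b2 : valL (f i) / 2 ^ s / 2 ^ s < 2 ^ s := by
        rw [Nat.div_div_eq_div_mul]
        exact Nat.div_lt_of_lt_mul b1
      simp only [valL_fit, valL_drop, Nat.mod_eq_of_lt b2]
      have e1 := Nat.mod_add_div (valL (f i)) (2 ^ s)
      have e2 := Nat.mod_add_div (valL (f i) / 2 ^ s) (2 ^ s)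
      generalize valL (f i) / 2 ^ s / 2 ^ s = c at *
      generalize valL (f i) / 2 ^ s % 2 ^ s = b at *
      generalize valL (f i) % 2 ^ s = a at *
      rw [← e1, ← e2]
      ring

end Vale.Agent.P338
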