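import Vale.Agent.P338.CellA

/-! Linear time arithmetic on bit lists and on residues modulo `2 ^ (2 L) + 1`. -/

namespace Vale.Agent.P338

open Vale.Agent.Lib Vale.Agent.Lib.H23 Enc Finset

variable {G α : Type} [Enc α] {D : Dom G α}

theorem cb_take {β : Type} [Enc β] {u : G → Un} {l : G → List β} (hu : Lin D u) (hl : Lin D l) :
    Lin D fun g => (l g).take (u g).n :=
  (hl.takeU (hu.replicateU false)).congr fun g => by rw [List.length_replicate]

theorem cb_drop {β : Type} [Enc β] {u : G → Un} {l : G → List β} (hu : Lin D u) (hl : Lin D l) :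
    Lin D fun g => (l g).drop (u g).n :=
  (hl.dropU (hu.replicateU false)).congr fun g => by rw [List.length_replicate]

theorem cb_not {l : G → List Bool} (hl : Lin D l) : Lin D fun g => (l g).map fun b => !b :=
  Lin.map (Lin.not Lin.id) hl

theorem cb_val_not (x : List Bool) : valL (x.map fun b => !b) + valL x + 1 = 2 ^ x.length := by
  induction x with
  | nil => rfl
  | cons b x ih =>
    simp only [List.map_cons, valL, List.length_cons, pow_succ]
    cases b <;> simp <;> omega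

theorem cb_val_shift (k : ℕ) (x : List Bool) :
    valL (List.replicate k false ++ x) = 2 ^ k * valL x := by
  rw [valL_append, valL_false, List.length_replicate, zero_add]

theorem cb_val_mks (k : ℕ) : valL (mks k) = 2 ^ (k - 1) := by
  rw [mks, cb_val_shift]
  simp [valL]

theorem cb_pow (L : ℕ) : (2 : ZMod (mm L)) ^ (2 * L) = -1 := by
  have h := two_pow_sq L
  push_cast at h
  rw [two_mul, pow_add, h]

theorem exists_cred : ∃ cred : Un → List Bool → List Bool,
    Lin (D0 _) (fun p : Un × List Bool => cred p.1 p.2) ∧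
    ∀ L x, x.length ≤ 6 * L → (cred ⟨L⟩ x).length = 2 * L + 2 ∧ cv L (cred ⟨L⟩ x) = cv L x := by
  obtain ⟨addB, hlin, hadd⟩ := exists_addB
  have hl : ∀ {G α : Type} [Enc α] {D : Dom G α} {x y : G → List Bool}, Lin D x → Lin D y →
      Lin D fun g => addB (x g) (y g) := fun hx hy => hlin.comp (hx.pair hy)
  refine ⟨fun u x => fit (unAdd (unAdd u u) ⟨2⟩).n
    (addB (addB (x.take (unAdd u u).n) ((x.drop (unAdd u u).n).drop (unAdd u u).n))
      (addB ((fit (unAdd u u).n (x.drop (unAdd u u).n)).map fun b => !b) [false, true])), ?_, ?_⟩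
  · have hu : Lin (D0 (Un × List Bool)) fun p => unAdd p.1 p.1 :=
      Lin.unAdd Lin.id.fst Lin.id.fst
    have hx : Lin (D0 (Un × List Bool)) fun p => p.2 := Lin.id.snd
    exact Lin.fit (hu.unAdd (Lin.const _)) (hl (hl (cb_take hu hx) (cb_drop hu (cb_drop hu hx)))
      (hl (cb_not (Lin.fit hu (cb_drop hu hx))) (Lin.const _)))
  · intro L x hx
    have e1 : (unAdd ⟨L⟩ ⟨L⟩).n = 2 * L := by simp [unAdd, two_mul]
    have e2 : (unAdd (unAdd ⟨L⟩ ⟨L⟩) ⟨2⟩).n = 2 * L + 2 := by simp [unAdd, two_mul]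
    simp only [e1, e2]
    refine ⟨length_fit _ _, ?_⟩
    have h1 := cb_val_not (fit (2 * L) (x.drop (2 * L)))
    rw [length_fit, valL_fit, valL_drop] at h1
    have h2 : valL [false, true] = 2 := rfl
    have hX : valL x < 2 ^ (2 * L) * (2 ^ (2 * L) * 2 ^ (2 * L)) := by
      refine (valL_lt x).trans_le ?_
      rw [← pow_add, ← pow_add]
      exact Nat.pow_le_pow_right (by norm_num) (by omega)
    have hpos : 0 < 2 ^ (2 * L) := by positivity
    have h3 : valL x / 2 ^ (2 * L) / 2 ^ (2 * L) < 2 ^ (2 * L) :=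
      Nat.div_lt_of_lt_mul (Nat.div_lt_of_lt_mul hX)
    have h4 := Nat.mod_lt (valL x) hpos
    have h5 := Nat.mod_add_div (valL x) (2 ^ (2 * L))
    have h6 := Nat.mod_add_div (valL x / 2 ^ (2 * L)) (2 ^ (2 * L))
    unfold cv
    rw [valL_fit, (hadd _ _).2, (hadd _ _).2, (hadd _ _).2, valL_take, valL_drop, valL_drop, h2,
      Nat.mod_eq_of_lt (by rw [pow_add]; omega)]
    have k1 := congrArg (Nat.cast : ℕ → ZMod (mm L)) h1
    have k5 := congrArg (Nat.cast : ℕ → ZMod (mm L)) h5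
    have k6 := congrArg (Nat.cast : ℕ → ZMod (mm L)) h6
    have k := cb_pow L
    generalize valL x % 2 ^ (2 * L) = v0 at *
    generalize valL x / 2 ^ (2 * L) % 2 ^ (2 * L) = v1 at *
    generalize valL x / 2 ^ (2 * L) / 2 ^ (2 * L) = v2 at *
    generalize valL x / 2 ^ (2 * L) = w at *
    push_cast at k1 k5 k6 ⊢
    rw [k] at k1 k5 k6
    linear_combination k1 + k5 - k6

theorem exists_cadd : ∃ cadd : Un → List Bool → List Bool → List Bool,
    Lin (D0 _) (fun p : Un × List Bool × List Bool => cadd p.1 p.2.1 p.2.2) ∧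
    ∀ L x y, 1 ≤ L → x.length = 2 * L + 2 → y.length = 2 * L + 2 →
      (cadd ⟨L⟩ x y).length = 2 * L + 2 ∧ cv L (cadd ⟨L⟩ x y) = cv L x + cv L y := by
  obtain ⟨addB, hlin, hadd⟩ := exists_addB
  obtain ⟨cred, hlin', hred⟩ := exists_cred
  refine ⟨fun u x y => cred u (addB x y),
    hlin'.comp (Lin.id.fst.pair (hlin.comp (Lin.id (α := Un × List Bool × List Bool)).snd)), ?_⟩
  intro L x y hL hx hy
  obtain ⟨h1, h2⟩ := hred L (addB x y) (by rw [(hadd _ _).1, hx, hy]; omega)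
  refine ⟨h1, ?_⟩
  rw [h2]
  unfold cv
  rw [(hadd _ _).2, Nat.cast_add]

/-- multiplication of cells by the residues `c L` is linear time -/
def CMul (c : (L : ℕ) → ZMod (mm L)) : Prop := ∃ F : Un → List Bool → List Bool,
    Lin (D0 _) (fun p : Un × List Bool => F p.1 p.2) ∧
    ∀ L x, 1 ≤ L → x.length = 2 * L + 2 →
      (F ⟨L⟩ x).length = 2 * L + 2 ∧ cv L (F ⟨L⟩ x) = c L * cv L x

theorem CMul.congr {c d : (L : ℕ) → ZMod (mm L)} (h : CMul c) (e : ∀ L, 1 ≤ L → d L = c L) :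
    CMul d := by
  obtain ⟨F, h1, h2⟩ := h
  exact ⟨F, h1, fun L x hL hx => by rw [e L hL]; exact h2 L x hL hx⟩

theorem CMul.one : CMul fun _ => 1 :=
  ⟨fun _ x => x, Lin.id.snd, fun _ _ _ hx => ⟨hx, (one_mul _).symm⟩⟩

theorem CMul.add {c d : (L : ℕ) → ZMod (mm L)} (h : CMul c) (k : CMul d) :
    CMul fun L => c L + d L := by
  obtain ⟨F, h1, h2⟩ := h
  obtain ⟨F', k1, k2⟩ := k
  obtain ⟨cadd, a1, a2⟩ := exists_cadd
  refine ⟨fun u x => cadd u (F u x) (F' u x), a1.comp (Lin.id.fst.pair (h1.pair k1)),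
    fun L x hL hx => ?_⟩
  obtain ⟨b1, b2⟩ := h2 L x hL hx
  obtain ⟨b3, b4⟩ := k2 L x hL hx
  obtain ⟨b5, b6⟩ := a2 L _ _ hL b1 b3
  exact ⟨b5, by rw [b6, b2, b4, add_mul]⟩

theorem CMul.mul {c d : (L : ℕ) → ZMod (mm L)} (h : CMul c) (k : CMul d) :
    CMul fun L => c L * d L := by
  obtain ⟨F, h1, h2⟩ := h
  obtain ⟨F', k1, k2⟩ := k
  refine ⟨fun u x => F u (F' u x), h1.comp (Lin.id.fst.pair k1), fun L x hL hx => ?_⟩
  obtain ⟨b3, b4⟩ := k2 L x hL hx
  obtain ⟨b1, b2⟩ := h2 L _ hL b3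
  exact ⟨b1, by rw [b2, b4, mul_assoc]⟩

theorem CMul.neg_one : CMul fun _ => -1 := by
  obtain ⟨addB, hlin, hadd⟩ := exists_addB
  obtain ⟨cred, hlin', hred⟩ := exists_cred
  refine ⟨fun u x => cred u (addB (x.map fun b => !b) [true, false, true]),
    hlin'.comp (Lin.id.fst.pair (hlin.comp ((cb_not Lin.id.snd).pair (Lin.const _)))),
    fun L x hL hx => ?_⟩
  obtain ⟨h1, h2⟩ := hred L (addB (x.map fun b => !b) [true, false, true]) (by
    rw [(hadd _ _).1, List.length_map, hx]; simp only [List.length_cons, List.length_nil]; omega)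
  refine ⟨h1, ?_⟩
  rw [h2]
  unfold cv
  have h3 : valL [true, false, true] = 5 := rfl
  have h4 := congrArg (Nat.cast : ℕ → ZMod (mm L)) (cb_val_not x)
  rw [hx] at h4
  rw [(hadd _ _).2, h3]
  push_cast at h4 ⊢
  rw [pow_add, cb_pow] at h4
  linear_combination h4

theorem CMul.neg {c : (L : ℕ) → ZMod (mm L)} (h : CMul c) : CMul fun L => - c L :=
  (CMul.neg_one.mul h).congr fun L _ => by ring

/-- multiplication by a power of two is a shift -/
theorem CMul.shift (z : Un → List Bool) (hz : Lin (D0 Un) z) (k : ℕ → ℕ)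
    (h : ∀ L, 1 ≤ L → z ⟨L⟩ = List.replicate (k L) false ∧ k L + 2 ≤ 4 * L) :
    CMul fun L => 2 ^ k L := by
  obtain ⟨cred, hlin', hred⟩ := exists_cred
  refine ⟨fun u x => cred u (z u ++ x),
    hlin'.comp (Lin.id.fst.pair ((hz.comp Lin.id.fst).append Lin.id.snd)), fun L x hL hx => ?_⟩
  obtain ⟨e1, e2⟩ := h L hL
  obtain ⟨h1, h2⟩ := hred L (z ⟨L⟩ ++ x) (by
    rw [e1, List.length_append, List.length_replicate, hx]; omega)
  refine ⟨h1, ?_⟩
  rw [h2, e1]
  unfold cv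
  rw [cb_val_shift]
  push_cast
  rfl

theorem CMul.powL : CMul fun L => 2 ^ L :=
  CMul.shift (fun u => List.replicate u.n false) (Lin.id.replicateU false) (fun L => L)
    fun L hL => ⟨rfl, by omega⟩

theorem CMul.hf : CMul hf := by
  refine (CMul.shift (fun u => (List.replicate (unAdd u u).n false).tail)
    ((Lin.id.unAdd Lin.id).replicateU false).tail (fun L => 2 * L - 1)
    fun L hL => ⟨?_, by omega⟩).neg.congr fun L _ => rfl
  simp [unAdd, two_mul]

theorem CMul.int (z : ℤ) : CMul fun L => (z : ZMod (mm L)) := by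
  induction z using Int.induction_on with
  | zero => exact (CMul.one.add CMul.neg_one).congr fun L _ => by simp
  | succ n ih => exact (ih.add CMul.one).congr fun L _ => by push_cast; rfl
  | pred n ih => exact (ih.add CMul.neg_one).congr fun L _ => by push_cast; ring

theorem CMul.pow {c : (L : ℕ) → ZMod (mm L)} (h : CMul c) (n : ℕ) : CMul fun L => c L ^ n := by
  induction n with
  | zero => exact CMul.one.congr fun L _ => by simp
  | succ n ih => exact (ih.mul h).congr fun L _ => by rw [pow_succ]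

/-- multiplication of a cell by the image of any fixed element of `ℤ[1/2]` -/
theorem exists_csmul (c : Localization.Away (2 : ℤ)) : ∃ F : Un → List Bool → List Bool,
    Lin (D0 _) (fun p : Un × List Bool => F p.1 p.2) ∧
    ∀ L x (φ : Localization.Away (2 : ℤ) →+* ZMod (mm L)), 1 ≤ L → x.length = 2 * L + 2 →
      (F ⟨L⟩ x).length = 2 * L + 2 ∧ cv L (F ⟨L⟩ x) = φ c * cv L x := by
  obtain ⟨n, a, h⟩ := IsLocalization.Away.surj (2 : ℤ) c
  obtain ⟨F, h1, h2⟩ := (CMul.int a).mul (CMul.hf.pow n)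
  refine ⟨F, h1, fun L x φ hL hx => ?_⟩
  have e : φ c = (a : ZMod (mm L)) * hf L ^ n := by
    have e1 := congrArg φ h
    rw [map_mul, map_pow, eq_intCast, eq_intCast, map_intCast, map_intCast] at e1
    rw [← e1, mul_assoc, ← mul_pow]
    push_cast
    rw [two_mul_hf hL, one_pow, mul_one]
  rw [e]
  exact h2 L x hL hx

theorem exists_phi {L : ℕ} (hL : 1 ≤ L) :
    Nonempty (Localization.Away (2 : ℤ) →+* ZMod (mm L)) := by
  have h : IsUnit (Int.castRingHom (ZMod (mm L)) 2) := by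
    rw [map_ofNat]
    exact IsUnit.of_mul_eq_one _ (two_mul_hf hL)
  exact ⟨IsLocalization.Away.lift (2 : ℤ) h⟩

/-- the two point layer on a pair of cells -/
theorem exists_clay : ∃ F : Un → List Bool → List Bool → List Bool,
    Lin (D0 _) (fun p : Un × List Bool × List Bool => F p.1 p.2.1 p.2.2) ∧
    ∀ L x y, 1 ≤ L → x.length = 2 * L + 2 → y.length = 2 * L + 2 →
      (F ⟨L⟩ x y).length = 2 * L + 2 ∧
        cv L (F ⟨L⟩ x y) = hf L * (1 + 2 ^ L) * cv L x + hf L * (1 - 2 ^ L) * cv L y := by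
  obtain ⟨F, h1, h2⟩ := CMul.hf.mul (CMul.one.add CMul.powL)
  obtain ⟨F', k1, k2⟩ := CMul.hf.mul (CMul.one.add CMul.powL.neg)
  obtain ⟨cadd, a1, a2⟩ := exists_cadd
  refine ⟨fun u x y => cadd u (F u x) (F' u y), a1.comp (Lin.id.fst.pair
    ((h1.comp (Lin.id.fst.pair Lin.id.snd.fst)).pair (k1.comp (Lin.id.fst.pair Lin.id.snd.snd)))),
    fun L x y hL hx hy => ?_⟩
  obtain ⟨b1, b2⟩ := h2 L x hL hx
  obtain ⟨b3, b4⟩ := k2 L y hL hy
  obtain ⟨b5, b6⟩ := a2 L _ _ hL b1 b3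
  exact ⟨b5, by rw [b6, b2, b4, sub_eq_add_neg]⟩

/-- the cell holding `2 ^ r (a + b i)` -/
theorem exists_ctw : ∃ F : Un × Un × ℤ × ℤ → List Bool, PT F ∧
    ∀ (L r : ℕ) (a b : ℤ), (F (⟨L⟩, ⟨r⟩, a, b)).length = 2 * L + 2 ∧
      cv L (F (⟨L⟩, ⟨r⟩, a, b)) = 2 ^ r * ((a : ZMod (mm L)) + b * 2 ^ L) := by
  refine ⟨fun p => fit (unAdd (unAdd p.1 p.1) ⟨2⟩).n
    ((((2 ^ p.2.1.n : ℕ) : ℤ) * (p.2.2.1 + p.2.2.2 * ((2 ^ p.1.n : ℕ) : ℤ)) %
      ((2 ^ (unAdd p.1 p.1).n + 1 : ℕ) : ℤ)).toNat.bits), ?_, fun L r a b => ?_⟩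
  · unfold fit
    fun_prop
  · have e1 : (unAdd ⟨L⟩ ⟨L⟩).n = 2 * L := by simp [unAdd, two_mul]
    have e2 : (unAdd (unAdd ⟨L⟩ ⟨L⟩) ⟨2⟩).n = 2 * L + 2 := by simp [unAdd, two_mul]
    simp only [e1, e2]
    refine ⟨length_fit _ _, ?_⟩
    have hm : (0 : ℤ) < ((mm L : ℕ) : ℤ) := by unfold mm; positivity
    have e3 : 2 ^ (2 * L) + 1 = mm L := rfl
    rw [e3]
    generalize hw : ((2 ^ r : ℕ) : ℤ) * (a + b * ((2 ^ L : ℕ) : ℤ)) = w
    have h1 := Int.emod_nonneg w hm.ne'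
    have h2 := Int.emod_lt_of_pos w hm
    have h3 : (w % (mm L : ℕ)).toNat < 2 ^ (2 * L + 2) := by
      have h4 : mm L ≤ 2 ^ (2 * L + 2) := by
        have : 0 < 2 ^ (2 * L) := by positivity
        unfold mm
        rw [pow_add]
        omega
      omega
    unfold cv
    rw [valL_fit, valL_bits, Nat.mod_eq_of_lt h3, ← Int.cast_natCast, Int.toNat_of_nonneg h1,
      ZMod.intCast_mod, ← hw]
    push_cast
    rfl

/-- add the rounding offset and keep the bits from `E` to `L` -/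
theorem exists_cdec : ∃ F : Un × Un → List Bool → List Bool,
    Lin (D0 _) (fun p : (Un × Un) × List Bool => F p.1 p.2) ∧
    ∀ L E x, 1 ≤ E → E ≤ L → x.length = 2 * L + 2 → (F (⟨L⟩, ⟨E⟩) x).length = L - E ∧
      ∃ a : ℕ, a < 2 ^ (2 * L + 2) ∧ (a : ZMod (mm L)) = cv L x + (2 ^ (E - 1) + 2 ^ (2 * L - 1)) ∧
        valL (F (⟨L⟩, ⟨E⟩) x) = a % 2 ^ L / 2 ^ E := by
  obtain ⟨addB, hlin, hadd⟩ := exists_addB
  obtain ⟨cred, hlin', hred⟩ := exists_cred
  have hl : ∀ {G α : Type} [Enc α] {D : Dom G α} {x y : G → List Bool}, Lin D x → Lin D y →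
      Lin D fun g => addB (x g) (y g) := fun hx hy => hlin.comp (hx.pair hy)
  refine ⟨fun q x => ((cred q.1 (addB (addB x (mks q.2.n)) (mks (unAdd q.1 q.1).n))).take
    q.1.n).drop q.2.n, ?_, fun L E x hE hEL hx => ?_⟩
  · have h1 : Lin (D0 ((Un × Un) × List Bool)) fun p => p.1.1 := Lin.id.fst.fst
    have h2 : Lin (D0 ((Un × Un) × List Bool)) fun p => p.1.2 := Lin.id.fst.snd
    exact cb_drop h2 (cb_take h1 (hlin'.comp (h1.pair
      (hl (hl Lin.id.snd h2.mks) (h1.unAdd h1).mks))))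
  · have e1 : (unAdd ⟨L⟩ ⟨L⟩).n = 2 * L := by simp [unAdd, two_mul]
    simp only [e1]
    obtain ⟨h1, h2⟩ := hred L (addB (addB x (mks E)) (mks (2 * L))) (by
      rw [(hadd _ _).1, (hadd _ _).1, hx, length_mks (by omega), length_mks (by omega)]; omega)
    refine ⟨by rw [List.length_drop, List.length_take, h1]; omega, valL (cred ⟨L⟩ _),
      h1 ▸ valL_lt _, ?_, by rw [valL_drop, valL_take]⟩
    refine h2.trans ?_
    unfold cv
    rw [(hadd _ _).2, (hadd _ _).2, cb_val_mks, cb_val_mks]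
    push_cast
    ring

end Vale.Agent.P338
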