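import Vale.Agent.P338.ArrDefs
import Vale.Agent.P338.Global

namespace Vale.Agent.P338

open Vale.Agent.Lib Vale.Agent.Lib.H23 Enc

/-- value of a list of bits, least significant bit first -/
def valL : List Bool → ℕ
  | [] => 0
  | b :: l => b.toNat + 2 * valL l

/-- the residue stored in a cell -/
def cv (L : ℕ) (x : List Bool) : ZMod (mm L) := (valL x : ZMod (mm L))

/-- pad or cut to length `k` -/
def fit (k : ℕ) (x : List Bool) : List Bool := (x ++ List.replicate k false).take k

/-- the product, least significant bit first, of length `2 * x.length` -/
def mulL (x y : List Bool) : List Bool := fit (2 * x.length) (valL x * valL y).bits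

/-- `call` multiplies numbers of `n` bits within `τ` steps -/
def MulOK (env : Prg) (n τ : ℕ) : Prop :=
  ∀ x y : List Bool, x.length = n → y.length = n →
    Rns env Prg.call (enc (x, y)) (enc (mulL x y)) τ

end Vale.Agent.P338
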