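import Vale.Agent.P338.Av

/-! From numbers to arrays and back, and the pointwise products. -/

namespace Vale.Agent.P338

open Vale.Agent.Lib Vale.Agent.Lib.H23 Enc Function

variable {G α : Type} [Enc α] {D : Dom G α} {m : G → Pm} {f f' : G → (ℕ → ℕ) → List Bool}

theorem cd_ev_congr {s n : ℕ} {u v : ℕ → ℕ} (h : ∀ i < n, u i = v i) : ev s n u = ev s n v :=
  Finset.sum_congr rfl fun i hi => by rw [h i (Finset.mem_range.1 hi)]

theorem cd_ev_digits (s n X : ℕ) :
    (ev s n fun c => X / 2 ^ (s * c) % 2 ^ s) = X % 2 ^ (s * n) := by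
  induction n with
  | zero => simp [ev, Nat.mod_one]
  | succ n ih =>
    unfold ev at ih ⊢
    rw [Finset.sum_range_succ, ih, Nat.mul_succ, pow_add, Nat.mod_mul, mul_comm (2 ^ (s * n))]

theorem cd_ev_mul (s A P : ℕ) (u : ℕ → ℕ) :
    ev s (A * P) u = ev (s * P) A fun k => ev s P fun n => u (k * P + n) := by
  induction A with
  | zero => simp [ev]
  | succ A ih =>
    unfold ev at ih ⊢
    rw [Nat.succ_mul, Finset.sum_range_add, ih, Finset.sum_range_succ, Finset.sum_mul]
    congr 1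
    exact Finset.sum_congr rfl fun i _ => by ring

theorem cd_arr3 {β : Type} (A B C : ℕ) (F : ℕ → β) :
    (List.range (A * (B * C))).map F =
      arr [A, B, C] fun xs => F (xs 0 * (B * C) + (xs 1 * C + xs 2)) := by
  rw [range_mul_map, aL_arr_cons]
  refine List.flatMap_congr fun x _ => ?_
  rw [range_mul_map, aL_arr_cons]
  refine List.flatMap_congr fun y _ => ?_
  rw [arr_single]
  rfl

theorem cd_val_zero (x : List Bool) : valL (x.map fun _ => false) = 0 := by
  rw [List.map_const', valL_false]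

/-- enlarge the digit `i` by cells of zeros -/
theorem cd_pad {ds : G → List ℕ} (h : Ar D ds f) (i : ℕ) (hi : ∀ g, i < (ds g).length)
    {M w : G → ℕ} (hM : LS D M) (h0 : ∀ g, 0 < M g) (hc : ∀ g, M g ≤ 2 * (ds g).getD i 1)
    {a : G → (ℕ → ℕ) → ℕ} (ha : ∀ g xs, (ds g).getD i 1 ≤ xs i → a g xs = 0)
    (hf : ∀ g xs, Valid (ds g) xs → (f g xs).length = w g ∧ valL (f g xs) = a g xs) :
    ∃ f', Ar D (fun g => (ds g).set i (M g)) f' ∧ ∀ g xs, Valid ((ds g).set i (M g)) xs →
      (f' g xs).length = w g ∧ valL (f' g xs) = a g xs := by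
  have e : ∀ g v, ((ds g).set i v).getD i 1 = v := fun g v => by
    rw [List.getD_eq_getElem _ _ (by simpa using hi g), List.getElem_set_self]
  have h1 := (h.padz i hi).resize i 1 (fun g => by simpa using hi g) hM h0
    (fun g => by rw [e, one_mul]; exact hc g)
  refine ⟨_, h1.congr (fun g => by rw [List.set_set]) fun _ _ _ => rfl, fun g xs hx => ?_⟩
  have h2 : xs i < M g := by
    have := hx i
    rwa [e] at this
  have h3 := hc g
  rw [e, Nat.mod_eq_of_lt (by omega), update_eq_self]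
  split_ifs with h4
  · have := hx.set h4
    rw [update_eq_self] at this
    exact hf g xs this
  · rw [List.length_map, cd_val_zero, ha g xs (by omega)]
    exact ⟨(hf g _ (hx.set (by omega))).1, rfl⟩

theorem exists_encode (hA : Av D m) {x : G → List Bool} (hx : Lin D x)
    (hl : ∀ g, (x g).length = (m g).n)
    (hB : Bd (fun g => (m g).N * (2 * (m g).L + 3)) D.B) :
    ∃ (f : G → (ℕ → ℕ) → List Bool) (a : G → ℕ → ℕ → ℕ → ℕ), Ar D (fun g => (m g).sq) f ∧ ∀ g,
      (∀ xs, Valid (m g).sq xs → (f g xs).length = 2 * (m g).L + 2 ∧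
        valL (f g xs) = a g (xs 0) (xs 1) (xs 2)) ∧
      (∀ k l c, (m g).β ≤ k ∨ (m g).β ≤ l ∨ (m g).T' ≤ c → a g k l c = 0) ∧
      (∀ k l c, a g k l c ≤ 2 ^ (m g).b0) ∧
      valL (x g) = ev ((m g).b0 * (m g).T' * (m g).β) (m g).β fun k =>
        ev ((m g).b0 * (m g).T') (m g).β fun l => ev (m g).b0 (m g).T' fun c => a g k l c := by
  have hb0 : ∀ g, 0 < (m g).b0 := fun g => Lam_pos _
  have hβ : ∀ g, (m g).β ≤ (m g).B ∧ 0 < (m g).β ∧ 0 < (m g).T' := fun g => by
    have h1 := (hA.ok g).β_eq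
    have h2 := (hA.ok g).hβ
    have h3 := (hA.ok g).hT'
    omega
  have hfat : ∀ g, (m g).b0 ≤ 2 * (m g).L + 2 := fun g => (hA.ok g).fat
  have hcnt : ∀ g, (m g).β * ((m g).β * (m g).T') ≤ (m g).N := fun g =>
    Nat.mul_le_mul (hβ g).1 (Nat.mul_le_mul (hβ g).1 (by unfold Pm.T; omega))
  have hbd : ∀ (c : ℕ) (u : G → ℕ), (∀ g, u g ≤ c * (2 * (m g).L + 3)) →
      Bd (fun g => (m g).β * ((m g).β * (m g).T') * u g) D.B := fun c u hu =>
    (hB.cmul c).le fun g => (Nat.mul_le_mul (hcnt g) (hu g)).trans (le_of_eq (by ring))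
  have h1 : LS D fun g => (m g).β * ((m g).β * (m g).T') := hA.β.mulZ (hA.β.mulZ hA.T')
  have h2 : Lin D fun g =>
      (List.replicate ((m g).β * ((m g).β * (m g).T')) (mks (m g).b0)).flatten := by
    refine (Lin.replicate h1 hA.b0.mks (hbd 1 _ fun g => ?_) (hbd 4 _ fun g => ?_)).flatten
    · have := hfat g
      rw [hA.S]
      show (m g).b0 ≤ _
      omega
    · have := kron_sz_le (mks (m g).b0)
      rw [length_mks (hb0 g)] at this
      have := hfat g
      dsimp only
      omega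
  obtain ⟨X, h3, hXv, hXl⟩ : ∃ X : G → List Bool, Lin D X ∧ (∀ g, valL (X g) = valL (x g)) ∧
      ∀ g, (m g).b0 * ((m g).β * ((m g).β * (m g).T')) ≤ (X g).length := by
    refine ⟨_, hx.append (Lin.map (Lin.const false) h2), fun g => ?_, fun g => ?_⟩
    · rw [valL_append, cd_val_zero, mul_zero, add_zero]
    · simp only [List.length_append, List.length_map, List.length_flatten, List.map_replicate,
        List.sum_replicate, length_mks (hb0 g), smul_eq_mul]
      rw [mul_comm]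
      omega
  have h4 := Lin.mapP (F := fun (u : Un) (y : List Bool) => fit u.n y)
    (Lin.fit Lin.id.fst Lin.id.snd) hA.w (h2.zip h3).grp
  have h5 : ∀ g, grp ((List.replicate ((m g).β * ((m g).β * (m g).T')) (mks (m g).b0)).flatten.zip
      (X g)) = (List.range ((m g).β * ((m g).β * (m g).T'))).map fun c =>
        ((X g).drop ((m g).b0 * c)).take (m g).b0 := fun g => kron_grp (hb0 g) _ _ (hXl g)
  let a : G → ℕ → ℕ → ℕ → ℕ := fun g k l c =>
    if k < (m g).β ∧ l < (m g).β ∧ c < (m g).T' then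
      valL (x g) / 2 ^ ((m g).b0 * (k * ((m g).β * (m g).T') + (l * (m g).T' + c))) % 2 ^ (m g).b0
    else 0
  have ha0 : ∀ g k l c, (m g).β ≤ k ∨ (m g).β ≤ l ∨ (m g).T' ≤ c → a g k l c = 0 :=
    fun g k l c h => if_neg (by omega)
  have A0 : Ar D (fun g => [(m g).β, (m g).β, (m g).T']) fun g xs => fit (2 * (m g).L + 2)
      (((X g).drop ((m g).b0 * (xs 0 * ((m g).β * (m g).T') + (xs 1 * (m g).T' + xs 2)))).take
        (m g).b0) := by
    refine ⟨hA.β.consZ (hA.β.consZ (hA.T'.consZ LS.nilZ)), fun g d hd => ?_, fun g xs _ => ?_,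
      (h4 ((hbd 2 (fun g => sz (⟨2 * (m g).L + 2⟩ : Un)) fun g => ?_).le
        fun g => le_of_eq ?_)).congr fun g => ?_⟩
    · have := hβ g
      simp only [List.mem_cons, List.not_mem_nil, or_false] at hd
      omega
    · rw [length_fit, hA.S]
      exact hfat g
    · rw [sz_un]
      dsimp only
      omega
    · rw [h5, List.length_map, List.length_range]
    · rw [h5, List.map_map, cd_arr3]
      rfl
  have S0 : ∀ g xs, Valid [(m g).β, (m g).β, (m g).T'] xs → (fit (2 * (m g).L + 2)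
      (((X g).drop ((m g).b0 * (xs 0 * ((m g).β * (m g).T') + (xs 1 * (m g).T' + xs 2)))).take
        (m g).b0)).length = 2 * (m g).L + 2 ∧ valL (fit (2 * (m g).L + 2)
      (((X g).drop ((m g).b0 * (xs 0 * ((m g).β * (m g).T') + (xs 1 * (m g).T' + xs 2)))).take
        (m g).b0)) = a g (xs 0) (xs 1) (xs 2) := by
    intro g xs hv
    refine ⟨length_fit _ _, ?_⟩
    have k0 : xs 0 < (m g).β := hv 0
    have k1 : xs 1 < (m g).β := hv 1
    have k2 : xs 2 < (m g).T' := hv 2
    rw [valL_fit, valL_take, valL_drop, hXv, Nat.mod_eq_of_lt ((Nat.mod_lt _ (by positivity)).trans_le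
      (Nat.pow_le_pow_right (by norm_num) (hfat g)))]
    exact (if_pos ⟨k0, k1, k2⟩).symm
  have hB0 : ∀ g, 0 < (m g).B ∧ (m g).B ≤ 2 * (m g).β := fun g => by
    have h1 := (hA.ok g).β_eq
    have h2 := (hA.ok g).hβ
    omega
  obtain ⟨f1, A1, S1⟩ := cd_pad A0 2 (fun g => by simp) hA.T
    (fun g => by have := hβ g; unfold Pm.T; omega) (fun g => le_rfl)
    (a := fun g xs => a g (xs 0) (xs 1) (xs 2)) (fun g xs h => ha0 g _ _ _ (Or.inr (Or.inr h))) S0
  obtain ⟨f2, A2, S2⟩ := cd_pad A1 1 (fun g => by simp) hA.B (fun g => (hB0 g).1)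
    (fun g => (hB0 g).2) (fun g xs h => ha0 g _ _ _ (Or.inr (Or.inl h))) S1
  obtain ⟨f3, A3, S3⟩ := cd_pad A2 0 (fun g => by simp) hA.B (fun g => (hB0 g).1)
    (fun g => (hB0 g).2) (fun g xs h => ha0 g _ _ _ (Or.inl h)) S2
  refine ⟨f3, a, A3, fun g => ⟨S3 g, ha0 g, fun k l c => ?_, ?_⟩⟩
  · simp only [a]
    split_ifs
    · exact (Nat.mod_lt _ (by positivity)).le
    · exact Nat.zero_le _
  · have k1 : valL (x g) < 2 ^ ((m g).b0 * ((m g).β * ((m g).β * (m g).T'))) := by
      refine (valL_lt _).trans_le (Nat.pow_le_pow_right (by norm_num) ?_)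
      rw [hl]
      exact (hA.ok g).hn.1.trans (le_of_eq (by ring))
    conv_lhs => rw [← Nat.mod_eq_of_lt k1, ← cd_ev_digits, cd_ev_mul]
    rw [show (m g).b0 * ((m g).β * (m g).T') = (m g).b0 * (m g).T' * (m g).β by ring]
    refine cd_ev_congr fun k hk => ?_
    rw [cd_ev_mul]
    refine cd_ev_congr fun l hl => cd_ev_congr fun c hc => ?_
    exact (if_pos ⟨hk, hl, hc⟩).symm

/-- evaluate along the last digit -/
theorem cd_level {p : G → List ℕ} {n s w : G → ℕ} {F : G → (ℕ → ℕ) → List Bool}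
    {a : G → (ℕ → ℕ) → ℕ} (hl : Lin D fun g => arr (p g ++ [n g]) (F g)) (hn : LS D n)
    (hn0 : ∀ g, 0 < n g) (hs : Lin D fun g => (⟨s g⟩ : Un))
    (hw : ∀ g, s g ≤ w g ∧ w g ≤ 3 * s g ∧ Lam (D.S g) ≤ w g)
    (hF : ∀ g xs, Valid (p g ++ [n g]) xs → (F g xs).length = w g ∧ valL (F g xs) = a g xs) :
    ∃ F' : G → (ℕ → ℕ) → List Bool, (Lin D fun g => arr (p g) (F' g)) ∧
      ∀ g xs, Valid (p g) xs → (F' g xs).length = s g * (n g + 2) + 2 ∧ valL (F' g xs) =
        ev (s g) (n g) fun i => a g (join (p g).length xs (consF i fun _ => 0)) := by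
  obtain ⟨evB, hlin, hev⟩ := exists_evB
  have h0 : Bd (fun g => (p g).prod * (n g * (w g + 1))) D.B := hl.size.le fun g => by
    have := le_sz_arr (ds := p g ++ [n g]) (f := F g) (w := w g) fun xs hx => (hF g xs hx).1.ge
    rwa [List.prod_append, List.prod_singleton, mul_assoc] at this
  have h1 := hl.blocks (hn.consZ LS.nilZ) (fun g d hd => by
      rw [List.mem_singleton.1 hd]; exact hn0 g) (h0.le fun g => by
      rw [List.prod_append, List.prod_singleton, mul_assoc]
      exact Nat.mul_le_mul_left _ (Nat.mul_le_mul_left _ (by have := hw g; omega)))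
  have hv : ∀ g xs i, Valid (p g) xs → i < n g →
      Valid (p g ++ [n g]) (join (p g).length xs (consF i fun _ => 0)) := fun g xs i hx hi =>
    hx.join (aL_valid_consF hi (valid_nil.2 fun _ => rfl))
  have h2 := Lin.mapG hs h1 (fun g x => evB ⟨s g⟩ x) (fun g x => sz x + (s g + Lam (D.S g)))
    ⟨2, fun g x _ => by
      have := sz_pos x
      rw [sz_un]
      dsimp only
      omega⟩ ?_ ?_
  · refine ⟨fun g xs => evB ⟨s g⟩ (arr [n g] fun ys => F g (join (p g).length xs ys)),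
      h2.congr fun g => (map_arr _ _).symm, fun g xs hx => ?_⟩
    dsimp only
    rw [arr_single]
    obtain ⟨k1, k2⟩ := hev (s g) (n g) (fun i => F g (join (p g).length xs (consF i fun _ => 0)))
      fun i hi => by rw [(hF g _ (hv g xs i hx hi)).1]; exact (hw g).2.1
    exact ⟨k1, k2.trans (cd_ev_congr fun i hi => (hF g _ (hv g xs i hx hi)).2)⟩
  · refine (h1.size.add (h0.cmul 2)).le fun g => ?_
    rw [List.sum_map_add, List.map_const', List.sum_replicate, length_arr, smul_eq_mul]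
    refine Nat.add_le_add ((Nat.le_add_right _ _).trans (sum_sz_le _).le) ?_
    rw [mul_left_comm]
    refine Nat.mul_le_mul_left _ ?_
    have k1 := hw g
    have k2 : 1 * (w g + 1) ≤ n g * (w g + 1) := Nat.mul_le_mul_right _ (hn0 g)
    omega
  · intro G1 D1 θ q1 x ho hx hq k1 k2
    refine (hlin k1 k2 (Bd.of_le fun r => ?_)).congr fun r => by rw [hq]
    obtain ⟨xs, hxs, e⟩ := mem_arr.1 (hx r)
    have k3 := le_sz_arr (ds := [n (θ r)]) (f := fun ys => F (θ r) (join (p (θ r)).length xs ys))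
      (w := s (θ r)) fun ys hy => by rw [(hF _ _ (hxs.join hy)).1]; exact (hw _).1
    rw [ho.B, hq, ← e, length_arr]
    exact k3.trans (Nat.le_add_right _ _)

theorem cd_unmul {n u : G → ℕ} (hn : LS D n) (hu : Lin D fun g => (⟨u g⟩ : Un))
    (h : Bd (fun g => n g * Lam (D.S g)) D.B) (h' : ∀ g, u g ≤ Lam (D.S g)) :
    Lin D fun g => (⟨u g * n g⟩ : Un) := by
  refine (Lin.replicate hn (hu.replicateU false) h ((h.cmul 5).le fun g => ?_)).flatten.unLen.congr
    fun g => ?_
  · have k1 := kron_sz_le (List.replicate (u g) false)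
    have k2 := h' g
    have k3 := Lam_pos (D.S g)
    rw [List.length_replicate] at k1
    rw [mul_left_comm]
    exact Nat.mul_le_mul_left _ (by dsimp only; omega)
  · simp [unLen, mul_comm]

theorem exists_decode (hA : Av D m) (h : Ar D (fun g => (m g).sq) f) {z : G → ℕ → ℕ → ℕ → ℕ}
    (hz : ∀ g xs, Valid (m g).sq xs → (f g xs).length = 2 * (m g).L + 2 ∧
      AR (m g).L (m g).E (1 / 8) (z g (xs 0) (xs 1) (xs 2) : ℂ) (cv (m g).L (f g xs)) ∧
      z g (xs 0) (xs 1) (xs 2) + 1 ≤ 2 ^ (3 * (m g).b0)) :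
    ∃ y : G → List Bool, Lin D y ∧ ∀ g,
      valL (y g) = ev ((m g).b0 * (m g).T' * (m g).β) (m g).B fun k =>
        ev ((m g).b0 * (m g).T') (m g).B fun l => ev (m g).b0 (m g).T fun c => z g k l c := by
  obtain ⟨F, hF, hdec⟩ := exists_cdec
  have hb0 : ∀ g, 0 < (m g).b0 := fun g => Lam_pos _
  have hS : ∀ g, Lam (D.S g) = (m g).b0 := fun g => by rw [hA.S]; rfl
  have hE : ∀ g, 5 ≤ (m g).E ∧ (m g).L = (m g).E + 3 * (m g).b0 := fun g => by
    have k1 := (hA.ok g).hP
    have k2 := hb0 g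
    refine ⟨?_, rfl⟩
    unfold Pm.E
    nlinarith
  have hp : ∀ g, 4 ≤ (m g).T' ∧ 2 ≤ (m g).β ∧ 2 * (m g).β = (m g).B + 1 ∧
      (m g).T = 2 * (m g).T' := fun g => ⟨(hA.ok g).hT', (hA.ok g).hβ, (hA.ok g).β_eq, rfl⟩
  have h1 := h.map1 hF (hA.L.pair hA.E) ⟨4, fun g xs hx => by
    have := hE g
    rw [sz_pair, sz_un, sz_un, (hz g xs hx).1]
    dsimp only
    omega⟩
  have hc : ∀ u : G → ℕ, (∀ g, u g ≤ (m g).N) → Bd (fun g => u g * Lam (D.S g)) D.B :=
    fun u hu => h.cnt.le fun g => Nat.mul_le_mul_right _ (by rw [Pm.prod_sq]; exact hu g)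
  have hN : ∀ g, (m g).T' * (m g).β ≤ (m g).N := fun g => by
    obtain ⟨k1, k2, k3, k4⟩ := hp g
    have k5 : (m g).T' * (m g).β ≤ (m g).T * (m g).B := Nat.mul_le_mul (by omega) (by omega)
    have k6 : 1 * ((m g).B * (m g).T) ≤ (m g).B * ((m g).B * (m g).T) :=
      Nat.mul_le_mul_right _ (by omega)
    unfold Pm.N
    rw [mul_comm (m g).T] at k5
    omega
  have u2 : Lin D fun g => (⟨(m g).b0 * (m g).T'⟩ : Un) :=
    cd_unmul hA.T' hA.b0 (hc _ fun g => (Nat.le_mul_of_pos_right _ (by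
      have := hp g; omega)).trans (hN g)) fun g => (hS g).ge
  have u3 : Lin D fun g => (⟨(m g).b0 * (m g).T' * (m g).β⟩ : Un) :=
    (cd_unmul (hA.T'.mulZ hA.β) hA.b0 (hc _ hN) fun g => (hS g).ge).congr fun g => by
      rw [mul_assoc]
  obtain ⟨F1, L1, S1⟩ := cd_level (p := fun g => [(m g).B, (m g).B]) (n := fun g => (m g).T)
    (w := fun g => 3 * (m g).b0) (a := fun g xs => z g (xs 0) (xs 1) (xs 2)) h1 hA.T
    (fun g => by have := hp g; omega) hA.b0 (fun g => by rw [hS]; omega) fun g xs hx => by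
      obtain ⟨k1, k2, k3⟩ := hz g xs hx
      obtain ⟨e1, e2⟩ := hE g
      obtain ⟨k4, a, k5, k6, k7⟩ := hdec (m g).L (m g).E (f g xs) (by omega) (by omega) k1
      refine ⟨by rw [k4]; omega, k7.trans (k2.decode e1 ?_ k5 k6)⟩
      rw [e2, pow_add]
      exact Nat.mul_le_mul_left _ k3
  obtain ⟨F2, L2, S2⟩ := cd_level (p := fun g => [(m g).B]) (n := fun g => (m g).B)
    L1 hA.B (fun g => by have := hp g; omega) u2 (fun g => by
      obtain ⟨k1, k2, k3, k4⟩ := hp g
      have k5 := hb0 g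
      have k6 : (m g).b0 * 4 ≤ (m g).b0 * (m g).T' := Nat.mul_le_mul_left _ k1
      rw [hS, k4, show (m g).b0 * (2 * (m g).T' + 2) = 2 * ((m g).b0 * (m g).T') + 2 * (m g).b0 by
        ring]
      omega) S1
  obtain ⟨F3, L3, S3⟩ := cd_level (p := fun _ => []) (n := fun g => (m g).B)
    L2 hA.B (fun g => by have := hp g; omega) u3 (fun g => by
      obtain ⟨k1, k2, k3, k4⟩ := hp g
      have k5 := hb0 g
      have k6 : (m g).b0 * 4 ≤ (m g).b0 * (m g).T' := Nat.mul_le_mul_left _ k1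
      have k7 : (m g).b0 * (m g).T' * 2 ≤ (m g).b0 * (m g).T' * (m g).β :=
        Nat.mul_le_mul_left _ k2
      rw [hS, show (m g).B + 2 = 2 * (m g).β + 1 by omega,
        show (m g).b0 * (m g).T' * (2 * (m g).β + 1) =
          2 * ((m g).b0 * (m g).T' * (m g).β) + (m g).b0 * (m g).T' by ring]
      omega) S2
  exact ⟨fun g => F3 g fun _ => 0, L3.headD (Lin.const []),
    fun g => (S3 g _ (valid_nil.2 fun _ => rfl)).2⟩

theorem Ar.pmul (hA : Av D m) (h : Ar D (fun g => (m g).sq) f) (h' : Ar D (fun g => (m g).sq) f')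
    (hw : ∀ g xs, Valid (m g).sq xs →
      (f g xs).length = 2 * (m g).L + 2 ∧ (f' g xs).length = 2 * (m g).L + 2) {τ : G → ℕ}
    (hm : ∀ g env, D.env g env → MulOK env (6 * (m g).L * (m g).T) (τ g))
    (hB : Bd (fun g => (m g).B * (m g).B * τ g) D.B) :
    ∃ o : G → (ℕ → ℕ) → List Bool, Ar D (fun g => (m g).sq) o ∧ ∀ g xs, Valid (m g).sq xs →
      (o g xs).length = 2 * (m g).L + 2 ∧ cv (m g).L (o g xs) =
        P338.pmul (fun ys => cv (m g).L (f g ys)) (fun ys => cv (m g).L (f' g ys)) xs := by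
  have h1 : Lin D fun g => arr ([(m g).B, (m g).B] ++ [(m g).T]) fun xs => (f g xs, f' g xs) :=
    (h.lin.zip h'.lin).congr fun g => by rw [List.zip, zipWith_arr]; rfl
  have hT : ∀ g, 0 < (m g).T := fun g => h.pos g _ (by simp [Pm.sq])
  have hN : Bd (fun g => (m g).N * (2 * (m g).L + 3)) D.B := h.lin.size.le fun g => by
    rw [← Pm.prod_sq]
    exact le_sz_arr fun xs hx => (hw g xs hx).1.ge
  refine Exists.elim (Lin.onBlocksE (s' := fun g => [(m g).T]) h1
    (hA.B.consZ (hA.B.consZ LS.nilZ)) (hA.T.consZ LS.nilZ)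
    (fun g d hd => by rw [List.mem_singleton.1 hd]; exact hT g) h.cnt hA.L
    (fun g => τ g + (m g).T * (2 * (m g).L + 3)) ⟨11, fun g xs hx => ?_⟩
    ((hB.add hN).le fun g => le_of_eq (by simp only [List.prod_cons, List.prod_nil, Pm.N]; ring))
    (fun g xs ys y => y.length = 2 * (m g).L + 2 ∧ cv (m g).L y =
      P338.pmul (fun ys => cv (m g).L (f g ys)) (fun ys => cv (m g).L (f' g ys)) (join 2 xs ys))
    fun G1 α1 _ D1 θ xs ho hx k1 _ k3 => ?_) fun o ⟨k1, k2⟩ => ?_
  rotate_left 2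
  · have k3 : ∀ g zs, Valid (m g).sq zs → (o g zs).length = 2 * (m g).L + 2 ∧
        cv (m g).L (o g zs) =
          P338.pmul (fun ys => cv (m g).L (f g ys)) (fun ys => cv (m g).L (f' g ys)) zs := by
      intro g zs hz
      obtain ⟨xs, ys, hx, hy, rfl⟩ := Valid.unjoin (p := [(m g).B, (m g).B]) (s := [(m g).T]) hz
      exact k2 g xs ys hx hy
    refine ⟨o, ⟨h.hds, h.pos, fun g xs hx => ?_, k1⟩, k3⟩
    rw [(k3 g xs hx).1, hA.S]
    exact (hA.ok g).fat
  · have e1 : ∀ a ∈ arr [(m g).T] fun ys => (f g (join [(m g).B, (m g).B].length xs ys),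
        f' g (join [(m g).B, (m g).B].length xs ys)), sz a ≤ 8 * (2 * (m g).L + 3) := by
      intro a ha
      obtain ⟨ys, hy, rfl⟩ := mem_arr.1 ha
      obtain ⟨e1, e2⟩ := hw g _ (hx.join hy)
      have e3 := kron_sz_le (f g (join [(m g).B, (m g).B].length xs ys))
      have e4 := kron_sz_le (f' g (join [(m g).B, (m g).B].length xs ys))
      rw [sz_pair]
      omega
    have e2 := sz_list_le e1
    have e3 := (hA.ok g).fat
    have e4 : 1 * (2 * (m g).L + 3) ≤ (m g).T * (2 * (m g).L + 3) := Nat.mul_le_mul_right _ (hT g)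
    have e5 : (m g).T * (8 * (2 * (m g).L + 3) + 1) ≤ (m g).T * (9 * (2 * (m g).L + 3)) :=
      Nat.mul_le_mul_left _ (by omega)
    rw [length_arr, List.prod_singleton] at e2
    rw [mul_left_comm] at e5
    rw [sz_un, hA.S]
    dsimp only
    omega
  · have hv : ∀ r i, i < (m (θ r)).T → Valid (m (θ r)).sq (join 2 (xs r) (consF i fun _ => 0)) :=
      fun r i hi => (hx r).join (aL_valid_consF hi (valid_nil.2 fun _ => rfl))
    obtain ⟨o, e1, e2⟩ := exists_kron (D := D1) (L := fun r => (m (θ r)).L)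
      (T := fun r => (m (θ r)).T) (τ := fun r => τ (θ r))
      (a := fun r i => f (θ r) (join 2 (xs r) (consF i fun _ => 0)))
      (b := fun r i => f' (θ r) (join 2 (xs r) (consF i fun _ => 0))) k1
      ((Lin.map Lin.id.fst k3).congr fun r => by rw [map_arr, arr_single]; rfl)
      ((Lin.map Lin.id.snd k3).congr fun r => by rw [map_arr, arr_single]; rfl)
      (fun r => (hA.ok _).two_le) (fun r => (hA.ok _).hT) (fun r i hi => hw _ _ (hv r i hi))
      (fun r env he => hm _ env (ho.env r env he))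
      (Bd.of_le fun r => by rw [ho.B]; exact Nat.le_add_right _ _)
    refine ⟨fun r ys => o r (ys 0), e1.congr fun r => by rw [arr_single]; rfl, fun r ys hy => ?_⟩
    obtain ⟨y0, y1⟩ := valid_cons.1 hy
    obtain ⟨e3, e4⟩ := e2 r (ys 0) y0
    refine ⟨e3, e4.trans ?_⟩
    have e5 : consF (ys 0) (fun _ => 0) = ys := by
      conv_rhs => rw [← aL_consF_eta ys]
      congr 1
      funext i
      exact (valid_nil.1 y1 i).symm
    unfold P338.pmul
    rw [join_self]
    refine Finset.sum_congr rfl fun q _ => ?_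
    conv_rhs => rw [← e5]
    simp only [update_join]

end Vale.Agent.P338
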