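import Mathlib

namespace Vale.Agent.P338

/-- A head moves one cell to the left, stays, or moves one cell to the right. -/
inductive Move : Type
  | left : Move
  | stay : Move
  | right : Move

/-- The new head position; the tapes are infinite to the right only, and a head on the leftmost
cell that moves left stays there. -/
def Move.apply : Move → ℕ → ℕ
  | Move.left, p => p - 1
  | Move.stay, p => p
  | Move.right, p => p + 1

/-- A deterministic Turing machine with `k + 1` tapes, a finite tape alphabet `Γ` containing four
distinct symbols (blank, separator, zero, one) and a finite set of states `Q`.  The transition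
function reads the state and the scanned symbols; it either halts (`none`) or gives the next state
and, for every tape, a symbol to write and a move. -/
structure TM : Type 1 where
  k : ℕ
  Γ : Type
  Q : Type
  finΓ : Finite Γ
  finQ : Finite Q
  blank : Γ
  sep : Γ
  bit : Bool → Γ
  bit_inj : Function.Injective bit
  bit_ne_blank : ∀ b, bit b ≠ blank
  bit_ne_sep : ∀ b, bit b ≠ sep
  sep_ne_blank : sep ≠ blank
  start : Q
  out : Fin (k + 1)
  δ : Q → (Fin (k + 1) → Γ) → Option (Q × (Fin (k + 1) → Γ × Move))

/-- A configuration: the state, the contents of the tapes and the positions of the heads. -/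
structure Cfg (A : TM) : Type where
  q : A.Q
  tape : Fin (A.k + 1) → ℕ → A.Γ
  pos : Fin (A.k + 1) → ℕ

/-- One step; `none` if the machine halts in this configuration. -/
def TM.step (A : TM) (c : Cfg A) : Option (Cfg A) :=
  match A.δ c.q (fun j => c.tape j (c.pos j)) with
  | none => none
  | some (q, act) =>
      some ⟨q, fun j => Function.update (c.tape j) (c.pos j) (act j).1,
        fun j => (act j).2.apply (c.pos j)⟩

/-- The configuration after `t` steps; `none` if the machine halted earlier. -/
def TM.run (A : TM) (c : Cfg A) : ℕ → Option (Cfg A)
  | 0 => some c
  | t + 1 => (A.run c t).bind A.step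

/-- A tape holding the word `l` from its leftmost cell on, blank elsewhere. -/
def TM.word (A : TM) (l : List A.Γ) : ℕ → A.Γ := fun i => l.getD i A.blank

/-- The initial configuration on input `x # y`. -/
def TM.init (A : TM) (x y : List Bool) : Cfg A :=
  ⟨A.start, fun j => if j = 0 then A.word (x.map A.bit ++ A.sep :: y.map A.bit) else A.word [],
    fun _ => 0⟩

/-- On input `x # y` the machine makes exactly `t` steps and halts in the configuration `c`. -/
def TM.HaltsIn (A : TM) (x y : List Bool) (t : ℕ) (c : Cfg A) : Prop :=
  A.run (A.init x y) t = some c ∧ A.step c = none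

/-- The value of a binary string, leftmost bit most significant. -/
def val (x : List Bool) : ℕ := x.foldl (fun v b => 2 * v + b.toNat) 0

/-- The binary representation of `z` of length `k`, leftmost bit most significant. -/
def bin (k z : ℕ) : List Bool := ((List.range k).map fun i => z.testBit i).reverse

/-- The machine multiplies. -/
def TM.Multiplies (A : TM) : Prop :=
  ∀ n, 1 ≤ n → ∀ x y : List Bool, x.length = n → y.length = n →
    ∃ t c, A.HaltsIn x y t c ∧ c.tape A.out = A.word ((bin (2 * n) (val x * val y)).map A.bit)

/-- The running time on input `x # y`. -/
noncomputable def TM.time (A : TM) (x y : List Bool) : ℕ := sInf {t | ∃ c, A.HaltsIn x y t c}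

/-- The worst-case running time `T_A(n)` over inputs `x # y` with `x`, `y` of length `n`. -/
noncomputable def TM.T (A : TM) (n : ℕ) : ℕ :=
  Finset.univ.sup fun p : (Fin n → Bool) × (Fin n → Bool) =>
    A.time (List.ofFn p.1) (List.ofFn p.2)

end Vale.Agent.P338
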