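import Vale.Agent.P338.Av

/-! Placing the rows into good slots. -/

namespace Vale.Agent.P338

open Vale.Agent.Lib Vale.Agent.Lib.H23 Enc Function

/-- the `k`-th good slot -/
def gsl (qs : List ℕ) (k : ℕ) : ℕ :=
  ((List.range (2 * qs.prod)).filter fun j => goodb qs (j % qs.prod)).getD k 0

/-- the place of an address -/
def upA (qs : List ℕ) (xs : ℕ → ℕ) : ℕ → ℕ
  | 0 => gsl qs (xs 0 / qs.prod) / qs.prod
  | 1 => gsl qs (xs 0 / qs.prod) % qs.prod
  | 2 => 0
  | 3 => xs 0 % qs.prod
  | i + 4 => xs (i + 1)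

variable {G α : Type} [Enc α] {D : Dom G α} {m : G → Pm} {f : G → (ℕ → ℕ) → List Bool}

section Lists

variable {β : Type}

/-- repeat the elements of `X` along the runs of `fl` ending with `true` -/
def sprd (fl : List Bool) (X : List β) : List β :=
  ((grp (fl.zip fl)).zip X).flatMap fun p => p.1.map fun _ => p.2

theorem mem_sprd {fl : List Bool} {X : List β} {y : β} (h : y ∈ sprd fl X) : y ∈ X := by
  obtain ⟨p, hp, hy⟩ := List.mem_flatMap.1 h
  obtain ⟨_, -, rfl⟩ := List.mem_map.1 hy
  exact (List.of_mem_zip (a := p.1) (b := p.2) hp).2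

theorem sprd_true (fl : List Bool) (x : β) (X : List β) :
    sprd (true :: fl) (x :: X) = x :: sprd fl X := by
  simp [sprd, grp]

theorem sprd_false (fl : List Bool) (x : β) (X : List β) :
    sprd (false :: fl) (x :: X) = x :: sprd fl (x :: X) := by
  simp only [sprd, List.zip_cons_cons, grp]
  cases grp (fl.zip fl) <;> simp [List.replicate_succ]

theorem sprd_spec (fl : List Bool) (X Z : List β) (h : X.length ≤ fl.count true) :
    (((fl.zip (sprd fl X ++ Z)).filter Prod.fst).map Prod.snd).take X.length = X := by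
  induction fl generalizing X with
  | nil =>
    obtain rfl : X = [] := List.length_eq_zero_iff.1 (by simpa using h)
    simp
  | cons b fl ih =>
    cases X with
    | nil => simp
    | cons x X =>
      cases b with
      | true =>
        rw [sprd_true]
        have := ih X (by simpa using h)
        simpa using this
      | false =>
        rw [sprd_false]
        have := ih (x :: X) (by simpa using h)
        simpa using this

theorem zip_take_length {γ : Type} (l : List β) (r : List γ) :
    l.zip (r.take l.length) = l.zip r := by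
  induction l generalizing r with
  | nil => simp
  | cons a l ih => cases r <;> simp [ih]

theorem grp_sum {γ : Type} (l : List (Bool × β)) (X : List γ) :
    (((grp l).zip X).map fun x => x.1.length + 1).sum ≤ 2 * l.length := by
  induction l generalizing X with
  | nil => simp [grp]
  | cons a l ih =>
    cases X with
    | nil => simp
    | cons x X =>
      obtain ⟨b, a⟩ := a
      cases b with
      | true =>
        have := ih X
        simp only [grp, List.zip_cons_cons, List.map_cons, List.sum_cons, List.length_cons,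
          List.length_nil]
        omega
      | false =>
        have := ih (x :: X)
        simp only [grp, List.zip_cons_cons, List.map_cons, List.sum_cons, List.length_cons]
        revert this
        cases grp l with
        | nil => simp
        | cons c t =>
          simp only [List.zip_cons_cons, List.map_cons, List.sum_cons, List.headD_cons,
            List.tail_cons]
          omega

/-- the good slots -/
def gl (qs : List ℕ) : List ℕ :=
  (List.range (2 * qs.prod)).filter fun j => goodb qs (j % qs.prod)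

/-- the indicator of the good slots -/
def flags (qs : List ℕ) : List Bool :=
  (List.range (2 * qs.prod)).map fun j => goodb qs (j % qs.prod)

theorem count_flags (qs : List ℕ) : (flags qs).count true = (gl qs).length := by
  rw [flags, gl, List.count_eq_countP, List.countP_map, List.countP_eq_length_filter]
  congr 2
  funext j
  simp

theorem le_length_gl {m : Pm} (h : m.OK) : m.B' ≤ (gl m.qs).length := by
  have h1 := good_count h.mods fun q hq => (h.hq q hq).1
  have e1 : ((List.range m.qs.prod).filter fun j => goodb m.qs (j % m.qs.prod)) =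
      (List.range m.qs.prod).filter (goodb m.qs) :=
    List.filter_congr fun j hj => by rw [Nat.mod_eq_of_lt (List.mem_range.1 hj)]
  rw [gl, two_mul, List.range_add, List.filter_append, List.length_append, List.filter_map,
    List.length_map]
  simp only [Function.comp_def, Nat.add_mod_left, e1]
  unfold Pm.B'
  omega

theorem gsl_eq {m : Pm} (h : m.OK) {k : ℕ} (hk : k < m.B') :
    gsl m.qs k = (gl m.qs)[k]'(hk.trans_le (le_length_gl h)) :=
  List.getD_eq_getElem _ _ (hk.trans_le (le_length_gl h))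

theorem gsl_spec {m : Pm} (h : m.OK) {k : ℕ} (hk : k < m.B') :
    gsl m.qs k < 2 * m.qs.prod ∧ goodb m.qs (gsl m.qs k % m.qs.prod) = true := by
  have h1 : gsl m.qs k ∈ gl m.qs := by rw [gsl_eq h hk]; exact List.getElem_mem _
  simpa [gl] using h1

theorem pick_flags {m : Pm} (h : m.OK) (row : ℕ → β) :
    ((((flags m.qs).zip ((List.range (2 * m.B')).map row)).filter Prod.fst).map Prod.snd).take
      m.B' = (List.range m.B').map fun k => row (gsl m.qs k) := by
  have e : (((flags m.qs).zip ((List.range (2 * m.B')).map row)).filter Prod.fst).map Prod.snd =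
      (gl m.qs).map row := by
    rw [flags, Pm.B', List.zip_map', List.filter_map, List.map_map]
    rfl
  have h1 := le_length_gl h
  rw [e]
  refine List.ext_getElem (by simp; omega) fun k h2 h3 => ?_
  have hk : k < m.B' := by simpa using h3
  simp [gsl_eq h hk]

theorem exists_slots {m : Pm} (h : m.OK) (row : ℕ → β) (Y : List β)
    (h1 : Y.length = (flags m.qs).length) (h2 : ∀ y ∈ Y, y ∈ (List.range m.B').map row)
    (h3 : ((((flags m.qs).zip Y).filter Prod.fst).map Prod.snd).take
      ((List.range m.B').map row).length = (List.range m.B').map row) :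
    ∃ ρ : ℕ → ℕ, (∀ j < 2 * m.B', ρ j < m.B') ∧ (∀ k < m.B', ρ (gsl m.qs k) = k) ∧
      Y = (List.range (2 * m.B')).map fun j => row (ρ j) := by
  classical
  have h4 : Y.length = 2 * m.B' := by simpa [flags, Pm.B'] using h1
  have h5 : Y = (List.range (2 * m.B')).map fun j => Y.getD j (row 0) :=
    List.ext_getElem (by simp [h4]) fun j a b => by simp [a]
  rw [List.length_map, List.length_range, h5, pick_flags h, List.map_inj_left] at h3
  have h6 : ∀ j, ∃ k, j < 2 * m.B' → (k < m.B' ∧ Y.getD j (row 0) = row k) ∧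
      ∀ k' < m.B', gsl m.qs k' = j → k = k' := by
    intro j
    by_cases hj : ∃ k < m.B', gsl m.qs k = j
    · obtain ⟨k, hk, rfl⟩ := hj
      refine ⟨k, fun _ => ⟨⟨hk, h3 k (List.mem_range.2 hk)⟩, fun k' hk' e => ?_⟩⟩
      rw [gsl_eq h hk, gsl_eq h hk'] at e
      exact ((List.Nodup.getElem_inj_iff (List.nodup_range.filter _)).1 e).symm
    · by_cases hl : j < 2 * m.B'
      · have h7 : Y.getD j (row 0) ∈ Y := by
          rw [List.getD_eq_getElem _ _ (by omega)]; exact List.getElem_mem _
        obtain ⟨k, hk, e⟩ := List.mem_map.1 (h2 _ h7)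
        exact ⟨k, fun _ => ⟨⟨List.mem_range.1 hk, e.symm⟩, fun k' hk' e' =>
          (hj ⟨k', hk', e'⟩).elim⟩⟩
      · exact ⟨0, fun h => (hl h).elim⟩
  choose ρ hρ using h6
  refine ⟨ρ, fun j hj => (hρ j hj).1.1, fun k hk => (hρ _ (gsl_spec h hk).1).2 k hk rfl, ?_⟩
  rw [h5]
  refine (List.map_congr_left fun j hj => ?_).trans rfl
  exact (hρ j (List.mem_range.1 hj)).1.2

theorem slot_lt {m : Pm} {k c : ℕ} (hk : k < m.B') (hc : c < m.B') : k * m.B' + c < m.B := by
  have : m.B = m.B' * m.B' := sq _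
  nlinarith

theorem arr_sq (m : Pm) (f : (ℕ → ℕ) → β) :
    arr m.sq f = arr [m.B', m.B', m.B, m.T] fun zs =>
      f (consF (zs 0 * m.B' + zs 1) fun i => zs (i + 2)) := by
  have e : m.sq = m.B' * m.B' :: [m.B, m.T] := by
    rw [← sq]; rfl
  rw [e, aL_arr_cons, aL_range_mul_flatMap]
  rfl

theorem arr_big (m : Pm) (u : ℕ → ℕ → (ℕ → ℕ) → β) :
    (arr m.big fun ys => u (ys 0 * m.B' + ys 1) (ys 3) fun i => ys (i + 4)) =
      arr [2 * m.B', m.B', m.B, m.T] fun zs => u (zs 0) (zs 1) fun i => zs (i + 2) := by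
  rw [aL_arr_cons (2 * m.B'), aL_range_mul_flatMap, Pm.big, aL_arr_cons 2]
  refine List.flatMap_congr fun a _ => ?_
  rw [aL_arr_cons]
  refine List.flatMap_congr fun b _ => ?_
  rw [aL_arr_cons, List.range_one, List.flatMap_singleton]
  rfl

end Lists

theorem flags_lin (hA : Av D m) (hc : Bd (fun g => 2 * (m g).B' * Lam (D.S g)) D.B) :
    Lin D fun g => flags (m g).qs := by
  have hN : LS D fun g => 2 * (m g).B' :=
    (LS.comp (f := fun x : ℕ => 2 * x) (by fun_prop) hA.B').congr fun _ => rfl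
  obtain ⟨K, hK⟩ := hA.qs.2.bd
  refine Lin.mapTab (blk := fun _ _ => ()) hA.qs.1 hN
    (Lin.map (F := fun _ : ℕ => ()) (by fun_prop) (Lin.range hN hc))
    (fun g j => goodb (m g).qs (j % (m g).qs.prod)) (fun g => Lam (D.S g))
    ⟨K + 2, fun g i _ => ?_⟩ hc fun G1 D1 θ q1 i x ho _ e _ k1 k2 _ => ?_
  · have h1 : sz (m g).qs ≤ K * Lam (D.S g) := hK g
    have h2 := Lam_pos (D.S g)
    rw [sz_unit, add_mul]
    omega
  · have k3 : LS D1 fun r => (m (θ r)).qs := ⟨k1.congr fun r => (e r).symm, hA.qs.2.over ho⟩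
    exact (Lin.pt (f := fun x : List ℕ × ℕ => goodb x.1 (x.2 % x.1.prod))
      (by unfold goodb; fun_prop) (k3.pair k2)).congr fun _ => rfl

theorem Ar.flagsL (h : Ar D (fun g => (m g).sq) f) (hA : Av D m) :
    Lin D fun g => flags (m g).qs := by
  refine flags_lin hA ((h.cnt.cmul 2).le fun g => ?_)
  have h1 : 0 < (m g).B' * (m g).B * (m g).T := by
    have := (hA.ok g).sq_pos (m g).B (by simp [Pm.sq])
    have := (hA.ok g).sq_pos (m g).T (by simp [Pm.sq])
    have : 0 < (m g).B' := (hA.ok g).mods.pos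
    positivity
  have h4 : (m g).N = (m g).B' * ((m g).B' * (m g).B * (m g).T) := by
    simp only [Pm.N, Pm.B, Pm.B']; ring
  rw [Pm.prod_sq, h4, mul_assoc 2]
  exact Nat.mul_le_mul_left _ (Nat.mul_le_mul_right _ (Nat.le_mul_of_pos_right _ h1))

theorem Lin.spread {β : Type} [Enc β] {fl : G → List Bool} {X : G → List β} (hf : Lin D fl)
    (hX : Lin D X) {w : G → ℕ} (hw : ∀ g, ∀ x ∈ X g, sz x ≤ w g)
    (hB : Bd (fun g => (fl g).length * w g) D.B)
    (h1 : ∀ g, (X g).length ≤ (fl g).count true) (h2 : ∀ g, (fl g).length ≤ 2 * (X g).length) :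
    ∃ Y : G → List β, Lin D Y ∧ ∀ g, (Y g).length = (fl g).length ∧ (∀ y ∈ Y g, y ∈ X g) ∧
      ((((fl g).zip (Y g)).filter Prod.fst).map Prod.snd).take (X g).length = X g := by
  have h0 : Bd (fun _ : G => Lam 0) D.B := Bd.const _ D.pos
  have h3 : Lin (D.ws (fun _ => 0) h0) fun g => (P338.grp ((fl g).zip (fl g))).zip (X g) :=
    (Lin.ws (h := h0)).2 ((hf.zip hf).grp.zip hX)
  have h4 := Lin.mapG (Lin.const ()) h3 (fun _ x => x.1.map fun _ => x.2)
    (fun g x => (x.1.length + 1) * w g) ⟨9, fun g x hx => ?_⟩ ?_ ?_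
  · refine ⟨fun g => (sprd (fl g) (X g) ++ (X g ++ X g)).take (fl g).length,
      ((((Lin.ws (h := h0)).1 h4).flatten.append (hX.append hX)).takeU hf).congr fun g => ?_,
      fun g => ⟨?_, fun y hy => ?_, ?_⟩⟩
    · rw [sprd, List.flatMap_def]
    · have := h2 g
      simp only [List.length_take, List.length_append]
      omega
    · rcases List.mem_append.1 (List.mem_of_mem_take hy) with h | h
      · exact mem_sprd h
      · rcases List.mem_append.1 h with h | h <;> exact h
    · rw [zip_take_length]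
      exact sprd_spec _ _ _ (h1 g)
  · have h5 := hw g _ (List.of_mem_zip (a := x.1) (b := x.2) hx).2
    have h6 := sz_pos x.2
    have h7 : sz x.1 ≤ x.1.length * (3 + 1) + 1 := sz_list_le fun a _ => sz_bool a
    have h8 : Lam 0 = 2 := by decide
    show sz () + sz x + Lam 0 ≤ _
    rw [sz_prod x, sz_unit, h8]
    nlinarith [Nat.mul_le_mul_left x.1.length (show 1 ≤ w g by omega)]
  · refine (hB.cmul 2).le fun g => ?_
    have h5 := grp_sum ((fl g).zip (fl g)) (X g)
    rw [List.length_zip, min_self] at h5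
    rw [List.sum_map_mul_right, ← mul_assoc]
    exact Nat.mul_le_mul_right _ h5
  · intro G1 D1 θ q1 x ho hx _ _ k2
    refine Lin.mapP (F := fun (y : β) (_ : Bool) => y) (by fun_prop) k2.snd k2.fst
      (ho.bd (Bd.of_le fun r => ?_))
    exact Nat.mul_le_mul (Nat.le_succ _)
      (hw _ _ (List.of_mem_zip (a := (x r).1) (b := (x r).2) (hx r)).2)

theorem upA_valid {m : Pm} (h : m.OK) {xs : ℕ → ℕ} (hx : Valid m.sq xs) :
    Valid m.big (upA m.qs xs) ∧ Good m.qs (upA m.qs xs 1) := by
  have h0 : 0 < m.qs.prod := h.mods.pos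
  have h1 : xs 0 / m.qs.prod < m.qs.prod :=
    Nat.div_lt_of_lt_mul (by have := hx 0; rwa [← sq])
  obtain ⟨h2, h3⟩ := gsl_spec h h1
  refine ⟨fun i => ?_, (goodb_iff _ _).1 h3⟩
  match i with
  | 0 => exact Nat.div_lt_of_lt_mul (by rwa [mul_comm] at h2)
  | 1 => exact Nat.mod_lt _ h0
  | 2 => exact Nat.one_pos
  | 3 => exact Nat.mod_lt _ h0
  | i + 4 => exact hx (i + 1)

theorem Ar.place (hA : Av D m) (h : Ar D (fun g => (m g).sq) f)
    (hw : ∀ g xs, Valid (m g).sq xs → (f g xs).length = 2 * (m g).L + 2) :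
    ∃ ρ : G → ℕ → ℕ → ℕ → ℕ, Ar D (fun g => (m g).big)
      (fun g ys => f g (consF (ρ g (ys 0) (ys 1) (ys 3)) fun i => ys (i + 4))) ∧
      ∀ g, (∀ ys, Valid (m g).big ys → ρ g (ys 0) (ys 1) (ys 3) < (m g).B) ∧
        ∀ xs, Valid (m g).sq xs →
          ρ g (upA (m g).qs xs 0) (upA (m g).qs xs 1) (upA (m g).qs xs 3) = xs 0 := by
  have pB : ∀ g, 0 < (m g).B' := fun g => (hA.ok g).mods.pos
  have l4 : LS D fun g => [(m g).B', (m g).B', (m g).B, (m g).T] :=
    (LS.comp (f := fun x : ℕ × ℕ × ℕ => [x.1, x.1, x.2.1, x.2.2]) (by fun_prop)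
      (hA.B'.pair (hA.B.pair hA.T))).congr fun _ => rfl
  have h1 : Ar D (fun g => [(m g).B', (m g).B', (m g).B, (m g).T]) fun g zs =>
      f g (consF (zs 0 * (m g).B' + zs 1) fun i => zs (i + 2)) :=
    h.view l4 (fun g d hd => (hA.ok g).big_pos d (by
      simp only [Pm.big, List.mem_cons] at hd ⊢; tauto)) fun g => (arr_sq (m g) (f g)).symm
  obtain ⟨row, hrow⟩ : ∃ row : G → ℕ → List (List Bool), row = fun g k =>
      arr [(m g).B', (m g).B, (m g).T] fun ys =>
        f g (consF (k * (m g).B' + ys 0) fun i => ys (i + 1)) := ⟨_, rfl⟩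
  have h2 : Lin D fun g => (List.range (m g).B').map (row g) := by
    rw [hrow]; exact h1.rows
  have hv : ∀ g k, k < (m g).B' → ∀ ys, Valid [(m g).B', (m g).B, (m g).T] ys →
      Valid (m g).sq (consF (k * (m g).B' + ys 0) fun i => ys (i + 1)) := fun g k hk ys hy =>
    aL_valid_consF (ds := [(m g).B, (m g).T]) (slot_lt hk (hy 0)) (valid_cons.1 hy).2
  have hc : Bd (fun g => (m g).N * (2 * (m g).L + 2 + 1)) D.B := h.lin.size.le fun g => by
    rw [← Pm.prod_sq]
    exact le_sz_arr fun xs hx => (hw g xs hx).ge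
  obtain ⟨Y, hY, hY'⟩ := Lin.spread (h.flagsL hA) h2
    (w := fun g => [(m g).B', (m g).B, (m g).T].prod * (4 * (2 * (m g).L + 2) + 2) + 1)
    (fun g x hx => by
      obtain ⟨k, hk, rfl⟩ := List.mem_map.1 hx
      rw [hrow]
      exact sz_arr_le fun ys hy => (hw g _ (hv g k (List.mem_range.1 hk) ys hy)).le)
    ((hc.cmul 10).le fun g => by
      have h3 : 0 < (m g).B' * (m g).B * (m g).T := by
        have := (hA.ok g).sq_pos (m g).B (by simp [Pm.sq])
        have := (hA.ok g).sq_pos (m g).T (by simp [Pm.sq])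
        have := pB g
        positivity
      have h4 : (m g).N = (m g).B' * ((m g).B' * (m g).B * (m g).T) := by
        simp only [Pm.N, Pm.B, Pm.B']; ring
      have h5 := Nat.le_mul_of_pos_right (m g).B' h3
      simp only [flags, List.length_map, List.length_range, List.prod_cons, List.prod_nil, mul_one]
      rw [← mul_assoc (m g).B' (m g).B, h4]
      show 2 * (m g).B' * _ ≤ _
      nlinarith [Nat.zero_le ((m g).B' * ((m g).B' * (m g).B * (m g).T) * (m g).L)])
    (fun g => by
      rw [List.length_map, List.length_range, count_flags]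
      exact le_length_gl (hA.ok g))
    (fun g => by simp [flags, Pm.B'])
  have key : ∀ g, ∃ ρ : ℕ → ℕ, (∀ j < 2 * (m g).B', ρ j < (m g).B') ∧
      (∀ k < (m g).B', ρ (gsl (m g).qs k) = k) ∧
      Y g = (List.range (2 * (m g).B')).map fun j => row g (ρ j) := fun g =>
    exists_slots (hA.ok g) (row g) (Y g) (hY' g).1 (hY' g).2.1 (hY' g).2.2
  choose ρ hρ1 hρ2 hρ3 using key
  have hρ : ∀ g ys, Valid (m g).big ys →
      ρ g (ys 0 * (m g).B' + ys 1) < (m g).B' := fun g ys hy => hρ1 g _ (by
    have h3 : ys 0 < 2 := hy 0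
    have h4 : ys 1 < (m g).B' := hy 1
    nlinarith)
  refine ⟨fun g a b c => ρ g (a * (m g).B' + b) * (m g).B' + c,
    ⟨hA.big, fun g => (hA.ok g).big_pos, fun g ys hy => h.fat g _ ?_, ?_⟩,
    fun g => ⟨fun ys hy => slot_lt (hρ g ys hy) (hy 3), fun xs hx => ?_⟩⟩
  · exact aL_valid_consF (ds := [(m g).B, (m g).T]) (slot_lt (hρ g ys hy) (hy 3))
      fun i => hy (i + 4)
  · have h3 : Lin D fun g => arr (2 * (m g).B' :: [(m g).B', (m g).B, (m g).T]) fun zs =>
        f g (consF (ρ g (zs 0) * (m g).B' + zs 1) fun i => zs (i + 2)) :=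
      Lin.unrows (hY.congr fun g => by rw [hρ3, hrow]; rfl)
    exact h3.congr fun g => arr_big (m g) fun j c r => f g (consF (ρ g j * (m g).B' + c) r)
  · have h3 : xs 0 / (m g).B' < (m g).B' :=
      Nat.div_lt_of_lt_mul (by have := hx 0; rwa [← sq])
    show ρ g (gsl _ (xs 0 / (m g).B') / (m g).B' * (m g).B' + gsl _ (xs 0 / (m g).B') % (m g).B') *
      (m g).B' + xs 0 % (m g).B' = xs 0
    rw [Nat.div_add_mod', hρ2 g _ h3, Nat.div_add_mod']

theorem Ar.unplace (hA : Av D m) (h : Ar D (fun g => (m g).big) f) :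
    Ar D (fun g => (m g).sq) fun g xs => f g (upA (m g).qs xs) := by
  have pB : ∀ g, 0 < (m g).B' := fun g => (hA.ok g).mods.pos
  obtain ⟨u, hu⟩ : ∃ u : G → ℕ → ℕ → (ℕ → ℕ) → List Bool, u = fun g j c r =>
      f g (consF (j / (m g).B') (consF (j % (m g).B') (consF 0 (consF c r)))) := ⟨_, rfl⟩
  have l4 : LS D fun g => [2 * (m g).B', (m g).B', (m g).B, (m g).T] :=
    (LS.comp (f := fun x : ℕ × ℕ × ℕ => [2 * x.1, x.1, x.2.1, x.2.2]) (by fun_prop)
      (hA.B'.pair (hA.B.pair hA.T))).congr fun _ => rfl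
  have h1 : Ar D (fun g => [2 * (m g).B', (m g).B', (m g).B, (m g).T]) fun g zs =>
      u g (zs 0) (zs 1) fun i => zs (i + 2) := by
    refine h.view l4 (fun g d hd => ?_) fun g => ?_
    · rcases List.mem_cons.1 hd with rfl | hd
      · exact Nat.mul_pos two_pos (pB g)
      · exact (hA.ok g).big_pos d (by simp only [Pm.big, List.mem_cons] at hd ⊢; tauto)
    · rw [← arr_big]
      refine arr_congr fun ys hy => ?_
      have h3 : ys 1 < (m g).B' := hy 1
      have h4 : ys 2 < 1 := hy 2
      rw [hu]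
      dsimp only
      rw [Nat.mul_add_mod', Nat.mod_eq_of_lt h3, add_comm, Nat.add_mul_div_right _ _ (pB g),
        Nat.div_eq_of_lt h3, zero_add]
      congr 1
      funext i
      match i with
      | 0 | 1 | 3 => rfl
      | 2 => show 0 = ys 2; omega
      | i + 4 => rfl
  have hc : Bd (fun g => 2 * (m g).B' * Lam (D.S g)) D.B := h1.cnt0
  have h2 := (Lin.map (F := fun p : Bool × List (List Bool) => p.2) (by fun_prop)
    (Lin.filter (F := fun p : Bool × List (List Bool) => p.1) (by fun_prop)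
      ((flags_lin hA hc).zip h1.rows))).takeU (Lin.range hA.B' (hc.le fun g =>
        Nat.mul_le_mul_right _ (by omega)))
  have h3 : Lin D fun g => arr ((m g).B' :: [(m g).B', (m g).B, (m g).T]) fun zs =>
      u g (gsl (m g).qs (zs 0)) (zs 1) fun i => zs (i + 2) := by
    refine Lin.unrows (h2.congr fun g => ?_)
    rw [List.length_range]
    exact (pick_flags (hA.ok g) fun x => arr [(m g).B', (m g).B, (m g).T] fun ys =>
      u g x (ys 0) fun i => ys (i + 1)).symm
  refine ⟨hA.sq, fun g => (hA.ok g).sq_pos, fun g xs hx => h.fat g _ (upA_valid (hA.ok g) hx).1,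
    h3.congr fun g => ?_⟩
  rw [arr_sq]
  refine arr_congr fun zs hz => ?_
  have h4 : zs 1 < (m g).B' := hz 1
  have e1 : (zs 0 * (m g).B' + zs 1) / (m g).B' = zs 0 := by
    rw [add_comm, Nat.add_mul_div_right _ _ (pB g), Nat.div_eq_of_lt h4, zero_add]
  have e2 : (zs 0 * (m g).B' + zs 1) % (m g).B' = zs 1 := by
    rw [Nat.mul_add_mod', Nat.mod_eq_of_lt h4]
  rw [hu]
  dsimp only
  congr 1
  funext i
  match i with
  | 0 => show gsl _ ((zs 0 * (m g).B' + zs 1) / (m g).B') / _ = _; rw [e1]; rfl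
  | 1 => show gsl _ ((zs 0 * (m g).B' + zs 1) / (m g).B') % _ = _; rw [e1]; rfl
  | 2 => rfl
  | 3 => exact e2
  | i + 4 => rfl

end Vale.Agent.P338
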