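import Vale.Agent.P338.Step
import Vale.Agent.P338.Place

/-! The transforms along one digit and along two digits. -/

namespace Vale.Agent.P338

open Vale.Agent.Lib Vale.Agent.Lib.H23 Enc Function

variable {G α : Type} [Enc α] {D : Dom G α} {m : G → Pm} {f : G → (ℕ → ℕ) → List Bool}
  {E τ : G → ℕ} {ε X : G → ℝ} {Z : G → (ℕ → ℕ) → ℂ}

/-- the exact values after `i` steps -/
noncomputable def grun (m : Pm) (fl : Bool) (Z : (ℕ → ℕ) → ℂ) (i : ℕ) : (ℕ → ℕ) → ℂ :=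
  (List.range i).foldl (fun Z i => gstep m.qs (ngc m.B') (stq m fl i) (gsh m fl i) Z) Z

theorem grun_succ (m : Pm) (fl : Bool) (Z : (ℕ → ℕ) → ℂ) (i : ℕ) :
    grun m fl Z (i + 1) = gstep m.qs (ngc m.B') (stq m fl i) (gsh m fl i) (grun m fl Z i) := by
  rw [grun, List.range_succ, List.foldl_append]
  rfl

theorem Pm.OK.uni {m : Pm} (h : m.OK) {q : ℕ} (hq : q ∈ m.qs) : Uni m.B' q :=
  Uni.sub h.mods.cop hq (by have := h.mods.three q hq; omega)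

theorem Pm.OK.neg {m : Pm} (h : m.OK) (q : ℕ) (hq : q ∈ m.qs) : IsNeg m.B' q (ngc m.B' q) :=
  ngc_spec h.mods.pos (h.uni hq)

theorem grun_P {m : Pm} (h : m.OK) (fl : Bool) (Z : (ℕ → ℕ) → ℂ) {xs : ℕ → ℕ}
    (hx : Valid m.big xs) (hg : Good m.qs (xs 1)) : grun m fl Z m.P xs = dft m.qs fl 4 Z xs :=
  grun_eq h.mods h.neg (P := fun q => prog (⟨q ^ 2⟩, ⟨m.t⟩, fl))
    (fun q hq =>
      have : NeZero (q ^ 2) := ⟨by have := h.mods.three q hq; positivity⟩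
      (prog_ok h fl hq).1)
    (fun _ hq _ => (prog_ok h fl hq).2.2) (fun i _ v _ hq => gsh_spec h fl i v hq) Z (hx 1) (hx 3)
    (hx 4) hg

/-- the invariant of the loop -/
def DInv (m : Pm) (fl : Bool) (E : ℕ) (ε X : ℝ) (Z : (ℕ → ℕ) → ℂ) (i : ℕ)
    (f : (ℕ → ℕ) → List Bool) : Prop :=
  (∀ ys, Valid m.big ys → (f ys).length = 2 * m.L + 2) ∧
    ∀ ys, Valid m.big ys ∧ Good m.qs (ys 1) →
      AR m.L (E + i * (m.r + m.p)) (m.Γ ^ i * (ε + i * (2 / 2 ^ m.p) * X)) (grun m fl Z i ys)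
        (cv m.L (f ys)) ∧ ‖grun m fl Z i ys‖ ≤ m.Γ ^ i * X

theorem DInv.succ {m : Pm} (h : m.OK) {fl : Bool} {E : ℕ} {ε X : ℝ} {Z : (ℕ → ℕ) → ℂ} {i : ℕ}
    {f f' : (ℕ → ℕ) → List Bool} (hX : 0 ≤ X) (hε : 0 ≤ ε) (hi : i < m.P)
    (hf : DInv m fl E ε X Z i f) (h1 : ∀ ys, Valid m.big ys → (f' ys).length = 2 * m.L + 2)
    (h2 : ∀ xs, Valid m.big xs → Good m.qs (xs 1) → ∃ a b : ℤ, ‖(a + b * Complex.I : ℂ) -
      2 ^ m.p * prodVal (dlist m.qs (stq m fl i) (xs 1) (xs 4))‖ ≤ 2 ∧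
      cv m.L (f' xs) = 2 ^ m.r * ((a : ZMod (mm m.L)) + b * 2 ^ m.L) *
        lay m.L (m.qs.map fun q => sig m.B' (ngc m.B' q))
          (fun ys => f (shf m.B (gsh m fl i) ys)) xs) :
    DInv m fl E ε X Z (i + 1) f' := by
  refine ⟨h1, fun xs hx => ?_⟩
  obtain ⟨a, b, d1, d2⟩ := h2 xs hx.1 hx.2
  obtain ⟨d3, d4⟩ := dlist_ok h fl hi (xs 1) (xs 4)
  have hσ : ∀ σ ∈ m.qs.map fun q => sig m.B' (ngc m.B' q), ∀ y : ℕ → ℕ,
      Valid m.big y ∧ Good m.qs (y 1) → Valid m.big (σ y) ∧ Good m.qs (σ y 1) := by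
    intro σ hσ y hy
    obtain ⟨q, hq, rfl⟩ := List.mem_map.1 hσ
    exact ⟨Valid.sig hy.1, Good.sig (fun q hq => (h.uni hq).1) (IsNeg.sq (h.uni hq) (h.neg q hq))
      hy.2⟩
  have hs : ∀ y : ℕ → ℕ, Valid m.big y ∧ Good m.qs (y 1) →
      Valid m.big (shf m.B (gsh m fl i) y) ∧ Good m.qs (shf m.B (gsh m fl i) y 1) :=
    fun y hy => ⟨Valid.shf h hy.1 _, by rw [shf, update_of_ne (by norm_num)]; exact hy.2⟩
  have a1 := AR.layer (by have := h.two_le; omega) hσ (fun y hy => (hf.2 _ (hs y hy)).1) hx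
  have a2 := norm_layer_le hσ (fun y hy => (hf.2 _ (hs y hy)).2) hx
  rw [List.length_map] at a1 a2
  obtain ⟨a3, a4⟩ := AR.step hX hε h.rp.2 (norm_prodVal_le d3 d4) d1 a2 a1
  rw [grun_succ, d2, show E + (i + 1) * (m.r + m.p) = E + i * (m.r + m.p) + (m.r + m.p) by ring]
  exact ⟨a4, a3⟩

theorem dft_bd : ∃ K, ∀ (m : Pm) (τ : ℕ) (f : (ℕ → ℕ) → List Bool), m.OK →
    (∀ ys, Valid m.big ys → (f ys).length = 2 * m.L + 2) →
    sz (arr m.big f, m.tup) + Lam m.S ≤ K * m.bud τ := by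
  obtain ⟨K1, hK1⟩ := sz_tup
  refine ⟨K1 + 11, fun m τ f h hw => ?_⟩
  have a1 := hK1 _ h
  have a3 := h.fat
  have a4 := sz_arr_le fun ys hy => (hw ys hy).le
  have a0 : 0 < m.N := m.prod_sq ▸ List.prod_pos h.sq_pos
  have a5 : 2 * m.L + 3 ≤ m.N * (2 * m.L + 3) := Nat.le_mul_of_pos_left _ a0
  have a6 : m.N * (2 * m.L + 3) ≤ m.bud τ :=
    (Nat.mul_le_mul_left _ (Nat.le_add_left _ _)).trans (m.le_bud τ)
  have a7 : K1 * (m.L + 1) ≤ K1 * m.bud τ := Nat.mul_le_mul_left _ (by omega)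
  have a9 : m.big.prod * (4 * (2 * m.L + 2) + 2) ≤ 8 * (m.N * (2 * m.L + 3)) := by
    rw [Pm.prod_big]; nlinarith
  rw [add_mul, sz_pair]
  omega

theorem Ar.of_len (hA : Av D m) (h : Lin D fun g => arr (m g).big (f g))
    (hw : ∀ g xs, Valid (m g).big xs → (f g xs).length = 2 * (m g).L + 2) :
    Ar D (fun g => (m g).big) f :=
  ⟨hA.big, fun g => (hA.ok g).big_pos, fun g xs hx => by
    rw [hw g xs hx, hA.S]; exact (hA.ok g).fat, h⟩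

theorem Ar.grun (hA : Av D m) (fl : Bool) (h : Ar D (fun g => (m g).big) f)
    (hX : ∀ g, 0 ≤ X g) (hε : ∀ g, 0 ≤ ε g)
    (hZ : ∀ g, DInv (m g) fl (E g) (ε g) (X g) (Z g) 0 (f g))
    (hm : ∀ g env, D.env g env → MulOK env (2 * (m g).L + 2) (τ g))
    (hB : Bd (fun g => ((m g).P + 1) * (m g).bud (τ g)) D.B) :
    ∃ f' : G → (ℕ → ℕ) → List Bool, Ar D (fun g => (m g).big) f' ∧ ∀ g,
      DInv (m g) fl (E g) (ε g) (X g) (Z g) (m g).P (f' g) := by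
  obtain ⟨K, hK⟩ := dft_bd
  obtain ⟨s', h1, h2⟩ := Lin.iter (h.lin.pair hA.tup) hA.P
    (fun g i s => ∃ f, s = (arr (m g).big f, (m g).tup) ∧
      DInv (m g) fl (E g) (ε g) (X g) (Z g) i f) (fun g => (m g).bud (τ g))
    (fun g => ⟨f g, rfl, hZ g⟩) ⟨K, by
      rintro g i s - ⟨f, rfl, hf⟩
      rw [hA.S]
      exact hK _ _ _ (hA.ok g) hf.1⟩ hB (by
    intro G1 α1 _ D1 θ i s ho hlt hI hi hs
    choose f1 e1 e2 using hI
    have hA1 := hA.over ho (hs.snd.congr fun r => by rw [e1])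
    obtain ⟨f2, k1, k2⟩ := Ar.gstep hA1 fl hi hlt
      (Ar.of_len hA1 (hs.fst.congr fun r => by rw [e1]) fun r => (e2 r).1) (fun r => (e2 r).1)
      (τ := fun r => τ (θ r)) (fun r env he => hm _ env (ho.env r env he)) (ho.bd (Bd.refl _))
    exact ⟨_, k1.lin.pair hA1.tup, fun r => ⟨f2 r, rfl, (e2 r).succ (hA.ok _) (hX _) (hε _) (hlt r)
      (k2 r).1 ((k2 r).2 _ (hA.ok _).neg)⟩⟩)
  choose f1 e1 e2 using h2
  exact ⟨f1, Ar.of_len hA (h1.fst.congr fun r => by rw [e1]) fun r => (e2 r).1, e2⟩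

theorem Ar.dft1 (hA : Av D m) (fl : Bool) (h : Ar D (fun g => (m g).sq) f)
    (hZ : ∀ g, ARa (m g).L (m g).sq (E g) (ε g) (X g) (Z g) (f g))
    (hm : ∀ g env, D.env g env → MulOK env (2 * (m g).L + 2) (τ g))
    (hB : Bd (fun g => ((m g).P + 1) * (m g).bud (τ g)) D.B) :
    ∃ f' : G → (ℕ → ℕ) → List Bool, Ar D (fun g => (m g).sq) f' ∧ ∀ g,
      ARa (m g).L (m g).sq (E g + 3 * (m g).P * (m g).b0)
        ((m g).Γ ^ (m g).P * (ε g + (m g).P * (2 / 2 ^ (m g).p) * X g)) ((m g).Γ ^ (m g).P * X g)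
        (dft (m g).qs fl 1 (Z g)) (f' g) := by
  obtain ⟨ρ, h1, hρ⟩ := Ar.place hA h fun g xs hx => (hZ g xs hx).1
  have v0 : ∀ g, Valid (m g).sq fun _ => 0 := fun g i => getD_pos1 (hA.ok g).sq_pos i
  have v1 : ∀ g ys, Valid (m g).big ys →
      Valid (m g).sq (consF (ρ g (ys 0) (ys 1) (ys 3)) fun i => ys (i + 4)) := fun g ys hy =>
    aL_valid_consF ((hρ g).1 ys hy) fun i => hy (i + 4)
  obtain ⟨f2, h2, s2⟩ := Ar.grun (E := E) (ε := ε) (X := X)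
    (Z := fun g ys => Z g (consF (ρ g (ys 0) (ys 1) (ys 3)) fun i => ys (i + 4))) hA fl h1
    (fun g => (norm_nonneg _).trans (hZ g _ (v0 g)).2.2) (fun g => (hZ g _ (v0 g)).2.1.nonneg)
    (fun g => ⟨fun ys hy => (hZ g _ (v1 g ys hy)).1, fun ys hy => by
      simpa [P338.grun] using (hZ g _ (v1 g ys hy.1)).2⟩) hm hB
  refine ⟨_, Ar.unplace hA h2, fun g xs hx => ?_⟩
  have hu := upA_valid (hA.ok g) hx
  have e := (s2 g).2 _ hu
  have e1 : dft (m g).qs fl 4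
      (fun ys => Z g (consF (ρ g (ys 0) (ys 1) (ys 3)) fun i => ys (i + 4))) (upA (m g).qs xs) =
      dft (m g).qs fl 1 (Z g) xs := by
    refine Finset.sum_congr rfl fun y _ => congrArg₂ _ rfl (congrArg _ (funext fun j => ?_))
    rcases j with _ | _ | j
    · simpa [consF] using (hρ g).2 xs hx
    · simp [consF]
    · simp [consF, upA]
  rw [grun_P (hA.ok g) fl _ hu.1 hu.2, e1, (hA.ok g).rp.1,
    show (m g).P * (3 * (m g).b0) = 3 * (m g).P * (m g).b0 by ring] at e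
  exact ⟨(s2 g).1 _ hu.1, e⟩

theorem Ar.trA (hA : Av D m) (h : Ar D (fun g => (m g).sq) f)
    (hZ : ∀ g, ARa (m g).L (m g).sq (E g) (ε g) (X g) (Z g) (f g))
    (hB : Bd (fun g => ((m g).P + 1) * (m g).bud (τ g)) D.B) :
    ∃ f' : G → (ℕ → ℕ) → List Bool, Ar D (fun g => (m g).sq) f' ∧ ∀ g,
      ARa (m g).L (m g).sq (E g) (ε g) (X g) (P338.tr (Z g)) (f' g) := by
  refine ⟨_, Ar.transp (A := fun g => (m g).n.size) h (fun g xs hx => (hZ g xs hx).1)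
    (fun g => (hA.ok g).hB) (fun g => ⟨(m g).d, (hA.ok g).hd.1,
      ((pow_dvd_pow _ (Nat.le_add_left _ _)).trans (hA.ok g).hW).mul_left 2⟩)
    (hB.le fun g => ?_), fun g xs hx => hZ g _ fun j => ?_⟩
  · refine le_trans ?_ (Nat.le_mul_of_pos_left _ (Nat.succ_pos _))
    show _ * ((m g).sq.prod * _) ≤ _
    rw [Pm.prod_sq, Pm.bud, mul_left_comm]
    refine Nat.mul_le_mul_left _ (le_trans ?_ (Nat.le_add_right _ _))
    exact Nat.mul_le_mul_right _ (Nat.le_mul_of_pos_left _ (Nat.succ_pos _))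
  · rcases j with _ | _ | j
    · exact hx 1
    · exact hx 0
    · rw [comp_apply, Equiv.swap_apply_of_ne_of_ne (by omega) (by omega)]
      exact hx _

theorem Ar.dft2 (hA : Av D m) (fl : Bool) (h : Ar D (fun g => (m g).sq) f)
    (hZ : ∀ g, ARa (m g).L (m g).sq (E g) (ε g) (X g) (Z g) (f g))
    (hm : ∀ g env, D.env g env → MulOK env (2 * (m g).L + 2) (τ g))
    (hB : Bd (fun g => ((m g).P + 1) * (m g).bud (τ g)) D.B) :
    ∃ f' : G → (ℕ → ℕ) → List Bool, Ar D (fun g => (m g).sq) f' ∧ ∀ g,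
      ARa (m g).L (m g).sq (E g + 6 * (m g).P * (m g).b0)
        (((m g).Γ ^ (m g).P) ^ 2 * (ε g + 2 * ((m g).P * (2 / 2 ^ (m g).p)) * X g))
        (((m g).Γ ^ (m g).P) ^ 2 * X g) (P338.dft2 (m g).qs fl (Z g)) (f' g) := by
  obtain ⟨f1, h1, s1⟩ := Ar.dft1 hA fl h hZ hm hB
  obtain ⟨f2, h2, s2⟩ := Ar.trA hA h1 s1 hB
  obtain ⟨f3, h3, s3⟩ := Ar.dft1 hA fl h2 s2 hm hB
  obtain ⟨f4, h4, s4⟩ := Ar.trA hA h3 s3 hB
  refine ⟨f4, h4, fun g => ?_⟩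
  convert s4 g using 1
  · ring
  · ring
  · ring
  · rfl

end Vale.Agent.P338
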