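import Mathlib

/-! Abstract networks: facts are pairs (frame, logical value).  Moving a value along an edge
between frames costs one, a linear update inside one frame costs nothing. -/

namespace Vale.Agent.P338

open Set Matrix

inductive Net (k : Type) {Φ M : Type} [CommRing k] [AddCommGroup M] [Module k M]
    (Ed : Φ → Φ → Prop) : Set (Φ × M) → ℕ → Set (Φ × M) → Prop
  | done {S T : Set (Φ × M)} {s : ℕ} : T ⊆ S → Net k Ed S s T
  | edge {S T : Set (Φ × M)} {s : ℕ} {B B' : Φ} {l : M} : (B, l) ∈ S → Ed B B' →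
      Net k Ed (insert (B', l) S) s T → Net k Ed S (s + 1) T
  | add {S T : Set (Φ × M)} {s : ℕ} {B : Φ} {a b : M} (c : k) : (B, a) ∈ S → (B, b) ∈ S →
      Net k Ed (insert (B, a + c • b) S) s T → Net k Ed S s T

/-- number of registers, `2 * 969 ^ 2 + 2 * 969 ^ 3` -/
@[irreducible] def W : ℕ := 1821584340

/-- the saving, `969 * 209` -/
@[irreducible] def sav : ℕ := 202521

theorem W_eq : W = 1821584340 := by unfold W; rfl
theorem sav_eq : sav = 202521 := by unfold sav; rfl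
theorem W_pos : 0 < W := by rw [W_eq]; norm_num

/-- every entry is zero or plus or minus a power of two -/
def Nice {N : Type} (a : N → ℤ) : Prop := ∀ i, a i = 0 ∨ ∃ j : ℕ, (a i).natAbs = 2 ^ j

/-- edges of the first network; the frame `ρ` stands for the linear map `ρ / 2` -/
def Ed1 (ρ ρ' : Matrix (Fin 400) (Fin 400) ℤ) : Prop :=
  ∃ a b : Fin 400 → ℤ, Nice a ∧ Nice b ∧ b ⬝ᵥ a = 4 ∧ (2 : ℤ) • ρ' = ρ * (2 - vecMulVec a b)

def lift2 (x : ZMod 2) : ZMod 4 := (x.val : ZMod 4)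

/-- edges of the second network -/
def Ed2 (q q' : (Fin 361 → ZMod 2) → ZMod 4) : Prop :=
  ∃ u w : Fin 361 → ZMod 2, ∀ ξ, q' ξ = q ξ + lift2 (u ⬝ᵥ ξ) + 2 * lift2 (w ⬝ᵥ ξ)

def q1 {N : Type} [Fintype N] (ξ : N → ZMod 2) : ZMod 4 := ∑ i, lift2 (ξ i)

end Vale.Agent.P338
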