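import Vale.Agent.P338.Loop
import Vale.Agent.P338.NetDefs

/-! Relational loop and extraction of a program from an abstract network. -/

namespace Vale.Agent.P338

open Vale.Agent.Lib Vale.Agent.Lib.H23 Enc Set

variable {G α β γ σ π : Type} [Enc α] [Enc β] [Enc γ] [Enc σ] [Enc π] {D : Dom G α}

theorem Cost.pair {f : G → β} {f' : G → γ} {t : G → ℕ} (h : Cost D t f) (h' : Lin D f') :
    Cost D t fun g => (f g, f' g) := by
  obtain ⟨c, K, h⟩ := h
  obtain ⟨c', K', h'⟩ := h'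
  obtain ⟨K'', hB⟩ := D.hB
  refine ⟨pairP c c', K + 9 * K' + 26 * K'' + 11, fun g env he =>
    (rns_pair (h g env he) (h' g env he)).mono ?_⟩
  have h1 := hB g
  have h2 := D.pos g
  unfold sz at h1
  dsimp only at h1
  nlinarith

theorem Over.refl (D : Dom G α) : Over D D id D.B := ⟨fun _ _ h => h, fun _ => rfl, fun _ => rfl⟩

theorem Over.wi {G1 : Type} {D1 : Dom G1 β} {θ : G1 → G} {b : G1 → ℕ} (h : Over D D1 θ b)
    (x : G1 → γ) (hx : Bd (fun g => sz (x g)) D1.B) : Over D (D1.wi x hx) θ b :=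
  ⟨h.env, h.S, h.B⟩

theorem Over.res {G1 G2 : Type} {D1 : Dom G1 β} {θ : G1 → G} {b : G1 → ℕ} (h : Over D D1 θ b)
    (η : G2 → G1) : Over D (D1.res η) (fun r => θ (η r)) fun r => b (η r) :=
  ⟨fun r => h.env (η r), fun r => h.S (η r), fun r => h.B (η r)⟩

theorem Over.trans {G1 G2 : Type} {D1 : Dom G1 β} {D2 : Dom G2 γ} {θ : G1 → G} {η : G2 → G1}
    {b : G1 → ℕ} {b' : G2 → ℕ} (h : Over D D1 θ b) (h' : Over D1 D2 η b') :
    Over D D2 (fun r => θ (η r)) b' :=
  ⟨fun r e he => h.env _ e (h'.env r e he), fun r => (h'.S r).trans (h.S _), h'.B⟩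

theorem Over.bd {G1 : Type} {D1 : Dom G1 β} {θ : G1 → G} {b : G1 → ℕ} (h : Over D D1 θ b)
    {f : G1 → ℕ} (hf : Bd f b) : Bd f D1.B := by
  obtain ⟨K, hf⟩ := hf
  exact ⟨K, fun r => by rw [h.B]; exact hf r⟩

/-- After a costly computation of `x`, continue in a domain where `x` and `p` are available. -/
theorem Cost.andThen {x : G → β} {p : G → π} {y : G → γ} {t t' : G → ℕ} (hx : Cost D t x)
    (hs : Bd (fun g => sz (x g)) D.B) (hp : Lin D p)
    (h : ∀ D1 : Dom G (β × π), Over D D1 id D.B → Lin D1 x → Lin D1 p → Cost D1 t' y) :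
    Cost D (fun g => t g + t' g) y := by
  have hs' : Bd (fun g => sz (x g, p g)) D.B :=
    ((hs.add hp.size).add (Bd.const 1 D.pos)).le fun g => by rw [sz_pair]
  exact (hx.pair hp).wi (h := hs') (h _ ((Over.refl D).wi _ hs') (Lin.inp (D := D.wi _ hs')).fst
    (Lin.inp (D := D.wi _ hs')).snd)

/-- A loop with a large state and a relational invariant. -/
theorem Lin.iter {s0 : G → σ} {n : G → ℕ} (hs : Lin D s0) (hn : LS D n)
    (I : G → ℕ → σ → Prop) (b : G → ℕ) (h0 : ∀ g, I g 0 (s0 g))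
    (hsz : ∃ K, ∀ g i s, i ≤ n g → I g i s → sz s + Lam (D.S g) ≤ K * b g)
    (hB : Bd (fun g => (n g + 1) * b g) D.B)
    (hstep : ∀ (G1 α1 : Type) [Enc α1] (D1 : Dom G1 α1) (θ : G1 → G) (i : G1 → ℕ) (s : G1 → σ),
      Over D D1 θ (fun r => b (θ r)) → (∀ r, i r < n (θ r)) → (∀ r, I (θ r) (i r) (s r)) →
      LS D1 i → Lin D1 s → ∃ s' : G1 → σ, Lin D1 s' ∧ ∀ r, I (θ r) (i r + 1) (s' r)) :
    ∃ s' : G → σ, Lin D s' ∧ ∀ g, I g (n g) (s' g) := by
  classical
  obtain ⟨K, hK⟩ := hsz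
  let G1 := {q : G × ℕ × σ // q.2.1 < n q.1 ∧ I q.1 q.2.1 q.2.2}
  have si : Small (D.res fun q : G1 => q.1.1) fun q => q.1.2.1 :=
    (hn.2.res _).nat_le fun q => q.2.1.le
  obtain ⟨K', hK'⟩ := si.bd
  let D1 : Dom G1 (σ × ℕ) := D.sub (fun q => q.1.1) (fun q => (q.1.2.2, q.1.2.1))
    (fun q => b q.1.1)
    ⟨K' * K + 2 * K, fun q => by
      have h1 := hK _ _ _ q.2.1.le q.2.2
      have h2 : sz q.1.2.1 ≤ K' * Lam (D.S q.1.1) := hK' q
      have h3 : K' * Lam (D.S q.1.1) ≤ K' * (K * b q.1.1) := Nat.mul_le_mul_left _ (by omega)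
      have h4 := Lam_pos (D.S q.1.1)
      dsimp only
      rw [sz_pair]
      nlinarith⟩
    ⟨K, fun q => by have h1 := hK _ _ _ q.2.1.le q.2.2; dsimp only; omega⟩
  obtain ⟨s', h1, h2⟩ := hstep G1 _ D1 (fun q => q.1.1) (fun q => q.1.2.1) (fun q => q.1.2.2)
    ⟨fun _ _ h => h, fun _ => rfl, fun _ => rfl⟩ (fun q => q.2.1) (fun q => q.2.2)
    ⟨(Lin.inp (D := D1)).snd, si⟩ (Lin.inp (D := D1)).fst
  let nx : G → σ → ℕ → σ := fun g s i =>
    if h : i < n g ∧ I g i s then s' ⟨(g, i, s), h⟩ else s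
  have hΛ : Bd (fun g => n g * Lam (D.S g)) D.B := (hB.cmul K).le fun g => by
    have := hK g 0 _ (Nat.zero_le _) (h0 g)
    have h3 : n g * Lam (D.S g) ≤ n g * (K * b g) := Nat.mul_le_mul_left _ (by omega)
    nlinarith [Nat.zero_le (K * b g)]
  have hfin : ∀ g k s, k ≤ n g → I g (n g - k) s →
      ∃ z, P338.scan (fun s i => (([] : List σ), nx g s i)) (fun s => [s]) s
        (List.range' (n g - k) k) = [z] ∧ I g (n g) z := by
    intro g k
    induction k with
    | zero => intro s _ h; exact ⟨s, rfl, by simpa using h⟩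
    | succ k ih =>
      intro s hk h
      have e : n g - (k + 1) + 1 = n g - k := by omega
      have hc : n g - (k + 1) < n g ∧ I g (n g - (k + 1)) s := ⟨by omega, h⟩
      have h3 := h2 ⟨(g, n g - (k + 1), s), hc⟩
      dsimp only at h3
      rw [e] at h3
      obtain ⟨z, hz, hI⟩ := ih _ (by omega) h3
      refine ⟨z, ?_, hI⟩
      rw [List.range'_succ, P338.scan, e]
      simp only [nx, dif_pos hc, List.nil_append]
      exact hz
  have k1 := Lin.scan (D := D) (D1 := D1) (D2 := D0 σ) (o2 := fun s => [s])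
    ((Lin.const ([] : List σ)).pair h1) (by fun_prop)
    (fun g s i => (([] : List σ), nx g s i)) (fun _ s => [s]) hs (Lin.range hn hΛ)
    (fun g s l => l.length ≤ n g ∧ l = List.range' (n g - l.length) l.length ∧
      I g (n g - l.length) s)
    (fun g _ l => l.length * b g + K * b g)
    (fun g => by simp [List.range_eq_range', h0]) ?_ ?_ ?_
  · refine ⟨fun g => (P338.scan (fun s i => (([] : List σ), nx g s i)) (fun s => [s]) (s0 g)
      (List.range (n g))).headD (s0 g), k1.headD hs, fun g => ?_⟩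
    obtain ⟨z, hz, hI⟩ := hfin g (n g) (s0 g) le_rfl (by simpa using h0 g)
    simp only [Nat.sub_self] at hz
    simp only [List.range_eq_range', hz]
    exact hI
  · rintro g s x l ⟨e1, e2, e3⟩
    simp only [List.length_cons, List.range'_succ, List.cons.injEq] at e1 e2 e3
    obtain ⟨rfl, e2⟩ := e2
    have e : n g - (l.length + 1) + 1 = n g - l.length := by omega
    have hc : n g - (l.length + 1) < n g ∧ I g (n g - (l.length + 1)) s := ⟨by omega, e3⟩
    have h3 := h2 ⟨(g, n g - (l.length + 1), s), hc⟩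
    dsimp only at h3
    rw [e] at h3 e2
    refine ⟨⟨by omega, e2, ?_⟩, ⟨(g, _, s), hc⟩, fun _ h => h, rfl, ?_, ?_⟩
    · simp only [nx, dif_pos hc]; exact h3
    · simp only [nx, dif_pos hc]
    · show b g + _ ≤ _
      simp only [List.length_cons]
      nlinarith
  · rintro g s ⟨-, -, e3⟩
    refine ⟨s, fun _ _ => trivial, rfl, rfl, ?_⟩
    have := hK g _ s (Nat.sub_le _ _) e3
    show sz s ≤ _
    omega
  · refine (hB.cmul (K + 1)).le fun g => ?_
    simp only [List.length_range]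
    nlinarith [Nat.zero_le (K * n g * b g)]

section Extract

variable {k Φ M A : Type} [CommRing k] [AddCommGroup M] [Module k M] [Enc A] [Inhabited A]
  {Ed : Φ → Φ → Prop}

/-- The hypotheses of the extraction theorem: `Rel g B l a` says that the register `a` holds the
logical value `l` in the frame `B`. -/
structure NetSys (k : Type) [CommRing k] [Module k M] (Ed : Φ → Φ → Prop) (D : Dom G α)
    (p : G → π) (τ : G → ℕ) (Rel : G → Φ → M → A → Prop) : Prop where
  size : ∃ K, ∀ g B l a, Rel g B l a → sz a ≤ K * D.B g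
  edge : ∀ B B', Ed B B' → ∀ (α1 : Type) [Enc α1] (D1 : Dom G α1) (l : M) (a : G → A),
    Over D D1 id D.B → (∀ g, Rel g B l (a g)) → Lin D1 p → Lin D1 a →
    ∃ a' : G → A, Cost D1 τ a' ∧ ∀ g, Rel g B' l (a' g)
  add : ∀ (c : k) (B : Φ) (α1 : Type) [Enc α1] (D1 : Dom G α1) (l l' : M) (a a' : G → A),
    Over D D1 id D.B → (∀ g, Rel g B l (a g)) → (∀ g, Rel g B l' (a' g)) → Lin D1 p →
    Lin D1 a → Lin D1 a' → ∃ a'' : G → A, Lin D1 a'' ∧ ∀ g, Rel g B (l + c • l') (a'' g)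

theorem NetSys.aux {p : G → π} {τ : G → ℕ} {Rel : G → Φ → M → A → Prop}
    (h : NetSys k Ed D p τ Rel) {S T : Set (Φ × M)} {e : ℕ} (hn : Net k Ed S e T) :
    ∀ (α1 : Type) [Enc α1] (D1 : Dom G α1), Over D D1 id D.B → Lin D1 p →
      (∀ v ∈ S, ∃ a : G → A, Lin D1 a ∧ ∀ g, Rel g v.1 v.2 (a g)) → S.Finite →
      ∀ out : List (Φ × M), (∀ v ∈ out, v ∈ T) → ∃ r : G → List A,
        Cost D1 (fun g => e * τ g) r ∧ ∀ g, List.Forall₂ (fun v a => Rel g v.1 v.2 a) out (r g) := by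
  obtain ⟨K, hK⟩ := h.size
  have base : ∀ (α1 : Type) [Enc α1] (D1 : Dom G α1) (out : List (Φ × M)),
      (∀ v ∈ out, ∃ a : G → A, Lin D1 a ∧ ∀ g, Rel g v.1 v.2 (a g)) → ∃ r : G → List A,
        Lin D1 r ∧ ∀ g, List.Forall₂ (fun v a => Rel g v.1 v.2 a) out (r g) := by
    intro α1 _ D1 out
    induction out with
    | nil => intro _; exact ⟨fun _ => [], Lin.const _, fun _ => List.Forall₂.nil⟩
    | cons v out ih =>
      intro ho
      obtain ⟨a, h1, h2⟩ := ho v (by simp)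
      obtain ⟨r, h3, h4⟩ := ih fun w hw => ho w (by simp [hw])
      exact ⟨fun g => a g :: r g, h1.cons h3, fun g => List.Forall₂.cons (h2 g) (h4 g)⟩
  induction hn with
  | done hT =>
    intro α1 _ D1 _ _ hS _ out ho
    obtain ⟨r, h1, h2⟩ := base α1 D1 out fun v hv => hS v (hT (ho v hv))
    exact ⟨r, h1.cost _, h2⟩
  | @add S T s B a b c ha hb _ ih =>
    intro α1 _ D1 hD hp hS hf out ho
    obtain ⟨x, hx, hx'⟩ := hS _ ha
    obtain ⟨y, hy, hy'⟩ := hS _ hb
    obtain ⟨z, hz, hz'⟩ := h.add c B α1 D1 a b x y hD hx' hy' hp hx hy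
    refine ih α1 D1 hD hp ?_ (hf.insert _) out ho
    rintro v (rfl | hv)
    · exact ⟨z, hz, hz'⟩
    · exact hS v hv
  | @edge S T s B B' l hl hE _ ih =>
    intro α1 _ D1 hD hp hS hf out ho
    obtain ⟨x, hx, hx'⟩ := hS _ hl
    obtain ⟨z, hz, hz'⟩ := h.edge B B' hE α1 D1 l x hD hx' hp hx
    obtain ⟨r, h1, h2⟩ := base α1 D1 hf.toFinset.toList fun v hv => hS v (by simpa using hv)
    have hzs : Bd (fun g => sz (z g)) D1.B := hD.bd ⟨K, fun g => hK g _ _ _ (hz' g)⟩
    have hs' : Bd (fun g => sz (z g, r g, p g)) D1.B :=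
      ((hzs.add (h1.pair hp).size).add (Bd.const 1 D1.pos)).le fun g => by rw [sz_pair]
    have i0 := Lin.inp (D := D1.wi _ hs')
    obtain ⟨r', h3, h4⟩ := ih _ (D1.wi _ hs') (hD.wi _ hs') i0.snd.snd (by
      rintro v (rfl | hv)
      · exact ⟨z, i0.fst, hz'⟩
      · obtain ⟨j, hj, e⟩ := List.getElem_of_mem
          (show v ∈ hf.toFinset.toList by simpa using hv)
        refine ⟨fun g => (r g).getD j default, i0.snd.fst.getDC j (Lin.const _), fun g => ?_⟩
        have h5 := (h2 g).length_eq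
        have h6 := (h2 g).get hj (h5 ▸ hj)
        simp only [List.get_eq_getElem, e] at h6
        show Rel g v.1 v.2 ((r g).getD j default)
        rw [List.getD_eq_getElem _ _ (h5 ▸ hj)]
        exact h6) (hf.insert _) out ho
    refine ⟨r', ((hz.pair (h1.pair hp)).wi (h := hs') h3).mono fun g => ?_, h4⟩
    nlinarith

theorem NetSys.extract {p : G → π} {τ : G → ℕ} {Rel : G → Φ → M → A → Prop}
    (h : NetSys k Ed D p τ Rel) {n e : ℕ} {v v' : Fin n → Φ × M}
    (hn : Net k Ed (range v) e (range v')) (hp : Lin D p) {a : G → ℕ → A}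
    (ha : Lin D fun g => (List.range n).map (a g))
    (hr : ∀ g (i : Fin n), Rel g (v i).1 (v i).2 (a g i)) :
    ∃ a' : G → ℕ → A, Cost D (fun g => e * τ g) (fun g => (List.range n).map (a' g)) ∧
      ∀ g (i : Fin n), Rel g (v' i).1 (v' i).2 (a' g i) := by
  obtain ⟨r, h1, h2⟩ := h.aux hn α D (Over.refl D) hp (by
    rintro _ ⟨i, rfl⟩
    refine ⟨fun g => a g i, (ha.getDC i (Lin.const default)).congr fun g => ?_, fun g => hr g i⟩
    simp [List.getD_eq_getElem?_getD]) (finite_range v) (List.ofFn v') (by simp)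
  have hl : ∀ g, (r g).length = n := fun g => by simpa using (h2 g).length_eq.symm
  refine ⟨fun g i => (r g).getD i default, h1.congr fun g => ?_, fun g i => ?_⟩
  · apply List.ext_getElem
    · simp [hl]
    · intro i h3 h4
      simp [List.getD_eq_getElem?_getD, h4]
  · have h6 := (h2 g).get (i := i) (by simp) (by simp [hl])
    simp only [List.get_eq_getElem, List.getElem_ofFn] at h6
    show Rel g (v' i).1 (v' i).2 ((r g).getD i default)
    rw [List.getD_eq_getElem _ _ (by simp [hl])]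
    exact h6

end Extract

end Vale.Agent.P338
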