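import Vale.Agent.P338.ParB

namespace Vale.Agent.P338

open Vale.Agent.Lib Vale.Agent.Lib.H23 Enc

namespace Par

def pY (n : ℕ) : ℕ := 2 * n.size + 4
def pt (n : ℕ) : ℕ := (pY n ^ 4).size
noncomputable def pu (n : ℕ) : ℕ := (cP + 1) * pY n ^ 8
noncomputable def pP (n : ℕ) : ℕ := cP * (pt n + 1)
noncomputable def pS (n : ℕ) : ℕ := 10 * (pP n + pt n + 1) * (pu n * pu n + n.size + 10)
noncomputable def pW (n : ℕ) : ℕ := W ^ ((pS n).size + (pS n).size)
noncomputable def pL (n : ℕ) : ℕ := 18 * pP n * Lam (pS n) + 3 * Lam (pS n)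
noncomputable def pΛ (n : ℕ) : ℕ := Lam (2 * pL n + 2)
def bet (l : List ℕ) : ℕ := (l.prod ^ 2 + 1) / 2
noncomputable def pD (n : ℕ) (l : List ℕ) : ℕ := Lam (pS n) * pW n * bet l * bet l
noncomputable def cnd (n : ℕ) (l : List ℕ) (j : ℕ) : Bool := ltb (pD n (l.take (j + 1)) * pΛ n) (n + 1)
noncomputable def pq (n : ℕ) (l : List ℕ) : List ℕ :=
  l.take ((List.range l.length).filter (cnd n l)).length
noncomputable def pm (n : ℕ) (l : List ℕ) : Pm :=
  ⟨n, pq n l, pt n, pu n, pS n, (pS n).size, pW n * (n / pD n (pq n l) + 1)⟩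

/-- computable in unary -/
def PU (f : ℕ → ℕ) : Prop := PT fun a => (⟨f a⟩ : Un)

variable {f g : ℕ → ℕ}

theorem PU.add (hf : PU f) (hg : PU g) : PU fun a => f a + g a := PT_unAdd hf hg
theorem PU.mul (hf : PU f) (hg : PU g) : PU fun a => f a * g a := PT_unMul hf hg
theorem PU.const (c : ℕ) : PU fun _ => c := PT.const _
theorem PU.size (hf : PT f) : PU fun a => (f a).size := PT_unSize hf
theorem PU.pt (hf : PU f) : PT f := PT_unn hf
theorem PU.pow (hf : PU f) (k : ℕ) : PU fun a => f a ^ k := by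
  induction k with
  | zero => exact PU.const 1
  | succ k ih => exact ih.mul hf

theorem PU_lg : PU fun n => n.size := PU.size PT.id
theorem PU_Y : PU pY := ((PU.const 2).mul PU_lg).add (PU.const 4)
theorem PU_t : PU pt := PU.size (PU_Y.pow 4).pt
theorem PU_u : PU pu := (PU.const _).mul (PU_Y.pow 8)
theorem PU_P : PU pP := (PU.const _).mul (PU_t.add (PU.const 1))
theorem PU_S : PU pS := ((PU.const 10).mul ((PU_P.add PU_t).add (PU.const 1))).mul
  (((PU_u.mul PU_u).add PU_lg).add (PU.const 10))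
theorem PT_W : PT pW := PT_pow (PT.const W) ((PU.size PU_S.pt).add (PU.size PU_S.pt))
theorem PT_b0 : PT fun n => Lam (pS n) := PT_Lam' PU_S.pt
theorem PT_L : PT pL :=
  (((PT.const 18).mul PU_P.pt).mul PT_b0).add ((PT.const 3).mul PT_b0)
theorem PT_Λ : PT pΛ := PT_Lam' (((PT.const 2).mul PT_L).add (PT.const 2))

theorem PT_bet {α : Type} [Enc α] {l : α → List ℕ} (hl : PT l) : PT fun a => bet (l a) :=
  (PT_div (((PT_prod hl).mul (PT_prod hl)).add (PT.const 1)) (PT.const 2)).congr fun a => by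
    rw [bet, sq]

theorem PT_D {α : Type} [Enc α] {n : α → ℕ} {l : α → List ℕ} (hn : PT n) (hl : PT l) :
    PT fun a => pD (n a) (l a) :=
  (((PT_b0.comp hn).mul (PT_W.comp hn)).mul (PT_bet hl)).mul (PT_bet hl)

theorem PT_q {l : ℕ → List ℕ} (hl : PT l) : PT fun n => pq n (l n) := by
  refine PT_take (PT.length (PT_filter (f := fun n j => cnd n (l n) j) ?_
    (PT_range (PT_unLen hl)))) hl
  have h1 : PT fun p : ℕ × ℕ => p.1 := by fun_prop
  have h2 : PT fun p : ℕ × ℕ => p.2 + 1 := by fun_prop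
  exact ((PT_D h1 (PT_take h2 (hl.comp h1))).mul (PT_Λ.comp h1)).ltb (h1.add (PT.const 1))

theorem PT_sm {l : ℕ → List ℕ} (hl : PT l) : PT fun n => (pm n (l n)).sm :=
  (PT_q hl).pair (PT.pair PU_t (PT.pair PU_u (PT.pair PU_S
    (PT_W.mul ((PT_div PT.id (PT_D PT.id (PT_q hl))).add (PT.const 1))))))

/-- binary size at most polynomial in `log log n` -/
def Sb (k : ℕ) (f : ℕ → ℕ) : Prop := ∃ C, ∀ n, (f n).size ≤ C * (n.size.size + 1) ^ k

variable {k : ℕ}

theorem Sb.mono {j : ℕ} (h : Sb k f) (e : k ≤ j) : Sb j f := by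
  obtain ⟨C, h⟩ := h
  exact ⟨C, fun n => (h n).trans
    (Nat.mul_le_mul_left _ (Nat.pow_le_pow_right (by omega) e))⟩

theorem Sb.mul (hf : Sb k f) (hg : Sb k g) : Sb k fun n => f n * g n := by
  obtain ⟨C, hf⟩ := hf
  obtain ⟨C', hg⟩ := hg
  exact ⟨C + C', fun n => (size_mul_le _ _).trans (by rw [add_mul]; exact add_le_add (hf n) (hg n))⟩

theorem Sb.add (hf : Sb k f) (hg : Sb k g) : Sb k fun n => f n + g n := by
  obtain ⟨C, hf⟩ := hf
  obtain ⟨C', hg⟩ := hg
  exact ⟨C + C', fun n => (size_add_le _ _).trans (by rw [add_mul]; exact add_le_add (hf n) (hg n))⟩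

theorem Sb.const (c : ℕ) : Sb k fun _ => c :=
  ⟨c.size, fun n => Nat.le_mul_of_pos_right _ (by positivity)⟩

theorem Sb.pow (hf : Sb k f) (j : ℕ) : Sb k fun n => f n ^ j := by
  induction j with
  | zero => exact Sb.const 1
  | succ j ih => exact ih.mul hf

theorem Sb.size (hf : Sb k f) : Sb k fun n => (f n).size := by
  obtain ⟨C, hf⟩ := hf
  exact ⟨C, fun n => (Nat.size_le.2 Nat.lt_two_pow_self).trans (hf n)⟩

theorem Sb.lam (hf : Sb k f) : Sb (2 * k) fun n => Lam (f n) := by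
  obtain ⟨C, hf⟩ := hf
  refine ⟨(C + 2) ^ 2, fun n => (size_Lam_le _).trans ?_⟩
  rw [mul_comm 2 k, pow_mul, ← mul_pow]
  have h1 : 0 < (n.size.size + 1) ^ k := by positivity
  exact Nat.pow_le_pow_left (by have := hf n; nlinarith) 2

theorem Sb.exp (hf : Sb k f) (c : ℕ) : Sb k fun n => c ^ ((f n).size + (f n).size) := by
  obtain ⟨C, hf⟩ := hf
  refine ⟨2 * C * c.size + 1, fun n => (size_pow_le _ _).trans ?_⟩
  have h1 : 0 < (n.size.size + 1) ^ k := by positivity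
  have h2 := Nat.mul_le_mul_right c.size (hf n)
  nlinarith

theorem Sb.lt (hf : Sb k f) : ∃ n0, ∀ n, n0 ≤ n → f n < n := by
  obtain ⟨C, hf⟩ := hf
  obtain ⟨n0, h⟩ := quasi C k
  exact ⟨n0, fun n hn => (Nat.size_le.1 (hf n)).trans_le (h n hn)⟩

theorem Sb_lg : Sb 1 fun n => n.size := ⟨1, fun n => by simp⟩
theorem Sb_Y : Sb 1 pY := ((Sb.const 2).mul Sb_lg).add (Sb.const 4)
theorem Sb_t : Sb 1 pt := (Sb_Y.pow 4).size
theorem Sb_u : Sb 1 pu := (Sb.const _).mul (Sb_Y.pow 8)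
theorem Sb_P : Sb 1 pP := (Sb.const _).mul (Sb_t.add (Sb.const 1))
theorem Sb_S : Sb 1 pS := ((Sb.const 10).mul ((Sb_P.add Sb_t).add (Sb.const 1))).mul
  (((Sb_u.mul Sb_u).add Sb_lg).add (Sb.const 10))
theorem Sb_W : Sb 4 pW := (Sb_S.exp W).mono (by norm_num)
theorem Sb_b0 : Sb 2 fun n => Lam (pS n) := Sb_S.lam
theorem Sb_L : Sb 2 pL :=
  (((Sb.const 18).mul (Sb_P.mono (by norm_num))).mul Sb_b0).add ((Sb.const 3).mul Sb_b0)
theorem Sb_w : Sb 2 fun n => 2 * pL n + 2 := ((Sb.const 2).mul Sb_L).add (Sb.const 2)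
theorem Sb_Λ : Sb 4 pΛ := Sb_w.lam
theorem Sb_T : Sb 4 fun n => pW n * (pY n ^ 8 * pΛ n) :=
  Sb_W.mul (((Sb_Y.pow 8).mono (by norm_num)).mul Sb_Λ)

theorem filter_anti (p : ℕ → Bool) (hp : ∀ j, p (j + 1) = true → p j = true) (N : ℕ) :
    ((List.range N).filter p).length ≤ N ∧
      (∀ j < ((List.range N).filter p).length, p j = true) ∧
      (((List.range N).filter p).length < N → p ((List.range N).filter p).length = false) := by
  have h0 : ∀ k j, p (j + k) = true → p j = true := by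
    intro k
    induction k with
    | zero => exact fun _ h => h
    | succ k ih => exact fun j h => ih j (hp _ h)
  induction N with
  | zero => simp
  | succ N ih =>
    obtain ⟨h1, h2, h3⟩ := ih
    rw [List.range_succ, List.filter_append, List.length_append]
    generalize ((List.range N).filter p).length = r at *
    cases h : p N with
    | false =>
      have e : (List.filter p [N]).length = 0 := by simp [h]
      rw [e, add_zero]
      refine ⟨by omega, h2, fun h4 => ?_⟩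
      rcases h1.eq_or_lt with rfl | h5
      · exact h
      · exact h3 h5
    | true =>
      have e : (List.filter p [N]).length = 1 := by simp [h]
      have e2 : r = N := by
        by_contra h5
        have h6 := h3 (by omega)
        have h7 := h0 (N - r) r (by rwa [show r + (N - r) = N by omega])
        simp [h6] at h7
      rw [e, e2]
      exact ⟨le_rfl, fun j hj => h0 (N - j) j (by rwa [show j + (N - j) = N by omega]),
        fun h => by omega⟩

theorem mods_take {l : List ℕ} (h : Mods l) (j : ℕ) : Mods (l.take j) :=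
  ⟨h.cop.sublist (List.take_sublist _ _), fun q hq => h.odd q (List.mem_of_mem_take hq),
    fun q hq => h.three q (List.mem_of_mem_take hq)⟩

theorem two_bet {l : List ℕ} (h : Mods l) : 2 * bet l = l.prod ^ 2 + 1 := by
  have h1 : Odd l.prod := List.prod_induction Odd (fun _ _ => Odd.mul) odd_one h.odd
  obtain ⟨c, hc⟩ := h1.pow (n := 2)
  rw [bet, hc]
  omega

theorem pow_le_prod {l : List ℕ} (h : Mods l) : 2 ^ l.length ≤ l.prod :=
  List.pow_card_le_prod l 2 fun q hq => by have := h.three q hq; omega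

theorem bet_succ {l : List ℕ} (h : Mods l) {Y : ℕ} (hY : ∀ q ∈ l, q ≤ Y ^ 2) {j : ℕ}
    (hj : j < l.length) : bet (l.take (j + 1)) ≤ Y ^ 4 * bet (l.take j) := by
  have h1 := two_bet (mods_take h j)
  have h2 := two_bet (mods_take h (j + 1))
  rw [List.prod_take_succ _ _ hj, mul_pow] at h2
  have h3 := hY _ (List.getElem_mem hj)
  have h4 := h.three _ (List.getElem_mem hj)
  have h5 : l[j] ^ 2 ≤ Y ^ 4 := (Nat.pow_le_pow_left h3 2).trans (by rw [← pow_mul])
  have h6 : 1 ≤ l[j] ^ 2 := Nat.one_le_pow _ _ (by omega)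
  have h7 := Nat.mul_le_mul_left ((l.take j).prod ^ 2 + 1) h5
  nlinarith

theorem bet_mono {l : List ℕ} (h : Mods l) (j : ℕ) : bet (l.take j) ≤ bet (l.take (j + 1)) := by
  refine Nat.div_le_div_right (Nat.succ_le_succ (Nat.pow_le_pow_left ?_ 2))
  rw [List.take_add_one, List.prod_append]
  refine Nat.le_mul_of_pos_right _ (List.prod_pos fun q hq => ?_)
  have := h.three q (List.mem_of_getElem? (by simpa using hq))
  omega

theorem select {n : ℕ} {l : List ℕ} (hl : Mods l) (hq : ∀ q ∈ l, q ≤ pY n ^ 2)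
    (h0 : 0 < l.length) (a1 : Lam (pS n) * (pW n * (pY n ^ 8 * pΛ n)) < n) :
    ∃ r, pq n l = l.take r ∧ 0 < r ∧ r ≤ l.length ∧ pD n (l.take r) * pΛ n ≤ n ∧
      (r < l.length → n < pY n ^ 8 * pΛ n * pD n (l.take r)) := by
  have hc : ∀ j, cnd n l j = true ↔ pD n (l.take (j + 1)) * pΛ n ≤ n := fun j => by
    simp [cnd]
  obtain ⟨r1, r2, r3⟩ := filter_anti (cnd n l) (fun j h => (hc j).2 (le_trans (by
    have := bet_mono hl (j + 1)
    unfold pD
    gcongr) ((hc _).1 h))) l.length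
  obtain ⟨r, hr⟩ : ∃ r, r = ((List.range l.length).filter (cnd n l)).length := ⟨_, rfl⟩
  have eq : pq n l = l.take r := by rw [hr]; rfl
  rw [← hr] at r1 r2 r3
  have step : ∀ j < l.length, pD n (l.take (j + 1)) ≤ pY n ^ 8 * pD n (l.take j) := fun j hj => by
    have := bet_succ hl hq hj
    calc pD n (l.take (j + 1)) ≤ Lam (pS n) * pW n * (pY n ^ 4 * bet (l.take j)) *
          (pY n ^ 4 * bet (l.take j)) := by unfold pD; gcongr
      _ = _ := by unfold pD; ring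
  have r0 : 0 < r := by
    by_contra h
    have h0 : r = 0 := by omega
    have h1 := r3 (by omega)
    have h2 := Nat.mul_le_mul_right (pΛ n) (step 0 (by omega))
    have h3 : pD n (l.take 0) = Lam (pS n) * pW n := by simp [pD, bet]
    rw [h0, ← Bool.not_eq_true, hc] at h1
    rw [h3] at h2
    exact h1 (h2.trans (le_trans (le_of_eq (by ring)) a1.le))
  refine ⟨r, eq, r0, r1, ?_, fun h => ?_⟩
  · have := (hc _).1 (r2 (r - 1) (by omega))
    rwa [show r - 1 + 1 = r by omega] at this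
  · have h1 := r3 h
    rw [← Bool.not_eq_true, hc, not_le] at h1
    have h2 := Nat.mul_le_mul_right (pΛ n) (step r h)
    exact h1.trans_le (h2.trans (le_of_eq (by ring)))

theorem S_ge (P t U g : ℕ) :
    10 + P + g + (g + U + 1) * (6 * P) + g ≤ 10 * (P + t + 1) * (U + g + 10) ∧
      t * g + t + U ≤ 10 * (P + t + 1) * (U + g + 10) := by
  constructor
  · nlinarith [Nat.zero_le (t * (U + g + 10))]
  · nlinarith [Nat.zero_le (P * (U + g + 10)), Nat.zero_le (t * U)]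

theorem ok_of {n T : ℕ} {l : List ℕ} (hm : Mods l) (hq : ∀ q ∈ l, pY n < q ∧ q ≤ pY n ^ 2)
    (b4 : 2 ≤ bet l) (b5 : l.prod ^ 2 ≤ n) (b6 : l.length < n.size) (hT : pW n ∣ T)
    (hT3 : n ≤ Lam (pS n) * T * bet l * bet l) (hT4 : Lam (pS n) * T * bet l * bet l ≤ 2 * n)
    (hT6 : pΛ n ≤ T) (a2 : (2 * pL n + 2) * Lam (pS n) < n) (l2 : 6 * pL n * (2 * T) < n) :
    Pm.OK ⟨n, l, pt n, pu n, pS n, (pS n).size, T⟩ := by
  have hb := le_Lam (pS n)
  have hΛ : 2 * pL n + 2 + 2 ≤ pΛ n := le_Lam _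
  have hn : n < 2 ^ n.size := Nat.lt_size_self n
  have hY : pY n = 2 * n.size + 4 := rfl
  have y4 : pY n ^ 4 < 2 ^ pt n := Nat.lt_size_self _
  have y1 : pY n ≤ pY n ^ 8 := Nat.le_self_pow (by norm_num) _
  have y8 : pY n ^ 4 ≤ pY n ^ 8 := Nat.pow_le_pow_right (by omega) (by norm_num)
  have t1 : 1 ≤ pt n := Nat.size_pos.2 (pow_pos (by omega) _)
  have eu : pu n = cP * pY n ^ 8 + pY n ^ 8 := by rw [pu]; ring
  have P1 : 1 ≤ pP n := Nat.mul_pos cP_pos (by omega)
  have eL : 3 * Lam (pS n) ≤ pL n := Nat.le_add_left _ _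
  have uu : pu n ≤ pu n * pu n := Nat.le_mul_self _
  obtain ⟨s1, s2⟩ : _ ≤ pS n ∧ _ ≤ pS n := S_ge (pP n) (pt n) (pu n * pu n) n.size
  have s3 : pS n < 2 ^ (pS n).size := Nat.lt_size_self _
  have l3 : 2 * T ≤ 2 ^ n.size :=
    le_trans (Nat.le_mul_of_pos_left _ (by omega)) (l2.trans hn).le
  refine ⟨hm, fun q h => ?_, ?_, ⟨t1, ?_⟩, ?_, ?_, ?_, ⟨?_, ?_⟩, b6.le, hT, ⟨hT3, hT4⟩, hT6,
    ?_, ?_, b4, ?_, ?_, ?_, P1, ?_, l2, a2.le⟩
  · obtain ⟨q1, q2⟩ := hq q h
    have q3 : q ^ 2 ≤ pY n ^ 4 := (Nat.pow_le_pow_left q2 2).trans (by rw [← pow_mul])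
    have q4 : q ^ 4 ≤ pY n ^ 8 := (Nat.pow_le_pow_left q2 4).trans (by rw [← pow_mul])
    have q5 := Nat.mul_le_mul_left cP q4
    show 2 * l.length ≤ q ∧ q ^ 2 ≤ 2 ^ pt n ∧ cP * q ^ 4 ≤ pu n ∧ q ^ 2 ≤ pu n
    omega
  · show cP * l.length ≤ pu n
    have := Nat.mul_le_mul_left cP (show l.length ≤ pY n ^ 8 by omega)
    omega
  · show pt n ≤ pS n
    omega
  · show pu n ≤ pS n
    omega
  · show n.size ≤ pS n
    omega
  · exact b5.trans hn.le
  · show n.size < 2 ^ (pS n).size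
    omega
  · show pt n * l.length < 2 ^ (pS n).size
    have := Nat.mul_le_mul_left (pt n) b6.le
    omega
  · show 2 * T ≤ 2 ^ (2 * pL n - 4)
    exact l3.trans (Nat.pow_le_pow_right (by norm_num) (by omega))
  · show 4 ≤ T
    omega
  · show 1024 * pP n * (2 * T) * (2 ^ (l.length + pu n * pu n + 1)) ^
      (6 * pP n) * 2 ^ l.length ≤ 2 ^ Lam (pS n)
    calc _ ≤ 2 ^ 10 * 2 ^ pP n * 2 ^ n.size * (2 ^ (n.size + pu n * pu n + 1)) ^ (6 * pP n) *
          2 ^ n.size := by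
          exact Nat.mul_le_mul (Nat.mul_le_mul (Nat.mul_le_mul (Nat.mul_le_mul (by norm_num)
            Nat.lt_two_pow_self.le) l3) (Nat.pow_le_pow_left (Nat.pow_le_pow_right (by norm_num)
            (by omega)) _)) (Nat.pow_le_pow_right (by norm_num) b6.le)
      _ ≤ _ := by
          rw [← pow_mul, ← pow_add, ← pow_add, ← pow_add, ← pow_add]
          exact Nat.pow_le_pow_right (by norm_num) (by omega)
  · show bet l * bet l * T + 1 ≤ 2 ^ Lam (pS n)
    have h1 : bet l * bet l * T ≤ 2 * n := by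
      refine le_trans ?_ hT4
      rw [mul_assoc (Lam _), mul_assoc (Lam _)]
      exact le_trans (le_of_eq (by ring)) (Nat.le_mul_of_pos_left _ (by omega))
    have h2 : 2 ^ (n.size + 1) ≤ 2 ^ Lam (pS n) := Nat.pow_le_pow_right (by norm_num) (by omega)
    rw [pow_succ] at h2
    omega
  · show l.length < 3 * Lam (pS n)
    omega
  · show 2 * pL n + 2 < n
    exact lt_of_le_of_lt (Nat.le_mul_of_pos_right _ (by omega)) a2

theorem main {n : ℕ} {l : List ℕ} (hl : Mods l) (hq : ∀ q ∈ l, pY n < q ∧ q ≤ pY n ^ 2)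
    (hlen : pY n ≤ l.length) (a1 : Lam (pS n) * (pW n * (pY n ^ 8 * pΛ n)) < n)
    (a2 : (2 * pL n + 2) * Lam (pS n) < n)
    (a3 : 12 * pL n * (pW n * (pY n ^ 8 * pΛ n)) < n) :
    (pm n l).OK ∧ (pm n l).T' ≤ pW n * (pY n ^ 8 * pΛ n) := by
  have hY : pY n = 2 * n.size + 4 := rfl
  obtain ⟨r, eq, r0, r1, hD, r3⟩ := select hl (fun q h => (hq q h).2) (by omega) a1
  have hb := Lam_pos (pS n)
  have hΛ : 0 < pΛ n := Lam_pos _
  have hW : 0 < pW n := pow_pos W_pos _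
  have hn : n < 2 ^ n.size := Nat.lt_size_self n
  have hm := mods_take hl r
  have hlr : (l.take r).length = r := by rw [List.length_take]; omega
  have hq' : ∀ q ∈ l.take r, pY n < q ∧ q ≤ pY n ^ 2 := fun q h => hq q (List.mem_of_mem_take h)
  rw [pm, eq]
  generalize l.take r = l' at *
  have b1 := two_bet hm
  have b2 := pow_le_prod hm
  have b3 : 2 ≤ l'.prod := le_trans (Nat.le_self_pow (by omega) 2) b2
  have b7 : l'.prod ≤ l'.prod ^ 2 := Nat.le_self_pow (by norm_num) _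
  have b4 : 2 ≤ bet l' := by omega
  have d1 : bet l' * bet l' ≤ pD n l' := by
    rw [pD, mul_assoc]
    exact Nat.le_mul_of_pos_left _ (Nat.mul_pos hb hW)
  have d2 : pD n l' ≤ n := le_trans (Nat.le_mul_of_pos_right _ hΛ) hD
  have d3 := Nat.mul_le_mul_right (bet l') b4
  have d0 : 0 < pD n l' := by omega
  have b6 : l'.length < n.size := by
    rw [← Nat.pow_lt_pow_iff_right (a := 2) (by norm_num)]
    omega
  have hT1 : n / pD n l' + 1 ≤ pY n ^ 8 * pΛ n := (Nat.div_lt_iff_lt_mul d0).2 (r3 (by omega))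
  have hT2 : pΛ n ≤ n / pD n l' := (Nat.le_div_iff_mul_le d0).2 ((mul_comm _ _).le.trans hD)
  have hT3 : n ≤ pD n l' * (n / pD n l' + 1) := (Nat.lt_mul_div_succ n d0).le
  have hT4 : pD n l' * (n / pD n l' + 1) ≤ 2 * n := by
    have := Nat.mul_div_le n (pD n l')
    rw [mul_add]
    omega
  replace hT2 : pΛ n ≤ n / pD n l' + 1 := hT2.trans (Nat.le_succ _)
  generalize n / pD n l' + 1 = T1 at *
  have hT5 : pW n * T1 ≤ pW n * (pY n ^ 8 * pΛ n) := Nat.mul_le_mul_left _ hT1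
  have eD : Lam (pS n) * (pW n * T1) * bet l' * bet l' = pD n l' * T1 := by
    unfold pD; ring
  exact ⟨ok_of hm hq' b4 (by omega) b6 (Dvd.intro _ rfl) (hT3.trans eD.ge) (eD.le.trans hT4)
    (hT2.trans (Nat.le_mul_of_pos_left _ hW)) a2
    (lt_of_le_of_lt (le_trans (le_of_eq (by ring)) (Nat.mul_le_mul_left (12 * pL n) hT5)) a3), hT5⟩

end Par

open Par in
theorem par_exists : ∃ (pm : ℕ → Pm) (C n0 : ℕ), PT (fun n => (pm n).sm) ∧
    ∀ n, n0 ≤ n → (pm n).n = n ∧ (pm n).OK ∧ (pm n).Sz C := by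
  obtain ⟨F, hF, Y0, hY⟩ := exists_primes
  obtain ⟨n1, a1⟩ := ((Sb_b0.mono (by norm_num)).mul Sb_T).lt
  obtain ⟨n2, a2⟩ := (Sb_w.mul Sb_b0).lt
  obtain ⟨n3, a3⟩ := ((((Sb.const 12).mul Sb_L).mono (by norm_num)).mul Sb_T).lt
  obtain ⟨C1, c1⟩ := Sb_Y.pow 4
  obtain ⟨C2, c2⟩ := Sb_S
  obtain ⟨C3, c3⟩ := Sb_T
  refine ⟨fun n => pm n (F ⟨pY n⟩), C1 + C2 + C3, n1 + n2 + n3 + 2 ^ Y0, PT_sm (hF.comp PU_Y),
    fun n hn => ?_⟩
  have hp : 0 < 2 ^ Y0 := by positivity
  have h0 : Y0 < n.size := Nat.lt_size.2 (by omega)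
  obtain ⟨h1, h2, h3⟩ := hY (pY n) (by unfold pY; omega)
  obtain ⟨h4, h5⟩ := main h1 h2 h3 (a1 n (by omega)) (a2 n (by omega)) (a3 n (by omega))
  refine ⟨rfl, h4, ?_, ?_, ?_⟩
  · exact (c1 n).trans (by rw [pow_one]; exact Nat.mul_le_mul_right _ (by omega))
  · exact (c2 n).trans (by rw [pow_one]; exact Nat.mul_le_mul_right _ (by omega))
  · exact (Nat.size_le_size h5).trans ((c3 n).trans (Nat.mul_le_mul_right _ (by omega)))

end Vale.Agent.P338
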