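import Vale.Agent.P338.Mach
import Vale.Agent.Lib.helper23.PT

/-! Simulation of the instruction machine by a multitape Turing machine. -/

namespace Vale.Agent.P338

open Vale.Agent.Lib.H23 Enc

section Step

/-- the action changing only the tape `j0` -/
def act1 {n : ℕ} {Γ : Type} (j0 : Fin n) (s : Γ) (mv : Move) (sc : Fin n → Γ) :
    Fin n → Γ × Move := fun j => if j = j0 then (s, mv) else (sc j, Move.stay)

def upd {A : TM} (C : Cfg A) (q : A.Q) (j0 : Fin (A.k + 1)) (s : A.Γ) (mv : Move) : Cfg A :=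
  ⟨q, Function.update C.tape j0 (Function.update (C.tape j0) (C.pos j0) s),
    Function.update C.pos j0 (mv.apply (C.pos j0))⟩

theorem step_act1 {A : TM} (C : Cfg A) (q : A.Q) (j0 : Fin (A.k + 1)) (s : A.Γ) (mv : Move)
    (h : A.δ C.q (fun j => C.tape j (C.pos j)) =
      some (q, act1 j0 s mv (fun j => C.tape j (C.pos j)))) :
    A.step C = some (upd C q j0 s mv) := by
  unfold TM.step
  rw [h]
  simp only [upd]
  congr 2
  · funext j
    by_cases hj : j = j0
    · subst hj; simp [act1]
    · simp [act1, hj]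
  · funext j
    by_cases hj : j = j0
    · subst hj; simp [act1]
    · simp [act1, hj, Move.apply]

theorem run_add (A : TM) (c c' : Cfg A) (s : ℕ) (h : A.run c s = some c') :
    ∀ t, A.run c (s + t) = A.run c' t
  | 0 => h
  | t + 1 => by
      have := run_add A c c' s h t
      show (A.run c (s + t)).bind A.step = (A.run c' t).bind A.step
      rw [this]

theorem run_one (A : TM) (c c' : Cfg A) (h : A.step c = some c') : A.run c 1 = some c' := h

theorem run_two (A : TM) (c c' c'' : Cfg A) (h : A.step c = some c') (h' : A.step c' = some c'') :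
    A.run c 2 = some c'' := by
  rw [show 2 = 1 + 1 from rfl, run_add A c c' 1 (run_one A c c' h)]
  exact h'

end Step

section Stack

variable {Γ : Type}

/-- the stack `l` occupies the cells `1, …, |l|` with the head on the top cell -/
def StackOn (bl : Γ) (tp : ℕ → Γ) : ℕ → List Γ → Prop
  | p, [] => p = 0 ∧ tp 0 = bl
  | p, x :: l => ∃ p', p = p' + 1 ∧ tp p = x ∧ StackOn bl tp p' l

theorem StackOn.update {bl : Γ} {tp : ℕ → Γ} {l : List Γ} :
    ∀ {p : ℕ}, StackOn bl tp p l → ∀ (q : ℕ) (s : Γ), p < q →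
      StackOn bl (Function.update tp q s) p l := by
  induction l with
  | nil =>
    intro p h q s hq
    exact ⟨h.1, by rw [Function.update_of_ne (by have := h.1; omega)]; exact h.2⟩
  | cons x l ih =>
    intro p h q s hq
    obtain ⟨p', h1, h2, h3⟩ := h
    exact ⟨p', h1, by rw [Function.update_of_ne (by omega)]; exact h2, ih h3 q s (by omega)⟩

theorem StackOn.push {bl : Γ} {tp : ℕ → Γ} {l : List Γ} {p : ℕ} (h : StackOn bl tp p l) (x : Γ) :
    StackOn bl (Function.update tp (p + 1) x) (p + 1) (x :: l) :=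
  ⟨p, rfl, by simp, h.update _ _ (by omega)⟩

theorem StackOn.pop {bl : Γ} {tp : ℕ → Γ} {l : List Γ} {p : ℕ} (h : StackOn bl tp p l) :
    StackOn bl tp (p - 1) l.tail ∧ tp p = l.headD bl := by
  cases l with
  | nil => exact ⟨⟨by have := h.1; omega, h.2⟩, by rw [h.1]; exact h.2⟩
  | cons x l =>
    obtain ⟨p', h1, h2, h3⟩ := h
    subst h1
    exact ⟨h3, h2⟩

end Stack

section Machine

variable {Λ : Type}

abbrev Gam (Λ : Type) : Type := Option (Option Bool) ⊕ Λ

def gbit (b : Bool) : Gam Λ := Sum.inl (some (some b))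

def gdec : Gam Λ → Option Bool
  | Sum.inl (some (some b)) => some b
  | _ => none

def tk : Tk → Fin 9
  | Tk.m => 3
  | Tk.a => 4
  | Tk.b => 5
  | Tk.c => 6
  | Tk.e => 7
  | Tk.d => 8

theorem tk_inj {k k' : Tk} (h : k ≠ k') : tk k ≠ tk k' := by
  cases k <;> cases k' <;> first | exact absurd rfl h | decide

theorem tk_ne0 (k : Tk) : (0 : Fin 9) ≠ tk k := by cases k <;> decide
theorem tk_ne1 (k : Tk) : (1 : Fin 9) ≠ tk k := by cases k <;> decide
theorem tk_ne2 (k : Tk) : (2 : Fin 9) ≠ tk k := by cases k <;> decide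

def delta (M : Λ → Ins Λ) (q : Λ × Bool) (sc : Fin 9 → Gam Λ) :
    Option ((Λ × Bool) × (Fin 9 → Gam Λ × Move)) :=
  match M q.1, q.2 with
  | Ins.push k _ _, false => some ((q.1, true), act1 (tk k) (sc (tk k)) Move.right sc)
  | Ins.push k x n, true => some ((n, false), act1 (tk k) (gbit x) Move.stay sc)
  | Ins.pop k n0 nf nt, _ =>
      some ((jump n0 nf nt (gdec (sc (tk k))), false), act1 (tk k) (sc (tk k)) Move.left sc)
  | Ins.goto n, _ => some ((n, false), act1 0 (sc 0) Move.stay sc)
  | Ins.cal _ _, false => some ((q.1, true), act1 2 (sc 2) Move.right sc)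
  | Ins.cal t r, true => some ((t, false), act1 2 (Sum.inr r) Move.stay sc)
  | Ins.ret, _ => some ((Sum.elim (fun _ => q.1) id (sc 2), false), act1 2 (sc 2) Move.left sc)
  | Ins.read nb nh n0 n1, _ =>
      some ((jump4 nb nh n0 n1 (Sum.elim id (fun _ => none) (sc 0)), false),
        act1 0 (sc 0) Move.right sc)
  | Ins.write x n, _ => some ((n, false), act1 1 (gbit x) Move.right sc)
  | Ins.halt, _ => none

abbrev mkTM [Finite Λ] (M : Λ → Ins Λ) (l0 : Λ) : TM where
  k := 8
  Γ := Gam Λ
  Q := Λ × Bool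
  finΓ := inferInstance
  finQ := inferInstance
  blank := Sum.inl none
  sep := Sum.inl (some none)
  bit := gbit
  bit_inj := by intro a b h; simpa [gbit] using h
  bit_ne_blank := by intro b; simp [gbit]
  bit_ne_sep := by intro b; simp [gbit]
  sep_ne_blank := by simp
  start := (l0, false)
  out := 1
  δ := delta M

variable [Finite Λ] {M : Λ → Ins Λ} {l0 : Λ} {inp : ℕ → Option (Option Bool)}

structure Sim (inp : ℕ → Option (Option Bool)) (c : ICfg Λ) (C : Cfg (mkTM M l0)) : Prop where
  q : C.q = (c.l, false)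
  t0 : C.tape 0 = fun i => Sum.inl (inp i)
  p0 : C.pos 0 = c.i
  t1 : C.tape 1 = (mkTM M l0).word (c.o.map gbit)
  p1 : C.pos 1 = c.o.length
  r : StackOn (Sum.inl none) (C.tape 2) (C.pos 2) (c.R.map Sum.inr)
  s : ∀ k, StackOn (Sum.inl none) (C.tape (tk k)) (C.pos (tk k)) ((c.S.get k).map gbit)

theorem word_snoc (A : TM) (l : List A.Γ) (x : A.Γ) :
    Function.update (A.word l) l.length x = A.word (l ++ [x]) := by
  funext i
  unfold TM.word
  by_cases h : i = l.length
  · subst h; simp
  · rw [Function.update_of_ne h]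
    rcases lt_or_gt_of_ne h with h1 | h1
    · simp [List.getD, List.getElem?_append_left h1]
    · rw [List.getD_eq_default _ _ (by omega), List.getD_eq_default _ _ (by simp; omega)]

omit [Finite Λ] in
theorem gdec_head (l : List Bool) :
    gdec ((l.map (gbit : Bool → Gam Λ)).headD (Sum.inl none)) = l.head? := by
  cases l <;> rfl

theorem sim_step {c c' : ICfg Λ} {C : Cfg (mkTM M l0)} (h : istep M inp c = some c')
    (hs : Sim inp c C) : ∃ C' s, s ≤ 2 ∧ (mkTM M l0).run C s = some C' ∧ Sim inp c' C' := by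
  obtain ⟨hq, t0, p0, t1, p1, hr, hS⟩ := hs
  unfold istep at h
  cases hM : M c.l with
  | push k x n =>
    rw [hM] at h
    obtain rfl := Option.some.inj h
    have a := step_act1 C (c.l, true) (tk k) (C.tape (tk k) (C.pos (tk k))) Move.right
      (by show delta M C.q _ = _; rw [hq]; simp only [delta, hM])
    have b := step_act1 (upd C (c.l, true) (tk k) (C.tape (tk k) (C.pos (tk k))) Move.right)
      (n, false) (tk k) (gbit x) Move.stay (by show delta M (c.l, true) _ = _; simp only [delta, hM])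
    refine ⟨_, 2, le_rfl, run_two _ _ _ _ a b, rfl, ?_, ?_, ?_, ?_, ?_, ?_⟩
    · simpa [upd, Function.update_of_ne (tk_ne0 k)] using t0
    · simpa [upd, Function.update_of_ne (tk_ne0 k)] using p0
    · simpa [upd, Function.update_of_ne (tk_ne1 k)] using t1
    · simpa [upd, Function.update_of_ne (tk_ne1 k)] using p1
    · simpa [upd, Function.update_of_ne (tk_ne2 k)] using hr
    · intro k'
      by_cases hk : k' = k
      · subst hk
        simpa [upd, Sto.get_set, Move.apply] using (hS k').push (gbit x)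
      · simpa [upd, Function.update_of_ne (tk_inj hk), Sto.get_set, hk] using hS k'
  | pop k n0 nf nt =>
    rw [hM] at h
    obtain rfl := Option.some.inj h
    have e := (hS k).pop
    have a := step_act1 C (jump n0 nf nt (c.S.get k).head?, false) (tk k)
      (C.tape (tk k) (C.pos (tk k))) Move.left
      (by show delta M C.q _ = _; rw [hq]; simp only [delta, hM]; rw [e.2, gdec_head])
    refine ⟨_, 1, by omega, run_one _ _ _ a, rfl, ?_, ?_, ?_, ?_, ?_, ?_⟩
    · simpa [upd, Function.update_of_ne (tk_ne0 k)] using t0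
    · simpa [upd, Function.update_of_ne (tk_ne0 k)] using p0
    · simpa [upd, Function.update_of_ne (tk_ne1 k)] using t1
    · simpa [upd, Function.update_of_ne (tk_ne1 k)] using p1
    · simpa [upd, Function.update_of_ne (tk_ne2 k)] using hr
    · intro k'
      by_cases hk : k' = k
      · subst hk
        simpa [upd, Sto.get_set, Move.apply] using e.1
      · simpa [upd, Function.update_of_ne (tk_inj hk), Sto.get_set, hk] using hS k'
  | goto n =>
    rw [hM] at h
    obtain rfl := Option.some.inj h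
    have a := step_act1 C (n, false) 0 (C.tape 0 (C.pos 0)) Move.stay
      (by show delta M C.q _ = _; rw [hq]; simp only [delta, hM])
    refine ⟨_, 1, by omega, run_one _ _ _ a, rfl, ?_, ?_, ?_, ?_, ?_, ?_⟩
    · simpa [upd] using t0
    · simpa [upd, Move.apply] using p0
    · simpa [upd] using t1
    · simpa [upd, Move.apply] using p1
    · simpa [upd, Move.apply] using hr
    · intro k'
      simpa [upd, Move.apply] using hS k'
  | cal t r =>
    rw [hM] at h
    obtain rfl := Option.some.inj h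
    have a := step_act1 C (c.l, true) 2 (C.tape 2 (C.pos 2)) Move.right
      (by show delta M C.q _ = _; rw [hq]; simp only [delta, hM])
    have b := step_act1 (upd C (c.l, true) 2 (C.tape 2 (C.pos 2)) Move.right)
      (t, false) 2 (Sum.inr r) Move.stay (by show delta M (c.l, true) _ = _; simp only [delta, hM])
    refine ⟨_, 2, le_rfl, run_two _ _ _ _ a b, rfl, ?_, ?_, ?_, ?_, ?_, ?_⟩
    · simpa [upd, Function.update_of_ne (show (0 : Fin 9) ≠ 2 by decide)] using t0
    · simpa [upd, Function.update_of_ne (show (0 : Fin 9) ≠ 2 by decide)] using p0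
    · simpa [upd, Function.update_of_ne (show (1 : Fin 9) ≠ 2 by decide)] using t1
    · simpa [upd, Function.update_of_ne (show (1 : Fin 9) ≠ 2 by decide)] using p1
    · simpa [upd, Move.apply] using hr.push (Sum.inr r)
    · intro k'
      simpa [upd, Function.update_of_ne (tk_ne2 k').symm] using hS k'
  | ret =>
    rw [hM] at h
    cases hR : c.R with
    | nil => rw [hR] at h; simp at h
    | cons r R =>
      rw [hR] at h hr
      obtain rfl := Option.some.inj h
      have e := hr.pop
      have a := step_act1 C (r, false) 2 (C.tape 2 (C.pos 2)) Move.left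
        (by show delta M C.q _ = _; rw [hq]; simp only [delta, hM]; rw [e.2]; rfl)
      refine ⟨_, 1, by omega, run_one _ _ _ a, rfl, ?_, ?_, ?_, ?_, ?_, ?_⟩
      · simpa [upd] using t0
      · simpa [upd, Function.update_of_ne (show (0 : Fin 9) ≠ 2 by decide)] using p0
      · simpa [upd] using t1
      · simpa [upd, Function.update_of_ne (show (1 : Fin 9) ≠ 2 by decide)] using p1
      · simpa [upd, Move.apply] using e.1
      · intro k'
        simpa [upd, Function.update_of_ne (tk_ne2 k').symm] using hS k'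
  | read nb nh n0 n1 =>
    rw [hM] at h
    obtain rfl := Option.some.inj h
    have a := step_act1 C (jump4 nb nh n0 n1 (inp c.i), false) 0 (C.tape 0 (C.pos 0)) Move.right
      (by show delta M C.q _ = _; rw [hq]; simp only [delta, hM]; rw [t0, p0]; rfl)
    refine ⟨_, 1, by omega, run_one _ _ _ a, rfl, ?_, ?_, ?_, ?_, ?_, ?_⟩
    · simpa [upd] using t0
    · simpa [upd, Move.apply] using p0
    · simpa [upd] using t1
    · simpa [upd, Function.update_of_ne (show (1 : Fin 9) ≠ 0 by decide)] using p1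
    · simpa [upd, Function.update_of_ne (show (2 : Fin 9) ≠ 0 by decide)] using hr
    · intro k'
      simpa [upd, Function.update_of_ne (tk_ne0 k').symm] using hS k'
  | write x n =>
    rw [hM] at h
    obtain rfl := Option.some.inj h
    have a := step_act1 C (n, false) 1 (gbit x) Move.right
      (by show delta M C.q _ = _; rw [hq]; simp only [delta, hM])
    refine ⟨_, 1, by omega, run_one _ _ _ a, rfl, ?_, ?_, ?_, ?_, ?_, ?_⟩
    · simpa [upd, Function.update_of_ne (show (0 : Fin 9) ≠ 1 by decide)] using t0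
    · simpa [upd, Function.update_of_ne (show (0 : Fin 9) ≠ 1 by decide)] using p0
    · have := word_snoc (mkTM M l0) (c.o.map gbit) (gbit x)
      simp only [List.length_map] at this
      simpa [upd, t1, p1] using this
    · simpa [upd, Move.apply] using p1
    · simpa [upd, Function.update_of_ne (show (2 : Fin 9) ≠ 1 by decide)] using hr
    · intro k'
      simpa [upd, Function.update_of_ne (tk_ne1 k').symm] using hS k'
  | halt => rw [hM] at h; simp at h

theorem sim_ir {c c' : ICfg Λ} {t : ℕ} (h : IR M inp c c' t) :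
    ∀ C : Cfg (mkTM M l0), Sim inp c C →
      ∃ C' s, s ≤ 2 * t ∧ (mkTM M l0).run C s = some C' ∧ Sim inp c' C' := by
  induction h with
  | refl c t => intro C hC; exact ⟨C, 0, by omega, rfl, hC⟩
  | step h1 _ ih =>
    intro C hC
    obtain ⟨C1, s1, a1, a2, a3⟩ := sim_step h1 hC
    obtain ⟨C2, s2, b1, b2, b3⟩ := ih C1 a3
    exact ⟨C2, s1 + s2, by omega, by rw [run_add _ _ _ _ a2]; exact b2, b3⟩

theorem sim_halt {c : ICfg Λ} {C : Cfg (mkTM M l0)} (hs : Sim inp c C) (h : M c.l = Ins.halt) :
    (mkTM M l0).step C = none := by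
  have : (mkTM M l0).δ C.q (fun j => C.tape j (C.pos j)) = none := by
    show delta M C.q _ = _
    rw [hs.q]; simp only [delta, h]
  unfold TM.step
  rw [this]

/-- the symbols of the input -/
def inWord (x y : List Bool) : List (Option Bool) := x.map some ++ none :: y.map some

theorem sim_init (x y : List Bool) :
    Sim (fun i => (inWord x y)[i]?) ⟨l0, ⟨[], [], [], [], [], []⟩, [], 0, []⟩
      ((mkTM M l0).init x y) := by
  refine ⟨rfl, ?_, rfl, rfl, rfl, ⟨rfl, rfl⟩, ?_⟩
  · funext i
    have e : x.map gbit ++ (Sum.inl (some none) : Gam Λ) :: y.map gbit =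
        (inWord x y).map fun s => Sum.inl (some s) := by
      simp only [inWord, List.map_append, List.map_cons, List.map_map]
      rfl
    show (x.map gbit ++ (Sum.inl (some none) : Gam Λ) :: y.map gbit).getD i (Sum.inl none) = _
    rw [e, List.getD, List.getElem?_map]
    cases (inWord x y)[i]? <;> rfl
  · intro k
    cases k <;> exact ⟨rfl, rfl⟩

end Machine

section Wrap

inductive Aux : Type
  | p0 | rd | z | o1 | o2 | o3 | cc | f | e0 | e1 | q1 | q2 | w0 | w1 | hl

theorem auxFinite : Finite Aux :=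
  Set.finite_univ_iff.mp ((List.finite_toSet [Aux.p0, Aux.rd, Aux.z, Aux.o1, Aux.o2, Aux.o3,
    Aux.cc, Aux.f, Aux.e0, Aux.e1, Aux.q1, Aux.q2, Aux.w0, Aux.w1, Aux.hl]).subset
    (fun a _ => by cases a <;> simp))

def wrap (p : Prg) : Aux ⊕ Lab (Prg.fix p) → Ins (Aux ⊕ Lab (Prg.fix p))
  | Sum.inl Aux.p0 => Ins.push Tk.m false (Sum.inl Aux.rd)
  | Sum.inl Aux.rd => Ins.read (Sum.inl Aux.f) (Sum.inl Aux.p0) (Sum.inl Aux.z) (Sum.inl Aux.o1)
  | Sum.inl Aux.z => Ins.push Tk.m false (Sum.inl Aux.cc)
  | Sum.inl Aux.o1 => Ins.push Tk.m false (Sum.inl Aux.o2)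
  | Sum.inl Aux.o2 => Ins.push Tk.m false (Sum.inl Aux.o3)
  | Sum.inl Aux.o3 => Ins.push Tk.m true (Sum.inl Aux.cc)
  | Sum.inl Aux.cc => Ins.push Tk.m true (Sum.inl Aux.rd)
  | Sum.inl Aux.f => Ins.push Tk.m true (Sum.inr (entry (Prg.fix p)))
  | Sum.inl Aux.e0 => Ins.pop Tk.m (Sum.inl Aux.hl) (Sum.inl Aux.hl) (Sum.inl Aux.e1)
  | Sum.inl Aux.e1 => Ins.pop Tk.m (Sum.inl Aux.hl) (Sum.inl Aux.w0) (Sum.inl Aux.q1)
  | Sum.inl Aux.q1 => Ins.pop Tk.m (Sum.inl Aux.q2) (Sum.inl Aux.q2) (Sum.inl Aux.q2)
  | Sum.inl Aux.q2 => Ins.pop Tk.m (Sum.inl Aux.w1) (Sum.inl Aux.w1) (Sum.inl Aux.w1)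
  | Sum.inl Aux.w0 => Ins.write false (Sum.inl Aux.e0)
  | Sum.inl Aux.w1 => Ins.write true (Sum.inl Aux.e0)
  | Sum.inl Aux.hl => Ins.halt
  | Sum.inr l => code (Prg.fix p) Sum.inr (Sum.inl Aux.e0)
      (Sum.inr (Sum.inr (Sum.inr (entry p)))) l

/-- only the main stack is in use -/
def stM (m : List Bool) : Sto := ⟨m, [], [], [], [], []⟩

variable {p : Prg} {inp : ℕ → Option (Option Bool)}

theorem read_bits (w : List Bool) : ∀ (u : List Bool) (r : List Bool) (i : ℕ),
    (∀ j, (h : j < w.length) → inp (i + j) = some (some w[j])) →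
    IR (wrap p) inp ⟨Sum.inl Aux.rd, stM (ser (enc u) ++ r), [], i, []⟩
      ⟨Sum.inl Aux.rd, stM (ser (enc (w.reverse ++ u)) ++ r), [], i + w.length, []⟩
      (5 * w.length) := by
  induction w with
  | nil => intro u r i _; exact IR.refl _ _
  | cons b w ih =>
    intro u r i h
    have h0 : inp i = some (some b) := h 0 (by simp)
    have h1 := ih (b :: u) r (i + 1) (fun j hj => by
      have := h (j + 1) (by simpa using hj)
      rw [show i + 1 + j = i + (j + 1) by omega]
      exact this)
    have e1 : (b :: w).reverse ++ u = w.reverse ++ b :: u := by simp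
    have e2 : i + (b :: w).length = i + 1 + w.length := by simp; omega
    rw [e1, e2]
    have h2 : IR (wrap p) inp ⟨Sum.inl Aux.rd, stM (ser (enc u) ++ r), [], i, []⟩
        ⟨Sum.inl Aux.rd, stM (ser (enc (b :: u)) ++ r), [], i + 1, []⟩ 5 := by
      cases b
      · refine IR.step (c' := ⟨Sum.inl Aux.z, stM (ser (enc u) ++ r), [], i + 1, []⟩)
          (by simp only [istep, wrap, h0]; rfl) ?_
        exact IR.step rfl (IR.step rfl (IR.refl _ _))
      · refine IR.step (c' := ⟨Sum.inl Aux.o1, stM (ser (enc u) ++ r), [], i + 1, []⟩)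
          (by simp only [istep, wrap, h0]; rfl) ?_
        exact IR.step rfl (IR.step rfl (IR.step rfl (IR.step rfl (IR.refl _ _))))
    exact (h2.trans h1).mono (by simp; omega)

theorem prologue (x y : List Bool) :
    IR (wrap p) (fun i => (inWord x y)[i]?) ⟨Sum.inl Aux.p0, stM [], [], 0, []⟩
      ⟨Sum.inr (entry (Prg.fix p)), stM (ser (enc (y.reverse, x.reverse))), [],
        x.length + 1 + y.length + 1, []⟩ (5 * x.length + 5 * y.length + 5) := by
  have a1 : IR (wrap p) (fun i => (inWord x y)[i]?) ⟨Sum.inl Aux.p0, stM [], [], 0, []⟩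
      ⟨Sum.inl Aux.rd, stM (ser (enc ([] : List Bool)) ++ []), [], 0, []⟩ 1 := IR.one rfl
  have a2 := read_bits (p := p) (inp := fun i => (inWord x y)[i]?) x [] [] 0 (fun j hj => by
    simp [inWord, List.getElem?_append_left, hj])
  simp only [List.append_nil, Nat.zero_add] at a2
  have h3 : (inWord x y)[x.length]? = some none := by simp [inWord]
  have a3 : IR (wrap p) (fun i => (inWord x y)[i]?)
      ⟨Sum.inl Aux.rd, stM (ser (enc x.reverse)), [], x.length, []⟩
      ⟨Sum.inl Aux.rd, stM (ser (enc ([] : List Bool)) ++ ser (enc x.reverse)), [],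
        x.length + 1, []⟩ 2 := by
    refine IR.step (c' := ⟨Sum.inl Aux.p0, stM (ser (enc x.reverse)), [], x.length + 1, []⟩)
      (by simp only [istep, wrap, h3]; rfl) ?_
    exact IR.one rfl
  have a4 := read_bits (p := p) (inp := fun i => (inWord x y)[i]?) y [] (ser (enc x.reverse))
    (x.length + 1) (fun j hj => by
      simp [inWord, hj, Nat.add_assoc, Nat.add_comm 1 j])
  rw [List.append_nil] at a4
  have h5 : (inWord x y)[x.length + 1 + y.length]? = none := by
    simp [inWord]; omega
  have a5 : IR (wrap p) (fun i => (inWord x y)[i]?)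
      ⟨Sum.inl Aux.rd, stM (ser (enc y.reverse) ++ ser (enc x.reverse)), [],
        x.length + 1 + y.length, []⟩
      ⟨Sum.inr (entry (Prg.fix p)), stM (ser (enc (y.reverse, x.reverse))), [],
        x.length + 1 + y.length + 1, []⟩ 2 := by
    refine IR.step (c' := ⟨Sum.inl Aux.f, stM (ser (enc y.reverse) ++ ser (enc x.reverse)), [],
      x.length + 1 + y.length + 1, []⟩) (by simp only [istep, wrap, h5]; rfl) ?_
    exact IR.one rfl
  rw [List.append_nil] at a1
  exact ((((a1.trans a2).trans a3).trans a4).trans a5).mono (by omega)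

theorem epilogue (z : List Bool) : ∀ (o : List Bool) (i : ℕ),
    IR (wrap p) inp ⟨Sum.inl Aux.e0, stM (ser (enc z)), [], i, o⟩
      ⟨Sum.inl Aux.hl, stM [], [], i, o ++ z⟩ (5 * z.length + 1) := by
  induction z with
  | nil => intro o i; rw [List.append_nil]; exact IR.one rfl
  | cons b z ih =>
    intro o i
    have h1 := ih (o ++ [b]) i
    have h2 : IR (wrap p) inp ⟨Sum.inl Aux.e0, stM (ser (enc (b :: z))), [], i, o⟩
        ⟨Sum.inl Aux.e0, stM (ser (enc z)), [], i, o ++ [b]⟩ 5 := by
      cases b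
      · exact IR.step rfl (IR.step rfl (IR.step rfl (IR.refl _ _)))
      · exact IR.step rfl (IR.step rfl (IR.step rfl (IR.step rfl (IR.step rfl (IR.refl _ _)))))
    rw [show o ++ b :: z = o ++ [b] ++ z by simp]
    exact (h2.trans h1).mono (by simp; omega)

end Wrap

theorem exists_TM (p : Prg) : ∃ A : TM, ∀ (x y z : List Bool) (t : ℕ),
    Rns p p (enc (y.reverse, x.reverse)) (enc z) t →
      ∃ s c, s ≤ 2 * t + 20 * (x.length + y.length + z.length + 1) ∧ A.HaltsIn x y s c ∧
        c.tape A.out = A.word (z.map A.bit) := by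
  have := labFinite (Prg.fix p)
  have := auxFinite
  refine ⟨mkTM (wrap p) (Sum.inl Aux.p0), fun x y z t h => ?_⟩
  have h1 := h [] []
  rw [List.append_nil, List.append_nil] at h1
  have a1 := prologue (p := p) x y
  have a2 := exe_ir (M := wrap p) (inp := fun i => (inWord x y)[i]?) (Exe.fix (env := p) h1)
    Sum.inr (Sum.inl Aux.e0) (Sum.inr (Sum.inr (Sum.inr (entry p)))) (fun _ => rfl)
    ⟨fun l => Sum.inr (Sum.inr (Sum.inr l)), Sum.inr (Sum.inr (Sum.inl ())), rfl, rfl,
      fun _ => rfl⟩ [] (x.length + 1 + y.length + 1) []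
  have a3 := epilogue (p := p) (inp := fun i => (inWord x y)[i]?) z []
    (x.length + 1 + y.length + 1)
  obtain ⟨C, s, b1, b2, b3⟩ := sim_ir ((a1.trans a2).trans a3) _ (sim_init x y)
  exact ⟨s, C, by omega, ⟨b2, sim_halt b3 rfl⟩, b3.t1⟩

/-- From a program for multiplication with a time bound to a machine with a time bound. -/
theorem exists_TM_mul (p : Prg) (τ : ℕ → ℕ)
    (h : ∀ x y : List Bool, x.length = y.length → 1 ≤ x.length →
      Rns p p (enc (y.reverse, x.reverse)) (enc (bin (2 * x.length) (val x * val y))) (τ x.length)) :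
    ∃ A : TM, A.Multiplies ∧ ∀ n, 1 ≤ n → A.T n ≤ 2 * τ n + 100 * n := by
  obtain ⟨A, hA⟩ := exists_TM p
  have key : ∀ n, 1 ≤ n → ∀ x y : List Bool, x.length = n → y.length = n →
      ∃ s c, s ≤ 2 * τ n + 100 * n ∧ A.HaltsIn x y s c ∧
        c.tape A.out = A.word ((bin (2 * n) (val x * val y)).map A.bit) := by
    intro n hn x y hx hy
    subst hx
    obtain ⟨s, c, h1, h2, h3⟩ := hA x y _ _ (h x y hy.symm hn)
    refine ⟨s, c, ?_, h2, h3⟩
    have : (bin (2 * x.length) (val x * val y)).length = 2 * x.length := by simp [bin]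
    rw [this, hy] at h1
    omega
  refine ⟨A, fun n hn x y hx hy => ?_, fun n hn => ?_⟩
  · obtain ⟨s, c, _, h2, h3⟩ := key n hn x y hx hy
    exact ⟨s, c, h2, h3⟩
  · refine Finset.sup_le fun q _ => ?_
    obtain ⟨s, c, h1, h2, _⟩ := key n hn (List.ofFn q.1) (List.ofFn q.2) (by simp) (by simp)
    exact (Nat.sInf_le (show s ∈ {t | ∃ c, A.HaltsIn (List.ofFn q.1) (List.ofFn q.2) t c}
      from ⟨c, h2⟩)).trans h1

end Vale.Agent.P338
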