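import Vale.Agent.P338.Top
import Vale.Agent.P338.Par
import Vale.Agent.P338.Sim

namespace Vale.Agent.P338

open Vale.Agent.Lib Vale.Agent.Lib.H23 Enc

/-- one level of the outer recursion -/
theorem fast_step : ∃ (c : Prg) (K : ℕ), ∀ (env : Prg) (K0 : ℕ) (x y : List Bool),
    y.length = x.length → 1 ≤ x.length →
    (∀ k, 1 ≤ k → k < x.length → MulOK env k (K0 * (k * ν k))) →
    Rns env c (enc (x, y)) (enc (mulL x y))
      (K0 * (x.length * ν x.length) / 2 + K * (x.length * ν x.length)) := by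
  obtain ⟨pm, C, n0, hp, hpm⟩ := par_exists
  obtain ⟨c, K, hc⟩ := main_mul hp
  obtain ⟨C', h1⟩ := asym1 C
  obtain ⟨n1, h2⟩ := asym2 C (2 * K)
  let G := {q : (List Bool × List Bool) × Prg × ℕ // q.1.2.length = q.1.1.length ∧
    1 ≤ q.1.1.length ∧ ∀ k, 1 ≤ k → k < q.1.1.length → MulOK q.2.1 k (q.2.2 * (k * ν k))}
  have hn : ∀ g : G, g.1.1.1.length ≤ g.1.1.1.length * ν g.1.1.1.length := fun g =>
    Nat.le_mul_of_pos_right _ (ν_pos _)
  have hs : ∀ g : G, sz g.1.1 ≤ 8 * g.1.1.1.length + 3 := fun g => by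
    have a1 := kron_sz_le g.1.1.1
    have a2 := kron_sz_le g.1.1.2
    have a3 := sz_prod g.1.1
    have a4 := g.2.1
    omega
  let D : Dom G (List Bool × List Bool) :=
    { inp := fun g => g.1.1
      env := fun g e => e = g.1.2.1
      B := fun g => g.1.1.1.length * ν g.1.1.1.length
      S := fun _ => 0
      hB := ⟨11, fun g => by
        have a1 := hs g
        have a2 := hn g
        have a3 := g.2.2.1
        dsimp only
        omega⟩
      hL := Bd.const _ fun g => lt_of_lt_of_le g.2.2.1 (hn g)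
      inh := fun g => ⟨_, rfl⟩ }
  have hb : Lin D fun g => (g.1.1.1.drop (n0 + n1)).isEmpty :=
    ((Lin.inp (D := D)).fst.dropC (n0 + n1)).isEmpty
  have key : Cost D (fun g => g.1.2.2 * (g.1.1.1.length * ν g.1.1.1.length) / 2 +
      K * C' * (g.1.1.1.length * ν g.1.1.1.length)) fun g => mulL g.1.1.1 g.1.1.2 := by
    refine Cost.cond hb (Lin.cost ?_ _) ?_
    · refine Lin.pt (f := fun p : List Bool × List Bool => mulL p.1 p.2)
        (by fun_prop) ⟨Lin.inp, Small.of_lin (8 * (n0 + n1) + 3) fun g => ?_⟩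
      have a1 := hs g.1
      have a2 : g.1.1.1.1.length ≤ n0 + n1 := by
        have := g.2
        rw [List.isEmpty_iff, List.drop_eq_nil_iff] at this
        exact this
      show sz g.1.1.1 ≤ (8 * (n0 + n1) + 3) * (0 + 1)
      omega
    · refine (((Lin.inp.cost fun _ => 0).app c (t' := fun g =>
        g.1.1.2.2 * (g.1.1.1.1.length * ν g.1.1.1.1.length) / 2 +
          K * C' * (g.1.1.1.1.length * ν g.1.1.1.1.length)) fun g env he => ?_).mono
        fun g => by simp)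
      obtain ⟨⟨⟨⟨x, y⟩, e, K0⟩, g1, g2, g3⟩, g4⟩ := g
      obtain rfl : env = e := he
      dsimp only at g1 g2 g3 g4
      have a2 : n0 + n1 < x.length := by
        by_contra hcon
        rw [List.drop_eq_nil_of_le (by omega)] at g4
        simp at g4
      obtain ⟨b1, b2, b3⟩ := hpm x.length (by omega)
      have b4 := b2.two_le
      have b5 := b2.hT'
      have b6 : 1 ≤ 6 * (pm x.length).L * (pm x.length).T :=
        Nat.mul_pos (by omega) (by unfold Pm.T; omega)
      refine (hc env _ _ x y _ rfl b1 g1 b2 (g3 _ (by omega) (b2.hL1.trans_eq b1))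
        (g3 _ b6 (b2.hL2.trans_eq b1))).mono ?_
      have c1 := h1 _ b2 b3
      have c2 := h2 _ (by omega) b2 b3
      rw [b1] at c1 c2
      show _ ≤ K0 * (x.length * ν x.length) / 2 + K * C' * (x.length * ν x.length)
      unfold Pm.bud at c1 ⊢
      generalize x.length * ν x.length = V at c1 c2 ⊢
      generalize pm x.length = m at c1 c2 ⊢
      generalize (2 * m.L + 2) * ν (2 * m.L + 2) = V1 at c2 ⊢
      generalize 6 * m.L * m.T * ν (6 * m.L * m.T) = V2 at c2 ⊢
      generalize (m.t + 1) * sw m.n.size * (2 * m.L + 3) = V0 at c1 ⊢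
      have c3 : K0 * (K * ((m.P + 1) * (m.N * V1) + m.B * m.B * V2)) ≤ K0 * V / 2 := by
        rw [Nat.le_div_iff_mul_le (by norm_num)]
        refine le_trans (le_of_eq (by ring)) (Nat.mul_le_mul_left K0 c2)
      have c4 := Nat.mul_le_mul_left K c1
      refine le_trans (le_of_eq (by ring)) ((Nat.add_le_add c3 c4).trans (le_of_eq (by ring)))
  obtain ⟨c', K', h⟩ := key
  refine ⟨c', K * C' + K', fun env K0 x y g1 g2 g3 =>
    (h ⟨((x, y), env, K0), g1, g2, g3⟩ env rfl).mono (le_of_eq ?_)⟩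
  show K0 * (x.length * ν x.length) / 2 + K * C' * (x.length * ν x.length) +
    K' * (x.length * ν x.length) = _
  ring

theorem fast_mul : ∃ (c : Prg) (K : ℕ), ∀ (env : Prg) (x y : List Bool), y.length = x.length →
    1 ≤ x.length → Rns env c (enc (x, y)) (enc (mulL x y)) (K * (x.length * ν x.length)) := by
  obtain ⟨c, K, hc⟩ := fast_step
  refine ⟨Prg.fix c, 2 * (K + 2), fun env x y h1 h2 => ?_⟩
  obtain ⟨z, rfl, hz⟩ := fix_rule
    (I := {p : List Bool × List Bool // p.2.length = p.1.length ∧ 1 ≤ p.1.length})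
    (fun i => i.1.1.length) (fun i => i.1) (fun i z => z = mulL i.1.1 i.1.2) c
    (fun i => 2 * (K + 2) * (i.1.1.length * ν i.1.1.length)) (fun i ih => by
      refine ⟨_, _, rfl, hc c (2 * (K + 2)) i.1.1 i.1.2 i.2.1 i.2.2 fun k k1 k2 a b ha hb => ?_, ?_⟩
      · subst ha
        obtain ⟨z, rfl, hz⟩ := ih ⟨(a, b), hb, k1⟩ k2
        exact hz
      · have a1 : 1 ≤ i.1.1.length * ν i.1.1.length := Nat.mul_pos i.2.2 (ν_pos _)
        generalize i.1.1.length * ν i.1.1.length = V at a1 ⊢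
        rw [mul_assoc, Nat.mul_div_cancel_left _ (by norm_num)]
        nlinarith) env ⟨(x, y), h1, h2⟩
  exact hz

theorem ν_real {n : ℕ} (hn : 2 ≤ n) : (ν n : ℝ) ≤ 12 * Real.log n ^ (1 - 3 / 10 ^ 8 : ℝ) := by
  have h2 := Real.log_two_gt_d9
  have hn2 : (2 : ℝ) ≤ n := by exact_mod_cast hn
  have hl : Real.log 2 ≤ Real.log n := Real.log_le_log (by norm_num) hn2
  have hs : 1 ≤ n.size := Nat.size_pos.2 (by omega)
  obtain ⟨s, hs'⟩ : ∃ s, n.size = s + 1 := ⟨n.size - 1, by omega⟩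
  have h3 : 2 ^ s ≤ n := Nat.lt_size.1 (by omega)
  have h4 : (s : ℝ) * Real.log 2 ≤ Real.log n := by
    rw [← Real.log_pow]
    exact Real.log_le_log (by positivity) (by exact_mod_cast h3)
  have h5 : (n.size : ℝ) + 1 ≤ 6 * Real.log n := by
    rw [hs']
    push_cast
    have : (0 : ℝ) ≤ s := by positivity
    nlinarith
  have h6 : (1 : ℝ) ≤ (n.size : ℝ) + 1 := by
    have : (0 : ℝ) ≤ n.size := by positivity
    linarith
  have h7 : (1 : ℝ) ≤ ((n.size : ℝ) + 1) ^ (1 - 3 / 10 ^ 8 : ℝ) :=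
    Real.one_le_rpow h6 (by norm_num)
  have h8 : (ν n : ℝ) < ((n.size : ℝ) + 1) ^ (1 - 3 / 10 ^ 8 : ℝ) + 1 :=
    Nat.ceil_lt_add_one (by linarith)
  have h9 : ((n.size : ℝ) + 1) ^ (1 - 3 / 10 ^ 8 : ℝ) ≤
      6 * Real.log n ^ (1 - 3 / 10 ^ 8 : ℝ) := by
    refine (Real.rpow_le_rpow (by linarith) h5 (by norm_num)).trans ?_
    rw [Real.mul_rpow (by norm_num) (by linarith)]
    refine mul_le_mul_of_nonneg_right ?_ (Real.rpow_nonneg (by linarith) _)
    exact (Real.rpow_le_rpow_of_exponent_le (by norm_num)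
      (show (1 - 3 / 10 ^ 8 : ℝ) ≤ 1 by norm_num)).trans (by norm_num)
  linarith

theorem main_bound : ∃ A : TM, A.Multiplies ∧ ∃ K : ℝ, ∀ n : ℕ, 2 ≤ n →
    (A.T n : ℝ) ≤ K * n * Real.log n ^ (1 - 3 / 10 ^ 8 : ℝ) := by
  obtain ⟨c, K, hc⟩ := fast_mul
  obtain ⟨A, hA, hT⟩ := exists_TM_mul (Prg.seq c revP)
    (fun n => K * (n * ν n) + 20 * (8 * n + 1)) fun x y h1 h2 => by
      have a1 := rns_seq (hc (Prg.seq c revP) y.reverse x.reverse (by simp [h1]) (by simp [← h1, h2]))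
        (rns_reverse (mulL y.reverse x.reverse))
      have a2 := kron_sz_le (mulL y.reverse x.reverse)
      rw [reverse_eq_bin (mulL y.reverse x.reverse), valL_mulL (by simp [h1]), ← val_eq, ← val_eq,
        mul_comm (val y)] at a1
      rw [length_mulL, List.length_reverse, ← h1] at a1 a2
      exact a1.mono (by omega)
  refine ⟨A, hA, 12 * (2 * K + 460), fun n hn => ?_⟩
  have a1 : A.T n ≤ (2 * K + 460) * (n * ν n) := by
    have a2 := hT n (by omega)
    have a3 : n ≤ n * ν n := Nat.le_mul_of_pos_right _ (ν_pos _)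
    generalize n * ν n = V at a2 a3 ⊢
    nlinarith
  have a4 : (A.T n : ℝ) ≤ (2 * K + 460) * (n * ν n) := by exact_mod_cast a1
  have a5 := ν_real hn
  calc (A.T n : ℝ) ≤ (2 * K + 460) * (n * (12 * Real.log n ^ (1 - 3 / 10 ^ 8 : ℝ))) :=
        a4.trans (by gcongr)
    _ = _ := by ring

theorem not_lower_bound : ¬ ∀ A : TM, A.Multiplies → ∃ c : ℝ, 0 < c ∧ ∃ N : ℕ, 2 ≤ N ∧
    ∀ n : ℕ, N ≤ n → c * n * Real.log n ≤ (A.T n : ℝ) := by
  intro H
  obtain ⟨A, hA, K, hK⟩ := main_bound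
  obtain ⟨c, hc, N, hN, h⟩ := H A hA
  have ht : Filter.Tendsto (fun n : ℕ => Real.log n ^ (3 / 10 ^ 8 : ℝ)) Filter.atTop
      Filter.atTop :=
    (tendsto_rpow_atTop (by norm_num)).comp
      (Real.tendsto_log_atTop.comp tendsto_natCast_atTop_atTop)
  obtain ⟨n, h2, h3⟩ :=
    ((ht.eventually_gt_atTop (K / c)).and (Filter.eventually_ge_atTop N)).exists
  have hn2 : (2 : ℝ) ≤ n := by exact_mod_cast hN.trans h3
  have hl : 0 < Real.log n := Real.log_pos (by linarith)
  have h4 := (h n h3).trans (hK n (hN.trans h3))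
  have e : Real.log n = Real.log n ^ (3 / 10 ^ 8 : ℝ) * Real.log n ^ (1 - 3 / 10 ^ 8 : ℝ) := by
    rw [← Real.rpow_add hl]
    norm_num
  have hp : 0 < Real.log n ^ (1 - 3 / 10 ^ 8 : ℝ) := Real.rpow_pos_of_pos hl _
  rw [div_lt_iff₀ hc] at h2
  generalize Real.log n ^ (1 - 3 / 10 ^ 8 : ℝ) = Y at *
  generalize Real.log n ^ (3 / 10 ^ 8 : ℝ) = X at *
  rw [e] at h4
  have h5 : K * (n * Y) < X * c * (n * Y) := mul_lt_mul_of_pos_right h2 (by positivity)
  nlinarith

end Vale.Agent.P338
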