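import Vale.Agent.P338.Prim
import Vale.Agent.P338.PTX

/-! The linear time calculus.  A domain consists of a family of inputs indexed by a ghost type,
with a budget `B` and a small parameter `S`. -/

namespace Vale.Agent.P338

open Vale.Agent.Lib Vale.Agent.Lib.H23 Enc

/-- a quasi-polynomial dominating every polynomial -/
def Lam (s : ℕ) : ℕ := (s + 2) ^ Nat.log 2 (s + 2)

theorem Lam_pos (s : ℕ) : 0 < Lam s := by unfold Lam; positivity

theorem le_Lam (s : ℕ) : s + 2 ≤ Lam s := by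
  have : 1 ≤ Nat.log 2 (s + 2) := Nat.log_pos (by norm_num) (by omega)
  calc s + 2 = (s + 2) ^ 1 := by simp
    _ ≤ Lam s := Nat.pow_le_pow_right (by omega) this

theorem Lam_mono {s s' : ℕ} (h : s ≤ s') : Lam s ≤ Lam s' :=
  (Nat.pow_le_pow_left (by omega) _).trans
    (Nat.pow_le_pow_right (by omega) (Nat.log_mono_right (by omega)))

theorem pow_le_Lam (k : ℕ) : ∃ K, ∀ s, (s + 2) ^ k ≤ K * Lam s := by
  refine ⟨(2 ^ k) ^ k, fun s => ?_⟩
  by_cases h : k ≤ Nat.log 2 (s + 2)
  · calc (s + 2) ^ k ≤ Lam s := Nat.pow_le_pow_right (by omega) h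
      _ ≤ (2 ^ k) ^ k * Lam s := Nat.le_mul_of_pos_left _ (by positivity)
  · have h1 : s + 2 < 2 ^ k := (Nat.log_lt_iff_lt_pow (by norm_num) (by omega)).1 (by omega)
    calc (s + 2) ^ k ≤ (2 ^ k) ^ k := Nat.pow_le_pow_left h1.le _
      _ ≤ (2 ^ k) ^ k * Lam s := Nat.le_mul_of_pos_right _ (Lam_pos s)

/-- `f = O(b)` -/
def Bd {G : Type} (f b : G → ℕ) : Prop := ∃ K, ∀ g, f g ≤ K * b g

section Bd

variable {G : Type} {f f' b b' : G → ℕ}

theorem Bd.refl (b : G → ℕ) : Bd b b := ⟨1, fun g => by simp⟩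

theorem Bd.of_le (h : ∀ g, f g ≤ b g) : Bd f b := ⟨1, fun g => by simpa using h g⟩

theorem Bd.trans (h : Bd f f') (h' : Bd f' b) : Bd f b := by
  obtain ⟨K, h⟩ := h
  obtain ⟨K', h'⟩ := h'
  exact ⟨K * K', fun g => (h g).trans (by rw [mul_assoc]; exact Nat.mul_le_mul_left _ (h' g))⟩

theorem Bd.le (h' : Bd f' b) (h : ∀ g, f g ≤ f' g) : Bd f b := (Bd.of_le h).trans h'

theorem Bd.add (h : Bd f b) (h' : Bd f' b) : Bd (fun g => f g + f' g) b := by
  obtain ⟨K, h⟩ := h
  obtain ⟨K', h'⟩ := h'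
  exact ⟨K + K', fun g => by rw [add_mul]; exact Nat.add_le_add (h g) (h' g)⟩

theorem Bd.cmul (c : ℕ) (h : Bd f b) : Bd (fun g => c * f g) b := by
  obtain ⟨K, h⟩ := h
  exact ⟨c * K, fun g => by rw [mul_assoc]; exact Nat.mul_le_mul_left _ (h g)⟩

theorem Bd.mul (h : Bd f b) (h' : Bd f' b') : Bd (fun g => f g * f' g) (fun g => b g * b' g) := by
  obtain ⟨K, h⟩ := h
  obtain ⟨K', h'⟩ := h'
  exact ⟨K * K', fun g => (Nat.mul_le_mul (h g) (h' g)).trans (le_of_eq (by ring))⟩

theorem Bd.comp {G' : Type} (h : Bd f b) (θ : G' → G) : Bd (fun g => f (θ g)) fun g => b (θ g) := by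
  obtain ⟨K, h⟩ := h
  exact ⟨K, fun g => h _⟩

theorem Bd.const (c : ℕ) (h : ∀ g, 0 < b g) : Bd (fun _ => c) b :=
  ⟨c, fun g => Nat.le_mul_of_pos_right _ (h g)⟩

end Bd

structure Dom (G α : Type) [Enc α] : Type where
  inp : G → α
  env : G → Prg → Prop
  B : G → ℕ
  S : G → ℕ
  hB : Bd (fun g => sz (inp g)) B
  hL : Bd (fun g => Lam (S g)) B
  inh : ∀ g, ∃ e, env g e

variable {G G' α α' β γ δ σ : Type} [Enc α] [Enc α'] [Enc β] [Enc γ] [Enc δ] [Enc σ]

theorem Dom.pos (D : Dom G α) (g : G) : 0 < D.B g := by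
  obtain ⟨K, h⟩ := D.hB
  have h1 := h g
  have h2 := sz_pos (D.inp g)
  rcases Nat.eq_zero_or_pos (D.B g) with h0 | h0
  · rw [h0] at h1; simp at h1; omega
  · exact h0

/-- all inputs, budget the size of the input -/
def D0 (α : Type) [Enc α] : Dom α α where
  inp x := x
  env _ _ := True
  B x := sz x
  S _ := 0
  hB := Bd.refl _
  hL := Bd.const _ fun x => sz_pos x
  inh _ := ⟨Prg.skip, trivial⟩

/-- a new domain over an old one -/
def Dom.sub (D : Dom G α) (θ : G' → G) (x : G' → β) (b : G' → ℕ) (h1 : Bd (fun g => sz (x g)) b)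
    (h2 : Bd (fun g => Lam (D.S (θ g))) b) : Dom G' β where
  inp := x
  env g := D.env (θ g)
  B := b
  S g := D.S (θ g)
  hB := h1
  hL := h2
  inh g := D.inh (θ g)

/-- the same domain with another input -/
def Dom.wi (D : Dom G α) (x : G → β) (h : Bd (fun g => sz (x g)) D.B) : Dom G β :=
  D.sub id x D.B h D.hL

/-- the same domain with another small parameter -/
def Dom.ws (D : Dom G α) (S : G → ℕ) (h : Bd (fun g => Lam (S g)) D.B) : Dom G α :=
  { D with S := S, hL := h }

/-- pull back along a map of ghosts -/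
def Dom.res (D : Dom G α) (θ : G' → G) : Dom G' α :=
  D.sub θ (fun g => D.inp (θ g)) (fun g => D.B (θ g)) (D.hB.comp θ) (D.hL.comp θ)

/-- computable within `t` plus a constant multiple of the budget -/
def Cost (D : Dom G α) (t : G → ℕ) (f : G → β) : Prop :=
  ∃ (c : Prg) (K : ℕ), ∀ g env, D.env g env →
    Rns env c (enc (D.inp g)) (enc (f g)) (t g + K * D.B g)

/-- computable within a constant multiple of the budget -/
@[fun_prop] def Lin (D : Dom G α) (f : G → β) : Prop :=
  ∃ (c : Prg) (K : ℕ), ∀ g env, D.env g env → Rns env c (enc (D.inp g)) (enc (f g)) (K * D.B g)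

def Small (D : Dom G α) (f : G → β) : Prop := ∃ k, ∀ g, sz (f g) ≤ (D.S g + 2) ^ k

/-- computable and small -/
@[fun_prop] def LS (D : Dom G α) (f : G → β) : Prop := Lin D f ∧ Small D f

variable {D : Dom G α}

theorem Lin.cost {f : G → β} (h : Lin D f) (t : G → ℕ) : Cost D t f := by
  obtain ⟨c, K, h⟩ := h
  exact ⟨c, K, fun g env he => (h g env he).mono (by omega)⟩

theorem Cost.lin {f : G → β} {t : G → ℕ} (h : Cost D t f) (ht : Bd t D.B) : Lin D f := by
  obtain ⟨c, K, h⟩ := h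
  obtain ⟨K', ht⟩ := ht
  exact ⟨c, K' + K, fun g env he => (h g env he).mono (by have := ht g; rw [add_mul]; omega)⟩

theorem Cost.mono {f : G → β} {t t' : G → ℕ} (h : Cost D t f) (ht : ∀ g, t g ≤ t' g) :
    Cost D t' f := by
  obtain ⟨c, K, h⟩ := h
  exact ⟨c, K, fun g env he => (h g env he).mono (by have := ht g; omega)⟩

theorem Cost.of_enc {f : G → β} {f' : G → γ} {t : G → ℕ} (h : Cost D t f')
    (e : ∀ g, enc (f g) = enc (f' g)) : Cost D t f := by
  obtain ⟨c, K, h⟩ := h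
  exact ⟨c, K, fun g env he => by rw [e]; exact h g env he⟩

theorem Cost.congr {f f' : G → β} {t : G → ℕ} (h : Cost D t f') (e : ∀ g, f g = f' g) :
    Cost D t f := h.of_enc fun g => by rw [e]

theorem Lin.of_enc {f : G → β} {f' : G → γ} (h : Lin D f') (e : ∀ g, enc (f g) = enc (f' g)) :
    Lin D f := by
  obtain ⟨c, K, h⟩ := h
  exact ⟨c, K, fun g env he => by rw [e]; exact h g env he⟩

theorem Lin.congr {f f' : G → β} (h : Lin D f') (e : ∀ g, f g = f' g) : Lin D f :=
  h.of_enc fun g => by rw [e]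

theorem Small.congr {f f' : G → β} (h : Small D f') (e : ∀ g, f g = f' g) : Small D f := by
  obtain ⟨k, h⟩ := h
  exact ⟨k, fun g => by rw [e]; exact h g⟩

theorem LS.congr {f f' : G → β} (h : LS D f') (e : ∀ g, f g = f' g) : LS D f :=
  ⟨h.1.congr e, h.2.congr e⟩

@[fun_prop] theorem LS.lin {f : G → β} (h : LS D f) : Lin D f := h.1

theorem Small.bd {f : G → β} (h : Small D f) : Bd (fun g => sz (f g)) fun g => Lam (D.S g) := by
  obtain ⟨k, h⟩ := h
  obtain ⟨K, hK⟩ := pow_le_Lam k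
  exact ⟨K, fun g => (h g).trans (hK _)⟩

theorem Small.of_le {f : G → β} {f' : G → γ} (h : Small D f') (e : ∀ g, sz (f g) ≤ sz (f' g)) :
    Small D f := by
  obtain ⟨k, h⟩ := h
  exact ⟨k, fun g => (e g).trans (h g)⟩

/-- sizes bounded by a linear function of `S` -/
theorem Small.of_lin {f : G → β} (c : ℕ) (e : ∀ g, sz (f g) ≤ c * (D.S g + 1)) : Small D f := by
  refine ⟨c + 1, fun g => (e g).trans ?_⟩
  have h1 : c ≤ (D.S g + 2) ^ c :=
    (Nat.lt_two_pow_self).le.trans (Nat.pow_le_pow_left (by omega) c)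
  rw [pow_succ]
  exact Nat.mul_le_mul h1 (by omega)

theorem Small.nat {f : G → ℕ} (c : ℕ) (e : ∀ g, f g ≤ 2 ^ (c * (D.S g + 1))) : Small D f := by
  refine Small.of_lin (4 * c + 5) fun g => ?_
  have h : f g < 2 ^ (c * (D.S g + 1) + 1) := by
    have := e g
    have : 0 < 2 ^ (c * (D.S g + 1)) := by positivity
    rw [pow_succ]; omega
  have := sz_nat_le h
  nlinarith

theorem Small.nat_le {f f' : G → ℕ} (h : Small D f') (e : ∀ g, f g ≤ f' g) : Small D f := by
  obtain ⟨k, h⟩ := h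
  refine ⟨k + 3, fun g => ?_⟩
  have h1 : f g < 2 ^ sz (f' g) := (e g).trans_lt (lt_two_pow_sz _)
  have h2 := sz_nat_le h1
  have h3 := h g
  have h4 : 8 ≤ (D.S g + 2) ^ 3 :=
    le_trans (by norm_num) (Nat.pow_le_pow_left (show 2 ≤ D.S g + 2 by omega) 3)
  have h5 : 0 < (D.S g + 2) ^ k := by positivity
  rw [pow_add]
  nlinarith

theorem Small.un {f : G → ℕ} (c : ℕ) (e : ∀ g, f g ≤ c * (D.S g + 1)) :
    Small D fun g => (⟨f g⟩ : Un) := by
  refine Small.of_lin (2 * c + 1) fun g => ?_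
  rw [sz_un]
  have := e g
  nlinarith

theorem Lin.size {f : G → β} (h : Lin D f) : Bd (fun g => sz (f g)) D.B := by
  obtain ⟨c, K, h⟩ := h
  obtain ⟨K', h'⟩ := D.hB
  refine ⟨K' + K, fun g => ?_⟩
  obtain ⟨env, he⟩ := D.inh g
  have := (h g env he).size_le
  have := h' g
  unfold sz at *
  dsimp only at *
  rw [add_mul]
  omega

theorem Lin.size' {f : G → β} (h : Lin D f) :
    ∃ K, ∀ g env, D.env g env → sz (f g) ≤ K * D.B g := by
  obtain ⟨c, K, h⟩ := h
  obtain ⟨K', h'⟩ := D.hB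
  refine ⟨K' + K, fun g env he => ?_⟩
  have := (h g env he).size_le
  have := h' g
  unfold sz at *
  dsimp only at *
  rw [add_mul]
  omega

theorem Lin.inp : Lin D fun g => D.inp g :=
  ⟨Prg.skip, 1, fun g _ _ => (rns_skip _).mono (by have := D.pos g; omega)⟩

@[fun_prop] theorem Lin.id : Lin (D0 α) fun x => x := Lin.inp (D := D0 α)

/-- run a fixed program on a computed value -/
theorem Cost.app {x : G → β} {y : G → γ} {t t' : G → ℕ} (hx : Cost D t x) (c : Prg)
    (h : ∀ g env, D.env g env → Rns env c (enc (x g)) (enc (y g)) (t' g)) :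
    Cost D (fun g => t g + t' g) y := by
  obtain ⟨d, K, hd⟩ := hx
  exact ⟨Prg.seq d c, K, fun g env he => (rns_seq (hd g env he) (h g env he)).mono (by
    dsimp only; omega)⟩

theorem Lin.app {x : G → β} {y : G → γ} {t : G → ℕ} (hx : Lin D x) (c : Prg)
    (h : ∀ g env, D.env g env → Rns env c (enc (x g)) (enc (y g)) (t g)) (ht : Bd t D.B) :
    Lin D y := ((hx.cost 0).app c h).lin (by simpa using ht)

/-- run a fixed program on the first component -/
theorem Cost.appFst {x : G → β} {y : G → γ} {z : G → δ} {t t' : G → ℕ}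
    (hx : Cost D t fun g => (x g, z g)) (c : Prg)
    (h : ∀ g env, D.env g env → Rns env c (enc (x g)) (enc (y g)) (t' g)) :
    Cost D (fun g => t g + t' g) fun g => (y g, z g) := by
  obtain ⟨d, K, hd⟩ := hx
  refine ⟨Prg.seq d (mapFst c), K + 2, fun g env he =>
    (rns_seq (hd g env he) (rns_mapFst (h g env he) (enc (z g)))).mono ?_⟩
  have := D.pos g
  dsimp only
  rw [add_mul]
  omega

/-- continue from a computed value -/
theorem Cost.seq {D' : Dom G' β} (θ : G → G') {y : G' → γ} {t : G → ℕ} {t' : G' → ℕ}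
    (hx : Cost D t fun g => D'.inp (θ g)) (hy : Cost D' t' y)
    (he : ∀ g env, D.env g env → D'.env (θ g) env) (hB : Bd (fun g => D'.B (θ g)) D.B) :
    Cost D (fun g => t g + t' (θ g)) fun g => y (θ g) := by
  obtain ⟨d, K, hd⟩ := hx
  obtain ⟨c, K', hc⟩ := hy
  obtain ⟨K'', hB⟩ := hB
  refine ⟨Prg.seq d c, K + K' * K'', fun g env h =>
    (rns_seq (hd g env h) (hc (θ g) env (he g env h))).mono ?_⟩
  have := Nat.mul_le_mul_left K' (hB g)
  dsimp only at *
  rw [add_mul, mul_assoc]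
  omega

theorem Lin.seq {D' : Dom G' β} (θ : G → G') {y : G' → γ}
    (hx : Lin D fun g => D'.inp (θ g)) (hy : Lin D' y)
    (he : ∀ g env, D.env g env → D'.env (θ g) env) (hB : Bd (fun g => D'.B (θ g)) D.B) :
    Lin D fun g => y (θ g) :=
  ((hx.cost 0).seq θ (hy.cost 0) he hB).lin (Bd.of_le fun g => by simp)

theorem Cost.wi {x : G → β} {h : Bd (fun g => sz (x g)) D.B} {y : G → γ} {t t' : G → ℕ}
    (hx : Cost D t x) (hy : Cost (D.wi x h) t' y) : Cost D (fun g => t g + t' g) y :=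
  Cost.seq (D' := D.wi x h) id hx hy (fun _ _ h => h) (Bd.refl _)

theorem Cost.res {f : G → β} {t : G → ℕ} (h : Cost D t f) (θ : G' → G) :
    Cost (D.res θ) (fun g => t (θ g)) fun g => f (θ g) := by
  obtain ⟨c, K, h⟩ := h
  exact ⟨c, K, fun g env he => h (θ g) env he⟩

theorem Lin.res {f : G → β} (h : Lin D f) (θ : G' → G) : Lin (D.res θ) fun g => f (θ g) := by
  obtain ⟨c, K, h⟩ := h
  exact ⟨c, K, fun g env he => h (θ g) env he⟩

theorem Small.res {f : G → β} (h : Small D f) (θ : G' → G) : Small (D.res θ) fun g => f (θ g) := by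
  obtain ⟨k, h⟩ := h
  exact ⟨k, fun g => h (θ g)⟩

theorem LS.res {f : G → β} (h : LS D f) (θ : G' → G) : LS (D.res θ) fun g => f (θ g) :=
  ⟨h.1.res θ, h.2.res θ⟩

theorem Lin.ws {f : G → β} {S : G → ℕ} {h : Bd (fun g => Lam (S g)) D.B} :
    Lin (D.ws S h) f ↔ Lin D f := Iff.rfl

@[fun_prop] theorem Lin.comp {f : β → γ} {x : G → β} (hf : Lin (D0 β) f) (hx : Lin D x) :
    Lin D fun g => f (x g) := by
  obtain ⟨K', h'⟩ := hx.size'
  obtain ⟨d, K, hd⟩ := hx
  obtain ⟨c, K'', hc⟩ := hf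
  refine ⟨Prg.seq d c, K + K'' * K', fun g env h =>
    (rns_seq (hd g env h) (hc (x g) env trivial)).mono ?_⟩
  have := Nat.mul_le_mul_left K'' (h' g env h)
  rw [add_mul, mul_assoc]
  exact Nat.add_le_add_left this _

theorem Cost.comp {f : β → γ} {x : G → β} {t : G → ℕ} (hx : Cost D t x)
    (hs : Bd (fun g => sz (x g)) D.B) (hf : Lin (D0 β) f) : Cost D t fun g => f (x g) := by
  exact (hx.wi (h := hs) ((hf.comp (Lin.inp (D := D.wi x hs))).cost 0)).mono fun g => by simp

theorem L1.ofH {f : α → β} (c : Cmd) (K : ℕ) (h : ∀ x, Runs c (enc x) (enc (f x)) (K * sz x)) :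
    Lin (D0 α) f := ⟨emb L0 c, K, fun x _ _ => Rns.ofH (h x)⟩

theorem L1.of {f : α → β} (c : Prg) (K : ℕ)
    (h : ∀ env x, Rns env c (enc x) (enc (f x)) (K * sz x)) : Lin (D0 α) f :=
  ⟨c, K, fun x env _ => h env x⟩

@[fun_prop] theorem Lin.pair {f : G → β} {f' : G → γ} (h : Lin D f) (h' : Lin D f') :
    Lin D fun g => (f g, f' g) := by
  obtain ⟨c, K, h⟩ := h
  obtain ⟨c', K', h'⟩ := h'
  obtain ⟨K'', hB⟩ := D.hB
  refine ⟨pairP c c', K + 9 * K' + 26 * K'' + 11, fun g env he =>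
    (rns_pair (h g env he) (h' g env he)).mono ?_⟩
  have h1 := hB g
  have h2 := D.pos g
  unfold sz at h1
  nlinarith

theorem rns_const (y : Tr) : ∃ (c : Prg) (K : ℕ), ∀ env (x : Tr), Rns env c x y (K * x.size) := by
  induction y with
  | nil =>
    exact ⟨emb L0 nilC, 9, fun env x => (Rns.ofH (runs_nil x)).mono (by
      have := x.size_pos; omega)⟩
  | node a b iha ihb =>
    obtain ⟨c, K, h⟩ := iha
    obtain ⟨d, K', h'⟩ := ihb
    refine ⟨pairP c d, K + 9 * K' + 37, fun env x => (rns_pair (h env x) (h' env x)).mono ?_⟩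
    have := x.size_pos
    nlinarith

@[fun_prop] theorem Lin.const (b : β) : Lin D fun _ => b := by
  obtain ⟨c, K, h⟩ := rns_const (enc b)
  exact (L1.of (f := fun _ : α => b) c K fun env x => h env _).comp Lin.inp

@[fun_prop] theorem Lin.fst {f : G → β × γ} (h : Lin D f) : Lin D fun g => (f g).1 :=
  (L1.ofH (f := fun p : β × γ => p.1) fstC 8 fun x => runs_fst (enc x.1) (enc x.2)).comp h

@[fun_prop] theorem Lin.snd {f : G → β × γ} (h : Lin D f) : Lin D fun g => (f g).2 :=
  (L1.ofH (f := fun p : β × γ => p.2) sndC 8 fun x => runs_snd (enc x.1) (enc x.2)).comp h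

theorem Small.pt {f : β → γ} {x : G → β} (hf : PT f) (hx : Small D x) :
    Small D fun g => f (x g) := by
  obtain ⟨Q, hQ⟩ := hf.size_le
  obtain ⟨k, hk⟩ := hx
  obtain ⟨j, hj⟩ := eval_le_pow Q
  refine ⟨(k + 2) * j, fun g => (hQ _).trans ((hj _).trans ?_)⟩
  rw [pow_mul]
  refine Nat.pow_le_pow_left ?_ j
  have h1 := hk g
  have h2 : 4 ≤ (D.S g + 2) ^ 2 :=
    le_trans (by norm_num) (Nat.pow_le_pow_left (show 2 ≤ D.S g + 2 by omega) 2)
  have h3 : 0 < (D.S g + 2) ^ k := by positivity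
  rw [pow_add]
  nlinarith

@[fun_prop] theorem Lin.pt {f : β → γ} {x : G → β} (hf : PT f) (hx : LS D x) :
    Lin D fun g => f (x g) := by
  obtain ⟨c, P, hc⟩ := hf
  obtain ⟨k, hk⟩ := hx.2
  obtain ⟨j, hj⟩ := eval_le_pow P
  obtain ⟨K, hK⟩ := pow_le_Lam ((k + 2) * j)
  refine hx.1.app (emb L0 c) (fun g env _ => Rns.ofH (hc (x g))) ((D.hL.cmul K).le fun g => ?_)
  refine ((hj _).trans ?_).trans (hK _)
  rw [pow_mul]
  refine Nat.pow_le_pow_left ?_ j
  have h1 := hk g
  have h2 : 4 ≤ (D.S g + 2) ^ 2 :=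
    le_trans (by norm_num) (Nat.pow_le_pow_left (show 2 ≤ D.S g + 2 by omega) 2)
  have h3 : 0 < (D.S g + 2) ^ k := by positivity
  rw [pow_add]
  nlinarith

@[fun_prop] theorem LS.comp {f : β → γ} {x : G → β} (hf : PT f) (hx : LS D x) :
    LS D fun g => f (x g) := ⟨Lin.pt hf hx, Small.pt hf hx.2⟩

theorem Small.const (b : β) : Small D fun _ => b :=
  Small.of_lin (sz b) fun g => Nat.le_mul_of_pos_right _ (by omega)

theorem Small.pair {f : G → β} {f' : G → γ} (h : Small D f) (h' : Small D f') :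
    Small D fun g => (f g, f' g) := by
  obtain ⟨k, h⟩ := h
  obtain ⟨k', h'⟩ := h'
  refine ⟨k + k' + 2, fun g => ?_⟩
  have h1 : (D.S g + 2) ^ k ≤ (D.S g + 2) ^ (k + k') := Nat.pow_le_pow_right (by omega) (by omega)
  have h2 : (D.S g + 2) ^ k' ≤ (D.S g + 2) ^ (k + k') := Nat.pow_le_pow_right (by omega) (by omega)
  have h3 : 4 ≤ (D.S g + 2) ^ 2 :=
    le_trans (by norm_num) (Nat.pow_le_pow_left (show 2 ≤ D.S g + 2 by omega) 2)
  have h4 : 0 < (D.S g + 2) ^ (k + k') := by positivity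
  have := h g
  have := h' g
  rw [sz_pair, pow_add _ (k + k')]
  nlinarith

@[fun_prop] theorem LS.const (b : β) : LS D fun _ => b := ⟨Lin.const b, Small.const b⟩

@[fun_prop] theorem LS.pair {f : G → β} {f' : G → γ} (h : LS D f) (h' : LS D f') :
    LS D fun g => (f g, f' g) := ⟨h.1.pair h'.1, h.2.pair h'.2⟩

/-- case distinction, each branch on its own part of the domain -/
theorem Cost.cond {b : G → Bool} {f : G → β} {t : G → ℕ} (hb : Lin D b)
    (h1 : Cost (D.res (Subtype.val : {g // b g = true} → G)) (fun g => t g.1) fun g => f g.1)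
    (h2 : Cost (D.res (Subtype.val : {g // b g = false} → G)) (fun g => t g.1) fun g => f g.1) :
    Cost D t f := by
  obtain ⟨c, K, hc⟩ := hb.pair Lin.inp
  obtain ⟨c1, K1, h1⟩ := h1
  obtain ⟨c2, K2, h2⟩ := h2
  obtain ⟨K3, h3⟩ := D.hB
  refine ⟨Prg.seq c (caseP c2 (Prg.seq (emb L0 sndC) c1)), K + K1 + K2 + 8 * K3 + 40,
    fun g env he => ?_⟩
  have h4 := hc g env he
  have h5 := h3 g
  have h6 := D.pos g
  dsimp only at h4 h5
  cases hg : b g
  · rw [hg] at h4
    refine (rns_seq h4 (rns_case_nil (h2 ⟨g, hg⟩ env he))).mono ?_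
    show K * D.B g + (t g + K2 * D.B g + 2) ≤ _
    nlinarith
  · rw [hg] at h4
    refine (rns_seq h4 (rns_case_node (rns_seq (Rns.ofH (runs_snd (enc true) (enc (D.inp g))))
      (h1 ⟨g, hg⟩ env he)))).mono ?_
    show K * D.B g + (8 * _ + (t g + K1 * D.B g) + 4) ≤ _
    simp only [Tr.size_node, enc_true, Tr.size_nil]
    unfold sz at h5
    nlinarith

theorem Lin.cond' {b : G → Bool} {f : G → β} (hb : Lin D b)
    (h1 : Lin (D.res (Subtype.val : {g // b g = true} → G)) fun g => f g.1)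
    (h2 : Lin (D.res (Subtype.val : {g // b g = false} → G)) fun g => f g.1) : Lin D f :=
  (Cost.cond (t := fun _ => 0) hb (h1.cost _) (h2.cost _)).lin (Bd.of_le fun _ => Nat.zero_le _)

@[fun_prop] theorem Lin.cond {b : G → Bool} {f f' : G → β} (hb : Lin D b) (h1 : Lin D f)
    (h2 : Lin D f') : Lin D fun g => cond (b g) (f g) (f' g) :=
  Lin.cond' hb ((h1.res _).congr fun g => by rw [g.2]; rfl) ((h2.res _).congr fun g => by
    rw [g.2]; rfl)

@[fun_prop] theorem Lin.cons {f : G → β} {l : G → List β} (hf : Lin D f) (hl : Lin D l) :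
    Lin D fun g => f g :: l g := (hf.pair hl).of_enc fun _ => rfl

theorem L1.lcase {f : γ → δ} {h : (β × List β) × γ → δ} (hf : Lin (D0 γ) f)
    (hh : Lin (D0 _) h) : Lin (D0 _) fun p : List β × γ => lcase p.1 (f p.2) fun a t => h ((a, t), p.2) := by
  obtain ⟨c, K, hc⟩ := hf
  obtain ⟨d, K', hd⟩ := hh
  refine L1.of (caseP c d) (K + K' + 4) fun env x => ?_
  obtain ⟨l, x⟩ := x
  cases l with
  | nil =>
    refine (rns_case_nil (hc x env trivial)).mono ?_
    show K * sz x + 2 ≤ _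
    simp only [sz_pair, sz_nil]
    nlinarith
  | cons a t =>
    refine (rns_case_node (hd ((a, t), x) env trivial)).mono ?_
    show K' * sz (a :: t, x) + 4 ≤ _
    have := sz_pos (a :: t, x)
    nlinarith

@[fun_prop] theorem Lin.tail {l : G → List β} (hl : Lin D l) : Lin D fun g => (l g).tail := by
  refine ((L1.lcase (f := fun _ : Unit => ([] : List β)) (h := fun p => p.1.2) (by fun_prop)
    (by fun_prop)).comp (hl.pair (Lin.const ()))).congr fun g => ?_
  cases l g <;> rfl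

@[fun_prop] theorem Lin.headD {l : G → List β} {d : G → β} (hl : Lin D l) (hd : Lin D d) :
    Lin D fun g => (l g).headD (d g) := by
  refine ((L1.lcase (f := fun x : β => x) (h := fun p => p.1.1) (by fun_prop)
    (by fun_prop)).comp (hl.pair hd)).congr fun g => ?_
  cases l g <;> rfl

@[fun_prop] theorem Lin.isEmpty {l : G → List β} (hl : Lin D l) :
    Lin D fun g => (l g).isEmpty := by
  refine ((L1.lcase (f := fun _ : Unit => true) (h := fun _ => false) (by fun_prop)
    (by fun_prop)).comp (hl.pair (Lin.const ()))).congr fun g => ?_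
  cases l g <;> rfl

@[fun_prop] theorem Lin.not {f : G → Bool} (hf : Lin D f) : Lin D fun g => !(f g) := by
  refine (Lin.cond hf (Lin.const false) (Lin.const true)).congr fun g => ?_
  cases f g <;> rfl

@[fun_prop] theorem Lin.and {f f' : G → Bool} (hf : Lin D f) (hf' : Lin D f') :
    Lin D fun g => f g && f' g := by
  refine (Lin.cond hf hf' (Lin.const false)).congr fun g => ?_
  cases f g <;> rfl

@[fun_prop] theorem Lin.or {f f' : G → Bool} (hf : Lin D f) (hf' : Lin D f') :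
    Lin D fun g => f g || f' g := by
  refine (Lin.cond hf (Lin.const true) hf').congr fun g => ?_
  cases f g <;> rfl

@[fun_prop] theorem Lin.xor {f f' : G → Bool} (hf : Lin D f) (hf' : Lin D f') :
    Lin D fun g => xor (f g) (f' g) := by
  refine (Lin.cond hf (Lin.not hf') hf').congr fun g => ?_
  cases f g <;> simp

@[fun_prop] theorem Lin.append {l m : G → List β} (hl : Lin D l) (hm : Lin D m) :
    Lin D fun g => l g ++ m g :=
  (L1.of (f := fun p : List β × List β => p.1 ++ p.2) appP 10 fun _ x => rns_append x.1 x.2).comp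
    (hl.pair hm)

@[fun_prop] theorem Lin.reverse {l : G → List β} (hl : Lin D l) : Lin D fun g => (l g).reverse :=
  (L1.of (f := fun p : List β => p.reverse) revP 20 fun _ x => rns_reverse x).comp hl

@[fun_prop] theorem Lin.zip {l : G → List β} {m : G → List γ} (hl : Lin D l) (hm : Lin D m) :
    Lin D fun g => (l g).zip (m g) :=
  (L1.of (f := fun p : List β × List γ => p.1.zip p.2) zipP 30 fun _ x => rns_zip x.1 x.2).comp
    (hl.pair hm)

/-- the code of a value as a list of bits -/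
def serL (x : β) : List Bool := ser (enc x)

@[fun_prop] theorem Lin.serL {f : G → β} (hf : Lin D f) : Lin D fun g => serL (f g) :=
  (L1.of (f := fun x : β => P338.serL x) serP 20 fun _ x => rns_ser (enc x)).comp hf

theorem Lin.unser {f : G → β} (hf : Lin D fun g => P338.serL (f g)) : Lin D f := by
  obtain ⟨K', h'⟩ := hf.size'
  obtain ⟨d, K, hd⟩ := hf
  refine ⟨Prg.seq d unsP, K + 20 * K', fun g env h =>
    (rns_seq (hd g env h) (rns_unser (enc (f g)))).mono ?_⟩
  have := h' g env h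
  unfold P338.serL at this
  nlinarith

@[fun_prop] theorem Lin.dropC (k : ℕ) {l : G → List β} (hl : Lin D l) :
    Lin D fun g => (l g).drop k := by
  induction k with
  | zero => simpa using hl
  | succ k ih => exact ih.tail.congr fun g => by simp

@[fun_prop] theorem Lin.getDC (k : ℕ) {l : G → List β} {d : G → β} (hl : Lin D l) (hd : Lin D d) :
    Lin D fun g => (l g).getD k (d g) :=
  ((hl.dropC k).headD hd).congr fun g => by simp [List.getD_eq_getElem?_getD]

end Vale.Agent.P338
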