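import Vale.Agent.P338.Lin

/-! Loops in the linear time calculus. -/

namespace Vale.Agent.P338

open Vale.Agent.Lib Vale.Agent.Lib.H23 Enc

variable {G G' α α' β γ δ σ : Type} [Enc α] [Enc α'] [Enc β] [Enc γ] [Enc δ] [Enc σ]
  {D : Dom G α}

theorem Lin.scan {G1 G2 : Type} {D1 : Dom G1 (σ × β)} {D2 : Dom G2 σ} {o1 : G1 → List γ × σ}
    {o2 : G2 → List γ} (h1 : Lin D1 o1) (h2 : Lin D2 o2)
    (step : G → σ → β → List γ × σ) (fin : G → σ → List γ) {s0 : G → σ} {l : G → List β}
    (hs : Lin D s0) (hl : Lin D l) (Inv : G → σ → List β → Prop) (Pot : G → σ → List β → ℕ)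
    (H0 : ∀ g, Inv g (s0 g) (l g))
    (H1 : ∀ g s x l', Inv g s (x :: l') → Inv g (step g s x).2 l' ∧ ∃ q,
      (∀ e, D.env g e → D1.env q e) ∧ D1.inp q = (s, x) ∧ o1 q = step g s x ∧
        D1.B q + Pot g (step g s x).2 l' ≤ Pot g s (x :: l'))
    (H2 : ∀ g s, Inv g s [] → ∃ q, (∀ e, D.env g e → D2.env q e) ∧ D2.inp q = s ∧
      o2 q = fin g s ∧ D2.B q ≤ Pot g s [])
    (HP : Bd (fun g => Pot g (s0 g) (l g)) D.B) :
    Lin D fun g => P338.scan (step g) (fin g) (s0 g) (l g) := by
  obtain ⟨c, K1, h1⟩ := h1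
  obtain ⟨f, K2, h2⟩ := h2
  obtain ⟨K3, h3⟩ := D1.hB
  obtain ⟨K4, h4⟩ := D2.hB
  refine (hs.pair hl).app (t := fun g => 50 * ((K1 + K2 + K3 + K4) * Pot g (s0 g) (l g)))
    (scanP c f) (fun g env he => ?_) ((HP.cmul _).cmul _)
  refine rns_scan (Inv g) (fun s l => (K1 + K2 + K3 + K4) * Pot g s l) (fun s x l' hI => ?_)
    (fun s hI => ?_) (H0 g)
  · obtain ⟨hI', q, e1, e2, e3, e4⟩ := H1 g s x l' hI
    refine ⟨hI', _, by rw [← e2, ← e3]; exact h1 q env (e1 env he), ?_⟩
    have h5 := h3 q
    have h6 := Nat.mul_le_mul_left (K1 + K2 + K3 + K4) e4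
    dsimp only at h5
    rw [e2, sz_pair] at h5
    nlinarith [Nat.zero_le (K2 * D1.B q), Nat.zero_le (K4 * D1.B q)]
  · obtain ⟨q, e1, e2, e3, e4⟩ := H2 g s hI
    refine ⟨_, by rw [← e3]; conv => { enter [3]; rw [← e2] }; exact h2 q env (e1 env he), ?_⟩
    have h5 := h4 q
    have h6 := Nat.mul_le_mul_left (K1 + K2 + K3 + K4) e4
    dsimp only at h5
    rw [e2] at h5
    nlinarith [Nat.zero_le (K1 * D2.B q), Nat.zero_le (K3 * D2.B q)]

theorem Lin.unf {G1 : Type} {D1 : Dom G1 σ} {o1 : G1 → List γ × σ} {o2 : G1 → Bool}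
    (h1 : Lin D1 o1) (h2 : Lin D1 o2) (res : G → σ → List γ) {s0 : G → σ} (hs : Lin D s0)
    (step : σ → List γ × σ) (go : σ → Bool)
    (Inv : G → σ → Prop) (Pot : G → σ → ℕ) (H0 : ∀ g, Inv g (s0 g))
    (H1 : ∀ g s, Inv g s → ∃ q, (∀ e, D.env g e → D1.env q e) ∧ D1.inp q = s ∧ o1 q = step s ∧
      o2 q = go s ∧ (go s = true → Inv g (step s).2 ∧ res g s = (step s).1 ++ res g (step s).2 ∧
        D1.B q + Pot g (step s).2 ≤ Pot g s) ∧ (go s = false → res g s = [] ∧ D1.B q ≤ Pot g s))
    (HP : Bd (fun g => Pot g (s0 g)) D.B) : Lin D fun g => res g (s0 g) := by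
  obtain ⟨c, K1, h1⟩ := h1
  obtain ⟨f, K2, h2⟩ := h2.pair Lin.inp
  obtain ⟨K3, h3⟩ := D1.hB
  refine hs.app (t := fun g => 100 * ((K1 + K2 + K3) * Pot g (s0 g)))
    (wloop (unfB f c)) (fun g env he => ?_) ((HP.cmul _).cmul _)
  refine rns_unf (step := step) (go := go) (Inv g) (fun s => (K1 + K2 + K3) * Pot g s)
    (fun s hI hg => ?_) (fun s hI hg => ?_) (H0 g)
  · obtain ⟨q, e1, e2, e3, e4, e5, -⟩ := H1 g s hI
    obtain ⟨e6, e7, e8⟩ := e5 hg
    have k1 := h1 q env (e1 env he)
    have k2 := h2 q env (e1 env he)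
    have k3 := h3 q
    dsimp only at k2 k3
    rw [e2] at k1 k2 k3
    rw [e3] at k1
    rw [e4] at k2
    refine ⟨e6, e7, _, _, k2, k1, ?_⟩
    have h6 := Nat.mul_le_mul_left (K1 + K2 + K3) e8
    nlinarith
  · obtain ⟨q, e1, e2, e3, e4, -, e5⟩ := H1 g s hI
    obtain ⟨e6, e7⟩ := e5 hg
    have k2 := h2 q env (e1 env he)
    have k3 := h3 q
    dsimp only at k2 k3
    rw [e2] at k2 k3
    rw [e4] at k2
    refine ⟨e6, _, k2, ?_⟩
    have h6 := Nat.mul_le_mul_left (K1 + K2 + K3) e7
    nlinarith [Nat.zero_le (K1 * D1.B q)]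

/-- finite state transducers -/
theorem Lin.fsm {step : σ → β → List γ × σ} {fin : σ → List γ}
    (h1 : Lin (D0 _) fun p : σ × β => step p.1 p.2) (h2 : Lin (D0 _) fin) (C : ℕ)
    (hC : ∀ s : σ, sz s ≤ C) (s0 : σ) {l : G → List β} (hl : Lin D l) :
    Lin D fun g => P338.scan step fin s0 (l g) := by
  refine Lin.scan h1 h2 (fun _ => step) (fun _ => fin) (Lin.const s0) hl (fun _ _ _ => True)
    (fun _ _ l => (C + 1) * sz l) (fun _ => trivial) (fun g s x l' _ => ⟨trivial, (s, x),
      fun _ _ => trivial, rfl, rfl, ?_⟩) (fun g s _ => ⟨s, fun _ _ => trivial, rfl, rfl, ?_⟩)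
    (hl.size.cmul _)
  · have := hC s
    show sz (s, x) + _ ≤ _
    rw [sz_pair, sz_cons]
    nlinarith [Nat.zero_le (C * sz x)]
  · have := hC s
    show sz s ≤ _
    rw [sz_nil]
    omega

theorem sz_unit (u : Unit) : sz u = 1 := rfl

@[fun_prop] theorem Lin.flatMap {F : β → List γ} {l : G → List β} (hF : Lin (D0 β) F)
    (hl : Lin D l) : Lin D fun g => (l g).flatMap F := by
  refine (Lin.fsm (step := fun (_ : Unit) x => (F x, ())) (fin := fun _ => []) (by fun_prop)
    (by fun_prop) 1 (fun s => (sz_unit s).le) () hl).congr fun g => ?_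
  induction l g with
  | nil => rfl
  | cons x t ih => simp [P338.scan, ih]

@[fun_prop] theorem Lin.map {F : β → γ} {l : G → List β} (hF : Lin (D0 β) F) (hl : Lin D l) :
    Lin D fun g => (l g).map F :=
  (Lin.flatMap (F := fun x => [F x]) (by fun_prop) hl).congr fun g => by
    rw [List.map_eq_flatMap]

@[fun_prop] theorem Lin.flatten {l : G → List (List β)} (hl : Lin D l) :
    Lin D fun g => (l g).flatten :=
  (Lin.flatMap (F := fun x => x) (by fun_prop) hl).congr fun g => by simp

@[fun_prop] theorem Lin.zipWith {F : β → γ → δ} {l : G → List β} {m : G → List γ}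
    (hF : Lin (D0 _) fun p : β × γ => F p.1 p.2) (hl : Lin D l) (hm : Lin D m) :
    Lin D fun g => List.zipWith F (l g) (m g) :=
  (Lin.map hF (hl.zip hm)).congr fun g => by
    rw [List.zip, List.map_zipWith]

@[fun_prop] theorem Lin.filter {F : β → Bool} {l : G → List β} (hF : Lin (D0 β) F)
    (hl : Lin D l) : Lin D fun g => (l g).filter F := by
  refine (Lin.flatMap (F := fun x => bif F x then [x] else []) (by fun_prop) hl).congr fun g => ?_
  induction l g with
  | nil => rfl
  | cons x t ih => cases h : F x <;> simp [h, ih]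

@[fun_prop] theorem Lin.takeC (k : ℕ) {l : G → List β} (hl : Lin D l) :
    Lin D fun g => (l g).take k := by
  refine (Lin.map (F := fun p : β × Unit => p.1) (by fun_prop)
    (hl.zip (Lin.const (List.replicate k ())))).congr fun g => ?_
  generalize l g = l
  induction k generalizing l with
  | zero => simp
  | succ k ih => cases l <;> simp [List.replicate_succ, ← ih]

/-- as many elements of `l` as `m` is long -/
theorem Lin.takeU {l : G → List β} {m : G → List γ} (hl : Lin D l) (hm : Lin D m) :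
    Lin D fun g => (l g).take (m g).length := by
  refine (Lin.map (F := fun p : β × γ => p.1) (by fun_prop) (hl.zip hm)).congr fun g => ?_
  generalize l g = l
  induction m g generalizing l with
  | nil => simp
  | cons y m ih => cases l <;> simp [← ih]

theorem Lin.dropU {l : G → List β} {m : G → List γ} (hl : Lin D l) (hm : Lin D m) :
    Lin D fun g => (l g).drop (m g).length := by
  have h : Lin D fun g => (((m g).map (fun _ => false) ++ (l g).map fun _ => true).zip
      (l g)).flatMap fun p => bif p.1 then [p.2] else [] := by fun_prop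
  refine h.congr fun g => ?_
  have key : ∀ (l : List β) (n : ℕ), l.length ≤ n →
      ((List.replicate n true).zip l).flatMap (fun p => bif p.1 then [p.2] else []) = l := by
    intro l
    induction l with
    | nil => simp
    | cons x l ih =>
      intro n hn
      obtain ⟨n, rfl⟩ : ∃ k, n = k + 1 := ⟨n - 1, by simp at hn; omega⟩
      simp [List.replicate_succ, ih n (by simpa using hn)]
  have key2 : ∀ (m : List γ) (l : List β) (n : ℕ), l.length ≤ n → l.drop m.length =
      ((m.map (fun _ => false) ++ List.replicate n true).zip l).flatMap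
        fun p => bif p.1 then [p.2] else [] := by
    intro m
    induction m with
    | nil => intro l n hn; simp [key l n hn]
    | cons y m ih =>
      intro l n hn
      cases l with
      | nil => simp
      | cons x l => simpa using ih l n (by simp at hn; omega)
  rw [key2 (m g) (l g) _ le_rfl, List.map_const' (l := l g)]

/-- `D1` lies over `D` along `θ` with budget `b` -/
structure Over {G1 : Type} (D : Dom G α) (D1 : Dom G1 β) (θ : G1 → G) (b : G1 → ℕ) : Prop where
  env : ∀ p e, D1.env p e → D.env (θ p) e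
  S : ∀ p, D1.S p = D.S (θ p)
  B : ∀ p, D1.B p = b p

theorem Small.over {G1 : Type} {D1 : Dom G1 β} {θ : G1 → G} {b : G1 → ℕ} (h : Over D D1 θ b)
    {f : G → γ} (hf : Small D f) : Small D1 fun p => f (θ p) := by
  obtain ⟨k, hf⟩ := hf
  exact ⟨k, fun p => by rw [h.S]; exact hf _⟩

/-- Map with a parameter `q`; the element `x` gets the budget `b g x`. -/
theorem Lin.mapG {q : G → γ} {l : G → List β} (hq : Lin D q) (hl : Lin D l) (out : G → β → δ)
    (b : G → β → ℕ) (hb : ∃ K, ∀ g, ∀ x ∈ l g, sz (q g) + sz x + Lam (D.S g) ≤ K * b g x)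
    (hs : Bd (fun g => ((l g).map (b g)).sum) D.B)
    (hf : ∀ (G1 : Type) (D1 : Dom G1 (γ × β)) (θ : G1 → G) (q1 : G1 → γ) (x : G1 → β),
      Over D D1 θ (fun p => b (θ p) (x p)) → (∀ p, x p ∈ l (θ p)) → (∀ p, q1 p = q (θ p)) →
      Lin D1 q1 → Lin D1 x → Lin D1 fun p => out (θ p) (x p)) :
    Lin D fun g => (l g).map (out g) := by
  obtain ⟨K, hb⟩ := hb
  let D1 : Dom {p : G × β // p.2 ∈ l p.1} (γ × β) := D.sub (fun p => p.1.1)
    (fun p => (q p.1.1, p.1.2)) (fun p => b p.1.1 p.1.2)
    ⟨K, fun p => by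
      have := hb _ _ p.2
      have := Lam_pos (D.S p.1.1)
      dsimp only
      rw [sz_pair]
      omega⟩
    ⟨K, fun p => by have := hb _ _ p.2; dsimp only; omega⟩
  have k1 : Lin D1 fun p => q p.1.1 := (Lin.inp (D := D1)).fst
  have k2 := hf _ D1 (fun p => p.1.1) _ (fun p => p.1.2) ⟨fun _ _ h => h, fun _ => rfl,
    fun _ => rfl⟩ (fun p => p.2) (fun _ => rfl) k1 (Lin.inp (D := D1)).snd
  refine (Lin.scan (D2 := D0 γ) ((k2.cons (Lin.const [])).pair k1) (Lin.const [])
    (fun g s x => ([out g x], s)) (fun _ _ => []) hq hl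
    (fun g s l' => s = q g ∧ ∀ x ∈ l', x ∈ l g) (fun g _ l' => (l'.map (b g)).sum + sz (q g))
    (fun g => ⟨rfl, fun _ h => h⟩) ?_ ?_ (hs.add hq.size)).congr fun g => ?_
  · rintro g s x l' ⟨rfl, hI⟩
    refine ⟨⟨rfl, fun y hy => hI y (by simp [hy])⟩, ⟨(g, x), hI x (by simp)⟩, fun _ h => h, rfl,
      rfl, ?_⟩
    show b g x + _ ≤ _
    simp only [List.map_cons, List.sum_cons]
    omega
  · rintro g s ⟨rfl, -⟩
    exact ⟨q g, fun _ _ => trivial, rfl, rfl, by show sz (q g) ≤ _; omega⟩
  · induction l g with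
    | nil => rfl
    | cons x t ih => simp [P338.scan, ih]

theorem sum_sz_le (l : List β) : (l.map sz).sum + l.length < sz l := by
  induction l with
  | nil => simp
  | cons x l ih => simp; omega

/-- map of a linear time function with a parameter -/
theorem Lin.mapP {F : γ → β → δ} (hF : Lin (D0 _) fun p : γ × β => F p.1 p.2) {q : G → γ}
    {l : G → List β} (hq : Lin D q) (hl : Lin D l)
    (hc : Bd (fun g => (l g).length * sz (q g)) D.B) : Lin D fun g => (l g).map (F (q g)) := by
  refine (Lin.scan (D1 := D0 (γ × β)) (D2 := D0 γ) (o1 := fun p => ([F p.1 p.2], p.1))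
    (by fun_prop) (Lin.const [])
    (fun g s x => ([F s x], s)) (fun _ _ => []) hq hl
    (fun g s l' => s = q g) (fun g _ l' => sz l' + l'.length * sz (q g) + sz (q g))
    (fun g => rfl) ?_ ?_ ((hl.size.add hc).add hq.size)).congr fun g => ?_
  · rintro g s x l' rfl
    refine ⟨rfl, (q g, x), fun _ _ => trivial, rfl, rfl, ?_⟩
    show sz (q g, x) + _ ≤ _
    simp only [sz_pair, sz_cons, List.length_cons]
    nlinarith
  · rintro g s rfl
    exact ⟨q g, fun _ _ => trivial, rfl, rfl, by show sz (q g) ≤ _; omega⟩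
  · induction l g with
    | nil => rfl
    | cons x t ih => simp [P338.scan, ih]

theorem Lin.range {n : G → ℕ} (hn : LS D n) (hc : Bd (fun g => n g * Lam (D.S g)) D.B) :
    Lin D fun g => List.range (n g) := by
  let D1 : Dom {p : G × ℕ // p.2 ≤ n p.1} (ℕ × ℕ) := D.sub (fun p => p.1.1)
    (fun p => (p.1.2, n p.1.1)) (fun p => Lam (D.S p.1.1))
    (Small.bd (D := D.res fun p : {p : G × ℕ // p.2 ≤ n p.1} => p.1.1)
      (Small.pair ((hn.2.res _).nat_le fun p => p.2) (hn.2.res _))) (Bd.refl _)
  have k1 : LS D1 D1.inp := ⟨Lin.inp, Small.pair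
    (D := D.res fun p : {p : G × ℕ // p.2 ≤ n p.1} => p.1.1)
    ((hn.2.res _).nat_le fun p => p.2) (hn.2.res _)⟩
  have k2 := Lin.unf (D := D) (D1 := D1)
    (Lin.pt (f := fun s : ℕ × ℕ => ([s.1], (s.1 + 1, s.2))) (by fun_prop) k1)
    (Lin.pt (f := fun s : ℕ × ℕ => ltb s.1 s.2) (by fun_prop) k1)
    (fun g s => List.range' s.1 (s.2 - s.1)) (s0 := fun g => (0, n g)) (by fun_prop)
    (fun s => ([s.1], (s.1 + 1, s.2))) (fun s => ltb s.1 s.2)
    (fun g s => s.1 ≤ n g ∧ s.2 = n g) (fun g s => (n g - s.1) * Lam (D.S g) + Lam (D.S g))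
    (fun g => ⟨Nat.zero_le _, rfl⟩) ?_ (hc.add D.hL)
  · exact k2.congr fun g => by simp [List.range_eq_range']
  · rintro g ⟨i, _⟩ ⟨hi, rfl⟩
    refine ⟨⟨(g, i), hi⟩, fun _ h => h, rfl, rfl, rfl, fun h => ?_, fun h => ?_⟩
    · simp only [ltb_eq, decide_eq_true_eq] at h
      obtain ⟨k, hk⟩ : ∃ k, n g = i + 1 + k := ⟨n g - (i + 1), by omega⟩
      refine ⟨⟨h, rfl⟩, ?_, ?_⟩
      · have e1 : n g - i = k + 1 := by omega
        have e2 : n g - (i + 1) = k := by omega
        simp [e1, e2, List.range'_succ]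
      · show Lam (D.S g) + ((n g - (i + 1)) * Lam (D.S g) + Lam (D.S g)) ≤
          (n g - i) * Lam (D.S g) + Lam (D.S g)
        have e1 : n g - i = k + 1 := by omega
        have e2 : n g - (i + 1) = k := by omega
        rw [e1, e2]
        nlinarith
    · simp only [ltb_eq, decide_eq_false_iff_not] at h
      have e1 : n g - i = 0 := by omega
      exact ⟨by simp [e1], by show Lam (D.S g) ≤ _; omega⟩

theorem Lin.replicate {n : G → ℕ} {x : G → β} (hn : LS D n) (hx : Lin D x)
    (hc : Bd (fun g => n g * Lam (D.S g)) D.B) (hc' : Bd (fun g => n g * sz (x g)) D.B) :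
    Lin D fun g => List.replicate (n g) (x g) :=
  (Lin.mapP (F := fun (x : β) (_ : ℕ) => x) (by fun_prop) hx (Lin.range hn hc)
    (by simpa using hc')).congr fun g => by simp [List.map_const']

theorem Lin.un {n : G → ℕ} (hn : LS D n) (hc : Bd (fun g => n g * Lam (D.S g)) D.B) :
    Lin D fun g => (⟨n g⟩ : Un) :=
  (Lin.map (F := fun _ : ℕ => ()) (by fun_prop) (Lin.range hn hc)).of_enc fun g => by
    rw [List.map_const', List.length_range]; rfl

/-- Map over the blocks `blk g i`, `i < N g`, with parameter `q` and uniform budget `b g`. -/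
theorem Lin.mapTab {q : G → γ} {N : G → ℕ} {blk : G → ℕ → β} (hq : Lin D q) (hN : LS D N)
    (hl : Lin D fun g => (List.range (N g)).map (blk g)) (out : G → ℕ → δ) (b : G → ℕ)
    (hb : ∃ K, ∀ g, ∀ i < N g, sz (q g) + sz (blk g i) + Lam (D.S g) ≤ K * b g)
    (hs : Bd (fun g => N g * b g) D.B)
    (hf : ∀ (G1 : Type) (D1 : Dom G1 (γ × ℕ × β)) (θ : G1 → G) (q1 : G1 → γ) (i : G1 → ℕ)
      (x : G1 → β), Over D D1 θ (fun p => b (θ p)) → (∀ p, i p < N (θ p)) →
      (∀ p, q1 p = q (θ p)) → (∀ p, x p = blk (θ p) (i p)) →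
      Lin D1 q1 → LS D1 i → Lin D1 x → Lin D1 fun p => out (θ p) (i p)) :
    Lin D fun g => (List.range (N g)).map (out g) := by
  obtain ⟨K, hb⟩ := hb
  obtain ⟨K', hK'⟩ := (Small.nat_le (D := D.res fun p : {p : G × ℕ // p.2 < N p.1} => p.1.1)
    (f := fun p => p.1.2) (hN.2.res _) fun p => p.2.le).bd
  have h1 : Bd (fun g => N g * Lam (D.S g)) D.B := by
    refine (hs.cmul K).le fun g => ?_
    rcases Nat.eq_zero_or_pos (N g) with h | h
    · simp [h]
    · have := Nat.mul_le_mul_left (N g) (hb g 0 h)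
      nlinarith [Nat.zero_le (N g * sz (q g)), Nat.zero_le (N g * sz (blk g 0))]
  have h2 : Lin D fun g => (List.range (N g)).map fun i => (i, blk g i) :=
    ((Lin.range hN h1).zip hl).congr fun g => by
      rw [← List.zip_map', List.map_id']
  refine (Lin.mapG hq h2 (fun g x => out g x.1) (fun g _ => b g) ⟨K' * K + 2 * K, ?_⟩ ?_ ?_).congr
    fun g => by simp
  · intro g x hx
    obtain ⟨i, hi, rfl⟩ := List.mem_map.1 hx
    have h3 := hb g i (List.mem_range.1 hi)
    have h4 : sz i ≤ K' * Lam (D.S g) := hK' ⟨(g, i), List.mem_range.1 hi⟩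
    have h5 : K' * Lam (D.S g) ≤ K' * (K * b g) := Nat.mul_le_mul_left _ (by omega)
    have h6 := Lam_pos (D.S g)
    rw [sz_pair]
    nlinarith
  · simpa [List.map_const', Function.comp_def] using hs
  · intro G1 D1 θ q1 x ho hx hq1 k1 k2
    have hx' : ∀ p, (x p).1 < N (θ p) ∧ (x p).2 = blk (θ p) (x p).1 := fun p => by
      obtain ⟨i, hi, e⟩ := List.mem_map.1 (hx p)
      rw [← e]
      exact ⟨List.mem_range.1 hi, rfl⟩
    exact hf G1 D1 θ q1 (fun p => (x p).1) (fun p => (x p).2) ho (fun p => (hx' p).1) hq1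
      (fun p => (hx' p).2) k1 ⟨k2.fst, (hN.2.over ho).nat_le fun p => (hx' p).1.le⟩ k2.snd

/-! ### grouping -/

/-- cut after every marked element -/
def grp : List (Bool × β) → List (List β)
  | [] => []
  | (true, x) :: t => [x] :: grp t
  | (false, x) :: t => (x :: (grp t).headD []) :: (grp t).tail

@[fun_prop] theorem Lin.grp {l : G → List (Bool × β)} (hl : Lin D l) :
    Lin D fun g => grp (l g) := by
  refine Lin.unser ((Lin.fsm (step := fun (s : Bool) (x : Bool × β) =>
    ((bif s then [] else [true]) ++ true :: (P338.serL x.2 ++ bif x.1 then [false] else []), !x.1))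
    (fin := fun s => bif s then [false, false] else [false]) (by fun_prop) (by fun_prop) 3
    sz_bool false hl).congr fun g => ?_)
  have key : ∀ l : List (Bool × β), ∀ st : Bool → Bool × β → List Bool × Bool,
      ∀ fi : Bool → List Bool, (st = fun (s : Bool) (x : Bool × β) =>
      ((bif s then [] else [true]) ++ true :: (P338.serL x.2 ++ bif x.1 then [false] else []),
        !x.1)) → (fi = fun s => bif s then [false, false] else [false]) →
      P338.scan st fi false l = P338.serL (P338.grp l) ∧ P338.scan st fi true l =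
        P338.serL ((P338.grp l).headD []) ++ P338.serL (P338.grp l).tail := by
    intro l st fi h1 h2
    induction l with
    | nil => subst h2; exact ⟨rfl, rfl⟩
    | cons x t ih =>
      obtain ⟨m, x⟩ := x
      cases m
      · simp only [P338.scan, P338.grp, h1, Bool.not_false]
        rw [← h1, ih.2]
        simp [P338.serL, enc_cons, ser]
      · simp only [P338.scan, P338.grp, h1, Bool.not_true]
        rw [← h1, ih.1]
        simp [P338.serL, enc_cons, enc_nil, ser]
  exact (key _ _ _ rfl rfl).1.symm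

/-- the marks for a block of length `k` -/
def mks (k : ℕ) : List Bool := List.replicate (k - 1) false ++ [true]

omit [Enc β] in
theorem grp_block (c : List β) (hc : c ≠ []) (t : List (Bool × β)) :
    grp ((mks c.length).zip c ++ t) = c :: grp t := by
  induction c with
  | nil => exact absurd rfl hc
  | cons x c ih =>
    cases c with
    | nil => rfl
    | cons y c =>
      have := ih (by simp)
      simp only [mks, List.length_cons, Nat.add_sub_cancel] at this ⊢
      rw [List.replicate_succ, List.cons_append, List.zip_cons_cons, List.cons_append, grp, this]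
      rfl

theorem length_mks {k : ℕ} (hk : 0 < k) : (mks k).length = k := by
  simp [mks]; omega

omit [Enc β] in
theorem grp_mks {k : ℕ} (hk : 0 < k) (L : List (List β)) (hL : ∀ c ∈ L, c.length = k) :
    grp ((List.replicate L.length (mks k)).flatten.zip L.flatten) = L := by
  induction L with
  | nil => rfl
  | cons c L ih =>
    have hc := hL c (by simp)
    rw [List.length_cons, List.replicate_succ, List.flatten_cons, List.flatten_cons,
      List.zip_append (by rw [length_mks hk, hc]), ← hc,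
      grp_block c (by rintro rfl; simp at hc; omega), hc, ih fun c h => hL c (by simp [h])]

def cstep (s : ℕ × ℕ) (x : β) : List (Bool × β) × ℕ × ℕ :=
  ([(eqb (s.2 + 1) s.1, x)], (s.1, bif eqb (s.2 + 1) s.1 then 0 else s.2 + 1))

/-- cut into blocks of length `k` -/
def chunks (k : ℕ) (l : List β) : List (List β) := grp (scan cstep (fun _ => []) (k, 0) l)

omit [Enc β] in
theorem chunks_flatten {k : ℕ} (hk : 0 < k) (L : List (List β)) (hL : ∀ c ∈ L, c.length = k) :
    chunks k L.flatten = L := by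
  have key : ∀ (c t : List β) (i : ℕ), c ≠ [] → i + c.length = k →
      scan cstep (fun _ => []) (k, i) (c ++ t) =
        (mks c.length).zip c ++ scan cstep (fun _ => []) (k, 0) t := by
    intro c t
    induction c with
    | nil => intro i h; exact absurd rfl h
    | cons x c ih =>
      intro i _ hi
      cases c with
      | nil =>
        have : i + 1 = k := by simpa using hi
        simp [scan, cstep, this, mks]
      | cons y c =>
        have h1 : i + 1 ≠ k := by simp at hi; omega
        have h2 := ih (i + 1) (by simp) (by simp at hi ⊢; omega)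
        simp only [mks, List.length_cons, Nat.add_sub_cancel] at h2 ⊢
        rw [List.cons_append, scan]
        simp only [cstep, eqb_eq, h1, decide_false, cond_false, h2]
        simp [List.replicate_succ]
  unfold chunks
  induction L with
  | nil => rfl
  | cons c L ih =>
    have hc := hL c (by simp)
    have hne : c ≠ [] := by rintro rfl; simp at hc; omega
    rw [List.flatten_cons, key c _ 0 hne (by omega), grp_block c hne,
      ih fun c h => hL c (by simp [h])]

theorem Lin.chunks {k : G → ℕ} {l : G → List β} (hk : LS D k) (hl : Lin D l)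
    (hk0 : ∀ g, 0 < k g) (hc : Bd (fun g => (l g).length * Lam (D.S g)) D.B) :
    Lin D fun g => chunks (k g) (l g) := by
  refine Lin.grp ?_
  have s1 : Small (D.res fun p : {p : G × ℕ × β // p.2.1 < k p.1} => p.1.1)
      fun p => (k p.1.1, p.1.2.1) :=
    Small.pair (hk.2.res _) ((hk.2.res _).nat_le fun p => p.2.le)
  have s2 : Small (D.res fun p : {p : G × ℕ // p.2 < k p.1} => p.1.1)
      fun p => (k p.1.1, p.1.2) := Small.pair (hk.2.res _) ((hk.2.res _).nat_le fun p => p.2.le)
  let D1 : Dom {p : G × ℕ × β // p.2.1 < k p.1} ((ℕ × ℕ) × β) := D.sub (fun p => p.1.1)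
    (fun p => ((k p.1.1, p.1.2.1), p.1.2.2)) (fun p => Lam (D.S p.1.1) + sz p.1.2.2)
    (by
      obtain ⟨K, hK⟩ := s1.bd
      refine ⟨K + 2, fun p => ?_⟩
      have h1 : sz (k p.1.1, p.1.2.1) ≤ K * Lam (D.S p.1.1) := hK p
      have h2 := sz_pos p.1.2.2
      dsimp only
      rw [sz_pair]
      nlinarith [Nat.zero_le (K * sz p.1.2.2)])
    (Bd.of_le fun p => Nat.le_add_right _ _)
  let D2 : Dom {p : G × ℕ // p.2 < k p.1} (ℕ × ℕ) := D.sub (fun p => p.1.1)
    (fun p => (k p.1.1, p.1.2)) (fun p => Lam (D.S p.1.1)) s2.bd (Bd.refl _)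
  have k1 : LS D1 fun p => (D1.inp p).1 := ⟨(Lin.inp (D := D1)).fst, s1⟩
  have k2 : Lin D1 fun p => (D1.inp p).2 := (Lin.inp (D := D1)).snd
  have k3 : Lin D1 fun p => cstep (D1.inp p).1 (D1.inp p).2 := by
    have a1 := Lin.pt (f := fun s : ℕ × ℕ => eqb (s.2 + 1) s.1) (by fun_prop) k1
    have a2 := Lin.pt (f := fun s : ℕ × ℕ => (s.1, bif eqb (s.2 + 1) s.1 then 0 else s.2 + 1))
      (by fun_prop) k1
    exact ((a1.pair k2).cons (Lin.const [])).pair a2
  refine Lin.scan (D2 := D2) k3 (Lin.const []) (fun _ => cstep) (fun _ _ => []) (by fun_prop) hl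
    (fun g s _ => s.1 = k g ∧ s.2 < k g)
    (fun g _ l' => sz l' + l'.length * Lam (D.S g) + Lam (D.S g))
    (fun g => ⟨rfl, hk0 g⟩) ?_ ?_ ((hl.size.add hc).add D.hL)
  · rintro g ⟨_, i⟩ x l' ⟨rfl, hi⟩
    refine ⟨⟨rfl, ?_⟩, ⟨(g, i, x), hi⟩, fun _ h => h, rfl, rfl, ?_⟩
    · simp only [cstep, eqb_eq]
      by_cases h : i + 1 = k g
      · simp [h, hk0]
      · simp only [h, decide_false, cond_false]
        dsimp only at hi
        omega
    · show Lam (D.S g) + sz x + _ ≤ _
      simp only [sz_cons, List.length_cons]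
      nlinarith
  · rintro g ⟨_, i⟩ ⟨rfl, hi⟩
    exact ⟨⟨(g, i), hi⟩, fun _ h => h, rfl, rfl, by show Lam (D.S g) ≤ _; omega⟩

/-! ### length -/

def hlf (l : List Unit) : List Unit :=
  scan (fun (s : Bool) (_ : Unit) => (bif s then [()] else [], !s)) (fun _ => []) false l

def parU (l : List Unit) : List Bool :=
  scan (fun (s : Bool) (_ : Unit) => ([], !s)) (fun s => [s]) false l

theorem hlf_length (l : List Unit) : (hlf l).length = l.length / 2 := by
  have key : ∀ (l : List Unit) (s : Bool), (scan (fun (s : Bool) (_ : Unit) =>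
      (bif s then [()] else [], !s)) (fun _ => []) s l).length = (l.length + s.toNat) / 2 := by
    intro l
    induction l with
    | nil => intro s; cases s <;> rfl
    | cons x l ih => intro s; cases s <;> simp [scan, ih]; omega
  simpa [hlf] using key l false

theorem parU_eq (l : List Unit) : parU l = [l.length.bodd] := by
  have key : ∀ (l : List Unit) (s : Bool), scan (fun (s : Bool) (_ : Unit) =>
      (([] : List Bool), !s)) (fun s => [s]) s l = [xor s l.length.bodd] := by
    intro l
    induction l with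
    | nil => intro s; simp [scan]
    | cons x l ih => intro s; simp [scan, ih]
  simpa [parU] using key l false

theorem sz_units (l : List Unit) : sz l = 2 * l.length + 1 := by
  induction l with
  | nil => rfl
  | cons x l ih => simp [ih, sz_unit]; omega

@[fun_prop] theorem Lin.length {l : G → List β} (hl : Lin D l) : Lin D fun g => (l g).length := by
  have h1 : Lin (D0 (List Unit)) fun l => hlf l :=
    Lin.fsm (by fun_prop) (by fun_prop) 3 sz_bool false Lin.id
  have h2 : Lin (D0 (List Unit)) fun l => parU l :=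
    Lin.fsm (by fun_prop) (by fun_prop) 3 sz_bool false Lin.id
  have h3 : Lin D fun g => (l g).map fun _ => () := by fun_prop
  refine (Lin.unf (D := D) (D1 := D0 (List Unit)) (h2.pair h1) (Lin.id.isEmpty.not)
    (fun _ s => s.length.bits) h3 (fun s => (parU s, hlf s)) (fun s => !s.isEmpty)
    (fun _ _ => True) (fun _ s => 4 * sz s) (fun _ => trivial) ?_ (h3.size.cmul 4)).of_enc
    fun g => by simp [enc_nat]
  intro g s _
  refine ⟨s, fun _ _ => trivial, rfl, rfl, rfl, fun h => ⟨trivial, ?_, ?_⟩, fun h => ?_⟩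
  · have h0 : s.length ≠ 0 := by cases s <;> simp at h ⊢
    simp only [parU_eq, hlf_length]
    conv_lhs => rw [← Nat.bit_bodd_div2 s.length]
    rw [Nat.bits_append_bit, Nat.div2_val]
    · rfl
    · intro h1
      have := Nat.bodd_add_div2 s.length
      rw [h1] at this
      cases hb : s.length.bodd
      · rw [hb] at this; simp at this; omega
      · rfl
  · have h0 : s.length ≠ 0 := by cases s <;> simp at h ⊢
    show sz s + _ ≤ _
    simp only [sz_units, hlf_length]
    omega
  · cases s with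
    | nil => exact ⟨rfl, by show sz ([] : List Unit) ≤ _; omega⟩
    | cons x s => simp at h

/-! ### recursion -/

theorem fix_rule {I : Type} (μ : I → ℕ) (inp : I → α) (Spec : I → β → Prop) (c : Prg)
    (C : I → ℕ)
    (h : ∀ i, (∀ j, μ j < μ i → ∃ y, Spec j y ∧ Rns c Prg.call (enc (inp j)) (enc y) (C j)) →
      ∃ y t, Spec i y ∧ Rns c c (enc (inp i)) (enc y) t ∧ t + 2 ≤ C i) (env : Prg) (i : I) :
    ∃ y, Spec i y ∧ Rns env (Prg.fix c) (enc (inp i)) (enc y) (C i) := by
  have key : ∀ n i, μ i < n → ∃ y t, Spec i y ∧ Rns c c (enc (inp i)) (enc y) t ∧ t + 2 ≤ C i := by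
    intro n
    induction n with
    | zero => intro i hi; omega
    | succ n ih =>
      intro i hi
      refine h i fun j hj => ?_
      obtain ⟨y, t, h1, h2, h3⟩ := ih j (by omega)
      exact ⟨y, h1, (rns_call h2).mono h3⟩
  obtain ⟨y, t, h1, h2, h3⟩ := key _ i (Nat.lt_succ_self _)
  exact ⟨y, h1, (rns_fix h2).mono h3⟩

end Vale.Agent.P338
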