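import Vale.Agent.P338.Defs
import Vale.Agent.Lib.helper23.Tree

/-! A structured language on six binary stacks with recursive calls, and its compilation to an
instruction machine. -/

namespace Vale.Agent.P338

inductive Tk : Type
  | m | a | b | c | e | d
  deriving DecidableEq

structure Sto : Type where
  m : List Bool
  a : List Bool
  b : List Bool
  c : List Bool
  e : List Bool
  d : List Bool

def Sto.get (S : Sto) : Tk → List Bool
  | Tk.m => S.m
  | Tk.a => S.a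
  | Tk.b => S.b
  | Tk.c => S.c
  | Tk.e => S.e
  | Tk.d => S.d

def Sto.set (S : Sto) : Tk → List Bool → Sto
  | Tk.m, l => ⟨l, S.a, S.b, S.c, S.e, S.d⟩
  | Tk.a, l => ⟨S.m, l, S.b, S.c, S.e, S.d⟩
  | Tk.b, l => ⟨S.m, S.a, l, S.c, S.e, S.d⟩
  | Tk.c, l => ⟨S.m, S.a, S.b, l, S.e, S.d⟩
  | Tk.e, l => ⟨S.m, S.a, S.b, S.c, l, S.d⟩
  | Tk.d, l => ⟨S.m, S.a, S.b, S.c, S.e, l⟩

theorem Sto.get_set (S : Sto) (k k' : Tk) (l : List Bool) :
    (S.set k l).get k' = if k' = k then l else S.get k' := by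
  cases k <;> cases k' <;> rfl

theorem Sto.set_self (S : Sto) (k : Tk) : S.set k (S.get k) = S := by
  cases k <;> rfl

inductive Prg : Type
  | skip : Prg
  | push : Tk → Bool → Prg
  | seq : Prg → Prg → Prg
  | br : Tk → Prg → Prg → Prg → Prg
  | loop : Tk → Prg → Prg → Prg
  | call : Prg
  | fix : Prg → Prg

/-- `Exe env c S S' t`: with `call` bound to `env`, `c` leads from `S` to `S'` within `t` steps -/
inductive Exe : Prg → Prg → Sto → Sto → ℕ → Prop
  | skip {env : Prg} (S : Sto) : Exe env Prg.skip S S 1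
  | push {env : Prg} (k : Tk) (x : Bool) (S : Sto) :
      Exe env (Prg.push k x) S (S.set k (x :: S.get k)) 1
  | seq {env c d : Prg} {S S' S'' : Sto} {t t' : ℕ} :
      Exe env c S S' t → Exe env d S' S'' t' → Exe env (Prg.seq c d) S S'' (t + t')
  | br0 {env : Prg} {k : Tk} {c0 cf ct : Prg} {S S' : Sto} {t : ℕ} :
      S.get k = [] → Exe env c0 S S' t → Exe env (Prg.br k c0 cf ct) S S' (t + 1)
  | brf {env : Prg} {k : Tk} {c0 cf ct : Prg} {S S' : Sto} {t : ℕ} {l : List Bool} :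
      S.get k = false :: l → Exe env cf (S.set k l) S' t → Exe env (Prg.br k c0 cf ct) S S' (t + 1)
  | brt {env : Prg} {k : Tk} {c0 cf ct : Prg} {S S' : Sto} {t : ℕ} {l : List Bool} :
      S.get k = true :: l → Exe env ct (S.set k l) S' t → Exe env (Prg.br k c0 cf ct) S S' (t + 1)
  | loop0 {env : Prg} {k : Tk} {cf ct : Prg} {S : Sto} :
      S.get k = [] → Exe env (Prg.loop k cf ct) S S 1
  | loopf {env : Prg} {k : Tk} {cf ct : Prg} {S S' S'' : Sto} {t t' : ℕ} {l : List Bool} :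
      S.get k = false :: l → Exe env cf (S.set k l) S' t → Exe env (Prg.loop k cf ct) S' S'' t' →
      Exe env (Prg.loop k cf ct) S S'' (t + t' + 1)
  | loopt {env : Prg} {k : Tk} {cf ct : Prg} {S S' S'' : Sto} {t t' : ℕ} {l : List Bool} :
      S.get k = true :: l → Exe env ct (S.set k l) S' t → Exe env (Prg.loop k cf ct) S' S'' t' →
      Exe env (Prg.loop k cf ct) S S'' (t + t' + 1)
  | call {env : Prg} {S S' : Sto} {t : ℕ} : Exe env env S S' t → Exe env Prg.call S S' (t + 2)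
  | fix {env c : Prg} {S S' : Sto} {t : ℕ} : Exe c c S S' t → Exe env (Prg.fix c) S S' (t + 2)
  | mono {env c : Prg} {S S' : Sto} {t t' : ℕ} : Exe env c S S' t → t ≤ t' → Exe env c S S' t'

inductive Ins (Λ : Type) : Type
  | push : Tk → Bool → Λ → Ins Λ
  | pop : Tk → Λ → Λ → Λ → Ins Λ
  | goto : Λ → Ins Λ
  | cal : Λ → Λ → Ins Λ
  | ret : Ins Λ
  | read : Λ → Λ → Λ → Λ → Ins Λ
  | write : Bool → Λ → Ins Λ
  | halt : Ins Λ

structure ICfg (Λ : Type) : Type where
  l : Λ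
  S : Sto
  R : List Λ
  i : ℕ
  o : List Bool

def jump {Λ : Type} (x y z : Λ) : Option Bool → Λ
  | none => x
  | some false => y
  | some true => z

def jump4 {Λ : Type} (x y z w : Λ) : Option (Option Bool) → Λ
  | none => x
  | some none => y
  | some (some false) => z
  | some (some true) => w

variable {Λ : Type}

def istep (M : Λ → Ins Λ) (inp : ℕ → Option (Option Bool)) (c : ICfg Λ) : Option (ICfg Λ) :=
  match M c.l with
  | Ins.push k x n => some ⟨n, c.S.set k (x :: c.S.get k), c.R, c.i, c.o⟩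
  | Ins.pop k n0 nf nt =>
      some ⟨jump n0 nf nt (c.S.get k).head?, c.S.set k (c.S.get k).tail, c.R, c.i, c.o⟩
  | Ins.goto n => some ⟨n, c.S, c.R, c.i, c.o⟩
  | Ins.cal t r => some ⟨t, c.S, r :: c.R, c.i, c.o⟩
  | Ins.ret => c.R.head?.map fun r => ⟨r, c.S, c.R.tail, c.i, c.o⟩
  | Ins.read nb nh n0 n1 => some ⟨jump4 nb nh n0 n1 (inp c.i), c.S, c.R, c.i + 1, c.o⟩
  | Ins.write x n => some ⟨n, c.S, c.R, c.i, c.o ++ [x]⟩
  | Ins.halt => none

inductive IR (M : Λ → Ins Λ) (inp : ℕ → Option (Option Bool)) : ICfg Λ → ICfg Λ → ℕ → Prop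
  | refl (c : ICfg Λ) (t : ℕ) : IR M inp c c t
  | step {c c' c'' : ICfg Λ} {t : ℕ} : istep M inp c = some c' → IR M inp c' c'' t →
      IR M inp c c'' (t + 1)

variable {M : Λ → Ins Λ} {inp : ℕ → Option (Option Bool)}

theorem IR.mono {c c' : ICfg Λ} {t : ℕ} (h : IR M inp c c' t) :
    ∀ {t' : ℕ}, t ≤ t' → IR M inp c c' t' := by
  induction h with
  | refl c t => intro t' _; exact IR.refl c t'
  | step h1 _ ih =>
    intro t' ht
    obtain ⟨u, rfl⟩ : ∃ u, t' = u + 1 := ⟨t' - 1, by omega⟩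
    exact IR.step h1 (ih (by omega))

theorem IR.trans {c c' c'' : ICfg Λ} {t t' : ℕ} (h : IR M inp c c' t) (h' : IR M inp c' c'' t') :
    IR M inp c c'' (t + t') := by
  induction h with
  | refl c t => exact h'.mono (by omega)
  | step h1 _ ih => exact (IR.step h1 (ih h')).mono (by omega)

theorem IR.one {c c' : ICfg Λ} (h : istep M inp c = some c') : IR M inp c c' 1 :=
  IR.step h (IR.refl _ 0)

def Lab : Prg → Type
  | Prg.skip => Unit
  | Prg.push _ _ => Unit
  | Prg.seq c d => Lab c ⊕ Lab d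
  | Prg.br _ c0 cf ct => Unit ⊕ Lab c0 ⊕ Lab cf ⊕ Lab ct
  | Prg.loop _ cf ct => Unit ⊕ Lab cf ⊕ Lab ct
  | Prg.call => Unit
  | Prg.fix c => Unit ⊕ Unit ⊕ Lab c

theorem labFinite : (c : Prg) → Finite (Lab c)
  | Prg.skip => inferInstanceAs (Finite Unit)
  | Prg.push _ _ => inferInstanceAs (Finite Unit)
  | Prg.seq c d => by
      have := labFinite c; have := labFinite d
      exact inferInstanceAs (Finite (Lab c ⊕ Lab d))
  | Prg.br _ c0 cf ct => by
      have := labFinite c0; have := labFinite cf; have := labFinite ct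
      exact inferInstanceAs (Finite (Unit ⊕ Lab c0 ⊕ Lab cf ⊕ Lab ct))
  | Prg.loop _ cf ct => by
      have := labFinite cf; have := labFinite ct
      exact inferInstanceAs (Finite (Unit ⊕ Lab cf ⊕ Lab ct))
  | Prg.call => inferInstanceAs (Finite Unit)
  | Prg.fix c => by
      have := labFinite c
      exact inferInstanceAs (Finite (Unit ⊕ Unit ⊕ Lab c))

def entry : (c : Prg) → Lab c
  | Prg.skip => ()
  | Prg.push _ _ => ()
  | Prg.seq c _ => Sum.inl (entry c)
  | Prg.br _ _ _ _ => Sum.inl ()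
  | Prg.loop _ _ _ => Sum.inl ()
  | Prg.call => ()
  | Prg.fix _ => Sum.inl ()

def code : (c : Prg) → (Lab c → Λ) → Λ → Λ → Lab c → Ins Λ
  | Prg.skip, _, e, _, _ => Ins.goto e
  | Prg.push k x, _, e, _, _ => Ins.push k x e
  | Prg.seq c d, ι, _, E, Sum.inl l => code c (fun x => ι (Sum.inl x)) (ι (Sum.inr (entry d))) E l
  | Prg.seq _ d, ι, e, E, Sum.inr l => code d (fun x => ι (Sum.inr x)) e E l
  | Prg.br k c0 cf ct, ι, _, _, Sum.inl _ => Ins.pop k (ι (Sum.inr (Sum.inl (entry c0))))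
      (ι (Sum.inr (Sum.inr (Sum.inl (entry cf))))) (ι (Sum.inr (Sum.inr (Sum.inr (entry ct)))))
  | Prg.br _ c0 _ _, ι, e, E, Sum.inr (Sum.inl l) =>
      code c0 (fun x => ι (Sum.inr (Sum.inl x))) e E l
  | Prg.br _ _ cf _, ι, e, E, Sum.inr (Sum.inr (Sum.inl l)) =>
      code cf (fun x => ι (Sum.inr (Sum.inr (Sum.inl x)))) e E l
  | Prg.br _ _ _ ct, ι, e, E, Sum.inr (Sum.inr (Sum.inr l)) =>
      code ct (fun x => ι (Sum.inr (Sum.inr (Sum.inr x)))) e E l
  | Prg.loop k cf ct, ι, e, _, Sum.inl _ =>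
      Ins.pop k e (ι (Sum.inr (Sum.inl (entry cf)))) (ι (Sum.inr (Sum.inr (entry ct))))
  | Prg.loop _ cf _, ι, _, E, Sum.inr (Sum.inl l) =>
      code cf (fun x => ι (Sum.inr (Sum.inl x))) (ι (Sum.inl ())) E l
  | Prg.loop _ _ ct, ι, _, E, Sum.inr (Sum.inr l) =>
      code ct (fun x => ι (Sum.inr (Sum.inr x))) (ι (Sum.inl ())) E l
  | Prg.call, _, e, E, _ => Ins.cal E e
  | Prg.fix c, ι, e, _, Sum.inl _ => Ins.cal (ι (Sum.inr (Sum.inr (entry c)))) e
  | Prg.fix _, _, _, _, Sum.inr (Sum.inl _) => Ins.ret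
  | Prg.fix c, ι, _, _, Sum.inr (Sum.inr l) =>
      code c (fun x => ι (Sum.inr (Sum.inr x))) (ι (Sum.inr (Sum.inl ())))
        (ι (Sum.inr (Sum.inr (entry c)))) l

def Inst (M : Λ → Ins Λ) (env : Prg) (E : Λ) : Prop :=
  ∃ (ι : Lab env → Λ) (r : Λ), E = ι (entry env) ∧ M r = Ins.ret ∧ ∀ l, M (ι l) = code env ι r E l

theorem IR.pop {l x y z : Λ} {k : Tk} (S : Sto) (R : List Λ) (i : ℕ) (o : List Bool)
    (h : M l = Ins.pop k x y z) :
    IR M inp ⟨l, S, R, i, o⟩ ⟨jump x y z (S.get k).head?, S.set k (S.get k).tail, R, i, o⟩ 1 :=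
  IR.one (by simp only [istep, h])

theorem IR.sub {l E r e : Λ} {S S' : Sto} {R : List Λ} {i : ℕ} {o : List Bool} {t : ℕ}
    (h1 : M l = Ins.cal E e) (h2 : M r = Ins.ret)
    (h : IR M inp ⟨E, S, e :: R, i, o⟩ ⟨r, S', e :: R, i, o⟩ t) :
    IR M inp ⟨l, S, R, i, o⟩ ⟨e, S', R, i, o⟩ (t + 2) := by
  have a : IR M inp ⟨l, S, R, i, o⟩ ⟨E, S, e :: R, i, o⟩ 1 := IR.one (by simp only [istep, h1])
  have b : IR M inp ⟨r, S', e :: R, i, o⟩ ⟨e, S', R, i, o⟩ 1 :=
    IR.one (by simp only [istep, h2]; rfl)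
  exact ((a.trans h).trans b).mono (by omega)

theorem exe_ir {env c : Prg} {S S' : Sto} {t : ℕ} (h : Exe env c S S' t) :
    ∀ (ι : Lab c → Λ) (e E : Λ), (∀ l, M (ι l) = code c ι e E l) → Inst M env E →
      ∀ R i o, IR M inp ⟨ι (entry c), S, R, i, o⟩ ⟨e, S', R, i, o⟩ t := by
  induction h with
  | skip S =>
    intro ι e E hM _ R i o
    exact IR.one (by simp only [istep, hM]; rfl)
  | push k x S =>
    intro ι e E hM _ R i o
    exact IR.one (by simp only [istep, hM]; rfl)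
  | @seq env c d S S' S'' t t' _ _ ih1 ih2 =>
    intro ι e E hM hE R i o
    exact (ih1 (fun x => ι (Sum.inl x)) (ι (Sum.inr (entry d))) E (fun l => hM (Sum.inl l))
      hE R i o).trans (ih2 (fun x => ι (Sum.inr x)) e E (fun l => hM (Sum.inr l)) hE R i o)
  | @br0 env k c0 cf ct S S' t hk _ ih =>
    intro ι e E hM hE R i o
    have h1 := IR.pop (inp := inp) S R i o (hM (Sum.inl ()))
    rw [hk] at h1
    have h3 : S.set k [] = S := by rw [← hk]; exact S.set_self k
    simp only [List.tail_nil, h3] at h1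
    have h2 := ih (fun x => ι (Sum.inr (Sum.inl x))) e E (fun l => hM (Sum.inr (Sum.inl l)))
      hE R i o
    exact (h1.trans h2).mono (by omega)
  | @brf env k c0 cf ct S S' t l hk _ ih =>
    intro ι e E hM hE R i o
    have h1 := IR.pop (inp := inp) S R i o (hM (Sum.inl ()))
    rw [hk] at h1
    have h2 := ih (fun x => ι (Sum.inr (Sum.inr (Sum.inl x)))) e E
      (fun l => hM (Sum.inr (Sum.inr (Sum.inl l)))) hE R i o
    exact (h1.trans h2).mono (by omega)
  | @brt env k c0 cf ct S S' t l hk _ ih =>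
    intro ι e E hM hE R i o
    have h1 := IR.pop (inp := inp) S R i o (hM (Sum.inl ()))
    rw [hk] at h1
    have h2 := ih (fun x => ι (Sum.inr (Sum.inr (Sum.inr x)))) e E
      (fun l => hM (Sum.inr (Sum.inr (Sum.inr l)))) hE R i o
    exact (h1.trans h2).mono (by omega)
  | @loop0 env k cf ct S hk =>
    intro ι e E hM _ R i o
    have h1 := IR.pop (inp := inp) S R i o (hM (Sum.inl ()))
    rw [hk] at h1
    have h3 : S.set k [] = S := by rw [← hk]; exact S.set_self k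
    simp only [List.tail_nil, h3] at h1
    exact h1
  | @loopf env k cf ct S S' S'' t t' l hk _ _ ih1 ih2 =>
    intro ι e E hM hE R i o
    have h1 := IR.pop (inp := inp) S R i o (hM (Sum.inl ()))
    rw [hk] at h1
    have h2 := ih1 (fun x => ι (Sum.inr (Sum.inl x))) (ι (Sum.inl ())) E
      (fun l => hM (Sum.inr (Sum.inl l))) hE R i o
    exact ((h1.trans h2).trans (ih2 ι e E hM hE R i o)).mono (by omega)
  | @loopt env k cf ct S S' S'' t t' l hk _ _ ih1 ih2 =>
    intro ι e E hM hE R i o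
    have h1 := IR.pop (inp := inp) S R i o (hM (Sum.inl ()))
    rw [hk] at h1
    have h2 := ih1 (fun x => ι (Sum.inr (Sum.inr x))) (ι (Sum.inl ())) E
      (fun l => hM (Sum.inr (Sum.inr l))) hE R i o
    exact ((h1.trans h2).trans (ih2 ι e E hM hE R i o)).mono (by omega)
  | call _ ih =>
    intro ι e E hM hE R i o
    obtain ⟨ιe, r, h1, h2, h3⟩ := hE
    have h4 := ih ιe r E h3 ⟨ιe, r, h1, h2, h3⟩ (e :: R) i o
    rw [← h1] at h4
    exact IR.sub (hM ()) h2 h4
  | @fix env c S S' t _ ih =>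
    intro ι e E hM _ R i o
    have h2 : M (ι (Sum.inr (Sum.inl ()))) = Ins.ret := hM (Sum.inr (Sum.inl ()))
    have h3 := fun l => hM (Sum.inr (Sum.inr l))
    exact IR.sub (hM (Sum.inl ())) h2 (ih (fun x => ι (Sum.inr (Sum.inr x))) _ _ h3
      ⟨fun x => ι (Sum.inr (Sum.inr x)), _, rfl, h2, h3⟩ (e :: R) i o)
  | mono _ ht ih =>
    intro ι e E hM hE R i o
    exact (ih ι e E hM hE R i o).mono ht

open Vale.Agent.Lib.H23 in
/-- `c` replaces the tree `x` on top of the main stack by `y` within `t` steps -/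
def Rns (env c : Prg) (x y : Tr) (t : ℕ) : Prop :=
  ∀ r D : List Bool, Exe env c ⟨ser x ++ r, [], [], [], [], D⟩ ⟨ser y ++ r, [], [], [], [], D⟩ t

end Vale.Agent.P338
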