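import Vale.Agent.P338.NetDefs

/-! Calculus for abstract networks and the two stage construction, abstract in the frames. -/

namespace Vale.Agent.P338

open Set Matrix

/-- Chains of at most `n` edges. -/
inductive NPath {Φ : Type} (Ed : Φ → Φ → Prop) : ℕ → Φ → Φ → Prop
  | refl (n : ℕ) (B : Φ) : NPath Ed n B B
  | step {n : ℕ} {B B' B'' : Φ} : Ed B B' → NPath Ed n B' B'' → NPath Ed (n + 1) B B''

section PathApi

variable {Φ : Type} {Ed : Φ → Φ → Prop}

theorem NPath.mono {n : ℕ} {B B' : Φ} (h : NPath Ed n B B') : ∀ {m : ℕ}, n ≤ m → NPath Ed m B B' := by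
  induction h with
  | refl n B => intro m _; exact NPath.refl m B
  | step e _ ih =>
    intro m hm
    obtain ⟨m, rfl⟩ : ∃ u, m = u + 1 := ⟨m - 1, by omega⟩
    exact NPath.step e (ih (by omega))

theorem NPath.snoc {n : ℕ} {B B' B'' : Φ} (h : NPath Ed n B B') (e : Ed B' B'') :
    NPath Ed (n + 1) B B'' := by
  induction h with
  | refl n B => exact NPath.step e (NPath.refl n _)
  | step e' _ ih => exact NPath.step e' (ih e)

theorem NPath.symm (hs : ∀ B B', Ed B B' → Ed B' B) {n : ℕ} {B B' : Φ} (h : NPath Ed n B B') :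
    NPath Ed n B' B := by
  induction h with
  | refl n B => exact NPath.refl n B
  | step e _ ih => exact ih.snoc (hs _ _ e)

theorem NPath.map {Φ' : Type} {Ed' : Φ' → Φ' → Prop} (φ : Φ → Φ')
    (hφ : ∀ B B', Ed B B' → Ed' (φ B) (φ B')) {n : ℕ} {B B' : Φ} (h : NPath Ed n B B') :
    NPath Ed' n (φ B) (φ B') := by
  induction h with
  | refl n B => exact NPath.refl n _
  | step e _ ih => exact NPath.step (hφ _ _ e) ih

end PathApi

section NetApi

variable {k Φ M : Type} [CommRing k] [AddCommGroup M] [Module k M] {Ed : Φ → Φ → Prop}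

theorem Net.mono_left' {S T : Set (Φ × M)} {s : ℕ} (h : Net k Ed S s T) :
    ∀ {S' : Set (Φ × M)}, S ⊆ S' → Net k Ed S' s T := by
  induction h with
  | done hT => intro S' hS; exact Net.done (hT.trans hS)
  | edge hm e _ ih => intro S' hS; exact Net.edge (hS hm) e (ih (insert_subset_insert hS))
  | add c ha hb _ ih =>
    intro S' hS; exact Net.add c (hS ha) (hS hb) (ih (insert_subset_insert hS))

theorem Net.mono_left {S S' T : Set (Φ × M)} {s : ℕ} (h : Net k Ed S s T) (hS : S ⊆ S') :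
    Net k Ed S' s T := h.mono_left' hS

theorem Net.mono_right {S T T' : Set (Φ × M)} {s : ℕ} (h : Net k Ed S s T) (hT : T' ⊆ T) :
    Net k Ed S s T' := by
  induction h with
  | done h' => exact Net.done (hT.trans h')
  | edge hm e _ ih => exact Net.edge hm e (ih hT)
  | add c ha hb _ ih => exact Net.add c ha hb (ih hT)

theorem Net.mono_num' {S T : Set (Φ × M)} {s : ℕ} (h : Net k Ed S s T) :
    ∀ {t : ℕ}, s ≤ t → Net k Ed S t T := by
  induction h with
  | done hT => intro t _; exact Net.done hT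
  | edge hm e _ ih =>
    intro t ht
    obtain ⟨t, rfl⟩ : ∃ u, t = u + 1 := ⟨t - 1, by omega⟩
    exact Net.edge hm e (ih (by omega))
  | add c ha hb _ ih => intro t ht; exact Net.add c ha hb (ih ht)

theorem Net.mono_num {S T : Set (Φ × M)} {s t : ℕ} (h : Net k Ed S s T) (hst : s ≤ t) :
    Net k Ed S t T := h.mono_num' hst

theorem Net.trans0 {S T : Set (Φ × M)} {a : ℕ} (h : Net k Ed S a T) :
    ∀ {U : Set (Φ × M)} {b : ℕ}, Net k Ed (S ∪ T) b U → Net k Ed S (a + b) U := by
  induction h with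
  | done hT =>
    intro U b hU
    exact (hU.mono_left (union_subset subset_rfl hT)).mono_num (by omega)
  | @edge S T s B B' l hm e _ ih =>
    intro U b hU
    have := ih (hU.mono_left (union_subset_union_left _ (subset_insert _ S)))
    rw [show s + 1 + b = s + b + 1 by omega]
    exact Net.edge hm e this
  | @add S T s B a b c ha hb _ ih =>
    intro U b hU
    exact Net.add c ha hb (ih (hU.mono_left (union_subset_union_left _ (subset_insert _ S))))

theorem Net.trans {S T U : Set (Φ × M)} {a b : ℕ} (h : Net k Ed S a T)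
    (h' : Net k Ed (S ∪ T) b U) : Net k Ed S (a + b) U := h.trans0 h'

theorem Net.trans' {S T U : Set (Φ × M)} {a b : ℕ} (h : Net k Ed S a T) (h' : Net k Ed T b U) :
    Net k Ed S (a + b) U := h.trans (h'.mono_left subset_union_right)

theorem Net.keep {S T : Set (Φ × M)} {a : ℕ} (h : Net k Ed S a T) : Net k Ed S a (S ∪ T) := by
  simpa using h.trans (Net.done (s := 0) (subset_refl (S ∪ T)))

theorem Net.union {S T U : Set (Φ × M)} {a b : ℕ} (h : Net k Ed S a T) (h' : Net k Ed S b U) :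
    Net k Ed S (a + b) (T ∪ U) :=
  h.trans (((h'.mono_left subset_union_left).keep).mono_right
    (union_subset_union_left _ subset_union_right))

theorem Net.biUnion {ι : Type} {S : Set (Φ × M)} (I : Finset ι) (c : ℕ) (T : ι → Set (Φ × M))
    (h : ∀ i ∈ I, Net k Ed S c (T i)) : Net k Ed S (I.card * c) (⋃ i ∈ I, T i) := by
  classical
  induction I using Finset.induction_on with
  | empty => exact Net.done (by simp)
  | insert a I ha ih =>
    rw [Finset.card_insert_of_notMem ha, Finset.set_biUnion_insert, add_mul, one_mul, add_comm]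
    exact (h a (Finset.mem_insert_self _ _)).union
      (ih fun i hi => h i (Finset.mem_insert_of_mem hi))

theorem netPhase {ι : Type} [Fintype ι] (S : Set (Φ × M)) (c : ℕ) (T : ι → Set (Φ × M))
    (h : ∀ i, Net k Ed S c (T i)) :
    ∃ S', S ⊆ S' ∧ Net k Ed S (Fintype.card ι * c) S' ∧ ∀ i, T i ⊆ S' := by
  refine ⟨S ∪ ⋃ i ∈ (Finset.univ : Finset ι), T i, subset_union_left,
    (Net.biUnion Finset.univ c T fun i _ => h i).keep, fun i => ?_⟩
  refine subset_trans ?_ subset_union_right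
  intro x hx
  simp only [Finset.mem_univ, iUnion_true, mem_iUnion]
  exact ⟨i, hx⟩

theorem netPhase1 {ι : Type} [Fintype ι] (S : Set (Φ × M)) (c : ℕ) (f : ι → Φ × M)
    (h : ∀ i, Net k Ed S c {f i}) :
    ∃ S', S ⊆ S' ∧ Net k Ed S (Fintype.card ι * c) S' ∧ ∀ i, f i ∈ S' := by
  obtain ⟨S', h1, h2, h3⟩ := netPhase S c (fun i => {f i}) h
  exact ⟨S', h1, h2, fun i => h3 i rfl⟩

theorem NPath.net' {n : ℕ} {B B' : Φ} (h : NPath Ed n B B') (l : M) :
    ∀ {S : Set (Φ × M)}, (B, l) ∈ S → Net k Ed S n {(B', l)} := by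
  induction h with
  | refl n B => intro S hS; exact Net.done (singleton_subset_iff.2 hS)
  | step e _ ih => intro S hS; exact Net.edge hS e (ih (mem_insert _ _))

theorem NPath.net {n : ℕ} {B B' : Φ} (h : NPath Ed n B B') {l : M} {S : Set (Φ × M)}
    (hS : (B, l) ∈ S) : Net k Ed S n {(B', l)} := h.net' l hS

theorem Net.thenPath {S : Set (Φ × M)} {s n : ℕ} {B B' : Φ} {l : M} (h : Net k Ed S s {(B, l)})
    (p : NPath Ed n B B') : Net k Ed S (s + n) {(B', l)} :=
  h.trans' (p.net rfl)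

theorem Net.add1 {S : Set (Φ × M)} {s : ℕ} {B : Φ} {a b : M} (c : k) (h : Net k Ed S s {(B, a)})
    (hb : c ≠ 0 → (B, b) ∈ S) : Net k Ed S s {(B, a + c • b)} := by
  by_cases hc : c = 0
  · rwa [hc, zero_smul, add_zero]
  · exact h.trans (b := 0) (Net.add c (Or.inr rfl) (Or.inl (hb hc))
      (Net.done (singleton_subset_iff.2 (mem_insert _ _))))

theorem Net.self {S : Set (Φ × M)} {s : ℕ} {B : Φ} {a : M} (c : k) (h : Net k Ed S s {(B, a)}) :
    Net k Ed S s {(B, a + c • a)} :=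
  h.trans' (b := 0) (Net.add c rfl rfl (Net.done (singleton_subset_iff.2 (mem_insert _ _))))

theorem Net.one {S : Set (Φ × M)} {f : Φ × M} (h : f ∈ S) : Net k Ed S 0 {f} :=
  Net.done (singleton_subset_iff.2 h)

theorem Net.comb' {S : Set (Φ × M)} {s : ℕ} {B : Φ} {ι : Type} (I : Finset ι) {a : M} (c : ι → k)
    (b : ι → M) (h : Net k Ed S s {(B, a)}) (hb : ∀ i, c i ≠ 0 → (B, b i) ∈ S) :
    Net k Ed S s {(B, a + ∑ i ∈ I, c i • b i)} := by
  classical
  induction I using Finset.induction_on with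
  | empty => simpa using h
  | insert i I hi ih =>
    rw [Finset.sum_insert hi, add_comm (c i • b i), ← add_assoc]
    exact ih.add1 _ (hb i)

theorem Net.comb {S : Set (Φ × M)} {s : ℕ} {B : Φ} {ι : Type} [Fintype ι] {a : M} (c : ι → k)
    (b : ι → M) (h : Net k Ed S s {(B, a)}) (hb : ∀ i, c i ≠ 0 → (B, b i) ∈ S) :
    Net k Ed S s {(B, a + ∑ i, c i • b i)} := h.comb' Finset.univ c b hb

theorem Net.comb0 {S : Set (Φ × M)} {B : Φ} {ι : Type} [Fintype ι] [Nonempty ι] (c : ι → k)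
    (b : ι → M) (hb : ∀ i, (B, b i) ∈ S) : Net k Ed S 0 {(B, ∑ i, c i • b i)} := by
  have h := ((Net.one (k := k) (Ed := Ed) (hb (Classical.arbitrary ι))).self (-1)).comb c b
    fun i _ => hb i
  simpa using h

end NetApi

/-- The correction matrix: low rank matrix minus identity. -/
def netCorr {k T R : Type} [CommRing k] [DecidableEq T] [Fintype R] (α : T → R → k) (β : R → T → k)
    (a' a : T) : k := ∑ r, α a' r * β r a - if a' = a then 1 else 0

theorem netCorr_sum {k T R M : Type} [CommRing k] [DecidableEq T] [Fintype T] [Fintype R]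
    [AddCommGroup M] [Module k M] (α : T → R → k) (β : R → T → k) (a' : T) (s : T → M) :
    ∑ a, netCorr α β a' a • s a = ∑ r, α a' r • ∑ a, β r a • s a - s a' := by
  simp only [netCorr, sub_smul, Finset.sum_sub_distrib, Finset.sum_smul, Finset.smul_sum, smul_smul,
    ite_smul, one_smul, zero_smul, Finset.sum_ite_eq, Finset.mem_univ, if_true]
  rw [Finset.sum_comm]

/-- The paths between the frames of one stage. -/
structure StageHyp {k Φ T R : Type} [CommRing k] [DecidableEq T] [Fintype R] (Ed : Φ → Φ → Prop)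
    (α : T → R → k) (β : R → T → k) (g : ℕ) (o : Φ) (p x : T → Φ) (e : Φ) : Prop where
  op : ∀ a, NPath Ed 1 o (p a)
  px : ∀ a' a, netCorr α β a' a ≠ 0 → NPath Ed g (p a) (x a')
  px' : ∀ a' a, netCorr α β a' a ≠ 0 → NPath Ed g (p a') (x a)
  ox : ∀ a, NPath Ed (g + 1) o (x a)
  pe : ∀ a, NPath Ed (g + 1) (p a) e
  xe : ∀ a, NPath Ed 1 (x a) e
  oe : NPath Ed (g + 2) o e
  eo : NPath Ed (g + 2) e o

/-- Edge count of one stage. -/
def netStE (v ρ g : ℕ) : ℕ := 2 * v * (g + 1) + v * v * (g + 2) + ρ * (g + 2)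

/-- Edge count of the network. -/
def netE (v ρ g : ℕ) : ℕ :=
  v * v + 2 * v * netStE v ρ g + 2 * (v * v * v) * ((g + 2) * (g + 1)) +
    2 * (v * v) * ((g + 1) * (g + 1))

section Stage

variable {k Φ T R M : Type} [CommRing k] [DecidableEq T] [Fintype T] [Nonempty T] [Fintype R]
  [AddCommGroup M] [Module k M] {Ed : Φ → Φ → Prop} {α : T → R → k} {β : R → T → k} {g : ℕ}

theorem netStageA {fo fe : Φ} {fp fx : T → Φ} (hd : StageHyp Ed α β g fo fp fx fe) (x s : T → M)
    (z : T → T → M) (S : Set (Φ × M)) (hx : ∀ a, (fo, x a) ∈ S) (hs : ∀ a, (fp a, s a) ∈ S)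
    (hz : ∀ a a', (fo, z a a') ∈ S) :
    Net k Ed S (netStE (Fintype.card T) (Fintype.card R) g)
      ((range fun a => (fe, s a)) ∪ (range fun a => (fx a, x a - s a)) ∪
        range fun p : T × T => (fe, z p.1 p.2)) := by
  classical
  let γ : T → T → k := fun a a' => if netCorr α β a' a = 0 then 0 else 1
  have hγ : ∀ a a', netCorr α β a' a * γ a a' = netCorr α β a' a := by
    intro a a'
    simp only [γ]
    split_ifs with hc <;> simp [hc]
  let z' : T → T → M := fun a a' => z a a' + γ a a' • s a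
  let u : R → M := fun r => ∑ a, β r a • s a
  obtain ⟨S1, i1, r1, k1⟩ := netPhase1 (k := k) (Ed := Ed) S (g + 1)
    (fun p : T × T => (fx p.2, z' p.1 p.2)) (by
      rintro ⟨a, a'⟩
      by_cases hc : netCorr α β a' a = 0
      · have e : z' a a' = z a a' := by simp [z', γ, hc]
        simp only [e]
        exact (hd.ox a').net (hz a a')
      · have p1 := (((hd.op a).net (k := k) (hz a a')).add1 (γ a a') fun _ => hs a).thenPath
          (hd.px a' a hc)
        exact p1.mono_num (by omega))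
  obtain ⟨S2, i2, r2, k2⟩ := netPhase1 (k := k) (Ed := Ed) S1 (g + 1) (fun a : T => (fe, s a))
    fun a => (hd.pe a).net (i1 (hs a))
  obtain ⟨S3, i3, r3, k3⟩ := netPhase1 (k := k) (Ed := Ed) S2 (0 + (g + 2))
    (fun r : R => (fo, u r)) fun r => (Net.comb0 _ _ fun a => k2 a).thenPath hd.eo
  obtain ⟨S4, i4, r4, k4⟩ := netPhase1 (k := k) (Ed := Ed) S3 (0 + (g + 1))
    (fun a' : T => (fx a', x a' - s a')) fun a' => by
      have p1 := (Net.one (k := k) (Ed := Ed) (i3 (i2 (i1 (hx a'))))).comb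
        (fun r => -α a' r) u fun r _ => k3 r
      have p2 := p1.comb (fun a => -netCorr α β a' a) (fun a => z a a')
        fun a _ => i3 (i2 (i1 (hz a a')))
      have p4 := (p2.thenPath (hd.ox a')).comb (fun a => netCorr α β a' a) (fun a => z' a a')
        fun a _ => i3 (i2 (k1 (a, a')))
      have e : x a' + ∑ r, -α a' r • u r + ∑ a, -netCorr α β a' a • z a a' +
          ∑ a, netCorr α β a' a • z' a a' = x a' - s a' := by
        simp only [z', smul_add, smul_smul, hγ, Finset.sum_add_distrib, neg_smul,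
          Finset.sum_neg_distrib, netCorr_sum α β a' s, u]
        abel
      rwa [e] at p4
  obtain ⟨S5, i5, r5, k5⟩ := netPhase1 (k := k) (Ed := Ed) S4 1
    (fun p : T × T => (fe, z p.1 p.2)) (by
      rintro ⟨a, a'⟩
      have p2 := ((hd.xe a').net (k := k) (i4 (i3 (i2 (k1 (a, a')))))).add1 (-γ a a')
        fun _ => i4 (i3 (k2 a))
      have e : z' a a' + -γ a a' • s a = z a a' := by simp [z']
      rwa [e] at p2)
  refine ((r1.trans' (r2.trans' (r3.trans' (r4.trans' r5)))).mono_right ?_).mono_num ?_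
  · refine union_subset (union_subset (range_subset_iff.2 fun a => ?_)
      (range_subset_iff.2 fun a => ?_)) (range_subset_iff.2 k5)
    · exact i5 (i4 (i3 (k2 a)))
    · exact i5 (k4 a)
  · simp only [netStE, Fintype.card_prod]
    exact le_of_eq (by ring)

theorem netStageB {fo fe : Φ} {fp fx : T → Φ} (hd : StageHyp Ed α β g fo fp fx fe) (y s : T → M)
    (w : T → T → M) (S : Set (Φ × M)) (hy : ∀ a, (fo, y a) ∈ S) (hs : ∀ a, (fp a, s a) ∈ S)
    (hw : ∀ a a', (fo, w a a') ∈ S) :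
    Net k Ed S (netStE (Fintype.card T) (Fintype.card R) g)
      ((range fun a => (fe, s a - y a)) ∪ (range fun a => (fx a, y a)) ∪
        range fun p : T × T => (fe, w p.1 p.2)) := by
  classical
  let γ : T → T → k := fun b b' => if netCorr α β b b' = 0 then 0 else 1
  have hγ : ∀ b b', netCorr α β b b' * γ b b' = netCorr α β b b' := by
    intro b b'
    simp only [γ]
    split_ifs with hc <;> simp [hc]
  let w' : T → T → M := fun b b' => w b b' + γ b b' • y b'
  let u : R → M := fun r => ∑ b, β r b • y b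
  let s' : T → M := fun b => s b + ∑ b', netCorr α β b b' • w' b b'
  obtain ⟨S1, i1, r1, k1⟩ := netPhase (k := k) (Ed := Ed) S (g + 1)
    (fun p : T × T => (if netCorr α β p.1 p.2 = 0 then ∅ else {(fp p.1, w' p.1 p.2)}) ∪
      {(fx p.2, w' p.1 p.2)}) (by
      rintro ⟨b, b'⟩
      have p1 := (Net.one (k := k) (Ed := Ed) (hw b b')).add1 (γ b b') fun _ => hy b'
      by_cases hc : netCorr α β b b' = 0
      · simp only [hc, if_true, empty_union]
        exact (p1.thenPath (hd.ox b')).mono_num (by omega)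
      · simp only [hc, if_false]
        have p3 := (p1.thenPath (hd.op b)).trans'
          ((hd.px' b b' hc).net (l := w' b b') (S := {(fp b, w' b b')}) rfl).keep
        exact p3.mono_num (by omega))
  have k1a : ∀ b b', netCorr α β b b' ≠ 0 → (fp b, w' b b') ∈ S1 := fun b b' hc => by
    refine k1 (b, b') (Or.inl ?_)
    simp only [hc, if_false]
    rfl
  have k1b : ∀ b b', (fx b', w' b b') ∈ S1 := fun b b' => k1 (b, b') (Or.inr rfl)
  obtain ⟨S2, i2, r2, k2⟩ := netPhase1 (k := k) (Ed := Ed) S1 (0 + (g + 1))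
    (fun b : T => (fe, s' b)) fun b =>
      ((Net.one (i1 (hs b))).comb _ _ (k1a b)).thenPath (hd.pe b)
  obtain ⟨S3, i3, r3, k3⟩ := netPhase1 (k := k) (Ed := Ed) S2 (0 + (g + 2))
    (fun r : R => (fe, u r)) fun r => (Net.comb0 _ _ fun b => i2 (i1 (hy b))).thenPath hd.oe
  obtain ⟨S4, i4, r4, k4⟩ := netPhase1 (k := k) (Ed := Ed) S3 (g + 1)
    (fun b : T => (fx b, y b)) fun b => (hd.ox b).net (i3 (i2 (i1 (hy b))))
  obtain ⟨S5, i5, r5, k5⟩ := netPhase1 (k := k) (Ed := Ed) S4 (0 + 1)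
    (fun p : T × T => (fe, w p.1 p.2)) (by
      rintro ⟨b, b'⟩
      have p1 := (Net.one (k := k) (Ed := Ed) (i4 (i3 (i2 (k1b b b'))))).add1 (-γ b b')
        fun _ => k4 b'
      have e : w' b b' + -γ b b' • y b' = w b b' := by simp [w']
      rw [e] at p1
      exact p1.thenPath (hd.xe b'))
  obtain ⟨S6, i6, r6, k6⟩ := netPhase1 (k := k) (Ed := Ed) S5 0
    (fun b : T => (fe, s b - y b)) fun b => by
      have p1 := (Net.one (k := k) (Ed := Ed) (i5 (i4 (i3 (k2 b))))).comb
        (fun b' => -netCorr α β b b') (w b) fun b' _ => k5 (b, b')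
      have p2 := p1.comb (fun r => -α b r) u fun r _ => i5 (i4 (k3 r))
      have e : s' b + ∑ b', -netCorr α β b b' • w b b' + ∑ r, -α b r • u r = s b - y b := by
        simp only [s', w', smul_add, smul_smul, hγ, Finset.sum_add_distrib, neg_smul,
          Finset.sum_neg_distrib, netCorr_sum α β b y, u]
        abel
      rwa [e] at p2
  refine ((r1.trans' (r2.trans' (r3.trans' (r4.trans' (r5.trans' r6))))).mono_right ?_).mono_num ?_
  · refine union_subset (union_subset (range_subset_iff.2 k6) (range_subset_iff.2 fun a => ?_))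
      (range_subset_iff.2 fun p => ?_)
    · exact i6 (i5 (k4 a))
    · exact i6 (k5 p)
  · simp only [netStE, Fintype.card_prod]
    exact le_of_eq (by ring)

/-- All the paths needed by the network. -/
structure NetHyp (Ed : Φ → Φ → Prop) (α : T → R → k) (β : R → T → k) (g : ℕ) (o e : Φ)
    (Ap Ax : T → T → Φ) (Ae Bo : T → Φ) (Bp Bx : T → T → Φ) : Prop where
  stA : ∀ b, StageHyp Ed α β g o (Ap b) (Ax b) (Ae b)
  stB : ∀ a, StageHyp Ed α β g (Bo a) (Bp a) (Bx a) e
  m1 : ∀ b, NPath Ed ((g + 2) * (g + 1)) (Ae b) e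
  m2 : ∀ a b, NPath Ed ((g + 1) * (g + 1)) (Ax b a) (Bo a)
  m3 : ∀ a b, NPath Ed ((g + 1) * (g + 1)) (Ae b) (Bp a b)
  m4 : ∀ a, NPath Ed ((g + 1) * (g + 2)) o (Bo a)

theorem network {o e : Φ} {Ap Ax Bp Bx : T → T → Φ} {Ae Bo : T → Φ}
    (h : NetHyp Ed α β g o e Ap Ax Ae Bo Bp Bx) (x y : T × T → M) (z w : T × T × T → M)
    (S : Set (Φ × M)) (hx : ∀ p, (o, x p) ∈ S) (hy : ∀ p : T × T, (Ap p.2 p.1, y p) ∈ S)
    (hz : ∀ p, (o, z p) ∈ S) (hw : ∀ p, (o, w p) ∈ S) :
    Net k Ed S (netE (Fintype.card T) (Fintype.card R) g)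
      ((range fun p => (e, x p)) ∪ (range fun p : T × T => (Bx p.1 p.2, y p)) ∪
        (range fun p => (e, z p)) ∪ range fun p => (e, w p)) := by
  let s : T × T → M := fun p => x p + (1 : k) • y p
  obtain ⟨S1, i1, r1, k1⟩ := netPhase1 (k := k) (Ed := Ed) S 1
    (fun p : T × T => (Ap p.2 p.1, s p)) fun p =>
      (((h.stA p.2).op p.1).net (hx p)).add1 1 fun _ => hy p
  obtain ⟨S2, i2, r2, k2⟩ := netPhase S1 _ _ fun b : T =>
    netStageA (h.stA b) (fun a => x (a, b)) (fun a => s (a, b))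
      (fun a a' => z (b, a, a')) S1 (fun a => i1 (hx _)) (fun a => k1 (a, b))
      (fun a a' => i1 (hz _))
  have k2a : ∀ a b, (Ae b, s (a, b)) ∈ S2 := fun a b => k2 b (Or.inl (Or.inl ⟨a, rfl⟩))
  have k2b : ∀ a b, (Ax b a, x (a, b) - s (a, b)) ∈ S2 := fun a b =>
    k2 b (Or.inl (Or.inr ⟨a, rfl⟩))
  have k2c : ∀ p : T × T × T, (Ae p.1, z p) ∈ S2 := fun p => k2 p.1 (Or.inr ⟨p.2, rfl⟩)
  obtain ⟨S3, i3, r3, k3⟩ := netPhase1 (k := k) (Ed := Ed) S2 ((g + 2) * (g + 1))
    (fun p : T × T × T => (e, z p)) fun p => (h.m1 p.1).net (k2c p)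
  obtain ⟨S4, i4, r4, k4⟩ := netPhase1 (k := k) (Ed := Ed) S3 ((g + 1) * (g + 1))
    (fun p : T × T => (Bo p.1, y p)) fun p => by
      have p2 := ((h.m2 p.1 p.2).net (k := k) (i3 (k2b p.1 p.2))).self (-2)
      have e : x (p.1, p.2) - s (p.1, p.2) + (-2 : k) • (x (p.1, p.2) - s (p.1, p.2)) = y p := by
        simp only [s, one_smul, Prod.mk.eta, neg_smul, two_smul]
        abel
      rwa [e] at p2
  obtain ⟨S5, i5, r5, k5⟩ := netPhase1 (k := k) (Ed := Ed) S4 ((g + 1) * (g + 1))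
    (fun p : T × T => (Bp p.1 p.2, s p)) fun p => (h.m3 p.1 p.2).net (i4 (i3 (k2a p.1 p.2)))
  obtain ⟨S6, i6, r6, k6⟩ := netPhase1 (k := k) (Ed := Ed) S5 ((g + 1) * (g + 2))
    (fun p : T × T × T => (Bo p.1, w p)) fun p => (h.m4 p.1).net (i5 (i4 (i3 (i2 (i1 (hw p))))))
  obtain ⟨S7, i7, r7, k7⟩ := netPhase S6 _ _ fun a : T =>
    netStageB (h.stB a) (fun b => y (a, b)) (fun b => s (a, b)) (fun b b' => w (a, b, b')) S6
      (fun b => i6 (i5 (k4 (a, b)))) (fun b => i6 (k5 (a, b))) (fun b b' => k6 (a, b, b'))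
  refine ((r1.trans' (r2.trans' (r3.trans' (r4.trans' (r5.trans' (r6.trans' r7)))))).mono_right
    ?_).mono_num ?_
  · refine union_subset (union_subset (union_subset (range_subset_iff.2 fun p => ?_)
      (range_subset_iff.2 fun p => ?_)) (range_subset_iff.2 fun p => ?_))
      (range_subset_iff.2 fun p => ?_)
    · have e : x p = s (p.1, p.2) - y (p.1, p.2) := by simp [s]
      rw [e]
      exact k7 p.1 (Or.inl (Or.inl ⟨p.2, rfl⟩))
    · exact k7 p.1 (Or.inl (Or.inr ⟨p.2, rfl⟩))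
    · exact i7 (i6 (i5 (i4 (k3 p))))
    · exact k7 p.1 (Or.inr ⟨p.2, rfl⟩)
  · simp only [netE, Fintype.card_prod]
    exact le_of_eq (by ring)

end Stage

/-- The registers. -/
abbrev NetReg (T : Type) : Type := ((T × T) ⊕ (T × T)) ⊕ ((T × T × T) ⊕ (T × T × T))

/-- Frames of the registers. -/
def netFr {T Φ : Type} (o : Φ) (A : T × T → Φ) : NetReg T → Φ :=
  Sum.elim (Sum.elim (fun _ => o) A) fun _ => o

theorem network_fin {k Φ T R : Type} [CommRing k] [DecidableEq T] [Fintype T] [Nonempty T]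
    [Fintype R] {Ed : Φ → Φ → Prop} {α : T → R → k} {β : R → T → k} {g : ℕ}
    {o e : Φ} {Ap Ax Bp Bx : T → T → Φ} {Ae Bo : T → Φ}
    (h : NetHyp Ed α β g o e Ap Ax Ae Bo Bp Bx) {n : ℕ} (κ : NetReg T ≃ Fin n) :
    Net k Ed (range fun i => (netFr o (fun p => Ap p.2 p.1) (κ.symm i), (Pi.single i 1 : Fin n → k)))
      (netE (Fintype.card T) (Fintype.card R) g)
      (range fun i => (netFr e (fun p => Bx p.1 p.2) (κ.symm i), (Pi.single i 1 : Fin n → k))) := by
  refine (network h (fun p => Pi.single (κ (Sum.inl (Sum.inl p))) 1)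
    (fun p => Pi.single (κ (Sum.inl (Sum.inr p))) 1)
    (fun p => Pi.single (κ (Sum.inr (Sum.inl p))) 1)
    (fun p => Pi.single (κ (Sum.inr (Sum.inr p))) 1)
    (range fun i => (netFr o (fun p => Ap p.2 p.1) (κ.symm i), (Pi.single i 1 : Fin n → k)))
    (fun p => ⟨κ (Sum.inl (Sum.inl p)), by simp [netFr]⟩)
    (fun p => ⟨κ (Sum.inl (Sum.inr p)), by simp [netFr]⟩)
    (fun p => ⟨κ (Sum.inr (Sum.inl p)), by simp [netFr]⟩)
    (fun p => ⟨κ (Sum.inr (Sum.inr p)), by simp [netFr]⟩)).mono_right ?_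
  rintro _ ⟨i, rfl⟩
  obtain ⟨r, rfl⟩ := κ.surjective i
  rcases r with (p | p) | (p | p)
  · exact Or.inl (Or.inl (Or.inl ⟨p, by simp [netFr]⟩))
  · exact Or.inl (Or.inl (Or.inr ⟨p, by simp [netFr]⟩))
  · exact Or.inl (Or.inr ⟨p, by simp [netFr]⟩)
  · exact Or.inr ⟨p, by simp [netFr]⟩

end Vale.Agent.P338
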