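import Vale.Agent.P338.Net_Api
import Vale.Agent.P344.Design

/-! The frames of the first network: integer reflections. -/

namespace Vale.Agent.P338

namespace Net1

open Set Matrix
open scoped Kronecker
open Vale.Agent.P344 (Tri card_Tri)

section General

variable {N : Type} [Fintype N] [DecidableEq N]

def EdG (ρ ρ' : Matrix N N ℤ) : Prop :=
  ∃ a b : N → ℤ, Nice a ∧ Nice b ∧ b ⬝ᵥ a = 4 ∧ (2 : ℤ) • ρ' = ρ * (2 - vecMulVec a b)

/-- `D` is a sum of at most `l` orthogonal rank one pieces. -/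
def Dec (c : ℤ) (D : Matrix N N ℤ) (l : ℕ) : Prop :=
  ∃ (ι : Type) (I : Finset ι) (a b : ι → N → ℤ), I.card ≤ l ∧
    D = ∑ i ∈ I, vecMulVec (a i) (b i) ∧ (∀ i ∈ I, Nice (a i) ∧ Nice (b i) ∧ b i ⬝ᵥ a i = c) ∧
    ∀ i ∈ I, ∀ j ∈ I, i ≠ j → b i ⬝ᵥ a j = 0

omit [Fintype N] in
theorem two_eq : (2 : Matrix N N ℤ) = (2 : ℤ) • (1 : Matrix N N ℤ) := by
  rw [two_smul, one_add_one_eq_two]

omit [DecidableEq N] in
theorem vv_mulVec (u v w : N → ℤ) : vecMulVec u v *ᵥ w = (v ⬝ᵥ w) • u := by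
  rw [vecMulVec_mulVec]
  funext i
  simp [mul_comm]

theorem EdG.symm (ρ ρ' : Matrix N N ℤ) (h : EdG ρ ρ') : EdG ρ' ρ := by
  obtain ⟨a, b, ha, hb, hab, e⟩ := h
  refine ⟨a, b, ha, hb, hab, ?_⟩
  have hX : vecMulVec a b * vecMulVec a b = (4 : ℤ) • vecMulVec a b := by
    rw [vecMulVec_mul_vecMulVec, hab]
    ext i j
    simp only [vecMulVec_apply, Pi.smul_apply, smul_eq_mul, Matrix.smul_apply]
    ring
  refine smul_right_injective _ (two_ne_zero (α := ℤ)) ?_
  show (2 : ℤ) • (2 : ℤ) • ρ = (2 : ℤ) • (ρ' * (2 - vecMulVec a b))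
  rw [← Matrix.smul_mul, e, Matrix.mul_assoc, two_eq]
  simp only [Matrix.smul_mul, Matrix.mul_smul, Matrix.one_mul, Matrix.mul_one, Matrix.mul_sub,
    Matrix.sub_mul, hX]
  module

theorem path0 {ι : Type} (a b : ι → N → ℤ) (I : Finset ι) :
    (∀ i ∈ I, Nice (a i) ∧ Nice (b i) ∧ b i ⬝ᵥ a i = 4) →
    (∀ i ∈ I, ∀ j ∈ I, i ≠ j → b i ⬝ᵥ a j = 0) → ∀ E : Matrix N N ℤ, (∀ j ∈ I, E *ᵥ a j = 0) →
    NPath EdG I.card (2 - E) (2 - (E + ∑ i ∈ I, vecMulVec (a i) (b i))) := by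
  classical
  induction I using Finset.induction_on with
  | empty => intro _ _ E _; simpa using NPath.refl 0 _
  | insert i I hi ih =>
    intro h1 h2 E hE
    rw [Finset.card_insert_of_notMem hi, Finset.sum_insert hi, ← add_assoc]
    obtain ⟨n1, n2, n3⟩ := h1 i (Finset.mem_insert_self _ _)
    refine NPath.step (B' := 2 - (E + vecMulVec (a i) (b i))) ⟨a i, b i, n1, n2, n3, ?_⟩
      (ih (fun j hj => h1 j (Finset.mem_insert_of_mem hj))
        (fun j hj j' hj' => h2 j (Finset.mem_insert_of_mem hj) j' (Finset.mem_insert_of_mem hj'))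
        _ fun j hj => ?_)
    · have e : E * vecMulVec (a i) (b i) = 0 := by
        rw [mul_vecMulVec, hE i (Finset.mem_insert_self _ _), zero_vecMulVec]
      rw [Matrix.sub_mul, Matrix.mul_sub, Matrix.mul_sub, e, two_eq]
      simp only [Matrix.smul_mul, Matrix.mul_smul, Matrix.one_mul, Matrix.mul_one]
      module
    · rw [Matrix.add_mulVec, hE j (Finset.mem_insert_of_mem hj), vv_mulVec,
        h2 i (Finset.mem_insert_self _ _) j (Finset.mem_insert_of_mem hj)
          (fun h => hi (h ▸ hj))]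
      simp

theorem Dec.path {D E E' : Matrix N N ℤ} {l : ℕ} (h : Dec 4 D l) (hE : E * D = 0)
    (hE' : E' = E + D) : NPath EdG l (2 - E) (2 - E') := by
  classical
  obtain ⟨ι, I, a, b, hI, rfl, h1, h2⟩ := h
  rw [hE']
  refine (path0 a b I h1 h2 E fun j hj => ?_).mono hI
  have e : (∑ i ∈ I, vecMulVec (a i) (b i)) *ᵥ a j = (4 : ℤ) • a j := by
    rw [Matrix.sum_mulVec, Finset.sum_eq_single_of_mem j hj]
    · rw [vv_mulVec, (h1 j hj).2.2]
    · intro i hi hij
      rw [vv_mulVec, h2 i hi j hj hij, zero_smul]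
  have e2 : (4 : ℤ) • (E *ᵥ a j) = 0 := by
    rw [← Matrix.mulVec_smul, ← e, Matrix.mulVec_mulVec, hE, Matrix.zero_mulVec]
  exact (smul_eq_zero.1 e2).resolve_left (by norm_num)

omit [Fintype N] [DecidableEq N] in
theorem nice_mul {N' : Type} {a : N → ℤ} {a' : N' → ℤ} (h : Nice a) (h' : Nice a') :
    Nice fun p : N × N' => a p.1 * a' p.2 := by
  intro p
  rcases h p.1 with h0 | ⟨j, hj⟩
  · exact Or.inl (by simp [h0])
  rcases h' p.2 with h0 | ⟨j', hj'⟩
  · exact Or.inl (by simp [h0])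
  exact Or.inr ⟨j + j', by rw [Int.natAbs_mul, hj, hj', pow_add]⟩

omit [DecidableEq N] in
theorem dot_mul {N' : Type} [Fintype N'] (a b : N → ℤ) (a' b' : N' → ℤ) :
    (fun p : N × N' => b p.1 * b' p.2) ⬝ᵥ (fun p : N × N' => a p.1 * a' p.2)
      = (b ⬝ᵥ a) * (b' ⬝ᵥ a') := by
  simp only [dotProduct, Fintype.sum_prod_type, Finset.sum_mul_sum]
  exact Finset.sum_congr rfl fun i _ => Finset.sum_congr rfl fun j _ => by ring

omit [DecidableEq N] in
theorem Dec.kron {N' : Type} [Fintype N'] {D : Matrix N N ℤ} {D' : Matrix N' N' ℤ} {l l' : ℕ}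
    (h : Dec 2 D l) (h' : Dec 2 D' l') : Dec 4 (D ⊗ₖ D') (l * l') := by
  obtain ⟨ι, I, a, b, hI, rfl, h1, h2⟩ := h
  obtain ⟨ι', I', a', b', hI', rfl, h1', h2'⟩ := h'
  refine ⟨ι × ι', I ×ˢ I', fun q p => a q.1 p.1 * a' q.2 p.2, fun q p => b q.1 p.1 * b' q.2 p.2,
    ?_, ?_, ?_, ?_⟩
  · rw [Finset.card_product]
    exact Nat.mul_le_mul hI hI'
  · ext ⟨i, i'⟩ ⟨j, j'⟩
    simp only [kroneckerMap_apply, Matrix.sum_apply, vecMulVec_apply, Finset.sum_product,
      Finset.sum_mul_sum]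
    refine Finset.sum_congr rfl fun a _ => Finset.sum_congr rfl fun b _ => by ring
  · intro q hq
    obtain ⟨hq1, hq2⟩ := Finset.mem_product.1 hq
    refine ⟨nice_mul (h1 _ hq1).1 (h1' _ hq2).1, nice_mul (h1 _ hq1).2.1 (h1' _ hq2).2.1, ?_⟩
    rw [dot_mul, (h1 _ hq1).2.2, (h1' _ hq2).2.2]
    norm_num
  · intro q hq q' hq' hne
    obtain ⟨hq1, hq2⟩ := Finset.mem_product.1 hq
    obtain ⟨hq1', hq2'⟩ := Finset.mem_product.1 hq'
    rw [dot_mul]
    by_cases e : q.1 = q'.1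
    · rw [h2' _ hq2 _ hq2' fun e' => hne (Prod.ext e e'), mul_zero]
    · rw [h2 _ hq1 _ hq1' e, zero_mul]

def N0 (z : ℤ) : Prop := z = 0 ∨ ∃ j : ℕ, z.natAbs = 2 ^ j

theorem n0_of {z : ℤ} (h : (-2 ≤ z ∧ z ≤ 2) ∨ z = 4) : N0 z := by
  rcases h with ⟨h1, h2⟩ | rfl
  · interval_cases z
    · exact Or.inr ⟨1, rfl⟩
    · exact Or.inr ⟨0, rfl⟩
    · exact Or.inl rfl
    · exact Or.inr ⟨0, rfl⟩
    · exact Or.inr ⟨1, rfl⟩
  · exact Or.inr ⟨2, rfl⟩

omit [DecidableEq N] in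
theorem dec_of {D B : Matrix N N ℤ} (I : Finset N) {l : ℕ} (hI : I.card ≤ l) (hDB : D * B = D)
    (hB : ∀ i, i ∉ I → B i = 0) (h1 : ∀ i ∈ I, (B * D) i i = 2)
    (h2 : ∀ i ∈ I, ∀ j ∈ I, i ≠ j → (B * D) i j = 0)
    (hD0 : ∀ j ∈ I, ∀ i, N0 (D i j)) (hB0 : ∀ i j, N0 (B i j)) : Dec 2 D l := by
  refine ⟨N, I, fun j i => D i j, fun j => B j, hI, ?_,
    fun i hi => ⟨fun j => hD0 i hi j, fun j => hB0 i j, h1 i hi⟩, h2⟩
  conv_lhs => rw [← hDB]
  ext i j
  rw [Matrix.mul_apply, Matrix.sum_apply]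
  simp only [vecMulVec_apply]
  refine (Finset.sum_subset (Finset.subset_univ _) fun t _ ht => ?_).symm
  rw [hB t ht]
  simp

omit [Fintype N] in
theorem two_apply (i j : N) : (2 : Matrix N N ℤ) i j = if i = j then 2 else 0 := by
  rw [two_eq, Matrix.smul_apply, Matrix.one_apply]
  split_ifs <;> simp

theorem dec_two : Dec 2 (2 : Matrix N N ℤ) (Fintype.card N) := by
  refine dec_of (B := 1) Finset.univ le_rfl (Matrix.mul_one _) (by simp) (fun i _ => ?_)
    (fun i _ j _ hij => ?_) (fun j _ i => n0_of ?_) (fun i j => n0_of ?_)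
  · rw [Matrix.one_mul, two_apply, if_pos rfl]
  · rw [Matrix.one_mul, two_apply, if_neg hij]
  · rw [two_apply]; split_ifs <;> simp
  · rw [Matrix.one_apply]; split_ifs <;> simp

theorem map_ed {N' : Type} [Fintype N'] [DecidableEq N'] (ε : N ≃ N') (ρ ρ' : Matrix N N ℤ)
    (h : EdG ρ ρ') : EdG (reindexAlgEquiv ℤ ℤ ε ρ) (reindexAlgEquiv ℤ ℤ ε ρ') := by
  obtain ⟨a, b, ha, hb, hab, e⟩ := h
  refine ⟨a ∘ ε.symm, b ∘ ε.symm, fun i => ha _, fun i => hb _, ?_, ?_⟩
  · rw [← hab]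
    exact Equiv.sum_comp ε.symm fun i => b i * a i
  · have e2 : vecMulVec (a ∘ ε.symm) (b ∘ ε.symm) = reindexAlgEquiv ℤ ℤ ε (vecMulVec a b) := rfl
    rw [← map_smul, e, map_mul, map_sub, map_ofNat, e2]

end General

abbrev H : Type := Option (Fin 19)

def uu (S : Tri) : H → ℤ := fun i => i.elim 1 fun r => if r ∈ S.1 then 1 else 0

def ww (S : Tri) : H → ℤ := fun i => i.elim (-1) fun r => if r ∈ S.1 then 1 else 0

def PP (S : Tri) : Matrix H H ℤ := vecMulVec (uu S) (ww S)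

theorem ww_uu (S S' : Tri) : ww S ⬝ᵥ uu S' = ((S.1 ∩ S'.1).card : ℤ) - 1 := by
  simp only [dotProduct, Fintype.sum_option, uu, ww, Option.elim, ite_zero_mul_ite_zero, mul_one,
    ← Finset.mem_inter]
  rw [Finset.sum_ite_mem, Finset.univ_inter]
  simp only [Finset.sum_const, nsmul_eq_mul, mul_one]
  ring

theorem ww_uu_self (S : Tri) : ww S ⬝ᵥ uu S = 2 := by
  rw [ww_uu, Finset.inter_self, S.2]
  norm_num

theorem uu_cases (S : Tri) (i : H) : uu S i = 0 ∨ uu S i = 1 := by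
  rcases i with _ | r
  · exact Or.inr rfl
  · simp only [uu, Option.elim]
    split_ifs <;> simp

theorem PP_cases (S : Tri) (i j : H) : (-1 ≤ PP S i j ∧ PP S i j ≤ 1) ∧
    (i = j → (i = none ∧ PP S i j = -1) ∨ (i ≠ none ∧ 0 ≤ PP S i j)) := by
  rcases i with _ | r <;> rcases j with _ | r' <;>
    simp only [PP, vecMulVec_apply, uu, ww, Option.elim] <;> (try split_ifs) <;> simp

theorem PP_mul (S S' : Tri) : PP S * PP S' = (ww S ⬝ᵥ uu S') • vecMulVec (uu S) (ww S') := by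
  rw [PP, PP, vecMulVec_mul_vecMulVec]
  ext i j
  simp only [vecMulVec_apply, Pi.smul_apply, smul_eq_mul, Matrix.smul_apply]
  ring

theorem PP_sq (S : Tri) : PP S * PP S = (2 : ℤ) • PP S := by
  rw [PP_mul, ww_uu_self]; rfl

theorem PP_Q (S : Tri) : PP S * (2 - PP S) = 0 := by
  rw [Matrix.mul_sub, PP_sq, two_eq, Matrix.mul_smul, Matrix.mul_one, sub_self]

theorem Q_PP (S : Tri) : (2 - PP S) * PP S = 0 := by
  rw [Matrix.sub_mul, PP_sq, two_eq, Matrix.smul_mul, Matrix.one_mul, sub_self]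

theorem dec_PP (S : Tri) : Dec 2 (PP S) 1 := by
  refine ⟨Unit, Finset.univ, fun _ => uu S, fun _ => ww S, by simp, by simp [PP],
    fun _ _ => ⟨fun i => n0_of (z := uu S i) ?_, fun i => n0_of (z := ww S i) ?_, ww_uu_self S⟩,
    fun i _ j _ h => absurd rfl h⟩
  · rcases uu_cases S i with h | h <;> simp [h]
  · rcases i with _ | r <;> simp only [ww, Option.elim] <;> (try split_ifs) <;> simp

theorem dec_Q (S : Tri) : Dec 2 (2 - PP S) 19 := by
  have hu : (2 - PP S) *ᵥ uu S = 0 := by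
    rw [Matrix.sub_mulVec, PP, vv_mulVec, ww_uu_self, two_eq, Matrix.smul_mulVec,
      Matrix.one_mulVec, sub_self]
  have hBD : ∀ i j, j ≠ none →
      ((1 - vecMulVec (uu S) (Pi.single none 1)) * (2 - PP S) : Matrix H H ℤ) i j
      = if i = j then 2 else 0 := by
    intro i j hj
    rw [Matrix.sub_mul, Matrix.one_mul, vecMulVec_mul, single_one_vecMul]
    simp only [Matrix.sub_apply, vecMulVec_apply, Matrix.row_apply, two_apply, PP,
      if_neg hj.symm]
    simp only [uu, Option.elim]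
    ring
  refine dec_of (B := 1 - vecMulVec (uu S) (Pi.single none 1)) (Finset.univ.erase none)
    (by simp) ?_ ?_ (fun i hi => ?_) (fun i _ j hj hij => ?_) (fun j hj i => n0_of ?_)
    (fun i j => n0_of ?_)
  · rw [Matrix.mul_sub, Matrix.mul_one, mul_vecMulVec, hu, zero_vecMulVec, sub_zero]
  · intro i hi
    have : i = none := by simpa using hi
    subst this
    funext j
    simp [vecMulVec_apply, uu, Matrix.one_apply, Pi.single_apply, eq_comm]
  · rw [hBD i i (Finset.ne_of_mem_erase hi), if_pos rfl]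
  · rw [hBD i j (Finset.ne_of_mem_erase hj), if_neg hij]
  · rw [Matrix.sub_apply, two_apply]
    obtain ⟨h1, h2⟩ := PP_cases S i j
    split_ifs with hij
    · rcases h2 hij with h | h
      · exact absurd (hij ▸ h.1) (Finset.ne_of_mem_erase hj)
      · omega
    · omega
  · simp only [Matrix.sub_apply, vecMulVec_apply, Matrix.one_apply, Pi.single_apply]
    rcases uu_cases S i with h | h <;> rw [h] <;> split_ifs <;> simp

theorem dec_G (S S' : Tri) (h : (S.1 ∩ S'.1).card = 1) : Dec 2 (2 - PP S - PP S') 18 := by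
  have h0 : ww S ⬝ᵥ uu S' = 0 := by rw [ww_uu, h]; norm_num
  have h0' : ww S' ⬝ᵥ uu S = 0 := by rw [ww_uu, Finset.inter_comm, h]; norm_num
  obtain ⟨p, hp, hp'⟩ : ∃ p, p ∈ S.1 ∧ p ∉ S'.1 := by
    by_contra hcon
    have : S.1 ⊆ S.1 ∩ S'.1 := fun p hp =>
      Finset.mem_inter.2 ⟨hp, by_contra fun hp' => hcon ⟨p, hp, hp'⟩⟩
    have := Finset.card_le_card this
    rw [h, S.2] at this
    omega
  obtain ⟨q, hq', hq⟩ : ∃ q, q ∈ S'.1 ∧ q ∉ S.1 := by
    by_contra hcon
    have : S'.1 ⊆ S.1 ∩ S'.1 := fun p hp =>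
      Finset.mem_inter.2 ⟨by_contra fun hp' => hcon ⟨p, hp, hp'⟩, hp⟩
    have := Finset.card_le_card this
    rw [h, S'.2] at this
    omega
  have hpq : p ≠ q := fun e => hq (e ▸ hp)
  have u1 : uu S (some p) = 1 := by simp [uu, hp]
  have u2 : uu S' (some p) = 0 := by simp [uu, hp']
  have u3 : uu S (some q) = 0 := by simp [uu, hq]
  have u4 : uu S' (some q) = 1 := by simp [uu, hq']
  have hu : (2 - PP S - PP S') *ᵥ uu S = 0 := by
    rw [Matrix.sub_mulVec, Matrix.sub_mulVec, PP, PP, vv_mulVec, vv_mulVec, ww_uu_self, h0',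
      two_eq, Matrix.smul_mulVec, Matrix.one_mulVec, sub_self, zero_smul, sub_self]
  have hu' : (2 - PP S - PP S') *ᵥ uu S' = 0 := by
    rw [Matrix.sub_mulVec, Matrix.sub_mulVec, PP, PP, vv_mulVec, vv_mulVec, ww_uu_self, h0,
      two_eq, Matrix.smul_mulVec, Matrix.one_mulVec, zero_smul, sub_zero, sub_self]
  have hBD : ∀ i j, j ≠ some p → j ≠ some q →
      ((1 - vecMulVec (uu S) (Pi.single (some p) 1) - vecMulVec (uu S') (Pi.single (some q) 1))
        * (2 - PP S - PP S') : Matrix H H ℤ) i j = if i = j then 2 else 0 := by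
    intro i j hj hj'
    rw [Matrix.sub_mul, Matrix.sub_mul, Matrix.one_mul, vecMulVec_mul, vecMulVec_mul,
      single_one_vecMul, single_one_vecMul]
    simp only [Matrix.sub_apply, vecMulVec_apply, Matrix.row_apply, two_apply, PP,
      if_neg hj.symm, if_neg hj'.symm, u1, u2, u3, u4]
    ring
  refine dec_of
    (B := 1 - vecMulVec (uu S) (Pi.single (some p) 1) - vecMulVec (uu S') (Pi.single (some q) 1))
    ((Finset.univ.erase (some p)).erase (some q)) ?_ ?_ ?_ (fun i hi => ?_)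
    (fun i _ j hj hij => ?_) (fun j _ i => n0_of ?_) (fun i j => n0_of ?_)
  · rw [Finset.card_erase_of_mem (by simp [hpq.symm]), Finset.card_erase_of_mem (by simp)]
    simp
  · rw [Matrix.mul_sub, Matrix.mul_sub, Matrix.mul_one, mul_vecMulVec, mul_vecMulVec, hu, hu',
      zero_vecMulVec, zero_vecMulVec, sub_zero, sub_zero]
  · intro i hi
    have : i = some q ∨ i = some p := by
      by_contra hcon
      rw [not_or] at hcon
      exact hi (by simp [hcon.1, hcon.2])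
    funext j
    rcases this with rfl | rfl
    · simp [vecMulVec_apply, u3, u4, Matrix.one_apply, Pi.single_apply, eq_comm]
    · simp [vecMulVec_apply, u1, u2, Matrix.one_apply, Pi.single_apply, eq_comm]
  · rw [hBD i i (Finset.ne_of_mem_erase (Finset.mem_of_mem_erase hi)) (Finset.ne_of_mem_erase hi),
      if_pos rfl]
  · rw [hBD i j (Finset.ne_of_mem_erase (Finset.mem_of_mem_erase hj)) (Finset.ne_of_mem_erase hj),
      if_neg hij]
  · rw [Matrix.sub_apply, Matrix.sub_apply, two_apply]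
    obtain ⟨h1, h2⟩ := PP_cases S i j
    obtain ⟨h3, h4⟩ := PP_cases S' i j
    split_ifs with hij
    · rcases h2 hij with h | h <;> rcases h4 hij with h' | h'
      · omega
      · exact absurd h.1 h'.1
      · exact absurd h'.1 h.1
      · omega
    · omega
  · simp only [Matrix.sub_apply, vecMulVec_apply, Matrix.one_apply, Pi.single_apply]
    rcases uu_cases S i with h | h <;> rcases uu_cases S' i with h' | h' <;> rw [h, h'] <;>
      split_ifs <;> simp

def al (S : Tri) (r : Fin 19) : ZMod 2 := if r ∈ S.1 then 1 else 0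

def be (r : Fin 19) (S : Tri) : ZMod 2 := if r ∈ S.1 then 1 else 0

theorem inter_three (S S' : Tri) : (S.1 ∩ S'.1).card ≤ 3 ∧ ((S.1 ∩ S'.1).card = 3 ↔ S = S') := by
  refine ⟨(Finset.card_le_card Finset.inter_subset_left).trans S.2.le, fun h => ?_, ?_⟩
  · have e1 := Finset.eq_of_subset_of_card_le (Finset.inter_subset_left (s₁ := S.1)
      (s₂ := S'.1)) (by rw [h, S.2])
    have e2 := Finset.eq_of_subset_of_card_le (Finset.inter_subset_right (s₁ := S.1)
      (s₂ := S'.1)) (by rw [h, S'.2])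
    exact Subtype.ext (e1.symm.trans e2)
  · rintro rfl
    rw [Finset.inter_self, S.2]

theorem corr_ne (S S' : Tri) (h : netCorr al be S S' ≠ 0) : (S.1 ∩ S'.1).card = 1 := by
  have e : ∑ r, al S r * be r S' = ((S.1 ∩ S'.1).card : ZMod 2) := by
    simp only [al, be, ite_zero_mul_ite_zero, mul_one, ← Finset.mem_inter]
    rw [Finset.sum_ite_mem, Finset.univ_inter]
    simp
  rw [netCorr, e] at h
  obtain ⟨h3, h4⟩ := inter_three S S'
  generalize (S.1 ∩ S'.1).card = c at *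
  interval_cases c
  · rw [if_neg fun e => absurd (h4.2 e) (by norm_num)] at h
    exact absurd (by decide) h
  · rfl
  · rw [if_neg fun e => absurd (h4.2 e) (by norm_num)] at h
    exact absurd (by decide) h
  · rw [if_pos (h4.1 rfl)] at h
    exact absurd (by decide) h

theorem stageHyp_of {Φ : Type} {Ed : Φ → Φ → Prop} (hs : ∀ B B', Ed B B' → Ed B' B)
    (F : Matrix H H ℤ → Φ)
    (hF : ∀ E D l, E * D = 0 → Dec 2 D l → NPath Ed l (F E) (F (E + D))) :
    StageHyp Ed al be 18 (F 0) (fun a => F (PP a)) (fun a => F (2 - PP a)) (F 2) := by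
  have key : ∀ a a' : Tri, (a.1 ∩ a'.1).card = 1 → NPath Ed 18 (F (PP a)) (F (2 - PP a')) := by
    intro a a' h
    have := hF (PP a) _ _ (by
      rw [Matrix.mul_sub, PP_Q, PP_mul, ww_uu, h]
      simp) (dec_G a a' h)
    rwa [show PP a + (2 - PP a - PP a') = 2 - PP a' by abel] at this
  have oe : NPath Ed 20 (F 0) (F 2) := by
    simpa using hF 0 _ _ (Matrix.zero_mul _) (dec_two (N := H))
  refine ⟨fun a => ?_, fun a' a h => key a a' (by rw [Finset.inter_comm]; exact corr_ne a' a h),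
    fun a' a h => key a' a (corr_ne a' a h), fun a => ?_, fun a => ?_, fun a => ?_, oe,
    oe.symm hs⟩
  · simpa using hF 0 _ _ (Matrix.zero_mul _) (dec_PP a)
  · simpa using hF 0 _ _ (Matrix.zero_mul _) (dec_Q a)
  · simpa using hF _ _ _ (PP_Q a) (dec_Q a)
  · simpa using hF _ _ _ (Q_PP a) (dec_PP a)

/-- The frame attached to `E`. -/
def fr (ε : H × H ≃ Fin 400) (E : Matrix (H × H) (H × H) ℤ) : Matrix (Fin 400) (Fin 400) ℤ :=
  reindexAlgEquiv ℤ ℤ ε (2 - E)

theorem fr_path (ε : H × H ≃ Fin 400) {D E E' : Matrix (H × H) (H × H) ℤ} {l : ℕ} (h : Dec 4 D l)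
    (hE : E * D = 0) (hE' : E' = E + D) : NPath Ed1 l (fr ε E) (fr ε E') :=
  (h.path hE hE').map _ (map_ed ε)

theorem ed1_symm (B B' : Matrix (Fin 400) (Fin 400) ℤ) (h : Ed1 B B') : Ed1 B' B :=
  EdG.symm B B' h

theorem netHyp (ε : H × H ≃ Fin 400) : NetHyp Ed1 al be 18 (fr ε 0) (fr ε (2 ⊗ₖ 2))
    (fun b a => fr ε (PP a ⊗ₖ PP b)) (fun b a => fr ε ((2 - PP a) ⊗ₖ PP b))
    (fun b => fr ε (2 ⊗ₖ PP b)) (fun a => fr ε ((2 - PP a) ⊗ₖ 2))
    (fun a b => fr ε ((2 - PP a) ⊗ₖ 2 + PP a ⊗ₖ PP b))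
    (fun a b => fr ε ((2 - PP a) ⊗ₖ 2 + PP a ⊗ₖ (2 - PP b))) := by
  have d2 : Dec 2 (2 : Matrix H H ℤ) 20 := by simpa using dec_two (N := H)
  refine ⟨fun b => ?_, fun a => ?_, fun b => ?_, fun a b => ?_, fun a b => ?_, fun a => ?_⟩
  · have := stageHyp_of ed1_symm (fun B => fr ε (B ⊗ₖ PP b)) fun E D l h1 h2 =>
      fr_path ε (by simpa using h2.kron (dec_PP b))
        (by rw [← mul_kronecker_mul, h1, zero_kronecker]) (add_kronecker _ _ _)
    simpa only [zero_kronecker] using this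
  · have := stageHyp_of ed1_symm (fun B => fr ε ((2 - PP a) ⊗ₖ 2 + PP a ⊗ₖ B)) fun E D l h1 h2 =>
      fr_path ε (by simpa using (dec_PP a).kron h2)
        (by rw [Matrix.add_mul, ← mul_kronecker_mul, ← mul_kronecker_mul, h1, Q_PP, zero_kronecker,
          kronecker_zero, add_zero]) (by rw [kronecker_add, add_assoc])
    simpa only [kronecker_zero, add_zero, ← add_kronecker, sub_add_cancel] using this
  · exact fr_path ε (E := (2 : Matrix H H ℤ) ⊗ₖ PP b) (d2.kron (dec_Q b))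
      (by rw [← mul_kronecker_mul, PP_Q, kronecker_zero])
      (by rw [← kronecker_add, add_sub_cancel])
  · exact fr_path ε ((dec_Q a).kron (dec_Q b)) (by rw [← mul_kronecker_mul, PP_Q, kronecker_zero])
      (by rw [← kronecker_add, add_sub_cancel])
  · refine fr_path ε ((dec_Q a).kron (dec_Q b))
      (by rw [← mul_kronecker_mul, PP_Q, kronecker_zero]) ?_
    ext ⟨i, i'⟩ ⟨j, j'⟩
    simp only [Matrix.add_apply, kroneckerMap_apply, Matrix.sub_apply]
    ring
  · exact fr_path ε ((dec_Q a).kron d2) (Matrix.zero_mul _) (zero_add _).symm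

theorem two_kron : (2 : Matrix H H ℤ) ⊗ₖ (2 : Matrix H H ℤ) = 2 + 2 := by
  rw [two_eq, smul_kronecker, kronecker_smul, one_kronecker_one, ← two_eq, two_smul]

theorem fr_sq (ε : H × H ≃ Fin 400) {E : Matrix (H × H) (H × H) ℤ} (h : E * E = (4 : ℤ) • E) :
    fr ε E * fr ε E = 4 := by
  rw [fr, ← map_mul, ← map_ofNat (reindexAlgEquiv ℤ ℤ ε) 4]
  congr 1
  rw [show (4 : Matrix (H × H) (H × H) ℤ) = 2 + 2 by norm_num, two_eq]
  simp only [Matrix.smul_mul, Matrix.mul_smul, Matrix.one_mul, Matrix.mul_one, Matrix.mul_sub,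
    Matrix.sub_mul, h]
  module

theorem fr_neg (ε : H × H ≃ Fin 400) {E E' : Matrix (H × H) (H × H) ℤ} (h : E + E' = 2 + 2) :
    fr ε E' = -fr ε E := by
  rw [fr, fr, ← map_neg]
  congr 1
  rw [eq_sub_of_add_eq' h]
  abel

end Net1

theorem card_reg : Fintype.card (NetReg Vale.Agent.P344.Tri) = W := by
  simp only [Fintype.card_sum, Fintype.card_prod, Vale.Agent.P344.card_Tri, W_eq]

theorem nonempty_Tri : Nonempty Vale.Agent.P344.Tri :=
  Fintype.card_pos_iff.1 (by rw [Vale.Agent.P344.card_Tri]; norm_num)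

open Set Matrix Net1 in
open scoped Kronecker in
theorem net1' : ∃ ρ : Fin W → Matrix (Fin 400) (Fin 400) ℤ, (∀ i, ρ i * ρ i = 4) ∧
    Net (ZMod 2) Ed1 (range fun i => (ρ i, (Pi.single i 1 : Fin W → ZMod 2))) (400 * W - sav)
      (range fun i => (-ρ i, (Pi.single i 1 : Fin W → ZMod 2))) := by
  let ε : H × H ≃ Fin 400 := Fintype.equivFinOfCardEq (by simp)
  let κ := Fintype.equivFinOfCardEq card_reg
  have := nonempty_Tri
  have h := network_fin (netHyp ε) κ
  refine ⟨fun i => netFr (fr ε 0) (fun p => fr ε (PP p.1 ⊗ₖ PP p.2)) (κ.symm i), fun i => ?_, ?_⟩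
  · beta_reduce
    rcases κ.symm i with (p | p) | p
    · exact fr_sq ε (by simp)
    · refine fr_sq ε ?_
      rw [← mul_kronecker_mul, PP_sq, PP_sq, smul_kronecker, kronecker_smul, smul_smul]
      rfl
    · exact fr_sq ε (by simp)
  · refine (h.mono_right ?_).mono_num ?_
    · rintro _ ⟨i, rfl⟩
      refine ⟨i, Prod.ext ?_ rfl⟩
      beta_reduce
      rcases κ.symm i with (p | p) | p
      · exact fr_neg ε (by rw [zero_add, two_kron])
      · refine fr_neg ε ?_
        rw [← two_kron]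
        ext ⟨i, i'⟩ ⟨j, j'⟩
        simp only [Matrix.add_apply, kroneckerMap_apply, Matrix.sub_apply]
        ring
      · exact fr_neg ε (by rw [zero_add, two_kron])
    · rw [Vale.Agent.P344.card_Tri, Fintype.card_fin, W_eq, sav_eq]
      norm_num [netE, netStE]

end Vale.Agent.P338
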