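import Vale.Agent.P338.ParDefs

/-! Auxiliary facts for the choice of the parameters. -/

namespace Vale.Agent.P338

open Vale.Agent.Lib Vale.Agent.Lib.H23 Enc

theorem cP_pos : 0 < cP := by
  rcases Nat.eq_zero_or_pos cP with h | h
  · exfalso
    obtain ⟨h1, -, h3⟩ := prog_spec 3 2 false (by decide) le_rfl (by norm_num)
    rw [h, zero_mul, List.length_eq_zero_iff] at h1
    have h4 := h3 (fun p => if p.2 = 0 then 1 else 0) false 1
    rw [h1, Finset.sum_eq_single 0] at h4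
    · have h5 : (1 : ZMod 3) ≠ 0 := by decide
      simp [runP, ker, chi, h5] at h4
    · intro k _ hk
      simp [hk]
    · simp
  · exact h

theorem two_mul_le_pi (Y : ℕ) (h : 50 ≤ Y) : 2 * Y + 1 ≤ Nat.primeCounting (Y * Y) := by
  have h1 := Chebyshev.pi_ge (Y * Y)
  have hY : (50 : ℝ) ≤ Y := by exact_mod_cast h
  have l1 := Real.log_two_gt_d9
  have l2 := Real.log_two_lt_d9
  have hlog : Real.log Y ≤ Y / 16 - 1 + 4 * Real.log 2 := by
    have e : (Y : ℝ) = Y / 16 * 2 ^ 4 := by ring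
    have a := Real.log_le_sub_one_of_pos (show (0 : ℝ) < Y / 16 by linarith)
    calc Real.log Y = Real.log (Y / 16 * 2 ^ 4) := by rw [← e]
      _ = Real.log (Y / 16) + 4 * Real.log 2 := by
        rw [Real.log_mul (by positivity) (by positivity), Real.log_pow]; norm_num
      _ ≤ _ := by linarith
  have hpos : 0 < Real.log Y := Real.log_pos (by linarith)
  have e1 : Real.log ((Y * Y : ℕ) : ℝ) = 2 * Real.log Y := by
    push_cast
    rw [Real.log_mul (by positivity) (by positivity)]; ring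
  have e2 : Real.log (((Y * Y : ℕ) : ℝ) + 1) ≤ 2 * Y := by
    have a := Real.log_le_sub_one_of_pos (show (0 : ℝ) < Y + 1 by linarith)
    calc Real.log (((Y * Y : ℕ) : ℝ) + 1) ≤ Real.log ((Y + 1) * (Y + 1)) := by
          apply Real.log_le_log (by positivity)
          push_cast
          nlinarith
      _ = 2 * Real.log (Y + 1) := by rw [Real.log_mul (by positivity) (by positivity)]; ring
      _ ≤ _ := by linarith
  have h2 : ((2 * Y + 1 : ℕ) : ℝ) ≤ (((Y * Y : ℕ) : ℝ) * Real.log 2 -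
      Real.log (((Y * Y : ℕ) : ℝ) + 1)) / Real.log ((Y * Y : ℕ) : ℝ) := by
    rw [e1, le_div_iff₀ (by linarith)]
    have a1 : (2 * (Y : ℝ) + 1) * (2 * Real.log Y) ≤ (3 * Y) * (2 * (Y / 16 + 2)) :=
      mul_le_mul (by linarith) (by linarith) (by linarith) (by linarith)
    have a2 : (Y : ℝ) * Y * 0.69 ≤ Y * Y * Real.log 2 :=
      mul_le_mul_of_nonneg_left (by linarith) (by positivity)
    have a3 : (Y : ℝ) * 50 ≤ Y * Y := mul_le_mul_of_nonneg_left hY (by positivity)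
    push_cast at e2 ⊢
    nlinarith
  exact_mod_cast h2.trans h1

theorem exists_primes : ∃ F : Un → List ℕ, PT F ∧ ∃ Y0, ∀ Y, Y0 ≤ Y → Mods (F ⟨Y⟩) ∧
    (∀ q ∈ F ⟨Y⟩, Y < q ∧ q ≤ Y ^ 2) ∧ Y ≤ (F ⟨Y⟩).length := by
  refine ⟨fun u => (List.range (unAdd (unMul u u) ⟨1⟩).n).filter fun q => ltb u.n q &&
    (List.range (unMul u u).n).all fun d => ltb d 2 || (!(ltb d q) || !(eqb (q % d) 0)),
    by fun_prop, 50, fun Y hY => ?_⟩
  have e : ((List.range (unAdd (unMul ⟨Y⟩ ⟨Y⟩) ⟨1⟩).n).filter fun q => ltb Y q &&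
      (List.range (unMul ⟨Y⟩ ⟨Y⟩).n).all fun d => ltb d 2 || (!(ltb d q) || !(eqb (q % d) 0))) =
      (List.range (Y * Y + 1)).filter fun q => decide (Y < q ∧ q.Prime) := by
    refine List.filter_congr fun q hq => ?_
    simp only [unAdd, unMul, List.mem_range] at hq ⊢
    rw [Bool.eq_iff_iff]
    simp only [ltb_eq, eqb_eq, Bool.and_eq_true, decide_eq_true_eq, List.all_eq_true,
      List.mem_range, Bool.or_eq_true, Bool.not_eq_true', decide_eq_false_iff_not]
    refine and_congr_right fun h1 => ?_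
    rw [Nat.prime_def_lt']
    constructor
    · intro h
      refine ⟨by omega, fun m h2 h3 h4 => ?_⟩
      have := h m (by omega)
      have h5 := Nat.mod_eq_zero_of_dvd h4
      omega
    · intro h d _
      by_cases h2 : d < 2
      · exact Or.inl h2
      by_cases h3 : d < q
      · exact Or.inr (Or.inr fun h4 => h.2 d (by omega) h3 (Nat.dvd_of_mod_eq_zero h4))
      · exact Or.inr (Or.inl h3)
  beta_reduce
  rw [e]
  have hm : ∀ q ∈ (List.range (Y * Y + 1)).filter fun q => decide (Y < q ∧ q.Prime),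
      q ≤ Y * Y ∧ Y < q ∧ q.Prime := by
    intro q hq
    simp only [List.mem_filter, List.mem_range, decide_eq_true_eq] at hq
    exact ⟨by omega, hq.2⟩
  refine ⟨⟨?_, fun q hq => ?_, fun q hq => ?_⟩, fun q hq => ?_, ?_⟩
  · have hn : ((List.range (Y * Y + 1)).filter fun q => decide (Y < q ∧ q.Prime)).Nodup :=
      List.nodup_range.filter _
    refine (List.Pairwise.and_mem.1 hn).imp fun {a b} h => ?_
    exact (Nat.coprime_primes (hm a h.1).2.2 (hm b h.2.1).2.2).2 h.2.2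
  · exact (hm q hq).2.2.odd_of_ne_two (by have := (hm q hq).2.1; omega)
  · have := (hm q hq).2.1; omega
  · rw [sq]; exact ⟨(hm q hq).2.1, (hm q hq).1⟩
  · have h1 := two_mul_le_pi Y hY
    have h2 : ((List.range (Y * Y + 1)).filter fun q => decide (Y < q ∧ q.Prime)).length =
        ((Finset.range (Y * Y + 1)).filter fun q => Y < q ∧ q.Prime).card := rfl
    have h3 : Nat.primeCounting (Y * Y) = ((Finset.range (Y * Y + 1)).filter Nat.Prime).card :=
      Nat.count_eq_card_filter_range _ _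
    have h4 : (Finset.range (Y * Y + 1)).filter Nat.Prime ⊆
        ((Finset.range (Y * Y + 1)).filter fun q => Y < q ∧ q.Prime) ∪ Finset.range (Y + 1) := by
      intro q hq
      simp only [Finset.mem_filter, Finset.mem_union, Finset.mem_range] at hq ⊢
      by_cases h5 : Y < q
      · exact Or.inl ⟨hq.1, h5, hq.2⟩
      · exact Or.inr (by omega)
    have h5 := (Finset.card_le_card h4).trans (Finset.card_union_le _ _)
    rw [Finset.card_range] at h5
    omega

theorem log_two_eq (s : ℕ) : Nat.log 2 (s + 2) = (s + 2).size - 1 := by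
  have h2 : 0 < (s + 2).size := Nat.size_pos.2 (by omega)
  refine (Nat.log_eq_iff (Or.inr ⟨by norm_num, by omega⟩)).2 ⟨Nat.lt_size.1 (by omega), ?_⟩
  rw [Nat.sub_add_cancel h2]
  exact Nat.lt_size_self _

@[fun_prop] theorem PT_Lam' {α : Type} [Enc α] {s : α → ℕ} (h : PT s) :
    PT fun a => Lam (s a) := by
  have h1 : PT fun b => (s b + 2) ^ (unMin ((s b + 2).size - 1) (unSize (s b + 2))).n := by
    fun_prop
  refine h1.congr fun b => ?_
  simp only [Lam, unMin, unSize]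
  rw [min_eq_left (by omega), log_two_eq]

theorem size_mul_le (a b : ℕ) : (a * b).size ≤ a.size + b.size := by
  rw [Nat.size_le, pow_add]
  exact Nat.mul_lt_mul'' (Nat.lt_size_self a) (Nat.lt_size_self b)

theorem size_add_le (a b : ℕ) : (a + b).size ≤ a.size + b.size := by
  rcases Nat.eq_zero_or_pos a with rfl | ha
  · simp
  rcases Nat.eq_zero_or_pos b with rfl | hb
  · simp
  rw [Nat.size_le, pow_add]
  have h1 := Nat.lt_size_self a
  have h2 := Nat.lt_size_self b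
  have h3 : 2 ≤ 2 ^ a.size := by omega
  have h4 : 2 ≤ 2 ^ b.size := by omega
  nlinarith

theorem size_pow_le (a k : ℕ) : (a ^ k).size ≤ k * a.size + 1 := by
  rw [Nat.size_le, pow_succ, mul_comm k, pow_mul]
  have h1 := Nat.pow_le_pow_left (Nat.lt_size_self a).le k
  have h2 : 0 < (2 ^ a.size) ^ k := by positivity
  omega

theorem size_Lam_le (s : ℕ) : (Lam s).size ≤ (s.size + 2) ^ 2 := by
  have h1 := size_pow_le (s + 2) (Nat.log 2 (s + 2))
  have h2 : (s + 2).size ≤ s.size + 2 := size_add_le s 2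
  have h3 : Nat.log 2 (s + 2) ≤ s.size + 1 := by rw [log_two_eq]; omega
  have h4 := Nat.mul_le_mul h3 h2
  unfold Lam
  nlinarith

theorem ν_pos (n : ℕ) : 0 < ν n :=
  Nat.ceil_pos.2 (Real.rpow_pos_of_pos (by positivity) _)

theorem ν_le (n : ℕ) : ν n ≤ n.size + 1 := by
  unfold ν
  rw [Nat.ceil_le]
  push_cast
  have h : (1 : ℝ) ≤ (n.size : ℝ) + 1 := by
    have : (0 : ℝ) ≤ n.size := Nat.cast_nonneg _
    linarith
  simpa using Real.rpow_le_rpow_of_exponent_le h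
    (show (1 - 3 / 10 ^ 8 : ℝ) ≤ 1 by norm_num)

theorem size_pow_le_rpow (k : ℕ) {δ : ℝ} (hδ : 0 < δ) : ∃ K : ℕ, ∀ s : ℕ,
    ((s.size : ℝ) + 1) ^ k ≤ K * ((s : ℝ) + 1) ^ δ := by
  obtain ⟨ε, hε⟩ : ∃ ε : ℝ, ε = δ / (k + 1) := ⟨_, rfl⟩
  have h0 : 0 < ε := by rw [hε]; positivity
  have h1 : ε * k ≤ δ := by
    rw [hε, div_mul_eq_mul_div, div_le_iff₀ (by positivity)]
    nlinarith
  obtain ⟨K, hK⟩ := exists_nat_ge ((2 + 2 / ε) ^ k)
  refine ⟨K, fun s => ?_⟩
  have hs : (1 : ℝ) ≤ (s : ℝ) + 1 := by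
    have : (0 : ℝ) ≤ s := Nat.cast_nonneg _
    linarith
  have a1 : (s.size : ℝ) ≤ 1 + 2 * Real.log (s + 1) := by
    have l0 := Real.log_nonneg hs
    rcases Nat.eq_zero_or_pos s.size with h | h
    · rw [h]; push_cast; linarith
    · have b1 : 2 ^ (s.size - 1) ≤ s := Nat.lt_size.1 (by omega)
      have b2 : (2 : ℝ) ^ (s.size - 1) ≤ s + 1 := by
        have : (2 : ℝ) ^ (s.size - 1) ≤ s := by exact_mod_cast b1
        linarith
      have b3 := Real.log_le_log (by positivity) b2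
      rw [Real.log_pow, Nat.cast_sub h] at b3
      have b4 := Real.log_two_gt_d9
      have b5 : (1 : ℝ) ≤ s.size := by exact_mod_cast h
      push_cast at b3
      nlinarith
  have a2 := Real.log_le_rpow_div (show (0 : ℝ) ≤ s + 1 by linarith) h0
  have a3 : (1 : ℝ) ≤ ((s : ℝ) + 1) ^ ε := Real.one_le_rpow hs h0.le
  have a4 : (s.size : ℝ) + 1 ≤ (2 + 2 / ε) * ((s : ℝ) + 1) ^ ε := by
    have : (2 + 2 / ε) * ((s : ℝ) + 1) ^ ε =
      2 * ((s : ℝ) + 1) ^ ε + 2 * (((s : ℝ) + 1) ^ ε / ε) := by ring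
    linarith
  calc ((s.size : ℝ) + 1) ^ k ≤ ((2 + 2 / ε) * ((s : ℝ) + 1) ^ ε) ^ k :=
        pow_le_pow_left₀ (by positivity) a4 k
    _ = (2 + 2 / ε) ^ k * ((s : ℝ) + 1) ^ (ε * k) := by
        rw [mul_pow, Real.rpow_mul_natCast (by linarith)]
    _ ≤ K * ((s : ℝ) + 1) ^ δ :=
        mul_le_mul hK (Real.rpow_le_rpow_of_exponent_le hs h1) (by positivity) (by positivity)

theorem polyll_sw (k : ℕ) : ∃ C, ∀ n, (n.size.size + 1) ^ k * sw n.size ≤ C * ν n := by
  obtain ⟨K, hK⟩ := size_pow_le_rpow k (δ := 1 / 10 ^ 8) (by norm_num)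
  refine ⟨2 * K, fun n => ?_⟩
  have hs : (1 : ℝ) ≤ (n.size : ℝ) + 1 := by
    have : (0 : ℝ) ≤ n.size := Nat.cast_nonneg _
    linarith
  have a1 : (sw n.size : ℝ) ≤ 2 * ((n.size : ℝ) + 1) ^ γ := by
    have b1 : (sw n.size : ℝ) < ((n.size : ℝ) + 1) ^ γ + 1 := Nat.ceil_lt_add_one (by positivity)
    have b2 := Real.one_le_rpow hs γ_nonneg
    linarith
  have a2 : ((n.size : ℝ) + 1) ^ (1 - 3 / 10 ^ 8 : ℝ) ≤ ν n := Nat.le_ceil _
  have a3 : ((n.size : ℝ) + 1) ^ (1 / 10 ^ 8 : ℝ) * ((n.size : ℝ) + 1) ^ γ =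
      ((n.size : ℝ) + 1) ^ (1 - 3 / 10 ^ 8 : ℝ) := by
    rw [← Real.rpow_add (by linarith), γ]; norm_num
  have a4 : ((n.size.size : ℝ) + 1) ^ k * sw n.size ≤ 2 * K * ν n :=
    calc ((n.size.size : ℝ) + 1) ^ k * sw n.size
        ≤ (K * ((n.size : ℝ) + 1) ^ (1 / 10 ^ 8 : ℝ)) * (2 * ((n.size : ℝ) + 1) ^ γ) :=
          mul_le_mul (hK _) a1 (by positivity) (by positivity)
      _ = 2 * K * ((n.size : ℝ) + 1) ^ (1 - 3 / 10 ^ 8 : ℝ) := by rw [← a3]; ring
      _ ≤ _ := mul_le_mul_of_nonneg_left a2 (by positivity)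
  exact_mod_cast a4

theorem polyll_le (C k : ℕ) : ∃ n0, ∀ n, n0 ≤ n → C * (n.size.size + 1) ^ k ≤ ν n := by
  obtain ⟨K, hK⟩ := polyll_sw (k + 1)
  refine ⟨2 ^ 2 ^ (C * (K + 1)), fun n hn => ?_⟩
  have h1 : C * (K + 1) < n.size.size := Nat.lt_size.2 (Nat.lt_size.2 hn).le
  have h2 : (n.size.size + 1) ^ (k + 1) ≤ (K + 1) * ν n :=
    ((Nat.le_mul_of_pos_right _ (sw_pos _)).trans (hK n)).trans
      (Nat.mul_le_mul_right _ (Nat.le_succ K))
  refine Nat.le_of_mul_le_mul_left (a := C * (n.size.size + 1) ^ k) (c := K + 1) ?_ (by omega)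
  refine le_trans ?_ h2
  rw [pow_succ', ← mul_assoc, mul_comm (K + 1)]
  exact Nat.mul_le_mul_right _ (by omega)

theorem quasi (C k : ℕ) : ∃ n0, ∀ n, n0 ≤ n → 2 ^ (C * (n.size.size + 1) ^ k) ≤ n := by
  obtain ⟨n0, h⟩ := polyll_le (C + 2) k
  refine ⟨n0, fun n hn => Nat.lt_size.1 ?_⟩
  have h1 := (h n hn).trans (ν_le n)
  have h2 : 0 < (n.size.size + 1) ^ k := by positivity
  rw [add_mul] at h1
  omega

end Vale.Agent.P338
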