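import Vale.Agent.P338.ParA

namespace Vale.Agent.P338

open Vale.Agent.Lib Vale.Agent.Lib.H23 Enc

theorem Pm.two_L_le (m : Pm) : 2 * m.L + 3 ≤ (36 * m.P + 9) * m.b0 := by
  have h : 0 < m.b0 := Lam_pos _
  unfold Pm.L Pm.E
  nlinarith

theorem Pm.t_le {C : ℕ} {m : Pm} (h : m.Sz C) : m.t + 1 ≤ (C + 1) * (m.n.size.size + 1) := by
  have := h.1
  nlinarith

theorem Pm.P_le {C : ℕ} {m : Pm} (h : m.Sz C) :
    m.P + 1 ≤ (cP * (C + 1) + 1) * (m.n.size.size + 1) := by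
  have h1 := Nat.mul_le_mul_left cP (Pm.t_le h)
  unfold Pm.P
  nlinarith

theorem Pm.size_L (C : ℕ) : ∃ C', ∀ m : Pm, m.Sz C →
    (2 * m.L + 3).size ≤ C' * (m.n.size.size + 1) ^ 2 := by
  refine ⟨36 * (cP * (C + 1) + 1) + (C + 2) ^ 2, fun m h => ?_⟩
  have h1 := (Nat.size_le_size m.two_L_le).trans (size_mul_le _ _)
  have h2 : (36 * m.P + 9).size ≤ 36 * m.P + 9 := Nat.size_le.2 Nat.lt_two_pow_self
  have h3 : m.b0.size ≤ (m.S.size + 2) ^ 2 := size_Lam_le _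
  have h4 : m.S.size + 2 ≤ (C + 2) * (m.n.size.size + 1) := by
    have := h.2.1
    nlinarith
  have h5 := Nat.pow_le_pow_left h4 2
  have h6 := Pm.P_le h
  have h7 : m.n.size.size + 1 ≤ (m.n.size.size + 1) ^ 2 := Nat.le_self_pow (by norm_num) _
  have h8 := Nat.mul_le_mul_left (cP * (C + 1) + 1) h7
  rw [mul_pow] at h5
  rw [add_mul, mul_assoc]
  omega

theorem Pm.OK.vol {m : Pm} (h : m.OK) : m.N * (2 * m.L + 3) ≤ 1000 * (m.P + 1) * m.n := by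
  have h1 : m.B ≤ 2 * m.β := by unfold Pm.β; omega
  have h2 : m.N ≤ 8 * (m.T' * m.β * m.β) := by
    unfold Pm.N Pm.T
    calc m.B * (m.B * (2 * m.T')) ≤ (2 * m.β) * ((2 * m.β) * (2 * m.T')) := by gcongr
      _ = _ := by ring
  have h3 := h.hn.2
  calc m.N * (2 * m.L + 3) ≤ (8 * (m.T' * m.β * m.β)) * ((36 * m.P + 9) * m.b0) :=
        Nat.mul_le_mul h2 m.two_L_le
    _ = 8 * (36 * m.P + 9) * (m.b0 * m.T' * m.β * m.β) := by ring
    _ ≤ 8 * (36 * m.P + 9) * (2 * m.n) := Nat.mul_le_mul_left _ h3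
    _ = (16 * (36 * m.P + 9)) * m.n := by ring
    _ ≤ _ := Nat.mul_le_mul_right _ (by omega)

theorem asym1 (C : ℕ) : ∃ C', ∀ m : Pm, m.OK → m.Sz C →
    (m.P + 1) * m.bud 0 ≤ C' * (m.n * ν m.n) := by
  obtain ⟨K, hK⟩ := polyll_sw 3
  refine ⟨1000 * (cP * (C + 1) + 1) ^ 2 * (C + 1) * K, fun m h1 h2 => ?_⟩
  have a1 := Pm.P_le h2
  have a2 := Pm.t_le h2
  have a3 := h1.vol
  have a4 := hK m.n
  unfold Pm.bud
  generalize cP * (C + 1) + 1 = c at a1 ⊢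
  generalize m.n.size.size + 1 = l at a1 a2 a4
  calc (m.P + 1) * (m.N * ((m.t + 1) * sw m.n.size * (2 * m.L + 3) + 0))
      = (m.P + 1) * (m.t + 1) * sw m.n.size * (m.N * (2 * m.L + 3)) := by ring
    _ ≤ (c * l) * ((C + 1) * l) * sw m.n.size * (1000 * (c * l) * m.n) :=
        Nat.mul_le_mul (by gcongr) (a3.trans (by gcongr))
    _ = 1000 * c ^ 2 * (C + 1) * m.n * (l ^ 3 * sw m.n.size) := by ring
    _ ≤ 1000 * c ^ 2 * (C + 1) * m.n * (K * ν m.n) := Nat.mul_le_mul_left _ a4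
    _ = _ := by ring

theorem asym2 (C K : ℕ) : ∃ n0, ∀ m : Pm, n0 ≤ m.n → m.OK → m.Sz C →
    K * ((m.P + 1) * (m.N * ((2 * m.L + 2) * ν (2 * m.L + 2))) +
      m.B * m.B * (6 * m.L * m.T * ν (6 * m.L * m.T))) ≤ m.n * ν m.n := by
  obtain ⟨C', hC'⟩ := Pm.size_L C
  obtain ⟨n0, hn0⟩ := polyll_le (K * (1000 * (cP * (C + 1) + 1) ^ 2 * (C' + 1) +
    3000 * (cP * (C + 1) + 1) * (C' + C + 4))) 5
  refine ⟨n0, fun m hn h1 h2 => ?_⟩
  have a1 := Pm.P_le h2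
  have a3 := h1.vol
  have a4 := hn0 m.n hn
  have a5 := hC' m h2
  have a6 := h2.2.2
  have hl : 1 ≤ m.n.size.size + 1 := by omega
  generalize cP * (C + 1) + 1 = c at a1 a4
  generalize m.n.size.size + 1 = l at a1 a4 a5 a6 hl
  have l0 : 1 ≤ l ^ 2 := Nat.one_le_pow _ _ hl
  have l1 : l ^ 2 ≤ l ^ 4 := Nat.pow_le_pow_right hl (by norm_num)
  have l2 : l ^ 4 ≤ l ^ 5 := Nat.pow_le_pow_right hl (by norm_num)
  have b0 : m.N * (2 * m.L + 3) ≤ 1000 * (c * l) * m.n := a3.trans (by gcongr)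
  have b1 : ν (2 * m.L + 2) ≤ (C' + 1) * l ^ 2 := by
    have := (ν_le (2 * m.L + 2)).trans
      (Nat.add_le_add_right (Nat.size_le_size (Nat.le_succ _)) 1)
    rw [add_mul]
    simp only [Nat.succ_eq_add_one, add_assoc, Nat.reduceAdd] at this
    omega
  have b2 : ν (6 * m.L * m.T) ≤ (C' + C + 4) * l ^ 4 := by
    have c1 : 6 * m.L * m.T ≤ 6 * ((2 * m.L + 3) * m.T') := by
      unfold Pm.T
      nlinarith [Nat.zero_le m.T']
    have c2 := (Nat.size_le_size c1).trans ((size_mul_le _ _).trans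
      (Nat.add_le_add_left (size_mul_le _ _) _))
    have c3 : Nat.size 6 ≤ 3 := Nat.size_le.2 (by norm_num)
    have c4 := ν_le (6 * m.L * m.T)
    have c5 := Nat.mul_le_mul_left C' l1
    rw [add_mul, add_mul]
    omega
  have b3 : (m.P + 1) * (m.N * ((2 * m.L + 2) * ν (2 * m.L + 2))) ≤
      m.n * (1000 * c ^ 2 * (C' + 1) * l ^ 5) :=
    calc (m.P + 1) * (m.N * ((2 * m.L + 2) * ν (2 * m.L + 2)))
        ≤ (m.P + 1) * (m.N * ((2 * m.L + 3) * ν (2 * m.L + 2))) := by gcongr; omega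
      _ = (m.P + 1) * (m.N * (2 * m.L + 3)) * ν (2 * m.L + 2) := by ring
      _ ≤ (c * l) * (1000 * (c * l) * m.n) * ((C' + 1) * l ^ 2) := by gcongr
      _ = m.n * (1000 * c ^ 2 * (C' + 1) * l ^ 4) := by ring
      _ ≤ _ := by gcongr
  have b4 : m.B * m.B * (6 * m.L * m.T * ν (6 * m.L * m.T)) ≤
      m.n * (3000 * c * (C' + C + 4) * l ^ 5) :=
    calc m.B * m.B * (6 * m.L * m.T * ν (6 * m.L * m.T))
        = 3 * (m.N * (2 * m.L)) * ν (6 * m.L * m.T) := by unfold Pm.N; ring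
      _ ≤ 3 * (m.N * (2 * m.L + 3)) * ν (6 * m.L * m.T) := by gcongr; omega
      _ ≤ 3 * (1000 * (c * l) * m.n) * ((C' + C + 4) * l ^ 4) := by gcongr
      _ = _ := by ring
  calc _ ≤ K * (m.n * (1000 * c ^ 2 * (C' + 1) * l ^ 5) +
        m.n * (3000 * c * (C' + C + 4) * l ^ 5)) := Nat.mul_le_mul_left _ (Nat.add_le_add b3 b4)
    _ = m.n * (K * (1000 * c ^ 2 * (C' + 1) + 3000 * c * (C' + C + 4)) * l ^ 5) := by ring
    _ ≤ _ := Nat.mul_le_mul_left _ a4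

end Vale.Agent.P338
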