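import Vale.Agent.P338.NetDefs

/-! Potential functions solving the two cost recurrences. -/

namespace Vale.Agent.P338

noncomputable def γ : ℝ := 1 - 4 / 10 ^ 8

noncomputable def sw (a : ℕ) : ℕ := ⌈((a : ℝ) + 1) ^ γ⌉₊

theorem γ_nonneg : 0 ≤ γ := by unfold γ; norm_num
theorem γ_le_one : γ ≤ 1 := by unfold γ; norm_num

theorem sw_pos (a : ℕ) : 0 < sw a := by
  exact Nat.ceil_pos.2 (Real.rpow_pos_of_pos (by positivity) _)

theorem sw_mono {a b : ℕ} (h : a ≤ b) : sw a ≤ sw b := by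
  apply Nat.ceil_mono
  apply Real.rpow_le_rpow (by positivity) _ γ_nonneg
  have : (a : ℝ) ≤ b := by exact_mod_cast h
  linarith

theorem sw_le_mul {t a b : ℕ} (ht : 1 ≤ t) (h : (b : ℝ) + 1 ≤ t * ((a : ℝ) + 1)) :
    sw b ≤ t * sw a := by
  have h1 : (1 : ℝ) ≤ t := by exact_mod_cast ht
  unfold sw
  rw [Nat.ceil_le]
  push_cast
  calc ((b : ℝ) + 1) ^ γ ≤ (t * ((a : ℝ) + 1)) ^ γ := Real.rpow_le_rpow (by positivity) h γ_nonneg
    _ = (t : ℝ) ^ γ * ((a : ℝ) + 1) ^ γ := Real.mul_rpow (by positivity) (by positivity)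
    _ ≤ t * (⌈((a : ℝ) + 1) ^ γ⌉₊ : ℝ) := by
      apply mul_le_mul _ (Nat.le_ceil _) (by positivity) (by positivity)
      simpa using Real.rpow_le_rpow_of_exponent_le h1 γ_le_one

theorem sw_mul_le {t : ℕ} (ht : 1 ≤ t) (a : ℕ) : sw (t * a) ≤ t * sw a := by
  refine sw_le_mul ht ?_
  have : (1 : ℝ) ≤ t := by exact_mod_cast ht
  push_cast
  nlinarith

theorem sw_add_le (a c : ℕ) : sw (a + c) ≤ (c + 1) * sw a := by
  refine sw_le_mul (by omega) ?_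
  push_cast
  nlinarith [mul_nonneg (Nat.cast_nonneg (α := ℝ) a) (Nat.cast_nonneg (α := ℝ) c)]

theorem gap {B : ℕ} (h1 : 1 ≤ B) (h2 : B ≤ 400) : ((B * W - sav : ℕ) : ℝ) / W < (B : ℝ) ^ γ := by
  have b1 : (1 : ℝ) ≤ B := by exact_mod_cast h1
  have b2 : (B : ℝ) ≤ 400 := by exact_mod_cast h2
  have hlog : Real.log B ≤ 6 := by
    rw [Real.log_le_iff_le_exp (by linarith)]
    have h1 := Real.exp_one_gt_d9
    have h2 : Real.exp 6 = Real.exp 1 ^ 6 := by rw [← Real.exp_nat_mul]; norm_num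
    rw [h2]
    calc (B : ℝ) ≤ 400 := b2
      _ ≤ 2.7182818283 ^ 6 := by norm_num
      _ ≤ Real.exp 1 ^ 6 := by gcongr
  have h3 : (B : ℝ) ^ γ = B * Real.exp (-(Real.log B * (4 / 10 ^ 8))) := by
    rw [γ, Real.rpow_sub (by linarith), Real.rpow_one, Real.rpow_def_of_pos (by linarith),
      Real.exp_neg, div_eq_mul_inv]
  have h4 := Real.add_one_le_exp (-(Real.log B * (4 / 10 ^ 8)))
  have h5 : sav ≤ B * W := by rw [W_eq, sav_eq]; omega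
  have h6 : (B : ℝ) * (1 - 6 * (4 / 10 ^ 8)) ≤ B * Real.exp (-(Real.log B * (4 / 10 ^ 8))) := by
    apply mul_le_mul_of_nonneg_left _ (by linarith)
    nlinarith
  rw [h3, Nat.cast_sub h5, W_eq, sav_eq]
  refine lt_of_lt_of_le ?_ h6
  rw [div_lt_iff₀ (by norm_num)]
  push_cast
  nlinarith

theorem pot_core {B : ℕ} (h1 : 1 ≤ B) (h2 : B ≤ 400) : ∃ (Y : ℕ → ℕ) (C : ℕ),
    (∀ k, 1 ≤ k → (B * W - sav) * (B * sw k + Y (k / B)) ≤ W * Y k) ∧ ∀ k, Y k ≤ C * sw k := by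
  obtain ⟨c, hc⟩ : ∃ c, c = B * W - sav := ⟨_, rfl⟩
  have hg := gap h1 h2
  rw [← hc] at hg ⊢
  have hW : (0 : ℝ) < W := by exact_mod_cast W_pos
  have hB : (0 : ℝ) < B := by exact_mod_cast h1
  have hBγ : (0 : ℝ) < (B : ℝ) ^ γ := Real.rpow_pos_of_pos hB _
  obtain ⟨η, hη⟩ : ∃ η : ℝ, η = W - c / (B : ℝ) ^ γ := ⟨_, rfl⟩
  have hη0 : 0 < η := by
    rw [hη, sub_pos, div_lt_iff₀ hBγ]
    rw [div_lt_iff₀ hW] at hg
    linarith
  obtain ⟨K, hK⟩ := exists_nat_ge ((c : ℝ) * (3 * B + 1) / η)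
  rw [div_le_iff₀ hη0] at hK
  refine ⟨fun k => ⌈(K : ℝ) * (k : ℝ) ^ γ⌉₊, K, fun k hk => ?_, fun k => ?_⟩
  · have k1 : (1 : ℝ) ≤ k := by exact_mod_cast hk
    have e1 : (1 : ℝ) ≤ (k : ℝ) ^ γ := Real.one_le_rpow k1 γ_nonneg
    have e2 : (sw k : ℝ) ≤ 3 * (k : ℝ) ^ γ := by
      have a1 : (sw k : ℝ) < ((k : ℝ) + 1) ^ γ + 1 := Nat.ceil_lt_add_one (by positivity)
      have a2 : ((k : ℝ) + 1) ^ γ ≤ (2 * (k : ℝ)) ^ γ :=
        Real.rpow_le_rpow (by positivity) (by linarith) γ_nonneg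
      rw [Real.mul_rpow (by norm_num) (by positivity)] at a2
      have a3 : (2 : ℝ) ^ γ ≤ 2 := by
        simpa using Real.rpow_le_rpow_of_exponent_le (x := 2) (by norm_num) γ_le_one
      nlinarith
    have e3 : (⌈(K : ℝ) * ((k / B : ℕ) : ℝ) ^ γ⌉₊ : ℝ) ≤ K * ((k : ℝ) ^ γ / (B : ℝ) ^ γ) + 1 := by
      have a1 : (⌈(K : ℝ) * ((k / B : ℕ) : ℝ) ^ γ⌉₊ : ℝ) < (K : ℝ) * ((k / B : ℕ) : ℝ) ^ γ + 1 :=
        Nat.ceil_lt_add_one (by positivity)
      have a2 : ((k / B : ℕ) : ℝ) ^ γ ≤ ((k : ℝ) / B) ^ γ :=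
        Real.rpow_le_rpow (by positivity) Nat.cast_div_le γ_nonneg
      rw [Real.div_rpow (by positivity) (by positivity)] at a2
      have a3 := mul_le_mul_of_nonneg_left a2 (Nat.cast_nonneg (α := ℝ) K)
      linarith
    have e4 := Nat.le_ceil ((K : ℝ) * (k : ℝ) ^ γ)
    have e5 : (c : ℝ) * (B * sw k + ⌈(K : ℝ) * ((k / B : ℕ) : ℝ) ^ γ⌉₊) ≤
        c * (B * (3 * (k : ℝ) ^ γ) + (K * ((k : ℝ) ^ γ / (B : ℝ) ^ γ) + (k : ℝ) ^ γ)) := by
      apply mul_le_mul_of_nonneg_left _ (Nat.cast_nonneg _)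
      have := mul_le_mul_of_nonneg_left e2 hB.le
      linarith
    have e6 : (c : ℝ) * (B * (3 * (k : ℝ) ^ γ) + (K * ((k : ℝ) ^ γ / (B : ℝ) ^ γ) + (k : ℝ) ^ γ)) =
        (c * (3 * B + 1) + K * (c / (B : ℝ) ^ γ)) * (k : ℝ) ^ γ := by ring
    have e7 : (c * (3 * B + 1) + K * (c / (B : ℝ) ^ γ)) * (k : ℝ) ^ γ ≤ (K * W) * (k : ℝ) ^ γ := by
      apply mul_le_mul_of_nonneg_right _ (by linarith)
      rw [hη] at hK
      linarith
    have e8 := mul_le_mul_of_nonneg_left e4 hW.le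
    have e9 : (c : ℝ) * (B * sw k + ⌈(K : ℝ) * ((k / B : ℕ) : ℝ) ^ γ⌉₊) ≤
        W * (⌈(K : ℝ) * (k : ℝ) ^ γ⌉₊ : ℝ) := by linarith
    exact_mod_cast e9
  · rw [Nat.ceil_le]
    push_cast
    apply mul_le_mul_of_nonneg_left _ (Nat.cast_nonneg _)
    exact (Real.rpow_le_rpow (by positivity) (by linarith) γ_nonneg).trans (Nat.le_ceil _)

theorem pot1 : ∃ (Φ : ℕ → ℕ) (C : ℕ), 1 ≤ Φ 0 ∧ (∀ a, a % 400 ≠ 0 → Φ (a - 1) + 1 ≤ Φ a) ∧
    (∀ a, 0 < a → a % 400 = 0 → W + (400 * W - sav) * Φ (a / 400) ≤ W * Φ a) ∧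
    ∀ a, Φ a ≤ C * sw a := by
  obtain ⟨Y, C, h1, h2⟩ := pot_core (B := 400) (by norm_num) (by norm_num)
  refine ⟨fun a => a % 400 + 1 + Y (a / 400), C + 400, by simp, fun a ha => ?_, fun a h0 ha => ?_,
    fun a => ?_⟩
  · have e : (a - 1) / 400 = a / 400 := by omega
    simp only [e]
    omega
  · have h3 := h1 (a / 400) (by omega)
    have h4 := sw_pos (a / 400)
    have h5 : a / 400 % 400 + 1 + Y (a / 400 / 400) ≤ 400 * sw (a / 400) + Y (a / 400 / 400) := by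
      omega
    have h6 := Nat.mul_le_mul_left (400 * W - sav) h5
    simp only [ha, zero_add, mul_add W, mul_one]
    omega
  · have h3 := h2 (a / 400)
    have h4 := Nat.mul_le_mul_left C (sw_mono (Nat.div_le_self a 400))
    have h5 := sw_pos a
    simp only [add_mul]
    omega

theorem pot2 : ∃ (Ψ : ℕ → ℕ → ℕ → ℕ) (C : ℕ), (∀ t A, sw A ≤ Ψ t 0 A) ∧
    (∀ t D A, D % 361 ≠ 0 → Ψ t (D - 1) A + sw A ≤ Ψ t D A) ∧
    (∀ t D A, 0 < D → D % 361 = 0 →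
      W * sw A + (361 * W - sav) * Ψ t (D / 361) (t * (D / 361)) ≤ W * Ψ t D A) ∧
    ∀ t D A, 1 ≤ t → Ψ t D A ≤ C * (sw A + t * sw D) := by
  obtain ⟨Y, C, h1, h2⟩ := pot_core (B := 361) (by norm_num) (by norm_num)
  refine ⟨fun t D A => (D % 361 + 1) * sw A + (t + 1) * Y (D / 361), 2 * C + 361,
    fun t A => by simp, fun t D A hD => ?_, fun t D A h0 hD => ?_, fun t D A ht => ?_⟩
  · have e : (D - 1) / 361 = D / 361 := by omega
    have e2 : D % 361 = (D - 1) % 361 + 1 := by omega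
    simp only [e]
    rw [e2]
    nlinarith
  · have h3 := h1 (D / 361) (by omega)
    have h4 : sw (t * (D / 361)) ≤ (t + 1) * sw (D / 361) :=
      (sw_mono (Nat.mul_le_mul_right _ (Nat.le_succ t))).trans (sw_mul_le (by omega) _)
    have h5 : (D / 361 % 361 + 1) * sw (t * (D / 361)) ≤ 361 * ((t + 1) * sw (D / 361)) :=
      Nat.mul_le_mul (by omega) h4
    have h6 := Nat.mul_le_mul_left (361 * W - sav)
      (Nat.add_le_add_right h5 ((t + 1) * Y (D / 361 / 361)))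
    have h7 := Nat.mul_le_mul_left (t + 1) h3
    simp only [hD, zero_add, one_mul]
    generalize 361 * W - sav = c at h6 h7 ⊢
    nlinarith
  · have h3 := (h2 (D / 361)).trans (Nat.mul_le_mul_left C (sw_mono (Nat.div_le_self D 361)))
    have h4 : (D % 361 + 1) * sw A ≤ 361 * sw A := Nat.mul_le_mul_right _ (by omega)
    have h5 : (t + 1) * Y (D / 361) ≤ (2 * t) * (C * sw D) := Nat.mul_le_mul (by omega) h3
    beta_reduce
    nlinarith [Nat.zero_le (C * sw A), Nat.zero_le (t * sw D)]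

end Vale.Agent.P338
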