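import Vale.Agent.P338.Simd
import Vale.Agent.P338.Global
import Vale.Agent.P338.Lin
import Vale.Agent.P338.Pot

/-! The parameters of the multiplication algorithm. -/

namespace Vale.Agent.P338

open Vale.Agent.Lib Vale.Agent.Lib.H23 Enc

noncomputable def prog : Un × Un × Bool → List Step := prog_exists.choose

noncomputable def cP : ℕ := prog_exists.choose_spec.choose

theorem PT_prog : PT prog := prog_exists.choose_spec.choose_spec.1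

theorem prog_spec (q t : ℕ) (fl : Bool) [NeZero q] (h1 : Odd q) (h2 : 3 ≤ q) (h3 : q ≤ 2 ^ t) :
    (prog (⟨q⟩, ⟨t⟩, fl)).length = cP * (t + 1) ∧
      (∀ s ∈ prog (⟨q⟩, ⟨t⟩, fl), ∀ b y, (stTab s b y).length ≤ cP ∧
        ∀ e ∈ stTab s b y, ExOK (cP * q ^ 2) e) ∧
      ∀ (x : Bool × ZMod q → ℂ) (b : Bool) (j : ZMod q),
        runP q (prog (⟨q⟩, ⟨t⟩, fl)) x (b, j) = ∑ k : ZMod q, ker q fl j.val k.val * x (b, k) :=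
  prog_exists.choose_spec.choose_spec.2 q t fl h1 h2 h3

structure Pm where
  n : ℕ
  qs : List ℕ
  t : ℕ
  u : ℕ
  S : ℕ
  d : ℕ
  T' : ℕ

namespace Pm

variable (m : Pm)

def r : ℕ := m.qs.length
def B' : ℕ := m.qs.prod
def B : ℕ := m.qs.prod ^ 2
def β : ℕ := (m.B + 1) / 2
noncomputable def P : ℕ := cP * (m.t + 1)
def b0 : ℕ := Lam m.S
def p : ℕ := 3 * m.b0 - m.r
noncomputable def E : ℕ := 18 * m.P * m.b0
noncomputable def L : ℕ := m.E + 3 * m.b0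
def T : ℕ := 2 * m.T'
def N : ℕ := m.B * (m.B * m.T)
/-- growth per step -/
noncomputable def Γ : ℝ := 2 ^ (m.r + m.u * m.u + 1)
/-- the small data -/
def sm : List ℕ × Un × Un × Un × ℕ := (m.qs, ⟨m.t⟩, ⟨m.u⟩, ⟨m.S⟩, m.T')
/-- budget of one step of the transform -/
noncomputable def bud (τ : ℕ) : ℕ := m.N * ((m.t + 1) * sw m.n.size * (2 * m.L + 3) + τ)

structure OK : Prop where
  mods : Mods m.qs
  hq : ∀ q ∈ m.qs, 2 * m.r ≤ q ∧ q ^ 2 ≤ 2 ^ m.t ∧ cP * q ^ 4 ≤ m.u ∧ q ^ 2 ≤ m.u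
  hcr : cP * m.r ≤ m.u
  ht : 1 ≤ m.t ∧ m.t ≤ m.S
  hu : m.u ≤ m.S
  hS : m.n.size ≤ m.S
  hB : m.B ≤ 2 ^ m.n.size
  hd : m.n.size < 2 ^ m.d ∧ m.t * m.r < 2 ^ m.d
  hr : m.r ≤ m.n.size
  hW : W ^ (m.d + m.d) ∣ m.T'
  hn : m.n ≤ m.b0 * m.T' * m.β * m.β ∧ m.b0 * m.T' * m.β * m.β ≤ 2 * m.n
  hΛ : Lam (2 * m.L + 2) ≤ m.T'
  hT : m.T ≤ 2 ^ (2 * m.L - 4)
  hT' : 4 ≤ m.T'
  hβ : 2 ≤ m.β
  herr : 1024 * m.P * m.T * (2 ^ (m.r + m.u * m.u + 1)) ^ (6 * m.P) * 2 ^ m.r ≤ 2 ^ m.b0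
  hcv : m.β * m.β * m.T' + 1 ≤ 2 ^ m.b0
  hp : m.r < 3 * m.b0
  hP : 1 ≤ m.P
  hL1 : 2 * m.L + 2 < m.n
  hL2 : 6 * m.L * m.T < m.n
  hL3 : (2 * m.L + 2) * m.b0 ≤ m.n

/-- orders of magnitude -/
def Sz (C : ℕ) : Prop :=
  m.t ≤ C * (m.n.size.size + 1) ∧ m.S.size ≤ C * (m.n.size.size + 1) ∧
    m.T'.size ≤ C * (m.n.size.size + 1) ^ 4

end Pm

noncomputable def ν (n : ℕ) : ℕ := ⌈((n.size : ℝ) + 1) ^ (1 - 3 / 10 ^ 8 : ℝ)⌉₊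

end Vale.Agent.P338
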