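import Vale.Agent.P338.Mach
import Vale.Agent.Lib.helper23.PT

/-! Primitive programs on serialized trees. -/

namespace Vale.Agent.P338

open Vale.Agent.Lib Vale.Agent.Lib.H23 Enc

structure Lens : Type where
  ι : K → Tk
  put : St → Sto → Sto
  get_put : ∀ S T j, (put S T).get (ι j) = S.get j
  set_put : ∀ S T j l, (put S T).set (ι j) l = put (S.set j l) T

def emb (l : Lens) : Cmd → Prg
  | Cmd.skip => Prg.skip
  | Cmd.push k x => Prg.push (l.ι k) x
  | Cmd.seq c d => Prg.seq (emb l c) (emb l d)
  | Cmd.br k c0 cf ct => Prg.br (l.ι k) (emb l c0) (emb l cf) (emb l ct)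
  | Cmd.loop k cf ct => Prg.loop (l.ι k) (emb l cf) (emb l ct)

theorem emb_exe (l : Lens) (env : Prg) (T : Sto) {c : Cmd} {S S' : St} {t : ℕ}
    (h : Exec c S S' t) : Exe env (emb l c) (l.put S T) (l.put S' T) t := by
  induction h with
  | skip S => exact Exe.skip _
  | push k x S =>
    rw [← l.set_put, ← l.get_put S T]
    exact Exe.push _ _ _
  | seq _ _ ih1 ih2 => exact Exe.seq ih1 ih2
  | br0 hk _ ih => exact Exe.br0 (by rw [l.get_put, hk]) ih
  | brf hk _ ih => exact Exe.brf (by rw [l.get_put, hk]) (by rw [l.set_put]; exact ih)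
  | brt hk _ ih => exact Exe.brt (by rw [l.get_put, hk]) (by rw [l.set_put]; exact ih)
  | loop0 hk => exact Exe.loop0 (by rw [l.get_put, hk])
  | loopf hk _ _ ih1 ih2 => exact Exe.loopf (by rw [l.get_put, hk]) (by rw [l.set_put]; exact ih1) ih2
  | loopt hk _ _ ih1 ih2 => exact Exe.loopt (by rw [l.get_put, hk]) (by rw [l.set_put]; exact ih1) ih2
  | mono _ ht ih => exact ih.mono ht

def L0 : Lens where
  ι := fun k => match k with
    | K.m => Tk.m
    | K.a => Tk.a
    | K.b => Tk.b
    | K.c => Tk.c
  put S T := ⟨S.m, S.a, S.b, S.c, T.e, T.d⟩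
  get_put _ _ j := by cases j <;> rfl
  set_put _ _ j _ := by cases j <;> rfl

def Le : Lens where
  ι := fun k => match k with
    | K.m => Tk.e
    | K.a => Tk.a
    | K.b => Tk.b
    | K.c => Tk.c
  put S T := ⟨T.m, S.a, S.b, S.c, S.m, T.d⟩
  get_put _ _ j := by cases j <;> rfl
  set_put _ _ j _ := by cases j <;> rfl

variable {env : Prg}

theorem Rns.mono {c : Prg} {x y : Tr} {t t' : ℕ} (h : Rns env c x y t) (ht : t ≤ t') :
    Rns env c x y t' := fun r D => (h r D).mono ht

theorem Rns.ofH {c : Cmd} {x y : Tr} {t : ℕ} (h : Runs c x y t) : Rns env (emb L0 c) x y t :=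
  fun r D => emb_exe L0 env ⟨[], [], [], [], [], D⟩ (h r)

def Sto.total (S : Sto) : ℕ :=
  S.m.length + S.a.length + S.b.length + S.c.length + S.e.length + S.d.length

theorem Sto.total_set (S : Sto) (k : Tk) (l : List Bool) :
    (S.set k l).total + (S.get k).length = S.total + l.length := by
  cases k <;> simp [Sto.total, Sto.set, Sto.get] <;> omega

theorem Exe.total_le {c : Prg} {S S' : Sto} {t : ℕ} (h : Exe env c S S' t) :
    S'.total ≤ S.total + t := by
  induction h with
  | skip S => omega
  | push k x S => have := S.total_set k (x :: S.get k); simp at this; omega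
  | seq _ _ ih1 ih2 => omega
  | br0 _ _ ih => omega
  | @brf _ k c0 cf ct S S' t l hk _ ih =>
    have := S.total_set k l; rw [hk] at this; simp at this; omega
  | @brt _ k c0 cf ct S S' t l hk _ ih =>
    have := S.total_set k l; rw [hk] at this; simp at this; omega
  | loop0 _ => omega
  | @loopf _ k cf ct S S' S'' t t' l hk _ _ ih1 ih2 =>
    have := S.total_set k l; rw [hk] at this; simp at this; omega
  | @loopt _ k cf ct S S' S'' t t' l hk _ _ ih1 ih2 =>
    have := S.total_set k l; rw [hk] at this; simp at this; omega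
  | call _ ih => omega
  | fix _ ih => omega
  | mono _ ht ih => omega

theorem Rns.size_le {c : Prg} {x y : Tr} {t : ℕ} (h : Rns env c x y t) : y.size ≤ x.size + t := by
  have := (h [] []).total_le
  simpa [Sto.total, Tr.size] using this

theorem rns_skip (x : Tr) : Rns env Prg.skip x x 1 := fun _ _ => Exe.skip _

theorem rns_seq {c d : Prg} {x y z : Tr} {t t' : ℕ} (h : Rns env c x y t) (h' : Rns env d y z t') :
    Rns env (Prg.seq c d) x z (t + t') := fun r D => Exe.seq (h r D) (h' r D)

theorem rns_call {x y : Tr} {t : ℕ} (h : Rns env env x y t) : Rns env Prg.call x y (t + 2) :=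
  fun r D => Exe.call (h r D)

theorem rns_fix {c : Prg} {x y : Tr} {t : ℕ} (h : Rns c c x y t) :
    Rns env (Prg.fix c) x y (t + 2) := fun r D => Exe.fix (h r D)

theorem ser_node (x y : Tr) (r : List Bool) :
    ser (Tr.node x y) ++ r = true :: (ser x ++ (ser y ++ r)) := by simp [ser]

def mapFst (c : Prg) : Prg := Prg.br Tk.m Prg.skip Prg.skip (Prg.seq c (Prg.push Tk.m true))

theorem rns_mapFst {c : Prg} {x y : Tr} {t : ℕ} (h : Rns env c x y t) (z : Tr) :
    Rns env (mapFst c) (Tr.node x z) (Tr.node y z) (t + 2) := by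
  intro r D
  rw [ser_node, ser_node]
  exact Exe.brt (l := ser x ++ (ser z ++ r)) rfl (Exe.seq (h _ D) (Exe.push Tk.m true _))

def pairP (P Q : Prg) : Prg :=
  Prg.seq (emb L0 dupC) (Prg.seq Q (Prg.seq (emb L0 swapC) (Prg.seq P (Prg.push Tk.m true))))

theorem rns_pair {P Q : Prg} {x y z : Tr} {t t' : ℕ} (h : Rns env P x y t) (h' : Rns env Q x z t') :
    Rns env (pairP P Q) x (Tr.node y z) (t + 9 * t' + 26 * x.size + 11) := by
  intro r D
  rw [ser_node]
  have := h'.size_le
  exact (Exe.seq (emb_exe L0 env ⟨[], [], [], [], [], D⟩ (dup_exec x r)) (Exe.seq (h' _ D)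
    (Exe.seq (emb_exe L0 env ⟨[], [], [], [], [], D⟩ (swap_exec z x r))
    (Exe.seq (h _ D) (Exe.push Tk.m true _))))).mono (by omega)

def caseP (Q R : Prg) : Prg :=
  Prg.br Tk.m Prg.skip Prg.skip (Prg.br Tk.m Prg.skip Q
    (Prg.seq (Prg.push Tk.m true) (Prg.seq (Prg.push Tk.m true) R)))

theorem exe_case_nil {Q R : Prg} {M D : List Bool} {S : Sto} {t : ℕ}
    (h : Exe env Q ⟨M, [], [], [], [], D⟩ S t) :
    Exe env (caseP Q R) ⟨true :: false :: M, [], [], [], [], D⟩ S (t + 2) :=
  Exe.brt (l := false :: M) rfl (Exe.brf (l := M) rfl h)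

theorem exe_case_node {Q R : Prg} {M D : List Bool} {S : Sto} {t : ℕ}
    (h : Exe env R ⟨true :: true :: M, [], [], [], [], D⟩ S t) :
    Exe env (caseP Q R) ⟨true :: true :: M, [], [], [], [], D⟩ S (t + 4) :=
  (Exe.brt (l := true :: M) rfl (Exe.brt (l := M) rfl
    (Exe.seq (Exe.push Tk.m true _) (Exe.seq (Exe.push Tk.m true _) h)))).mono (by omega)

theorem rns_case_nil {Q R : Prg} {b y : Tr} {t : ℕ} (h : Rns env Q b y t) :
    Rns env (caseP Q R) (Tr.node Tr.nil b) y (t + 2) := by
  intro r D
  have e : ser (Tr.node Tr.nil b) ++ r = true :: false :: (ser b ++ r) := by simp [ser]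
  rw [e]
  exact exe_case_nil (h r D)

theorem rns_case_node {Q R : Prg} {u w b y : Tr} {t : ℕ}
    (h : Rns env R (Tr.node (Tr.node u w) b) y t) :
    Rns env (caseP Q R) (Tr.node (Tr.node u w) b) y (t + 4) := by
  intro r D
  have h1 := h r D
  have e : ser (Tr.node (Tr.node u w) b) ++ r =
      true :: true :: (ser u ++ (ser w ++ (ser b ++ r))) := by simp [ser]
  rw [e] at h1 ⊢
  exact exe_case_node h1

def mv (k k' : Tk) : Prg := Prg.loop k (Prg.push k' false) (Prg.push k' true)

theorem mv_exe {k k' : Tk} (h : k ≠ k') (l : List Bool) : ∀ S : Sto, S.get k = l →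
    Exe env (mv k k') S ((S.set k []).set k' (l.reverse ++ S.get k')) (2 * l.length + 1) := by
  induction l with
  | nil =>
    intro S hS
    have e : (S.set k []).set k' ([].reverse ++ S.get k') = S := by
      rw [← hS, Sto.set_self]
      simp [hS, Sto.set_self]
    rw [e]
    exact Exe.loop0 hS
  | cons x l ih =>
    intro S hS
    have h1 := ih ((S.set k l).set k' (x :: (S.set k l).get k')) (by
      simp [Sto.get_set, h])
    have e : (((S.set k l).set k' (x :: (S.set k l).get k')).set k []).set k'
        (l.reverse ++ ((S.set k l).set k' (x :: (S.set k l).get k')).get k') =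
        (S.set k []).set k' ((x :: l).reverse ++ S.get k') := by
      cases k <;> cases k' <;> first | exact absurd rfl h | simp [Sto.set, Sto.get]
    rw [e] at h1
    cases x
    · exact (Exe.loopf hS (Exe.push k' false _) h1).mono (by simp; omega)
    · exact (Exe.loopt hS (Exe.push k' true _) h1).mono (by simp; omega)

def parseA : Prg := emb L0 (parse true false)

theorem parseA_exe (x : Tr) (r A E D : List Bool) :
    Exe env parseA ⟨ser x ++ r, A, [], [], E, D⟩ ⟨r, (ser x).reverse ++ A, [], [], E, D⟩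
      (6 * x.size + 2) :=
  emb_exe L0 env ⟨[], [], [], [], E, D⟩ (parse_exec true false x r A [])

def parseEA : Prg := emb Le (parse true false)

theorem parseEA_exe (x : Tr) (r A M D : List Bool) :
    Exe env parseEA ⟨M, A, [], [], ser x ++ r, D⟩ ⟨M, (ser x).reverse ++ A, [], [], r, D⟩
      (6 * x.size + 2) :=
  emb_exe Le env ⟨M, [], [], [], [], D⟩ (parse_exec true false x r A [])

def dropM : Prg := emb L0 (parse false false)

theorem dropM_exe (x : Tr) (r A E D : List Bool) :
    Exe env dropM ⟨ser x ++ r, A, [], [], E, D⟩ ⟨r, A, [], [], E, D⟩ (6 * x.size + 2) :=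
  emb_exe L0 env ⟨[], [], [], [], E, D⟩ (parse_exec false false x r A [])

def dropE : Prg := emb Le (parse false false)

theorem dropE_exe (x : Tr) (r A M D : List Bool) :
    Exe env dropE ⟨M, A, [], [], ser x ++ r, D⟩ ⟨M, A, [], [], r, D⟩ (6 * x.size + 2) :=
  emb_exe Le env ⟨M, [], [], [], [], D⟩ (parse_exec false false x r A [])

theorem mv_am (M A B C E D : List Bool) :
    Exe env (mv Tk.a Tk.m) ⟨M, A, B, C, E, D⟩ ⟨A.reverse ++ M, [], B, C, E, D⟩
      (2 * A.length + 1) := mv_exe (by decide) A _ rfl

theorem mv_ab (M A B C E D : List Bool) :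
    Exe env (mv Tk.a Tk.b) ⟨M, A, B, C, E, D⟩ ⟨M, [], A.reverse ++ B, C, E, D⟩
      (2 * A.length + 1) := mv_exe (by decide) A _ rfl

theorem mv_ae (M A B C E D : List Bool) :
    Exe env (mv Tk.a Tk.e) ⟨M, A, B, C, E, D⟩ ⟨M, [], B, C, A.reverse ++ E, D⟩
      (2 * A.length + 1) := mv_exe (by decide) A _ rfl

theorem mv_ea (M A B C E D : List Bool) :
    Exe env (mv Tk.e Tk.a) ⟨M, A, B, C, E, D⟩ ⟨M, E.reverse ++ A, B, C, [], D⟩
      (2 * E.length + 1) := mv_exe (by decide) E _ rfl

/-! ### the accumulating loop -/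

def encD (l : List Bool) : List Bool := l.flatMap fun x => [true, x]

def mvEnc : Prg := Prg.loop Tk.b (Prg.seq (Prg.push Tk.d false) (Prg.push Tk.d true))
  (Prg.seq (Prg.push Tk.d true) (Prg.push Tk.d true))

theorem mvEnc_exe (B : List Bool) : ∀ M D : List Bool,
    Exe env mvEnc ⟨M, [], B, [], [], D⟩ ⟨M, [], [], [], [], encD B.reverse ++ D⟩
      (3 * B.length + 1) := by
  induction B with
  | nil => intro M D; exact Exe.loop0 rfl
  | cons x B ih =>
    intro M D
    have e : encD (x :: B).reverse ++ D = encD B.reverse ++ (true :: x :: D) := by simp [encD]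
    rw [e]
    cases x
    · exact (Exe.loopf (l := B) rfl (Exe.seq (Exe.push Tk.d false _) (Exe.push Tk.d true _))
        (ih M _)).mono (by simp; omega)
    · exact (Exe.loopt (l := B) rfl (Exe.seq (Exe.push Tk.d true _) (Exe.push Tk.d true _))
        (ih M _)).mono (by simp; omega)

def backD : Prg := Prg.loop Tk.c Prg.skip (Prg.br Tk.d Prg.skip Prg.skip (Prg.br Tk.d Prg.skip
  (Prg.seq (Prg.push Tk.m false) (Prg.push Tk.c true))
  (Prg.seq (Prg.push Tk.m true) (Prg.push Tk.c true))))

theorem backD_exe (l : List Bool) : ∀ M D : List Bool,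
    Exe env backD ⟨M, [], [], [true], [], encD l ++ false :: D⟩
      ⟨l.reverse ++ M, [], [], [], [], D⟩ (5 * l.length + 4) := by
  induction l with
  | nil =>
    intro M D
    exact (Exe.loopt (l := []) rfl (Exe.brf (l := D) rfl (Exe.skip _)) (Exe.loop0 rfl)).mono
      (by simp)
  | cons x l ih =>
    intro M D
    have e : encD (x :: l) ++ false :: D = true :: x :: (encD l ++ false :: D) := by simp [encD]
    have e' : (x :: l).reverse ++ M = l.reverse ++ (x :: M) := by simp
    rw [e, e']
    cases x
    · exact (Exe.loopt (l := []) rfl (Exe.brt (l := false :: (encD l ++ false :: D)) rfl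
        (Exe.brf (l := encD l ++ false :: D) rfl
          (Exe.seq (Exe.push Tk.m false _) (Exe.push Tk.c true _)))) (ih _ D)).mono
        (by simp; omega)
    · exact (Exe.loopt (l := []) rfl (Exe.brt (l := true :: (encD l ++ false :: D)) rfl
        (Exe.brt (l := encD l ++ false :: D) rfl
          (Exe.seq (Exe.push Tk.m true _) (Exe.push Tk.c true _)))) (ih _ D)).mono
        (by simp; omega)

def pop1 (k : Tk) : Prg := Prg.br k Prg.skip Prg.skip Prg.skip

def wbody (P : Prg) : Prg := Prg.loop Tk.c Prg.skip (Prg.seq P (Prg.br Tk.m Prg.skip Prg.skip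
  (Prg.seq parseA (Prg.seq (pop1 Tk.a) (Prg.seq (mv Tk.a Tk.b)
    (Prg.seq mvEnc (Prg.push Tk.c true)))))))

def wloop (P : Prg) : Prg := Prg.seq (Prg.push Tk.d false) (Prg.seq (Prg.push Tk.c true)
  (Prg.seq (wbody P) (Prg.seq (Prg.push Tk.c true) backD)))

inductive WI (env P : Prg) : List Bool → List Bool → List Bool → ℕ → Prop
  | stop {M M' : List Bool} {t : ℕ} :
      (∀ D, Exe env P ⟨M, [], [], [], [], D⟩ ⟨false :: M', [], [], [], [], D⟩ t) →
      WI env P M [] M' (t + 4)
  | go {M M1 M' E E' : List Bool} {x : Tr} {t t' : ℕ} :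
      (∀ D, Exe env P ⟨M, [], [], [], [], D⟩ ⟨true :: (ser x ++ M1), [], [], [], [], D⟩ t) →
      ser x = E ++ [false] → WI env P M1 E' M' t' →
      WI env P M (E ++ E') M' (t + t' + 30 * x.size)

theorem wbody_exe {P : Prg} {M E M' : List Bool} {t : ℕ} (h : WI env P M E M' t) :
    5 * E.length ≤ t ∧ ∀ D, Exe env (wbody P) ⟨M, [], [], [true], [], D⟩
      ⟨M', [], [], [], [], encD E.reverse ++ D⟩ (t - 5 * E.length) := by
  induction h with
  | @stop M M' t h =>
    refine ⟨by simp, fun D => ?_⟩
    have q : Exe env (wbody P) ⟨M', [], [], [], [], D⟩ ⟨M', [], [], [], [], D⟩ 1 := Exe.loop0 rfl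
    exact Exe.mono (t := t + (1 + 1) + 1 + 1) (Exe.loopt (l := []) rfl
      (Exe.seq (h D) (Exe.brf (l := M') rfl (Exe.skip _))) q) (by simp)
  | @go M M1 M' E E' x t t' h hx _ ih =>
    have hs : x.size = E.length + 1 := by simp [Tr.size, hx]
    refine ⟨by simp; omega, fun D => ?_⟩
    have e : encD (E ++ E').reverse ++ D = encD E'.reverse ++ (encD E.reverse ++ D) := by
      simp [encD]
    have e2 : (ser x).reverse ++ [] = false :: E.reverse := by simp [hx]
    have p1 := parseA_exe (env := env) x M1 [] [] D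
    rw [e2] at p1
    have p2 := mv_ab (env := env) M1 E.reverse [] [] [] D
    simp only [List.reverse_reverse, List.append_nil, List.length_reverse] at p2
    rw [e]
    refine (Exe.loopt (l := []) rfl (Exe.seq (h D) (Exe.brt (l := ser x ++ M1) rfl
      (Exe.seq p1 (Exe.seq (Exe.brf (l := E.reverse) rfl (Exe.skip _)) (Exe.seq p2
        (Exe.seq (mvEnc_exe E M1 D) (Exe.push Tk.c true _))))))) (ih.2 _)).mono ?_
    have := ih.1
    simp only [List.length_append]
    omega

theorem wloop_exe {P : Prg} {M E M' : List Bool} {t : ℕ} (h : WI env P M E M' t) (D : List Bool) :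
    Exe env (wloop P) ⟨M, [], [], [], [], D⟩ ⟨E ++ M', [], [], [], [], D⟩ (t + 7) := by
  obtain ⟨h1, h2⟩ := wbody_exe h
  have p := backD_exe (env := env) E.reverse M' D
  simp only [List.reverse_reverse, List.length_reverse] at p
  exact (Exe.seq (Exe.push Tk.d false _) (Exe.seq (Exe.push Tk.c true _)
    (Exe.seq (h2 _) (Exe.seq (Exe.push Tk.c true _) p)))).mono (by omega)

variable {α β γ σ : Type} [Enc α] [Enc β] [Enc γ] [Enc σ]

/-- the bits of the elements of a list -/
def els (l : List α) : List Bool := l.flatMap fun x => true :: ser (enc x)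

theorem ser_append (l m : List α) : ser (enc (l ++ m)) = els l ++ ser (enc m) := by
  induction l with
  | nil => rfl
  | cons a l ih => simp [enc_cons, ser, els] at ih ⊢; exact ih

theorem ser_list (l : List α) : ser (enc l) = els l ++ [false] := by
  simpa [enc_nil, ser] using ser_append l []

theorem els_append (l m : List α) : els (l ++ m) = els l ++ els m := by simp [els]

def scan (step : σ → β → List γ × σ) (fin : σ → List γ) : σ → List β → List γ
  | s, [] => fin s
  | s, x :: l => (step s x).1 ++ scan step fin (step s x).2 l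

def scanB (c f : Prg) : Prg := Prg.seq parseA (Prg.br Tk.m Prg.skip
  (Prg.seq (mv Tk.a Tk.m) (Prg.seq f (Prg.push Tk.m false)))
  (Prg.seq (mv Tk.a Tk.m) (Prg.seq (Prg.push Tk.m true) c)))

def scanP (c f : Prg) : Prg := Prg.br Tk.m Prg.skip Prg.skip (wloop (scanB c f))

theorem rns_scan {c f : Prg} {step : σ → β → List γ × σ} {fin : σ → List γ}
    (Inv : σ → List β → Prop) (Pot : σ → List β → ℕ)
    (h1 : ∀ s x l, Inv s (x :: l) → Inv (step s x).2 l ∧ ∃ t,
      Rns env c (enc (s, x)) (enc (step s x)) t ∧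
        t + sz s + sz x + Pot (step s x).2 l ≤ Pot s (x :: l))
    (h2 : ∀ s, Inv s [] → ∃ t, Rns env f (enc s) (enc (fin s)) t ∧ t + sz s ≤ Pot s [])
    {s : σ} {l : List β} (hI : Inv s l) :
    Rns env (scanP c f) (enc (s, l)) (enc (scan step fin s l)) (50 * Pot s l) := by
  intro r D
  have key : ∀ (l : List β) (s : σ), Inv s l → ∃ E M' t, 
      WI env (scanB c f) (ser (enc s) ++ (ser (enc l) ++ r)) E M' t ∧
        E ++ M' = ser (enc (scan step fin s l)) ++ r ∧ t + 8 ≤ 50 * Pot s l := by
    intro l
    induction l with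
    | nil =>
      intro s hI
      obtain ⟨t, ht, hle⟩ := h2 s hI
      have hp := sz_pos s
      have q := fun D => mv_am (env := env) r ((ser (enc s)).reverse ++ []) [] [] [] D
      simp only [List.append_nil, List.length_reverse, List.reverse_reverse] at q
      refine ⟨[], ser (enc (fin s)) ++ r, _, WI.stop (fun D => Exe.seq
        (parseA_exe (enc s) _ [] [] D) (Exe.brf (l := r) rfl (Exe.seq
          (by rw [List.append_nil]; exact q D)
          (Exe.seq (ht r D) (Exe.push Tk.m false _))))), rfl, ?_⟩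
      unfold sz Tr.size at *
      omega
    | cons x l ih =>
      intro s hI
      obtain ⟨hI', t, ht, hle⟩ := h1 s x l hI
      obtain ⟨E, M', t', hw, hE, hle'⟩ := ih _ hI'
      have hp := sz_pos s
      have hs := ht.size_le
      have e1 : ser (enc (x :: l)) ++ r = true :: (ser (enc x) ++ (ser (enc l) ++ r)) :=
        ser_node _ _ _
      have ht' := fun D => ht (ser (enc l) ++ r) D
      simp only [enc_pair, ser_node] at ht'
      have e2 : ∀ p : List γ × σ, enc p = Tr.node (enc p.1) (enc p.2) := fun _ => rfl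
      rw [e2 (step s x)] at ht' hs
      simp only [ser_node] at ht'
      refine ⟨els (step s x).1 ++ E, M', _, WI.go
        (t := 6 * (enc s).size + 2 + (2 * (ser (enc s)).length + 1 + (1 + t) + 1))
        (fun D => ?_) (ser_list (step s x).1) hw, ?_, ?_⟩
      · rw [e1]
        have q := mv_am (env := env) (ser (enc x) ++ (ser (enc l) ++ r))
          ((ser (enc s)).reverse) [] [] [] D
        simp only [List.length_reverse, List.reverse_reverse] at q
        exact Exe.seq (parseA_exe (enc s) _ [] [] D) (Exe.brt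
          (l := ser (enc x) ++ (ser (enc l) ++ r)) rfl (Exe.seq
            (by rw [List.append_nil]; exact q) (Exe.seq (Exe.push Tk.m true
              ⟨ser (enc s) ++ (ser (enc x) ++ (ser (enc l) ++ r)), [], [], [], [], D⟩) (ht' D))))
      · rw [List.append_assoc, hE, scan, ser_append, List.append_assoc]
      · simp only [enc_pair, Tr.size_node] at hs
        have := Tr.size_pos (enc (step s x).2)
        unfold sz at *
        have e3 : (ser (enc s)).length = (enc s).size := rfl
        omega
  obtain ⟨E, M', t, hw, hE, hle⟩ := key l s hI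
  rw [enc_pair, ser_node, ← hE]
  exact (Exe.brt (l := ser (enc s) ++ (ser (enc l) ++ r)) rfl (wloop_exe hw D)).mono (by omega)

def unfB (g c : Prg) : Prg := Prg.seq g (caseP
  (Prg.seq (emb L0 nilC) (Prg.push Tk.m false)) (Prg.seq (emb L0 sndC) c))

theorem rns_unf {g c : Prg} {step : σ → List γ × σ} {go : σ → Bool} {res : σ → List γ}
    (Inv : σ → Prop) (Pot : σ → ℕ)
    (h1 : ∀ s, Inv s → go s = true → Inv (step s).2 ∧ res s = (step s).1 ++ res (step s).2 ∧
      ∃ t t', Rns env g (enc s) (enc (go s, s)) t ∧ Rns env c (enc s) (enc (step s)) t' ∧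
        t + t' + sz s + Pot (step s).2 ≤ Pot s)
    (h2 : ∀ s, Inv s → go s = false → res s = [] ∧
      ∃ t, Rns env g (enc s) (enc (go s, s)) t ∧ t + sz s ≤ Pot s)
    {s : σ} (hI : Inv s) : Rns env (wloop (unfB g c)) (enc s) (enc (res s)) (100 * Pot s) := by
  intro r D
  have key : ∀ (n : ℕ) (s : σ), Pot s < n → Inv s → ∃ E M' t,
      WI env (unfB g c) (ser (enc s) ++ r) E M' t ∧
        E ++ M' = ser (enc (res s)) ++ r ∧ t + 8 ≤ 100 * Pot s := by
    intro n
    induction n with
    | zero => intro s h; omega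
    | succ n ih =>
      intro s hn hI
      have hp := sz_pos s
      cases hg : go s
      · obtain ⟨e, t, ht, hle⟩ := h2 s hI hg
        rw [hg] at ht
        have e1 : ser (enc (false, s)) ++ r = true :: false :: (ser (enc s) ++ r) := by
          simp [enc_pair, enc_false, ser]
        refine ⟨[], false :: r, _, WI.stop (fun D => Exe.seq (by rw [← e1]; exact ht r D)
          (exe_case_nil (Exe.seq (Rns.ofH (runs_nil (enc s)) r D) (Exe.push Tk.m false _)))),
          by rw [e]; rfl, ?_⟩
        unfold sz at *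
        omega
      · obtain ⟨hI', e, t, t', ht, ht', hle⟩ := h1 s hI hg
        obtain ⟨E, M', t'', hw, hE, hle'⟩ := ih _ (by omega) hI'
        rw [hg] at ht
        have hs := ht'.size_le
        have e2 : ∀ p : List γ × σ, enc p = Tr.node (enc p.1) (enc p.2) := fun _ => rfl
        rw [e2 (step s)] at ht' hs
        have q := fun D => (rns_seq ht (rns_case_node (Q := Prg.seq (emb L0 nilC)
          (Prg.push Tk.m false)) (rns_seq (Rns.ofH (runs_snd (enc true) (enc s))) ht'))) r D
        simp only [ser_node (enc (step s).1)] at q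
        refine ⟨els (step s).1 ++ E, M', _, WI.go q (ser_list (step s).1) hw, ?_, ?_⟩
        · rw [List.append_assoc, hE, e, ser_append, List.append_assoc]
        · simp only [Tr.size_node, enc_true, Tr.size_nil] at hs ⊢
          have := Tr.size_pos (enc (step s).2)
          unfold sz at *
          omega
  obtain ⟨E, M', t, hw, hE, hle⟩ := key _ s (Nat.lt_succ_self _) hI
  rw [← hE]
  exact (wloop_exe hw D).mono (by omega)

/-! ### append, reverse, zip, serialization -/

def appP : Prg := Prg.br Tk.m Prg.skip Prg.skip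
  (Prg.seq parseA (Prg.seq (pop1 Tk.a) (mv Tk.a Tk.m)))

theorem rns_append (l m : List α) :
    Rns env appP (enc (l, m)) (enc (l ++ m)) (10 * sz (l, m)) := by
  intro r D
  have e2 : (ser (enc l)).reverse ++ [] = false :: (els l).reverse := by simp [ser_list]
  have p1 := parseA_exe (env := env) (enc l) (ser (enc m) ++ r) [] [] D
  rw [e2] at p1
  have p2 := mv_am (env := env) (ser (enc m) ++ r) (els l).reverse [] [] [] D
  simp only [List.reverse_reverse, List.length_reverse] at p2
  rw [enc_pair, ser_node, ser_append, List.append_assoc]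
  refine (Exe.brt (l := ser (enc l) ++ (ser (enc m) ++ r)) rfl (Exe.seq p1
    (Exe.seq (Exe.brf (l := (els l).reverse) rfl (Exe.skip _)) p2))).mono ?_
  have h1 : sz l = (els l).length + 1 := by simp [sz, Tr.size, ser_list]
  have h2 := sz_pos m
  rw [sz_pair]
  unfold sz at *
  omega

def revL : Prg := Prg.loop Tk.b Prg.skip (Prg.br Tk.m Prg.skip Prg.skip
  (Prg.seq parseA (Prg.seq (mv Tk.a Tk.e) (Prg.seq (Prg.push Tk.e true) (Prg.push Tk.b true)))))

theorem revL_exe (r D : List Bool) (l : List α) : ∀ acc : List α,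
    Exe env revL ⟨ser (enc l) ++ r, [], [true], [], ser (enc acc), D⟩
      ⟨r, [], [], [], ser (enc (l.reverse ++ acc)), D⟩ (10 * sz l) := by
  induction l with
  | nil =>
    intro acc
    have q : Exe env revL ⟨r, [], [], [], ser (enc acc), D⟩ ⟨r, [], [], [], ser (enc acc), D⟩ 1 :=
      Exe.loop0 rfl
    exact Exe.mono (t := 1 + 1 + 1 + 1) (Exe.loopt (l := []) rfl
      (Exe.brf (l := r) rfl (Exe.skip _)) q) (by simp)
  | cons x l ih =>
    intro acc
    have p1 := parseA_exe (env := env) (enc x) (ser (enc l) ++ r) [] (ser (enc acc)) D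
    have p2 := mv_ae (env := env) (ser (enc l) ++ r) ((ser (enc x)).reverse ++ []) [] []
      (ser (enc acc)) D
    have p3 := ih (x :: acc)
    have e : (x :: l).reverse ++ acc = l.reverse ++ (x :: acc) := by simp
    have e' : ser (enc (x :: acc)) = true :: (((ser (enc x)).reverse ++ []).reverse ++
      ser (enc acc)) := by simp [enc_cons, ser]
    rw [e'] at p3
    rw [e, enc_cons, ser_node]
    refine (Exe.loopt (l := []) rfl (Exe.brt (l := ser (enc x) ++ (ser (enc l) ++ r)) rfl
      (Exe.seq p1 (Exe.seq p2 (Exe.seq (Exe.push Tk.e true _) (Exe.push Tk.b true _)))))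
      p3).mono ?_
    have := sz_pos x
    simp only [List.append_nil, List.length_reverse, sz_cons]
    unfold sz Tr.size at *
    omega

def revP : Prg := Prg.seq (Prg.push Tk.e false) (Prg.seq (Prg.push Tk.b true) (Prg.seq revL
  (Prg.seq (mv Tk.e Tk.a) (mv Tk.a Tk.m))))

theorem sz_append (l m : List α) : sz (l ++ m) + 1 = sz l + sz m := by
  induction l with
  | nil => simp; omega
  | cons a l ih => simp; omega

theorem sz_reverse (l : List α) : sz l.reverse = sz l := by
  induction l with
  | nil => rfl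
  | cons a l ih =>
    have := sz_append l.reverse [a]
    simp at this ⊢
    omega

theorem rns_reverse (l : List α) : Rns env revP (enc l) (enc l.reverse) (20 * sz l) := by
  intro r D
  have p1 := revL_exe (env := env) r D l []
  rw [List.append_nil] at p1
  have p2 := mv_ea (env := env) r [] [] [] (ser (enc l.reverse)) D
  have p3 := mv_am (env := env) r ((ser (enc l.reverse)).reverse ++ []) [] [] [] D
  simp only [List.append_nil, List.reverse_reverse, List.length_reverse] at p2 p3
  refine (Exe.seq (Exe.push Tk.e false _) (Exe.seq (Exe.push Tk.b true _) (Exe.seq p1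
    (Exe.seq p2 p3)))).mono ?_
  have h1 : (ser (enc l.reverse)).length = sz l := sz_reverse l
  have := sz_pos l
  omega

def zipL : Prg := Prg.loop Tk.b Prg.skip (Prg.br Tk.e Prg.skip dropM
  (Prg.br Tk.m Prg.skip (Prg.seq dropE dropE)
    (Prg.seq (Prg.push Tk.a true) (Prg.seq (Prg.push Tk.a true) (Prg.seq parseEA
      (Prg.seq parseA (Prg.push Tk.b true)))))))

theorem zipL_exe (r D : List Bool) (l : List α) : ∀ (m : List β) (A : List Bool),
    Exe env zipL ⟨ser (enc m) ++ r, A, [true], [], ser (enc l), D⟩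
      ⟨r, (els (l.zip m)).reverse ++ A, [], [], [], D⟩ (10 * (sz l + sz m)) := by
  have q : ∀ A, Exe env zipL ⟨r, A, [], [], [], D⟩ ⟨r, A, [], [], [], D⟩ 1 :=
    fun A => Exe.loop0 rfl
  induction l with
  | nil =>
    intro m A
    refine Exe.mono (Exe.loopt (l := []) rfl (Exe.brf (l := []) rfl
      (dropM_exe (enc m) r A [] D)) (q A)) ?_
    simp only [sz_nil]
    unfold sz
    omega
  | cons x l ih =>
    intro m A
    have e : ser (enc (x :: l)) = true :: (ser (enc x) ++ (ser (enc l) ++ [])) := by
      simp [enc_cons, ser]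
    rw [e]
    cases m with
    | nil =>
      refine Exe.mono (Exe.loopt (l := []) rfl (Exe.brt
        (l := ser (enc x) ++ (ser (enc l) ++ [])) rfl (Exe.brf (l := r) rfl
        (Exe.seq (dropE_exe (enc x) _ A r D) (dropE_exe (enc l) [] A r D)))) (q A)) ?_
      simp only [sz_nil, sz_cons]
      unfold sz
      omega
    | cons y m =>
      have p := ih m ((ser (enc y)).reverse ++ ((ser (enc x)).reverse ++ (true :: true :: A)))
      have e2 : (els ((x :: l).zip (y :: m))).reverse ++ A = (els (l.zip m)).reverse ++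
          ((ser (enc y)).reverse ++ ((ser (enc x)).reverse ++ (true :: true :: A))) := by
        simp [els, enc_pair, ser]
      rw [e2, enc_cons, ser_node, List.append_nil]
      refine Exe.mono (Exe.loopt (l := []) rfl (Exe.brt
        (l := ser (enc x) ++ ser (enc l)) rfl (Exe.brt (l := ser (enc y) ++ (ser (enc m) ++ r)) rfl
        (Exe.seq (Exe.push Tk.a true _) (Exe.seq (Exe.push Tk.a true _)
          (Exe.seq (parseEA_exe (enc x) _ _ _ D) (Exe.seq (parseA_exe (enc y) _ _ _ D)
            (Exe.push Tk.b true _))))))) p) ?_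
      simp only [sz_cons]
      unfold sz
      omega

def zipP : Prg := Prg.br Tk.m Prg.skip Prg.skip (Prg.seq parseA (Prg.seq (mv Tk.a Tk.e)
  (Prg.seq (Prg.push Tk.b true) (Prg.seq zipL (Prg.seq (Prg.push Tk.m false) (mv Tk.a Tk.m))))))

theorem sz_zip_le (l : List α) : ∀ m : List β, sz (l.zip m) ≤ sz l + sz m := by
  induction l with
  | nil => intro m; simp
  | cons x l ih =>
    intro m
    cases m with
    | nil => simp
    | cons y m => have := ih m; simp; omega

theorem rns_zip (l : List α) (m : List β) :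
    Rns env zipP (enc (l, m)) (enc (l.zip m)) (30 * sz (l, m)) := by
  intro r D
  have p1 := parseA_exe (env := env) (enc l) (ser (enc m) ++ r) [] [] D
  have p2 := mv_ae (env := env) (ser (enc m) ++ r) ((ser (enc l)).reverse ++ []) [] [] [] D
  have p3 := zipL_exe (env := env) r D l m []
  have p4 := mv_am (env := env) (false :: r) ((els (l.zip m)).reverse ++ []) [] [] [] D
  simp only [List.append_nil, List.reverse_reverse, List.length_reverse] at p1 p2 p3 p4
  have e : ser (enc (l.zip m)) ++ r = els (l.zip m) ++ false :: r := by simp [ser_list]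
  rw [enc_pair, ser_node, e]
  refine (Exe.brt (l := ser (enc l) ++ (ser (enc m) ++ r)) rfl (Exe.seq p1 (Exe.seq p2
    (Exe.seq (Exe.push Tk.b true _) (Exe.seq p3
      (Exe.seq (Exe.push Tk.m false _) p4)))))).mono ?_
  have h1 : sz (l.zip m) = (els (l.zip m)).length + 1 := by simp [sz, Tr.size, ser_list]
  have h2 := sz_zip_le l m
  rw [sz_pair]
  unfold sz Tr.size at *
  omega

def serQ : Prg := Prg.loop Tk.a (Prg.seq (Prg.push Tk.m false) (Prg.push Tk.m true))
  (Prg.seq (Prg.push Tk.m false) (Prg.seq (Prg.push Tk.m false)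
    (Prg.seq (Prg.push Tk.m true) (Prg.push Tk.m true))))

theorem serQ_exe (r D : List Bool) (A : List Bool) : ∀ acc : List Bool,
    Exe env serQ ⟨ser (enc acc) ++ r, A, [], [], [], D⟩
      ⟨ser (enc (A.reverse ++ acc)) ++ r, [], [], [], [], D⟩ (5 * A.length + 1) := by
  induction A with
  | nil => intro acc; exact Exe.loop0 rfl
  | cons x A ih =>
    intro acc
    have e : (x :: A).reverse ++ acc = A.reverse ++ (x :: acc) := by simp
    rw [e]
    cases x
    · exact (Exe.loopf (l := A) rfl (Exe.seq (Exe.push Tk.m false _) (Exe.push Tk.m true _))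
        (ih (false :: acc))).mono (by simp; omega)
    · exact (Exe.loopt (l := A) rfl (Exe.seq (Exe.push Tk.m false _) (Exe.seq
        (Exe.push Tk.m false _) (Exe.seq (Exe.push Tk.m true _) (Exe.push Tk.m true _))))
        (ih (true :: acc))).mono (by simp; omega)

def serP : Prg := Prg.seq parseA (Prg.seq (Prg.push Tk.m false) serQ)

theorem rns_ser (x : Tr) : Rns env serP x (enc (ser x)) (20 * x.size) := by
  intro r D
  have p := serQ_exe (env := env) r D ((ser x).reverse ++ []) []
  simp only [List.append_nil, List.reverse_reverse, List.length_reverse] at p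
  have p1 := parseA_exe (env := env) x r [] [] D
  rw [List.append_nil] at p1
  refine (Exe.seq p1 (Exe.seq (Exe.push Tk.m false _) p)).mono ?_
  have := x.size_pos
  unfold Tr.size at *
  omega

def unsQ : Prg := Prg.loop Tk.c Prg.skip (Prg.br Tk.m Prg.skip Prg.skip (Prg.br Tk.m Prg.skip
  (Prg.seq (Prg.push Tk.a false) (Prg.push Tk.c true))
  (Prg.seq (pop1 Tk.m) (Prg.seq (pop1 Tk.m) (Prg.seq (Prg.push Tk.a true) (Prg.push Tk.c true))))))

theorem unsQ_exe (r D : List Bool) (l : List Bool) : ∀ A : List Bool,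
    Exe env unsQ ⟨ser (enc l) ++ r, A, [], [true], [], D⟩
      ⟨r, l.reverse ++ A, [], [], [], D⟩ (9 * l.length + 4) := by
  induction l with
  | nil =>
    intro A
    have q : Exe env unsQ ⟨r, A, [], [], [], D⟩ ⟨r, A, [], [], [], D⟩ 1 := Exe.loop0 rfl
    exact Exe.mono (t := 1 + 1 + 1 + 1) (Exe.loopt (l := []) rfl
      (Exe.brf (l := r) rfl (Exe.skip _)) q) (by simp)
  | cons x l ih =>
    intro A
    have e : (x :: l).reverse ++ A = l.reverse ++ (x :: A) := by simp
    rw [e]
    cases x
    · exact (Exe.loopt (l := []) rfl (Exe.brt (l := false :: (ser (enc l) ++ r)) rfl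
        (Exe.brf (l := ser (enc l) ++ r) rfl (Exe.seq (Exe.push Tk.a false _)
          (Exe.push Tk.c true _)))) (ih _)).mono (by simp; omega)
    · exact (Exe.loopt (l := []) rfl
        (Exe.brt (l := true :: false :: false :: (ser (enc l) ++ r)) rfl
        (Exe.brt (l := false :: false :: (ser (enc l) ++ r)) rfl
          (Exe.seq (Exe.brf (l := false :: (ser (enc l) ++ r)) rfl (Exe.skip _))
          (Exe.seq (Exe.brf (l := ser (enc l) ++ r) rfl (Exe.skip _))
          (Exe.seq (Exe.push Tk.a true _) (Exe.push Tk.c true _)))))) (ih _)).mono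
        (by simp; omega)

def unsP : Prg := Prg.seq (Prg.push Tk.c true) (Prg.seq unsQ (mv Tk.a Tk.m))

theorem rns_unser (x : Tr) : Rns env unsP (enc (ser x)) x (20 * sz (ser x)) := by
  intro r D
  have p1 := unsQ_exe (env := env) r D (ser x) []
  have p2 := mv_am (env := env) r ((ser x).reverse ++ []) [] [] [] D
  simp only [List.append_nil, List.reverse_reverse, List.length_reverse] at p1 p2
  refine (Exe.seq (Exe.push Tk.c true _) (Exe.seq p1 p2)).mono ?_
  have := length_lt_sz (ser x)
  omega

end Vale.Agent.P338
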