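import Vale.Agent.P338.NetDefs

/-! Operators attached to `ZMod 4` valued functions on `F_2 ^ N`, inside a commutative ring with
commuting involutions `T i`, an inverse `h` of two and a square root `I` of minus one. -/

namespace Vale.Agent.P338

open Matrix

variable {A N : Type} [CommRing A] [Fintype N] [DecidableEq N]

def Tv (T : N → A) (u : N → ZMod 2) : A := ∏ i, T i ^ (u i).val

def Aq (h I : A) (T : N → A) (q : (N → ZMod 2) → ZMod 4) : A :=
  ∑ ξ : N → ZMod 2, I ^ (q ξ).val * ∏ i, (h * (1 + (-1) ^ (ξ i).val * T i))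

variable {h I : A} {T : N → A}

namespace QuadAux

theorem z2 (t : ZMod 2) : t = 0 ∨ t = 1 := by
  revert t; decide

theorem val0 : (0 : ZMod 2).val = 0 := rfl

theorem val1 : (1 : ZMod 2).val = 1 := rfl

/-- The idempotents. -/
def ee (h : A) (T : N → A) (ξ : N → ZMod 2) : A := ∏ i, (h * (1 + (-1) ^ (ξ i).val * T i))

theorem sum_prod (f : N → ZMod 2 → A) :
    ∑ ξ : N → ZMod 2, ∏ i, f i (ξ i) = ∏ i, (f i 0 + f i 1) := by
  rw [← Fintype.piFinset_univ, ← Finset.prod_univ_sum]
  exact Finset.prod_congr rfl fun i _ => Fin.sum_univ_two (f i)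

theorem ee_mul (hh : 2 * h = 1) (hT : ∀ i, T i * T i = 1) (ξ η : N → ZMod 2) :
    ee h T ξ * ee h T η = if ξ = η then ee h T ξ else 0 := by
  rw [ee, ee, ← Finset.prod_mul_distrib]
  split_ifs with e
  · subst e
    refine Finset.prod_congr rfl fun i _ => ?_
    rcases z2 (ξ i) with h0 | h0 <;> rw [h0]
    · simp only [val0, pow_zero, one_mul]
      linear_combination (h * (1 + T i)) * hh + h ^ 2 * hT i
    · simp only [val1, pow_one]
      linear_combination (h * (1 - T i)) * hh + h ^ 2 * hT i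
  · obtain ⟨i, hi⟩ := Function.ne_iff.1 e
    refine Finset.prod_eq_zero (Finset.mem_univ i) ?_
    rcases z2 (ξ i) with h0 | h0 <;> rcases z2 (η i) with h1 | h1
    · exact absurd (h0.trans h1.symm) hi
    · rw [h0, h1]
      simp only [val0, val1, pow_zero, pow_one]
      linear_combination (-h ^ 2) * hT i
    · rw [h0, h1]
      simp only [val0, val1, pow_zero, pow_one]
      linear_combination (-h ^ 2) * hT i
    · exact absurd (h0.trans h1.symm) hi

theorem I_pow_add (hI : I * I = -1) (a b : ZMod 4) : I ^ (a + b).val = I ^ a.val * I ^ b.val := by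
  have h4 : I ^ 4 = 1 := by
    rw [show I ^ 4 = (I * I) * (I * I) by ring, hI]; ring
  rw [ZMod.val_add, ← pow_add]
  conv_rhs => rw [← Nat.mod_add_div (a.val + b.val) 4, pow_add, pow_mul, h4, one_pow, mul_one]

theorem neg_pow_add (a b : ZMod 2) : (-1 : A) ^ (a + b).val = (-1) ^ a.val * (-1) ^ b.val := by
  rcases z2 a with rfl | rfl <;> rcases z2 b with rfl | rfl
  · simp
  · simp
  · simp
  · rw [show (1 + 1 : ZMod 2) = 0 from rfl]
    simp [val1]

theorem neg_pow_sum {ι : Type} (J : Finset ι) (f : ι → ZMod 2) :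
    (-1 : A) ^ (∑ i ∈ J, f i).val = ∏ i ∈ J, (-1) ^ (f i).val := by
  classical
  induction J using Finset.induction_on with
  | empty => simp
  | insert a J ha ih => rw [Finset.sum_insert ha, Finset.prod_insert ha, neg_pow_add, ih]

theorem I_pow_sum (hI : I * I = -1) {ι : Type} (J : Finset ι) (f : ι → ZMod 4) :
    I ^ (∑ i ∈ J, f i).val = ∏ i ∈ J, I ^ (f i).val := by
  classical
  induction J using Finset.induction_on with
  | empty => simp
  | insert a J ha ih => rw [Finset.sum_insert ha, Finset.prod_insert ha, I_pow_add hI, ih]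

omit [DecidableEq N] in
theorem Tv_ee (hT : ∀ i, T i * T i = 1) (u ξ : N → ZMod 2) :
    Tv T u * ee h T ξ = (-1) ^ (u ⬝ᵥ ξ).val * ee h T ξ := by
  rw [Tv, ee, dotProduct, neg_pow_sum, ← Finset.prod_mul_distrib, ← Finset.prod_mul_distrib]
  refine Finset.prod_congr rfl fun i _ => ?_
  rcases z2 (u i) with h0 | h0 <;> rw [h0]
  · simp
  · rcases z2 (ξ i) with h1 | h1 <;> rw [h1] <;> simp only [one_mul, val0, val1, pow_zero, pow_one]
    · linear_combination h * hT i
    · linear_combination (-h) * hT i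

theorem I_lift (hh : 2 * h = 1) (s : ZMod 2) :
    I ^ (lift2 s).val = h * (1 + I) + h * (1 - I) * (-1) ^ s.val := by
  rcases z2 s with rfl | rfl
  · rw [show (lift2 0).val = 0 from rfl]
    simp only [val0, pow_zero]
    linear_combination -hh
  · rw [show (lift2 1).val = 1 from rfl]
    simp only [val1, pow_one]
    linear_combination (-I) * hh

theorem I_two_lift (hI : I * I = -1) (s : ZMod 2) : I ^ (2 * lift2 s).val = (-1) ^ s.val := by
  rcases z2 s with rfl | rfl
  · rw [show (2 * lift2 0).val = 0 from rfl]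
    simp
  · rw [show (2 * lift2 1).val = 2 from rfl, val1, pow_two, hI, pow_one]

end QuadAux

open QuadAux

theorem Aq_zero (hh : 2 * h = 1) : Aq h I T 0 = 1 := by
  simp only [Aq, Pi.zero_apply, ZMod.val_zero, pow_zero, one_mul]
  rw [sum_prod fun i t => h * (1 + (-1) ^ t.val * T i)]
  refine Finset.prod_eq_one fun i _ => ?_
  simp only [val0, val1, pow_zero, pow_one]
  linear_combination hh

theorem Aq_add (hh : 2 * h = 1) (hI : I * I = -1) (hT : ∀ i, T i * T i = 1)
    (q q' : (N → ZMod 2) → ZMod 4) : Aq h I T (q + q') = Aq h I T q * Aq h I T q' := by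
  show ∑ ξ, I ^ (q ξ + q' ξ).val * ee h T ξ
    = (∑ ξ, I ^ (q ξ).val * ee h T ξ) * ∑ ξ, I ^ (q' ξ).val * ee h T ξ
  rw [Finset.sum_mul_sum]
  refine Finset.sum_congr rfl fun ξ _ => ?_
  rw [Finset.sum_eq_single ξ]
  · rw [mul_mul_mul_comm, ee_mul hh hT, if_pos rfl, I_pow_add hI]
  · intro η _ hη
    rw [mul_mul_mul_comm, ee_mul hh hT, if_neg hη.symm, mul_zero]
  · simp

theorem Aq_edge (hh : 2 * h = 1) (hI : I * I = -1) (hT : ∀ i, T i * T i = 1)
    {q q' : (N → ZMod 2) → ZMod 4} {u w : N → ZMod 2}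
    (e : ∀ ξ, q' ξ = q ξ + lift2 (u ⬝ᵥ ξ) + 2 * lift2 (w ⬝ᵥ ξ)) :
    Aq h I T q' = Tv T w * ((h * (1 + I) + h * (1 - I) * Tv T u) * Aq h I T q) := by
  show ∑ ξ, I ^ (q' ξ).val * ee h T ξ
    = Tv T w * ((h * (1 + I) + h * (1 - I) * Tv T u) * ∑ ξ, I ^ (q ξ).val * ee h T ξ)
  rw [Finset.mul_sum, Finset.mul_sum]
  refine Finset.sum_congr rfl fun ξ _ => ?_
  rw [e, I_pow_add hI, I_pow_add hI, I_lift hh, I_two_lift hI]
  have e1 := Tv_ee (h := h) hT u ξ
  have e2 := Tv_ee (h := h) hT w ξ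
  linear_combination (-(I ^ (q ξ).val * h * (1 - I) * Tv T w)) * e1
    - (I ^ (q ξ).val * (h * (1 + I) + h * (1 - I) * (-1) ^ (u ⬝ᵥ ξ).val)) * e2

theorem Aq_q1 (hh : 2 * h = 1) (hI : I * I = -1) (hT : ∀ i, T i * T i = 1) :
    Aq h I T q1 = ∏ i, (h * (1 + I) + h * (1 - I) * T i) := by
  simp only [Aq, q1, I_pow_sum hI, ← Finset.prod_mul_distrib]
  rw [sum_prod fun i t => I ^ (lift2 t).val * (h * (1 + (-1) ^ t.val * T i))]
  refine Finset.prod_congr rfl fun i _ => ?_
  rw [show (lift2 0).val = 0 from rfl, show (lift2 1).val = 1 from rfl]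
  simp only [val0, val1, pow_zero, pow_one]
  ring

end Vale.Agent.P338
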