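import Vale.Agent.P338.Arr
import Vale.Agent.P338.Extract

/-! Recursive procedures on arrays. -/

namespace Vale.Agent.P338

open Vale.Agent.Lib Vale.Agent.Lib.H23 Enc Function

/-- Instances `j : J` have a shape, a small parameter, a unary parameter, a cell width, a measure,
a local budget factor `β`, a total budget factor `Φ` and a specification. -/
structure RecA (J π : Type) where
  sh : J → List ℕ
  pr : J → π
  u : J → ℕ
  w : J → ℕ
  μ : J → ℕ
  β : J → ℕ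
  Φ : J → ℕ
  Spec : J → ((ℕ → ℕ) → List Bool) → ((ℕ → ℕ) → List Bool) → Prop

variable {J π G α : Type} [Enc π] [Enc α]

def RecA.vol (P : RecA J π) (j : J) : ℕ := (P.sh j).prod * (P.w j + 1)

structure RecA.In (P : RecA J π) (D : Dom G α) (j : G → J) (f : G → (ℕ → ℕ) → List Bool) :
    Prop where
  ar : Ar D (fun g => P.sh (j g)) f
  pr : LS D fun g => P.pr (j g)
  u : Lin D fun g => (⟨P.u (j g)⟩ : Un)
  len : ∀ g xs, Valid (P.sh (j g)) xs → (f g xs).length = P.w (j g)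

def RecA.Out (P : RecA J π) (j : J) (f f' : (ℕ → ℕ) → List Bool) : Prop :=
  (∀ xs, Valid (P.sh j) xs → (f' xs).length = P.w j) ∧ P.Spec j f f'

/-- smaller instances can be solved by a recursive call -/
def RecA.Call (P : RecA J π) (D : Dom G α) (j0 : G → J) (κ : G → ℕ) : Prop :=
  ∀ (G1 α1 : Type) [Enc α1] (D1 : Dom G1 α1) (θ : G1 → G) (b : G1 → ℕ) (j : G1 → J)
    (f : G1 → (ℕ → ℕ) → List Bool), Over D D1 θ b → (∀ r, P.μ (j r) < P.μ (j0 (θ r))) →
    (∀ r, (P.sh (j r)).prod ≤ (P.sh (j0 (θ r))).prod) → P.In D1 j f →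
    ∃ f' : G1 → (ℕ → ℕ) → List Bool,
      Cost D1 (fun r => κ (θ r) * (P.Φ (j r) * P.vol (j r))) (fun r => arr (P.sh (j r)) (f' r)) ∧
        ∀ r, P.Out (j r) (f r) (f' r)

/-- the body of the procedure on the instances satisfying `c` -/
def RecA.Body (P : RecA J π) (c : J → Prop) : Prop :=
  ∀ (G α : Type) [Enc α] (D : Dom G α) (j : G → J) (f : G → (ℕ → ℕ) → List Bool) (κ : G → ℕ),
    (∀ g, c (j g)) → P.In D j f → P.Call D j κ → (∀ g, D.B g = P.β (j g) * P.vol (j g)) →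
    ∃ (f' : G → (ℕ → ℕ) → List Bool) (t : G → ℕ),
      Cost D (fun g => κ g * t g) (fun g => arr (P.sh (j g)) (f' g)) ∧
        ∀ g, P.Out (j g) (f g) (f' g) ∧ t g + D.B g ≤ P.Φ (j g) * P.vol (j g)

theorem RecA.Body.mono {P : RecA J π} {c c' : J → Prop} (h : P.Body c) (e : ∀ j, c' j → c j) :
    P.Body c' := by
  intro G α _ D j f κ hc
  exact h G α D j f κ fun g => e _ (hc g)

theorem RecA.In.res {P : RecA J π} {D : Dom G α} {j : G → J} {f : G → (ℕ → ℕ) → List Bool}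
    (h : P.In D j f) {G' : Type} (θ : G' → G) :
    P.In (D.res θ) (fun g => j (θ g)) fun g => f (θ g) :=
  ⟨h.ar.res θ, h.pr.res θ, h.u.res θ, fun g => h.len (θ g)⟩

theorem RecA.Call.res {P : RecA J π} {D : Dom G α} {j : G → J} {κ : G → ℕ}
    (h : P.Call D j κ) {G' : Type} (η : G' → G) :
    P.Call (D.res η) (fun g => j (η g)) fun g => κ (η g) := by
  intro G1 α1 _ D1 θ b j1 f1 ov hμ hp hin
  exact h G1 α1 D1 (fun r => η (θ r)) b j1 f1 (((Over.refl D).res η).trans ov) hμ hp hin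

theorem RecA.Body.cond {P : RecA J π} {c : J → Prop} (tst : π → Bool) (ht : PT tst)
    (h1 : P.Body fun j => c j ∧ tst (P.pr j) = true)
    (h2 : P.Body fun j => c j ∧ tst (P.pr j) = false) : P.Body c := by
  intro G α _ D j f κ hc hin hcall hB
  obtain ⟨f1, t1, c1, o1⟩ := h1 {g // tst (P.pr (j g)) = true} α (D.res Subtype.val)
    (fun g => j g.1) (fun g => f g.1) (fun g => κ g.1) (fun g => ⟨hc g.1, g.2⟩) (hin.res _)
    (hcall.res _) fun g => hB g.1
  obtain ⟨f2, t2, c2, o2⟩ := h2 {g // tst (P.pr (j g)) = false} α (D.res Subtype.val)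
    (fun g => j g.1) (fun g => f g.1) (fun g => κ g.1) (fun g => ⟨hc g.1, g.2⟩) (hin.res _)
    (hcall.res _) fun g => hB g.1
  refine ⟨fun g => if h : tst (P.pr (j g)) = true then f1 ⟨g, h⟩ else f2 ⟨g, by simpa using h⟩,
    fun g => if h : tst (P.pr (j g)) = true then t1 ⟨g, h⟩ else t2 ⟨g, by simpa using h⟩, ?_,
    fun g => ?_⟩
  · refine Cost.cond (b := fun g => tst (P.pr (j g))) (Lin.pt ht hin.pr) ?_ ?_
    · refine (c1.congr fun g => ?_).mono fun g => ?_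
      · simp only [dif_pos g.2]
      · simp only [dif_pos g.2, le_refl]
    · refine (c2.congr fun g => ?_).mono fun g => ?_
      · have : ¬ tst (P.pr (j g.1)) = true := by simpa using g.2
        simp only [dif_neg this]
      · have : ¬ tst (P.pr (j g.1)) = true := by simpa using g.2
        simp only [dif_neg this, le_refl]
  · by_cases h : tst (P.pr (j g)) = true
    · simp only [dif_pos h]
      exact o1 ⟨g, h⟩
    · simp only [dif_neg h]
      exact o2 ⟨g, by simpa using h⟩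

/-- the instances of the recursion -/
structure RecA.Ix (P : RecA J π) (k : ℕ) : Type where
  j : J
  f : (ℕ → ℕ) → List Bool
  S : ℕ
  pos : ∀ d ∈ P.sh j, 0 < d
  len : ∀ xs, Valid (P.sh j) xs → (f xs).length = P.w j
  fat : Lam S ≤ P.w j
  prod : (P.sh j).prod ≤ 2 ^ ((S + 2) ^ k)

def RecA.Ix.inp {P : RecA J π} {k : ℕ} (i : P.Ix k) : (List ℕ × π) × Un × List (List Bool) :=
  ((P.sh i.j, P.pr i.j), (⟨P.u i.j⟩ : Un), arr (P.sh i.j) i.f)

def RecA.In.ix {P : RecA J π} {k : ℕ} {D : Dom G α} {j : G → J} {f : G → (ℕ → ℕ) → List Bool}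
    (h : P.In D j f) (g : G) (hp : (P.sh (j g)).prod ≤ 2 ^ ((D.S g + 2) ^ k)) : P.Ix k where
  j := j g
  f := f g
  S := D.S g
  pos := h.ar.pos g
  len := h.len g
  fat := by
    have hv : Valid (P.sh (j g)) fun _ => 0 := fun n => getD_pos1 (h.ar.pos g) n
    rw [← h.len g _ hv]
    exact h.ar.fat g _ hv
  prod := hp

theorem RecA.In.tuple {P : RecA J π} {D : Dom G α} {j : G → J} {f : G → (ℕ → ℕ) → List Bool}
    (h : P.In D j f) : Lin D fun g =>
      ((P.sh (j g), P.pr (j g)), (⟨P.u (j g)⟩ : Un), arr (P.sh (j g)) (f g)) :=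
  (h.ar.hds.1.pair h.pr.1).pair (h.u.pair h.ar.lin)

omit [Enc π] in
theorem RecA.Ix.le_vol {P : RecA J π} {k : ℕ} (i : P.Ix k) : P.w i.j + 1 ≤ P.vol i.j :=
  Nat.le_mul_of_pos_left _ (List.prod_pos i.pos)

theorem RecA.Ix.small (P : RecA J π) (k : ℕ)
    (hs : ∃ c, ∀ j, (∀ d ∈ P.sh j, 0 < d) →
      sz (P.sh j, P.pr j) ≤ (Nat.size (P.sh j).prod + 2) ^ c) :
    ∃ m, ∀ i : P.Ix k, sz (P.sh i.j, P.pr i.j) ≤ (i.S + 2) ^ m := by
  obtain ⟨c, hc⟩ := hs
  refine ⟨(k + 2) * c, fun i => (hc _ i.pos).trans ?_⟩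
  rw [pow_mul]
  refine Nat.pow_le_pow_left ?_ c
  have h1 : Nat.size (P.sh i.j).prod ≤ (i.S + 2) ^ k + 1 := by
    refine Nat.size_le.2 (i.prod.trans_lt ?_)
    exact Nat.pow_lt_pow_right (by norm_num) (by omega)
  have h2 : 4 ≤ (i.S + 2) ^ 2 :=
    le_trans (by norm_num) (Nat.pow_le_pow_left (show 2 ≤ i.S + 2 by omega) 2)
  have h3 : 0 < (i.S + 2) ^ k := by positivity
  rw [pow_add]
  nlinarith

/-- instances together with a constant and an environment solving all smaller instances -/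
def RecA.Gh (P : RecA J π) (k : ℕ) : Type :=
  {p : P.Ix k × ℕ × Prg // ∀ i : P.Ix k, P.μ i.j < P.μ p.1.j → ∃ f', P.Out i.j i.f f' ∧
    Rns p.2.2 Prg.call (enc i.inp) (enc (arr (P.sh i.j) f')) (p.2.1 * (P.Φ i.j * P.vol i.j))}

def RecA.dom (P : RecA J π) (k : ℕ) (hu : ∀ j, P.u j ≤ P.w j) (hβ : ∀ j, 0 < P.β j)
    (hs : ∃ m, ∀ i : P.Ix k, sz (P.sh i.j, P.pr i.j) ≤ (i.S + 2) ^ m) :
    Dom (P.Gh k) ((List ℕ × π) × Un × List (List Bool)) where
  inp g := g.1.1.inp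
  env g e := e = g.1.2.2
  B g := P.β g.1.1.j * P.vol g.1.1.j
  S g := g.1.1.S
  hB := by
    obtain ⟨m, hm⟩ := hs
    obtain ⟨K, hK⟩ := pow_le_Lam m
    refine ⟨K + 9, fun g => ?_⟩
    obtain ⟨⟨i, -⟩, -⟩ := g
    have h1 := (hm i).trans (hK _)
    have h2 := i.le_vol
    have h3 := i.fat
    have h4 := hu i.j
    have h5 : sz (arr (P.sh i.j) i.f) ≤ (P.sh i.j).prod * (4 * P.w i.j + 2) + 1 :=
      sz_arr_le fun xs hx => (i.len xs hx).le
    have h6 : P.vol i.j ≤ P.β i.j * P.vol i.j := Nat.le_mul_of_pos_left _ (hβ _)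
    have h7 : (P.sh i.j).prod * (4 * P.w i.j + 2) ≤ 4 * P.vol i.j := by
      unfold RecA.vol
      nlinarith [Nat.zero_le (P.sh i.j).prod]
    have h8 : K * Lam i.S ≤ K * (P.β i.j * P.vol i.j) := Nat.mul_le_mul_left _ (by omega)
    show sz i.inp ≤ (K + 9) * (P.β i.j * P.vol i.j)
    unfold RecA.Ix.inp
    rw [sz_pair, sz_pair (⟨P.u i.j⟩ : Un), sz_un, add_mul]
    dsimp only
    omega
  hL := Bd.of_le fun g => by
    have h2 := g.1.1.le_vol
    have h3 := g.1.1.fat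
    have h6 : P.vol g.1.1.j ≤ P.β g.1.1.j * P.vol g.1.1.j := Nat.le_mul_of_pos_left _ (hβ _)
    omega
  inh g := ⟨_, rfl⟩

theorem RecA.solve (P : RecA J π) (k : ℕ) (hu : ∀ j, P.u j ≤ P.w j) (hβ : ∀ j, 0 < P.β j)
    (hs : ∃ c, ∀ j, (∀ d ∈ P.sh j, 0 < d) →
      sz (P.sh j, P.pr j) ≤ (Nat.size (P.sh j).prod + 2) ^ c)
    (body : P.Body fun _ => True) :
    ∃ (c : Prg) (κ : ℕ), ∀ i : P.Ix k, ∃ f', P.Out i.j i.f f' ∧ ∀ env, Rns env (Prg.fix c)
      (enc i.inp) (enc (arr (P.sh i.j) f')) (κ * (P.Φ i.j * P.vol i.j)) := by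
  have hs' := RecA.Ix.small P k hs
  let D := P.dom k hu hβ hs'
  have hi : Lin D fun g => g.1.1.inp := Lin.inp (D := D)
  have hsm : Small D fun g => (P.sh g.1.1.j, P.pr g.1.1.j) := by
    obtain ⟨m, hm⟩ := hs'
    exact ⟨m, fun g => hm g.1.1⟩
  have hin : P.In D (fun g => g.1.1.j) fun g => g.1.1.f :=
    ⟨⟨⟨hi.fst.fst, hsm.of_le fun g => by rw [sz_pair]; omega⟩, fun g => g.1.1.pos,
      fun g xs hx => by rw [g.1.1.len xs hx]; exact g.1.1.fat, hi.snd.snd⟩,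
      ⟨hi.fst.snd, hsm.of_le fun g => by rw [sz_pair]; omega⟩, hi.snd.fst, fun g => g.1.1.len⟩
  have hcall : P.Call D (fun g => g.1.1.j) fun g => g.1.2.1 := by
    intro G1 α1 _ D1 θ b j1 f1 ov hμ hp h1
    let i : G1 → P.Ix k := fun r => h1.ix r ((hp r).trans (by rw [ov.S r]; exact (θ r).1.1.prod))
    choose f' ho hr using fun r => (θ r).2 (i r) (hμ r)
    refine ⟨f', ((h1.tuple.cost fun _ => 0).app Prg.call (fun r env he => ?_)).mono
      fun r => (zero_add _).le, ho⟩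
    obtain rfl : env = (θ r).1.2.2 := ov.env r env he
    exact hr r
  obtain ⟨f', t, ⟨c, K, hc⟩, ho⟩ := body _ _ D (fun g => g.1.1.j) (fun g => g.1.1.f)
    (fun g => g.1.2.1) (fun _ => trivial) hin hcall fun _ => rfl
  have key : ∀ n, ∀ i : P.Ix k, P.μ i.j < n → ∃ f' t, P.Out i.j i.f f' ∧
      Rns c c (enc i.inp) (enc (arr (P.sh i.j) f')) t ∧
      t + 2 ≤ (K + 2) * (P.Φ i.j * P.vol i.j) := by
    intro n
    induction n with
    | zero => intro i hi; omega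
    | succ n ih =>
      intro i hi
      let g : P.Gh k := ⟨(i, K + 2, c), fun i' hi' => by
        obtain ⟨f', t, h1, h2, h3⟩ := ih i' (by dsimp only at hi'; omega)
        exact ⟨f', h1, (rns_call h2).mono h3⟩⟩
      refine ⟨f' g, _, (ho g).1, hc g c rfl, ?_⟩
      have h1 : t g + D.B g ≤ P.Φ i.j * P.vol i.j := (ho g).2
      have h2 := D.pos g
      show (K + 2) * t g + K * D.B g + 2 ≤ _
      nlinarith
  refine ⟨c, K + 2, fun i => ?_⟩
  obtain ⟨f', t, h1, h2, h3⟩ := key _ i (Nat.lt_succ_self _)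
  exact ⟨f', h1, fun env => (rns_fix h2).mono h3⟩

theorem RecA.run (P : RecA J π) (hu : ∀ j, P.u j ≤ P.w j) (hβ : ∀ j, 0 < P.β j)
    (hs : ∃ c, ∀ j, (∀ d ∈ P.sh j, 0 < d) →
      sz (P.sh j, P.pr j) ≤ (Nat.size (P.sh j).prod + 2) ^ c)
    (body : P.Body fun _ => True) {D : Dom G α} {j : G → J} {f : G → (ℕ → ℕ) → List Bool}
    (h : P.In D j f) (hB : Bd (fun g => P.Φ (j g) * P.vol (j g)) D.B) :
    ∃ f' : G → (ℕ → ℕ) → List Bool, Ar D (fun g => P.sh (j g)) f' ∧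
      ∀ g, P.Out (j g) (f g) (f' g) := by
  obtain ⟨k, hk⟩ := h.ar.hds.2
  obtain ⟨c, κ, hc⟩ := P.solve k hu hβ hs body
  let i : G → P.Ix k := fun g => h.ix g
    ((prod_lt_sz _).le.trans (Nat.pow_le_pow_right (by norm_num) (hk g)))
  choose f' ho hr using fun g => hc (i g)
  refine ⟨f', ⟨h.ar.hds, h.ar.pos, fun g xs hx => ?_, ?_⟩, ho⟩
  · rw [(ho g).1 xs hx]
    exact (i g).fat
  · exact h.tuple.app (Prg.fix c) (fun g env _ => hr g env) (hB.cmul κ)

end Vale.Agent.P338
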