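import Vale.Agent.P338.Simd_Toep

namespace Vale.Agent.P338

open Vale.Agent.Lib.H23

namespace Simd

open Finset

variable {q : ℕ}

section algebra

variable [NeZero q]

noncomputable def Gs (α : ZMod q) : ℂ := ∑ l : ZMod q, ZMod.stdAddChar (N := q) (α * l ^ 2)

theorem Kop_smul (α : ZMod q) (c : ℂ) (A : ZMod q → ℂ) :
    Kop α (fun y => c * A y) = fun y => c * Kop α A y := by
  funext y
  simp only [Kop, mul_sum]
  exact sum_congr rfl fun _ _ => by ring

theorem Kop_add (α : ZMod q) (A B : ZMod q → ℂ) :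
    Kop α (fun y => A y + B y) = fun y => Kop α A y + Kop α B y := by
  funext y
  simp only [Kop, mul_add, sum_add_distrib]

theorem Kop_Kop {α : ZMod q} (h : IsUnit (2 * α)) (A : ZMod q → ℂ) :
    Kop α (Kop (-α) A) = fun j => q * A j := by
  funext j
  simp only [Kop, mul_sum]
  rw [sum_comm]
  have key : ∀ k, ∑ l : ZMod q, ZMod.stdAddChar (N := q) (α * (l - j) ^ 2) *
      (ZMod.stdAddChar (N := q) (-α * (k - l) ^ 2) * A k) = if k = j then q * A j else 0 := by
    intro k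
    have e : ∀ l : ZMod q, ZMod.stdAddChar (N := q) (α * (l - j) ^ 2) *
        (ZMod.stdAddChar (N := q) (-α * (k - l) ^ 2) * A k) =
        ZMod.stdAddChar (N := q) (α * (j ^ 2 - k ^ 2)) * A k *
          ZMod.stdAddChar (N := q) (l * (2 * α * (k - j))) := by
      intro l
      rw [← mul_assoc, ← AddChar.map_add_eq_mul, mul_right_comm, ← AddChar.map_add_eq_mul]
      congr 2; ring
    simp only [e]
    rw [← mul_sum, AddChar.sum_mulShift _ (ZMod.isPrimitive_stdAddChar q)]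
    simp only [h.mul_right_eq_zero, sub_eq_zero]
    split_ifs with hk
    · subst hk; simp [mul_comm]
    · simp
  simp only [key]
  simp

theorem Kop_one (α : ZMod q) : Kop α (fun _ => 1) = fun _ => Gs α := by
  funext j
  simp only [Kop, mul_one, Gs]
  exact Fintype.sum_equiv (Equiv.subRight j) _ _ fun _ => rfl

theorem Gs_mul {α : ZMod q} (h : IsUnit (2 * α)) : Gs α * Gs (-α) = q := by
  have h1 := congrFun (Kop_Kop h fun _ => 1) 0
  have h2 := Kop_smul α (Gs (-α)) fun _ => 1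
  simp only [mul_one] at h1 h2
  rw [Kop_one, h2, Kop_one] at h1
  rw [mul_comm]; exact h1

theorem norm_Gs_le (α : ZMod q) : ‖Gs α‖ ≤ q := by
  refine (norm_sum_le _ _).trans ?_
  simp

theorem one_le_norm_Gs {α : ZMod q} (h : IsUnit (2 * α)) : 1 ≤ ‖Gs (-α)‖ := by
  have h1 := congrArg norm (Gs_mul h)
  rw [norm_mul, Complex.norm_natCast] at h1
  have h2 := norm_Gs_le α
  have h3 : (0 : ℝ) < q := by exact_mod_cast NeZero.pos q
  by_contra h4
  nlinarith [norm_nonneg (Gs α), norm_nonneg (Gs (-α))]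

theorem Kop_D_Kop (α β : ZMod q) (c : ZMod q → ZMod q → ZMod q) (A : ZMod q → ℂ) (j : ZMod q)
    (F : ZMod q → ZMod q)
    (h : ∀ k l, β * (l - j) ^ 2 + (α * l ^ 2 + -β * (k - l) ^ 2) = α * (l + c j k) ^ 2 + F k) :
    Kop β (fun y => ZMod.stdAddChar (N := q) (α * y ^ 2) * Kop (-β) A y) j =
      Gs α * ∑ k, ZMod.stdAddChar (N := q) (F k) * A k := by
  simp only [Kop, mul_sum]
  rw [sum_comm]
  refine sum_congr rfl fun k _ => ?_
  rw [Gs, sum_mul]
  refine Fintype.sum_equiv (Equiv.addRight (c j k)) _ _ fun l => ?_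
  simp only [← mul_assoc, ← AddChar.map_add_eq_mul, Equiv.coe_addRight, h]

end algebra

def cst (Q : Un) (e : Ex) : List Ex := (List.range Q.n).map fun _ => e

def dq (Q : Un) (a : ℕ) : List Ex := (List.range Q.n).map fun y => rE Q.n (a * (y * y))

def gE (Q : Un) (a den : ℕ) : Ex :=
  (false, den, (List.range Q.n).map fun l => (-1, 0, Q.n, a * (l * l)))

def round (Q N T : Un) (a : ℕ) : List Ins :=
  tp Q N T false ((Q.n - 1) * a) 4 ++ [dgI false (cst Q (cE (-(Q.n : ℤ)) 0 1))] ++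
    tp Q N T true a 4 ++ [dgI false (cst Q (cE (-1) 0 Q.n))] ++ tp Q N T false ((Q.n - 1) * a) 4

def core (Q N T : Un) (a den : ℕ) : List Ins :=
  [dgI false (dq Q (2 * a))] ++ round Q N T a ++ [dgI false (dq Q a), dgI true (dq Q a)] ++
    round Q N T a ++ [dgI false (cst Q (gE Q ((Q.n - 1) * a) den)),
      dgI true (cst Q (gE Q ((Q.n - 1) * a) den)), dgI true (dq Q (2 * a))]

theorem length_core (Q N T : Un) (a den : ℕ) :
    (core Q N T a den).length = T.n * 55296 + 3274 := by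
  simp only [core, round, List.length_append, length_tp, List.length_cons, List.length_nil]
  ring

theorem cast_neg [NeZero q] (a : ℕ) : (((q - 1) * a : ℕ) : ZMod q) = -a := by
  rw [Nat.cast_mul, Nat.cast_pred (NeZero.pos q)]; simp

theorem tabV_cst [NeZero q] (e : Ex) (y : ZMod q) : tabV (cst ⟨q⟩ e) y.val = exVal e := by
  rw [tabV, cst, getD_range_map, if_pos y.val_lt]

theorem tabV_dq [NeZero q] (a : ℕ) (y : ZMod q) :
    tabV (dq ⟨q⟩ a) y.val = ZMod.stdAddChar (N := q) (a * y ^ 2) := by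
  rw [tabV, dq, getD_range_map, if_pos y.val_lt, val_rE, chi_eq]
  simp [sq]

theorem gE_sum [NeZero q] (a den : ℕ) :
    ((gE ⟨q⟩ a den).2.2.map termVal).sum = -Gs (a : ZMod q) := by
  simp only [gE, List.map_map, sum_map_range]
  rw [Gs, ← sum_range_zmod, ← sum_neg_distrib]
  refine sum_congr rfl fun l _ => ?_
  simp [termVal, chi_eq, sq]

theorem val_gE [NeZero q] (a den : ℕ) : exVal (gE ⟨q⟩ a den) = -Gs (a : ZMod q) / den := by
  rw [← gE_sum a den]; rfl

theorem run_dgF (tab : List Ex) (A B : ZMod q → ℂ) : irun q (dgI true tab) (mk false A B) =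
    mk false A (fun y => tabV tab y.val * B y) := run_dgI' false tab A B

theorem run_round [NeZero q] {T : ℕ} (hT : T ≠ 0) (hq : 2 ^ T ≤ q) (hq' : q ≤ 2 * 2 ^ T)
    {a : ℕ} (ha : IsUnit (2 * (a : ZMod q))) (A B : ZMod q → ℂ) :
    runI q (round ⟨q⟩ ⟨2 ^ T⟩ ⟨T⟩ a) (mk false A B) =
      mk false (fun y => -1 / q * Kop a B y) (Kop (-a) A) := by
  have h0 : (q : ℂ) ≠ 0 := by exact_mod_cast NeZero.ne q
  have ha' : IsUnit (2 * (-(a : ZMod q))) := by rw [mul_neg]; exact ha.neg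
  have e : ∀ A B : ZMod q → ℂ, runI q (tp ⟨q⟩ ⟨2 ^ T⟩ ⟨T⟩ true a 4) (mk false A B) =
      mk false (fun z => A z + Kop a B z) B := by
    intro A B
    rw [← mk_not, ← mk_not false B]
    exact run_tp _ hT hq hq' _ _ _
  have e2 := Kop_Kop ha' B
  rw [neg_neg] at e2
  simp only [round, runI_append, runI_cons, runI_nil, run_tp _ hT hq hq', e, run_dgI, tabV_cst,
    val_cE, cast_neg, Kop_add, Kop_smul, Kop_Kop ha, e2]
  congr 1 <;> funext y <;> push_cast <;> field_simp <;> ring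

theorem run_core [NeZero q] {T : ℕ} (hT : T ≠ 0) (hq : 2 ^ T ≤ q) (hq' : q ≤ 2 * 2 ^ T)
    {a : ℕ} (ha : IsUnit (2 * (a : ZMod q))) (den : ℕ) (A B : ZMod q → ℂ) :
    runI q (core ⟨q⟩ ⟨2 ^ T⟩ ⟨T⟩ a den) (mk false A B) =
      mk false
        (fun j => (den : ℂ)⁻¹ * ∑ k, ZMod.stdAddChar (N := q) (2 * (a : ZMod q) * (j * k)) * A k)
        (fun j => (den : ℂ)⁻¹ * ∑ k, ZMod.stdAddChar (N := q) (2 * (a : ZMod q) * (j * k)) * B k) := by
  have h0 : (q : ℂ) ≠ 0 := by exact_mod_cast NeZero.ne q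
  have hG := Gs_mul ha
  simp only [core, runI_append, runI_cons, runI_nil, run_round hT hq hq' ha, run_dgI, run_dgF,
    tabV_cst, tabV_dq, val_gE, cast_neg, mul_left_comm _ (-1 / (q : ℂ)), Kop_smul]
  rw [div_eq_mul_inv _ (den : ℂ)]
  generalize (den : ℂ)⁻¹ = δ
  congr 1 <;> funext j
  · rw [Kop_D_Kop (a : ZMod q) a (fun j k => k - j) _ j (fun k => 2 * (a : ZMod q) * (j * k) - 2 * (a : ZMod q) * k ^ 2)
      fun k l => by ring]
    simp only [← mul_assoc, ← AddChar.map_add_eq_mul, Nat.cast_mul, Nat.cast_ofNat, sub_add_cancel]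
    congr 1
    field_simp
    linear_combination δ * hG
  · have := Kop_D_Kop (a : ZMod q) (-a) (fun j k => j - k) B j
      (fun k => 2 * (a : ZMod q) * (j * k) - 2 * (a : ZMod q) * j ^ 2) fun k l => by ring
    rw [neg_neg] at this
    rw [this]
    have e : ∑ k, ZMod.stdAddChar (N := q) (2 * (a : ZMod q) * (j * k)) * B k =
        ZMod.stdAddChar (N := q) (2 * (a : ZMod q) * j ^ 2) * ∑ k, ZMod.stdAddChar (N := q)
          (2 * (a : ZMod q) * (j * k) - 2 * (a : ZMod q) * j ^ 2) * B k := by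
      simp only [mul_sum, ← mul_assoc, ← AddChar.map_add_eq_mul, add_sub_cancel]
    rw [e]
    push_cast
    generalize ZMod.stdAddChar (N := q) (2 * (a : ZMod q) * j ^ 2) = w
    generalize ∑ k, ZMod.stdAddChar (N := q)
      (2 * (a : ZMod q) * (j * k) - 2 * (a : ZMod q) * j ^ 2) * B k = S
    field_simp
    linear_combination δ * w * S * hG

theorem POK.core [NeZero q] {T : ℕ} (hq : 2 ^ T ≤ q) (h2 : 2 ≤ q) {a den : ℕ}
    (ha : IsUnit (2 * (a : ZMod q))) (hd : 0 < den) (hd' : den ≤ q) :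
    POK (q ^ 2) (core ⟨q⟩ ⟨2 ^ T⟩ ⟨T⟩ a den) := by
  have h1 : q ≤ q ^ 2 := by nlinarith
  have h3 : q ≤ 2 ^ q ^ 2 := h1.trans Nat.lt_two_pow_self.le
  have htp : ∀ r a, POK (q ^ 2) (Simd.tp ⟨q⟩ ⟨2 ^ T⟩ ⟨T⟩ r a 4) := fun r a =>
    POK.tp (by positivity) h2 (by nlinarith) (hq.trans h1) _ _ _
  have hc : ∀ e, ExOK (q ^ 2) e → ∀ e' ∈ cst ⟨q⟩ e, ExOK (q ^ 2) e' := by
    intro e he e' he'
    obtain ⟨_, -, rfl⟩ := List.mem_map.1 he'
    exact he
  have hdq : ∀ a, ∀ e ∈ dq ⟨q⟩ a, ExOK (q ^ 2) e := by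
    intro a e he
    obtain ⟨_, -, rfl⟩ := List.mem_map.1 he
    exact rE_ok (NeZero.pos q) h1 _
  have hr : POK (q ^ 2) (round ⟨q⟩ ⟨2 ^ T⟩ ⟨T⟩ a) :=
    ((((htp _ _).append (POK.dg (hc _ (cE_ok (by omega) (by simp; omega) (by simpa using h3)
      one_pos (by omega))) (POK.nil _))).append (htp _ _)).append (POK.dg (hc _ (cE_ok (by omega)
        (by simp) (by simp; omega) (NeZero.pos q) h3)) (POK.nil _))).append (htp _ _)
  have hg : ExOK (q ^ 2) (gE ⟨q⟩ ((q - 1) * a) den) := by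
    have e := gE_sum (q := q) ((q - 1) * a) den
    rw [cast_neg] at e
    simp only [gE] at e
    refine exOK_of hd (hd'.trans h3) (by simpa using h1) ?_ ?_ ?_
    · intro t ht
      obtain ⟨l, -, rfl⟩ := List.mem_map.1 ht
      exact ⟨Nat.one_le_two_pow, Nat.zero_le _, by simp only; omega, h1⟩
    · rw [e, norm_neg]; exact one_le_norm_Gs ha
    · rw [e, norm_neg]; exact (norm_Gs_le _).trans (by exact_mod_cast h3)
  exact ((((POK.dg (hdq _) (POK.nil _)).append hr).append (POK.dg (hdq _) (POK.dg (hdq _)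
    (POK.nil _)))).append hr).append (POK.dg (hc _ hg) (POK.dg (hc _ hg) (POK.dg (hdq _)
      (POK.nil _))))

def body (Q : Un) (fl : Bool) : List Ins :=
  core Q (unMin (2 ^ (unSize (Q.n / 2)).n) Q) (unSize (Q.n / 2))
    ((bif fl then Q.n - 1 else 1) * ((Q.n + 1) / 2)) (bif fl then Q.n else 1)

def padded (Q t : Un) (fl : Bool) : List Ins :=
  (body Q fl ++ List.replicate (unMul ⟨55296⟩ (unAdd t ⟨1⟩)).n (shI false 0)).take
    (unMul ⟨55296⟩ (unAdd t ⟨1⟩)).n

theorem runI_replicate (k : ℕ) (x : Bool × ZMod q → ℂ) :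
    runI q (List.replicate k (shI false 0)) x = x := by
  induction k with
  | zero => rfl
  | succ k ih =>
    obtain ⟨A, B, rfl⟩ : ∃ A B, x = mk false A B := ⟨_, _, (mk_self false x).symm⟩
    rw [List.replicate_succ, runI_cons, run_shI]
    simpa using ih

section pt

variable {α : Type} [Enc α]

@[fun_prop] theorem PT_cst {Q : α → Un} {e : α → Ex} (hQ : PT Q) (he : PT e) :
    PT (fun x => cst (Q x) (e x)) := by unfold cst; fun_prop

@[fun_prop] theorem PT_dq {Q : α → Un} {a : α → ℕ} (hQ : PT Q) (ha : PT a) :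
    PT (fun x => dq (Q x) (a x)) := by unfold dq; fun_prop

@[fun_prop] theorem PT_gE {Q : α → Un} {a d : α → ℕ} (hQ : PT Q) (ha : PT a) (hd : PT d) :
    PT (fun x => gE (Q x) (a x) (d x)) := by unfold gE; fun_prop

@[fun_prop] theorem PT_round {Q N T : α → Un} {a : α → ℕ} (hQ : PT Q) (hN : PT N) (hT : PT T)
    (ha : PT a) : PT (fun x => round (Q x) (N x) (T x) (a x)) := by unfold round; fun_prop

@[fun_prop] theorem PT_core {Q N T : α → Un} {a d : α → ℕ} (hQ : PT Q) (hN : PT N) (hT : PT T)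
    (ha : PT a) (hd : PT d) : PT (fun x => core (Q x) (N x) (T x) (a x) (d x)) := by
  unfold core; fun_prop

@[fun_prop] theorem PT_body {Q : α → Un} {fl : α → Bool} (hQ : PT Q) (hf : PT fl) :
    PT (fun x => body (Q x) (fl x)) := by unfold body; fun_prop

@[fun_prop] theorem PT_padded {Q t : α → Un} {fl : α → Bool} (hQ : PT Q) (ht : PT t)
    (hf : PT fl) : PT (fun x => padded (Q x) (t x) (fl x)) := by unfold padded; fun_prop

end pt

end Simd

open Simd in
theorem prog_exists : ∃ (prog : Un × Un × Bool → List Step) (c : ℕ), PT prog ∧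
    ∀ (q t : ℕ) (fl : Bool) [NeZero q], Odd q → 3 ≤ q → q ≤ 2 ^ t →
      (prog (⟨q⟩, ⟨t⟩, fl)).length = c * (t + 1) ∧
      (∀ s ∈ prog (⟨q⟩, ⟨t⟩, fl), ∀ b y, (stTab s b y).length ≤ c ∧
        ∀ e ∈ stTab s b y, ExOK (c * q ^ 2) e) ∧
      ∀ (x : Bool × ZMod q → ℂ) (b : Bool) (j : ZMod q),
        runP q (prog (⟨q⟩, ⟨t⟩, fl)) x (b, j) = ∑ k : ZMod q, ker q fl j.val k.val * x (b, k) := by
  refine ⟨fun p => (padded p.1 p.2.1 p.2.2).flatMap (Simd.cmp p.1), 276480, by fun_prop, ?_⟩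
  intro q t fl _ hodd h3 ht
  have h4 : 4 ≤ q ^ 2 := by nlinarith
  obtain ⟨T, hT⟩ : ∃ T, T = (q / 2).size := ⟨_, rfl⟩
  have hT0 : T ≠ 0 := by rw [hT, Ne, Nat.size_eq_zero]; omega
  have hq' : q ≤ 2 * 2 ^ T := by have := Nat.lt_size_self (q / 2); rw [← hT] at this; omega
  have hq : 2 ^ T ≤ q := by
    obtain ⟨S, rfl⟩ := Nat.exists_eq_succ_of_ne_zero hT0
    have : 2 ^ S ≤ q / 2 := Nat.lt_size.1 (by omega)
    rw [pow_succ]; omega
  have hTt : T ≤ t := (Nat.pow_le_pow_iff_right one_lt_two).1 (hq.trans ht)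
  obtain ⟨a, ha⟩ : ∃ a, a = (bif fl then q - 1 else 1) * ((q + 1) / 2) := ⟨_, rfl⟩
  have ha2 : 2 * (a : ZMod q) = bif fl then -1 else 1 := by
    have h1 : 2 * (((q + 1) / 2 : ℕ) : ZMod q) = 1 := by
      obtain ⟨m, hm⟩ := hodd
      have h2 : ((2 * ((q + 1) / 2) : ℕ) : ZMod q) = (q + 1 : ℕ) := by congr 1; omega
      simpa using h2
    cases fl
    · simpa [ha] using h1
    · rw [ha, cond_true, cast_neg, mul_neg, h1, cond_true]
  have hu : IsUnit (2 * (a : ZMod q)) := by rw [ha2]; cases fl <;> simp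
  have hb : body ⟨q⟩ fl = core ⟨q⟩ ⟨2 ^ T⟩ ⟨T⟩ a (bif fl then q else 1) := by
    simp only [body, unSize, unMin, ← hT, ← ha, min_eq_left hq]
  have hlen : (body ⟨q⟩ fl).length ≤ 55296 * (t + 1) := by rw [hb, length_core]; simp only; omega
  have hp : padded ⟨q⟩ ⟨t⟩ fl = body ⟨q⟩ fl ++
      List.replicate (55296 * (t + 1) - (body ⟨q⟩ fl).length) (shI false 0) := by
    simp only [padded, unMul, unAdd]
    rw [List.take_append, List.take_of_length_le hlen, List.take_replicate, min_eq_left (by omega)]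
  refine ⟨?_, ?_, ?_⟩
  · simp only
    rw [length_flatMap_const (k := 5) fun _ _ => rfl, hp, List.length_append, List.length_replicate]
    omega
  · intro s hs b y
    obtain ⟨i, hi, hs⟩ := List.mem_flatMap.1 hs
    have hok : POK (q ^ 2) (padded ⟨q⟩ ⟨t⟩ fl) := by
      rw [hp]
      refine POK.append ?_ fun i hi => ?_
      · rw [hb]
        exact POK.core hq (by omega) hu (by cases fl <;> simp; omega) (by cases fl <;> simp; omega)
      · rw [List.eq_of_mem_replicate hi]; simp [shI]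
    obtain ⟨h1, h2⟩ := cmp_ok h4 (hok i hi) s hs b y
    exact ⟨by omega, fun e he => (h2 e he).mono (by omega)⟩
  · intro x b j
    simp only
    rw [run_flatMap_cmp, hp, runI_append, runI_replicate, hb, ← mk_self false x,
      run_core hT0 hq hq' hu, ha2, mk_self]
    cases fl <;> cases b <;> simp [mk, ker, chi_eq, Finset.mul_sum, mul_assoc]

end Vale.Agent.P338
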