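import Vale.Agent.P338.Simd_Ins

/-! A power of two Fourier transform inside one register, and cyclic correlation. -/

namespace Vale.Agent.P338

open Vale.Agent.Lib.H23 Complex Finset

namespace Simd

variable {q : ℕ}

/-- the program acts on register `r` only, by `f` -/
def Loc (q : ℕ) (r : Bool) (P : List Ins) (f : (ZMod q → ℂ) → ZMod q → ℂ) : Prop :=
  ∀ A B, runI q P (mk r A B) = mk r (f A) B

theorem Loc.append {r : Bool} {P Q : List Ins} {f g : (ZMod q → ℂ) → ZMod q → ℂ}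
    (h : Loc q r P f) (h' : Loc q r Q g) : Loc q r (P ++ Q) (fun A => g (f A)) := by
  intro A B
  rw [runI_append, h, h']

theorem Loc.sh (r : Bool) (s : ℕ) : Loc q r [shI r s] (fun A y => A (y + (s : ZMod q))) :=
  fun A B => run_shI r s A B

theorem Loc.dg (r : Bool) (tab : List Ex) :
    Loc q r [dgI r tab] (fun A y => tabV tab y.val * A y) := fun A B => run_dgI r tab A B

theorem Loc.inv [NeZero q] {u : ℕ} {r : Bool} {P : List Ins} {f : (ZMod q → ℂ) → ZMod q → ℂ}
    (h : Loc q r P f) (hP : POK u P) : ∃ g, Loc q r (inv q P) g ∧ ∀ A, f (g A) = A := by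
  have key : ∀ A, f (fun y => runI q (Simd.inv q P) (mk r A 0) (r, y)) = A := by
    intro A
    have h1 := run_inv_right (q := q) hP (mk r A 0)
    rw [← mk_self r (runI q (Simd.inv q P) (mk r A 0)), h] at h1
    exact (mk_inj h1).1
  refine ⟨fun A y => runI q (Simd.inv q P) (mk r A 0) (r, y), fun A B => ?_, key⟩
  have h1 := run_inv_left (q := q) hP (mk r (fun y => runI q (Simd.inv q P) (mk r A 0) (r, y)) B)
  rwa [h, key] at h1

/-- compute, add to the other register, uncompute -/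
def conj (q : ℕ) (r neg : Bool) (mask : List Bool) (H : List Ins) : List Ins :=
  H ++ srI (!r) neg mask :: inv q H

theorem run_conj [NeZero q] {u : ℕ} {r : Bool} {H : List Ins} {f : (ZMod q → ℂ) → ZMod q → ℂ}
    (h : Loc q r H f) (hP : POK u H) (neg : Bool) (mask : List Bool) (A B : ZMod q → ℂ) :
    runI q (conj q r neg mask H) (mk r A B) =
      mk r A (fun y => B y + cf neg mask y.val * f A y) := by
  rw [conj, runI_append, h, runI_cons, run_srI', ← h, run_inv_left hP]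

theorem POK.conj {u : ℕ} {r neg : Bool} {mask : List Bool} {H : List Ins} (h : POK u H) :
    POK u (conj q r neg mask H) := h.append (POK.sr h.inv)

theorem length_conj (r neg : Bool) (mask : List Bool) (H : List Ins) :
    (conj q r neg mask H).length = H.length * 4 + 1 := by
  rw [conj, List.length_append, List.length_cons, length_inv]; ring

/-- a shear inside one register -/
def inI (q : ℕ) (r : Bool) (s : ℕ) (mask : List Bool) : List Ins :=
  [shI r s, srI (!r) false mask, shI r (q - s % q), srI r false mask,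
    shI r s, srI (!r) true mask, shI r (q - s % q), srI r true mask]

theorem Loc.inI [NeZero q] (r : Bool) (s : ℕ) (mask : List Bool)
    (h : ∀ y : ZMod q, mask.getD y.val false = true →
      mask.getD (y + (s : ZMod q)).val false = false) :
    Loc q r (inI q r s mask) (fun A y => A y + cf false mask y.val * A (y + (s : ZMod q))) := by
  intro A B
  simp only [Simd.inI, runI_cons, runI_nil, run_shI, run_srI, run_srI', cast_back,
    neg_add_cancel_right]
  congr 1 <;> funext y <;> have := h y <;> unfold cf <;>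
    cases h1 : mask.getD y.val false <;> simp_all
  ring

theorem POK.inI {u : ℕ} (r : Bool) (s : ℕ) (mask : List Bool) : POK u (inI q r s mask) :=
  POK.sh (POK.sr (POK.sh (POK.sr (POK.sh (POK.sr (POK.sh (POK.sr (POK.nil u))))))))

/-! ### The butterfly stages -/

def parM (N : Un) (m b : ℕ) : List Bool := (List.range N.n).map fun y => eqb (y / m % 2) b

def stage (q : ℕ) (N : Un) (r : Bool) (s : Un) : List Ins :=
  [dgI r ((List.range N.n).map fun y =>
      bif eqb (y / 2 ^ s.n % 2) 1 then rE (2 * 2 ^ s.n) (y + 2 ^ s.n) else cE 1 0 1)] ++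
    inI q r (2 ^ s.n) (parM N (2 ^ s.n) 0) ++
    [dgI r ((List.range N.n).map fun y =>
      bif eqb (y / 2 ^ s.n % 2) 1 then cE (-2) 0 1 else cE 1 0 1)] ++
    inI q r (q - 2 ^ s.n % q) (parM N (2 ^ s.n) 1)

theorem par_lo {m c y : ℕ} (hm : 0 < m) (hy : y < 2 * m * c) (h : y / m % 2 = 0) :
    y + m < 2 * m * c ∧ (y + m) / m = y / m + 1 := by
  refine ⟨?_, Nat.add_div_right y hm⟩
  have h1 : y / m < 2 * c := by
    rw [Nat.div_lt_iff_lt_mul hm]; nlinarith
  have h2 : y / m + 2 ≤ 2 * c := by omega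
  have h3 := Nat.lt_mul_div_succ y hm
  nlinarith

theorem par_hi {m y : ℕ} (hm : 0 < m) (h : y / m % 2 = 1) :
    m ≤ y ∧ (y - m) / m + 1 = y / m := by
  have h1 : m ≤ y := by
    by_contra h1
    rw [Nat.div_eq_of_lt (not_le.1 h1)] at h
    omega
  refine ⟨h1, ?_⟩
  rw [← Nat.add_div_right _ hm, Nat.sub_add_cancel h1]

theorem loc_stage [NeZero q] {n c : ℕ} (r : Bool) (s : ℕ) (hn : n = 2 * 2 ^ s * c) (hq : n ≤ q) :
    ∃ f, Loc q r (stage q ⟨n⟩ r ⟨s⟩) f ∧ ∀ A (y : ℕ), y < n → f A (y : ZMod q) =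
      if y / 2 ^ s % 2 = 0 then A y + chi (2 * 2 ^ s) y * A (y + 2 ^ s : ℕ)
      else A (y - 2 ^ s : ℕ) + chi (2 * 2 ^ s) y * A y := by
  have hm : 0 < 2 ^ s := by positivity
  simp only [stage]
  generalize 2 ^ s = m at *
  have hv : ∀ y, y < n → (y : ZMod q).val = y := fun y hy => ZMod.val_cast_of_lt (by omega)
  have hlo : ∀ y, y < n → y / m % 2 = 0 →
      y + m < n ∧ (y + m) / m % 2 = 1 ∧ (y : ZMod q) + m = (y + m : ℕ) := by
    intro y hy h
    obtain ⟨h1, h2⟩ := par_lo hm (hn ▸ hy) h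
    exact ⟨hn ▸ h1, by omega, by simp⟩
  have hhi : ∀ y, y < n → y / m % 2 = 1 → m ≤ y ∧ (y - m) / m % 2 = 0 ∧
      (y : ZMod q) + -(m : ZMod q) = (y - m : ℕ) := by
    intro y hy h
    obtain ⟨h1, h2⟩ := par_hi hm h
    exact ⟨h1, by omega, by rw [Nat.cast_sub h1, sub_eq_add_neg]⟩
  refine ⟨_, (((Loc.dg r _).append (Loc.inI r _ _ ?_)).append (Loc.dg r _)).append
    (Loc.inI r _ _ ?_), ?_⟩
  · intro y hy
    simp only [parM, getD_range_map, eqb_eq] at hy ⊢
    by_cases h1 : y.val < n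
    · rw [if_pos h1, decide_eq_true_eq] at hy
      obtain ⟨h2, h3, h4⟩ := hlo _ h1 hy
      rw [ZMod.natCast_zmod_val] at h4
      rw [h4, hv _ h2, if_pos h2, h3]
      rfl
    · simp [h1] at hy
  · intro y hy
    simp only [parM, getD_range_map, eqb_eq, cast_back] at hy ⊢
    by_cases h1 : y.val < n
    · rw [if_pos h1, decide_eq_true_eq] at hy
      obtain ⟨h2, h3, h4⟩ := hhi _ h1 hy
      rw [ZMod.natCast_zmod_val] at h4
      rw [h4, hv _ (by omega), if_pos (by omega), h3]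
      rfl
    · simp [h1] at hy
  · intro A y hy
    simp only [cast_back]
    split_ifs with h
    · obtain ⟨h2, h3, h4⟩ := hlo _ hy h
      simp only [h4, hv _ hy, hv _ h2, tabV, cf, parM, getD_range_map, if_pos hy, if_pos h2, h, h3,
        eqb_eq]
      have e : chi (2 * m) ((y + m + m : ℕ) : ℤ) = chi (2 * m) y := by
        have := chi_period (N := 2 * m) (by omega) 1
        rw [show ((y + m + m : ℕ) : ℤ) = y + ((2 * m : ℕ) : ℤ) * 1 by push_cast; ring, chi_add,
          this, mul_one]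
      simp [val_cE, val_rE, -Nat.cast_add, -Int.natCast_add, e]
    · have h' : y / m % 2 = 1 := by omega
      obtain ⟨h2, h3, h4⟩ := hhi _ hy h'
      have h5 : y - m < n := by omega
      have h6 : ((y - m : ℕ) : ZMod q) + m = y := by rw [← h4]; simp
      simp only [h4, h6, hv _ hy, hv _ h5, tabV, cf, parM, getD_range_map, if_pos hy, if_pos h5,
        h', h3, eqb_eq]
      have e : chi (2 * m) ((y + m : ℕ) : ℤ) = -chi (2 * m) y := by
        rw [Nat.cast_add, chi_add, chi_half hm.ne']; ring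
      simp [val_cE, val_rE, -Nat.cast_add, -Int.natCast_add, e]
      ring

theorem length_stage (N : Un) (r : Bool) (s : Un) : (stage q N r s).length = 18 := rfl

theorem POK.stage {u : ℕ} (N : Un) (r : Bool) (s : Un) (h : 2 * 2 ^ s.n ≤ u) :
    POK u (stage q N r s) := by
  have hm : 0 < 2 ^ s.n := by positivity
  have h2 : 2 ≤ 2 ^ u := le_trans (by norm_num) (Nat.pow_le_pow_right two_pos (by omega : 1 ≤ u))
  have h1 : ExOK u (cE 1 0 1) := cE_ok (by omega) (by simp) (by simp; omega) one_pos (by omega)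
  refine (((POK.dg ?_ (POK.nil u)).append (POK.inI _ _ _)).append (POK.dg ?_ (POK.nil u))).append
    (POK.inI _ _ _) <;> intro e he <;> obtain ⟨y, -, rfl⟩ := List.mem_map.1 he <;>
    cases eqb (y / 2 ^ s.n % 2) 1
  · exact h1
  · exact rE_ok (by omega) h _
  · exact h1
  · exact cE_ok (by omega) (by simp) (by simpa using h2) one_pos (by omega)

/-- bit reversal -/
def rev (s : Un) (k : ℕ) : ℕ := valMSB ((List.range s.n).map fun i => k.testBit i)

theorem rev_succ (s k : ℕ) : rev ⟨s + 1⟩ k = Nat.bit (k.testBit s) (rev ⟨s⟩ k) := by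
  simp [rev, valMSB, List.range_succ]

theorem rev_add {s k : ℕ} : rev ⟨s⟩ (2 ^ s + k) = rev ⟨s⟩ k := by
  unfold rev
  congr 1
  exact List.map_congr_left fun i hi => Nat.testBit_two_pow_add_gt (List.mem_range.1 hi) k

noncomputable def part (u : ℕ → ℂ) (s y : ℕ) : ℂ :=
  ∑ k ∈ range (2 ^ s), u (2 ^ s * (y / 2 ^ s) + k) * chi (2 ^ s) (y * rev ⟨s⟩ k)

theorem part_succ (u : ℕ → ℂ) (s y : ℕ) : part u (s + 1) y =
    ∑ k ∈ range (2 ^ s), u (2 ^ s * (y / 2 ^ s / 2 * 2) + k) * chi (2 ^ s) (y * rev ⟨s⟩ k) +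
      chi (2 * 2 ^ s) y * ∑ k ∈ range (2 ^ s),
        u (2 ^ s * (y / 2 ^ s / 2 * 2 + 1) + k) * chi (2 ^ s) (y * rev ⟨s⟩ k) := by
  have e : 2 ^ (s + 1) = 2 ^ s + 2 ^ s := by ring
  have e2 : 2 ^ (s + 1) * (y / 2 ^ (s + 1)) = 2 ^ s * (y / 2 ^ s / 2 * 2) := by
    rw [Nat.div_div_eq_div_mul, ← pow_succ]; ring
  rw [part, e2, mul_sum]
  nth_rewrite 1 [e]
  rw [sum_range_add]
  congr 1 <;> refine sum_congr rfl fun k hk => ?_
  · rw [rev_succ, Nat.testBit_lt_two_pow (mem_range.1 hk), ← chi_mul_left two_ne_zero (2 ^ s),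
      pow_succ']
    congr 2
    simp only [Nat.bit, cond_false]
    push_cast; ring
  · rw [rev_succ, Nat.testBit_two_pow_add_eq, Nat.testBit_lt_two_pow (mem_range.1 hk), rev_add,
      ← chi_mul_left two_ne_zero (2 ^ s), pow_succ', mul_left_comm (chi _ _), ← chi_add]
    congr 2
    · ring
    · simp only [Nat.bit, Bool.not_false, cond_true]
      push_cast; ring

theorem part_shift (u : ℕ → ℂ) (s y : ℕ) : part u s (y + 2 ^ s) =
    ∑ k ∈ range (2 ^ s), u (2 ^ s * (y / 2 ^ s + 1) + k) * chi (2 ^ s) (y * rev ⟨s⟩ k) := by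
  have hm : 0 < 2 ^ s := by positivity
  rw [part, Nat.add_div_right _ hm]
  refine sum_congr rfl fun k _ => ?_
  rw [Nat.cast_add, add_mul, chi_add, chi_period hm.ne', mul_one]

theorem part_lo (u : ℕ → ℂ) {s y : ℕ} (h : y / 2 ^ s % 2 = 0) :
    part u (s + 1) y = part u s y + chi (2 * 2 ^ s) y * part u s (y + 2 ^ s) := by
  rw [part_succ, part_shift, show y / 2 ^ s / 2 * 2 = y / 2 ^ s by omega, part]

theorem part_hi (u : ℕ → ℂ) {s y : ℕ} (h : y / 2 ^ s % 2 = 1) :
    part u (s + 1) y = part u s (y - 2 ^ s) + chi (2 * 2 ^ s) y * part u s y := by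
  have hm : 0 < 2 ^ s := by positivity
  obtain ⟨h1, h2⟩ := par_hi hm h
  rw [part_succ, show y / 2 ^ s / 2 * 2 + 1 = y / 2 ^ s by omega,
    show y / 2 ^ s / 2 * 2 = (y - 2 ^ s) / 2 ^ s by omega, part, part]
  congr 1
  refine sum_congr rfl fun k _ => ?_
  rw [show (y : ℤ) = ((y - 2 ^ s : ℕ) : ℤ) + ((2 ^ s : ℕ) : ℤ) by omega, add_mul, chi_add,
    chi_period hm.ne', mul_one]

def fft (q : ℕ) (N T : Un) (r : Bool) : List Ins := (rangeU T).flatMap (stage q N r)

theorem loc_fft_aux [NeZero q] {T : ℕ} (r : Bool) (hq : 2 ^ T ≤ q) : ∀ s ≤ T,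
    ∃ f, Loc q r (fft q ⟨2 ^ T⟩ ⟨s⟩ r) f ∧ ∀ A (y : ℕ), y < 2 ^ T →
      f A (y : ZMod q) = part (fun k => A k) s y := by
  intro s
  induction s with
  | zero => exact fun _ => ⟨id, fun A B => rfl, fun A y _ => by simp [part, rev, valMSB, chi_zero]⟩
  | succ s ih =>
    intro hs
    obtain ⟨f, hf, hf'⟩ := ih (by omega)
    have hn : 2 ^ T = 2 * 2 ^ s * 2 ^ (T - (s + 1)) := by
      rw [← pow_succ', ← pow_add]; congr 1; omega
    obtain ⟨g, hg, hg'⟩ := loc_stage r s hn hq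
    have e : fft q ⟨2 ^ T⟩ ⟨s + 1⟩ r = fft q ⟨2 ^ T⟩ ⟨s⟩ r ++ stage q ⟨2 ^ T⟩ r ⟨s⟩ := by
      simp [fft, rangeU, List.range_succ]
    refine ⟨_, e ▸ hf.append hg, fun A y hy => ?_⟩
    rw [hg' _ _ hy]
    have hm : 0 < 2 ^ s := by positivity
    split_ifs with h
    · rw [part_lo _ h, hf' _ _ hy, hf' _ _ (hn ▸ (par_lo hm (hn ▸ hy) h).1)]
    · rw [part_hi _ (by omega), hf' _ _ hy, hf' _ _ (by omega)]

theorem loc_fft [NeZero q] {T : ℕ} (r : Bool) (hq : 2 ^ T ≤ q) :
    ∃ f, Loc q r (fft q ⟨2 ^ T⟩ ⟨T⟩ r) f ∧ ∀ A (y : ℕ), y < 2 ^ T →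
      f A (y : ZMod q) = ∑ k ∈ range (2 ^ T), A k * chi (2 ^ T) (y * rev ⟨T⟩ k) := by
  obtain ⟨f, hf, hf'⟩ := loc_fft_aux r hq T le_rfl
  refine ⟨f, hf, fun A y hy => ?_⟩
  rw [hf' _ _ hy, part, Nat.div_eq_of_lt hy]
  simp

theorem length_fft (N T : Un) (r : Bool) : (fft q N T r).length = T.n * 18 := by
  rw [fft, length_flatMap_const (k := 18) fun _ _ => rfl]
  simp [rangeU]

theorem POK.fft {u : ℕ} (N T : Un) (r : Bool) (h : 2 ^ T.n ≤ u) : POK u (fft q N T r) := by
  refine POK.flatMap fun s hs => POK.stage _ _ _ (le_trans ?_ h)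
  obtain ⟨s, hs', rfl⟩ := List.mem_map.1 hs
  rw [← pow_succ']
  exact Nat.pow_le_pow_right two_pos (List.mem_range.1 hs')

/-! ### Cyclic correlation -/

/-- the eigenvalues -/
def eig (q : ℕ) (N T : Un) (a w k : ℕ) : Ex :=
  (false, 1, (((N.n + 1 : ℕ) : ℤ), 0, 1, 0) :: (List.range N.n).map fun d =>
    (1, 0, N.n * q, N.n * (a * ((w + d) * (w + d))) + q * (d * rev T k)))

def cor (q : ℕ) (N T : Un) (r : Bool) (a w : ℕ) : List Ins :=
  inv q (fft q N T r) ++ [dgI r ((List.range N.n).map (eig q N T a w))] ++ fft q N T r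

theorem sum_map_range (n : ℕ) (f : ℕ → ℂ) : ((List.range n).map f).sum = ∑ i ∈ range n, f i :=
  (Finset.sum_list_map_count _ _).trans (by
    rw [List.toFinset_range]
    exact sum_congr rfl fun i hi => by simp [List.count_range, mem_range.1 hi])

theorem eig_sum {n : ℕ} (hn : n ≠ 0) (hq : q ≠ 0) (T : Un) (a w k : ℕ) :
    ((eig q ⟨n⟩ T a w k).2.2.map termVal).sum = (n + 1 : ℂ) + ∑ d ∈ range n,
      chi q (a * (w + d) ^ 2) * chi n (d * rev T k) := by
  simp only [eig, List.map_cons, List.sum_cons, List.map_map, sum_map_range]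
  congr 1
  · simp [termVal, chi_zero]
  · refine sum_congr rfl fun d _ => ?_
    rw [← chi_mul_left hn q, ← chi_mul_left hq n, mul_comm q n, ← chi_add]
    simp [termVal, sq]

theorem eig_ok {u n : ℕ} (hn : n ≠ 0) (hq : 2 ≤ q) (h : n * q ≤ u) (T : Un) (a w k : ℕ) :
    ExOK u (eig q ⟨n⟩ T a w k) := by
  have h1 : n + 1 ≤ u := by
    have : n * 2 ≤ n * q := Nat.mul_le_mul_left n hq
    omega
  have h2 : 2 * n + 1 ≤ 2 ^ u := by
    have := Nat.lt_two_pow_self (n := n)
    have h3 : 2 ^ (n + 1) ≤ 2 ^ u := Nat.pow_le_pow_right two_pos h1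
    omega
  have h3 : ‖∑ d ∈ range n, chi q (a * (w + d) ^ 2) * chi n (d * rev T k)‖ ≤ n := by
    refine (norm_sum_le _ _).trans ?_
    simp [norm_chi]
  have h4 : ‖(n + 1 : ℂ)‖ = n + 1 := by exact_mod_cast Complex.norm_natCast (n + 1)
  have e := eig_sum hn (by omega : q ≠ 0) T a w k
  refine exOK_of one_pos Nat.one_le_two_pow (by simpa using h1) ?_ ?_ ?_
  · intro t ht
    rcases List.mem_cons.1 ht with rfl | ht
    · refine ⟨?_, Nat.zero_le _, one_pos, by simp only; omega⟩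
      simp only [Int.natAbs_natCast]; omega
    · obtain ⟨d, -, rfl⟩ := List.mem_map.1 ht
      exact ⟨Nat.one_le_two_pow, Nat.zero_le _, by simp only; positivity, h⟩
  · simp only [eig] at e
    rw [e]
    have := norm_sub_le ((n + 1 : ℂ) + ∑ d ∈ range n, chi q (a * (w + d) ^ 2) * chi n (d * rev T k))
      (∑ d ∈ range n, chi q (a * (w + d) ^ 2) * chi n (d * rev T k))
    rw [add_sub_cancel_right] at this
    linarith
  · simp only [eig] at e
    rw [e]
    have h5 : ((2 * n + 1 : ℕ) : ℝ) ≤ ((2 ^ u : ℕ) : ℝ) := by exact_mod_cast h2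
    push_cast at h5
    refine (norm_add_le _ _).trans ?_
    linarith

theorem POK.cor {u n : ℕ} {T : Un} (hn : n ≠ 0) (hq : 2 ≤ q) (h : n * q ≤ u) (hT : 2 ^ T.n ≤ u)
    (r : Bool) (a w : ℕ) : POK u (cor q ⟨n⟩ T r a w) := by
  refine ((POK.fft _ _ _ hT).inv.append (POK.dg ?_ (POK.nil u))).append (POK.fft _ _ _ hT)
  intro e he
  obtain ⟨k, -, rfl⟩ := List.mem_map.1 he
  exact eig_ok hn hq h _ _ _ _

theorem length_cor (N T : Un) (r : Bool) (a w : ℕ) :
    (cor q N T r a w).length = T.n * 72 + 1 := by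
  simp only [cor, List.length_append, length_inv, length_fft, List.length_singleton]; ring

theorem loc_cor [NeZero q] {T : ℕ} (r : Bool) (hq : 2 ^ T ≤ q) (a w : ℕ) :
    ∃ f, Loc q r (cor q ⟨2 ^ T⟩ ⟨T⟩ r a w) f ∧ ∀ A (y : ℕ), y < 2 ^ T →
      f A (y : ZMod q) = (2 ^ T + 1) * A y +
        ∑ d ∈ range (2 ^ T), chi q (a * (w + d) ^ 2) * A ((y + d) % 2 ^ T : ℕ) := by
  obtain ⟨f, hf, hf'⟩ := loc_fft r hq
  obtain ⟨g, hg, hg'⟩ := hf.inv (POK.fft _ _ _ le_rfl)
  refine ⟨_, (hg.append (Loc.dg r _)).append hf, fun A y hy => ?_⟩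
  have hn : 2 ^ T ≠ 0 := by positivity
  have hA : ∀ z : ℕ, z < 2 ^ T →
      A z = ∑ k ∈ range (2 ^ T), g A k * chi (2 ^ T) (z * rev ⟨T⟩ k) := fun z hz => by
    rw [← hf' _ _ hz, hg']
  have hB : ∀ d : ℕ, A ((y + d) % 2 ^ T : ℕ) = _ := fun d => hA _ (Nat.mod_lt _ (by positivity))
  rw [hf' _ _ hy, hA y hy]
  simp only [hB, mul_sum]
  rw [sum_comm, ← sum_add_distrib]
  refine sum_congr rfl fun k hk => ?_
  have hk' := mem_range.1 hk
  have e : exVal (eig q ⟨2 ^ T⟩ ⟨T⟩ a w k) = _ :=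
    Eq.trans (by simp only [eig, exVal, cond_false, Nat.cast_one, div_one])
      (eig_sum hn (NeZero.ne q) ⟨T⟩ a w k)
  rw [ZMod.val_cast_of_lt (by omega), tabV, getD_range_map, if_pos hk', e, add_mul, add_mul,
    sum_mul, sum_mul]
  congr 1
  · push_cast; ring
  · refine sum_congr rfl fun d _ => ?_
    have e2 : chi (2 ^ T) (((y + d) % 2 ^ T : ℕ) * rev ⟨T⟩ k) =
        chi (2 ^ T) (y * rev ⟨T⟩ k) * chi (2 ^ T) (d * rev ⟨T⟩ k) := by
      have h1 := Nat.mod_add_div (y + d) (2 ^ T)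
      have h2 := chi_period hn (((y + d) / 2 ^ T : ℕ) * rev ⟨T⟩ k)
      rw [← chi_add, ← mul_one (chi (2 ^ T) (((y + d) % 2 ^ T : ℕ) * rev ⟨T⟩ k)), ← h2, ← chi_add,
        ← mul_assoc, ← add_mul, ← add_mul]
      congr 2
      exact_mod_cast h1
    rw [e2]; ring

/-! ### Polynomial time -/

section pt

variable {α : Type} [Enc α]

@[fun_prop] theorem PT_conj {q : α → ℕ} {r n : α → Bool} {m : α → List Bool} {H : α → List Ins}
    (hq : PT q) (hr : PT r) (hn : PT n) (hm : PT m) (hH : PT H) :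
    PT (fun x => conj (q x) (r x) (n x) (m x) (H x)) := by unfold conj; fun_prop

@[fun_prop] theorem PT_inI {q s : α → ℕ} {r : α → Bool} {m : α → List Bool}
    (hq : PT q) (hr : PT r) (hs : PT s) (hm : PT m) :
    PT (fun x => inI (q x) (r x) (s x) (m x)) := by unfold inI; fun_prop

@[fun_prop] theorem PT_parM {N : α → Un} {m b : α → ℕ} (hN : PT N) (hm : PT m) (hb : PT b) :
    PT (fun x => parM (N x) (m x) (b x)) := by unfold parM; fun_prop

@[fun_prop] theorem PT_stage {q : α → ℕ} {N s : α → Un} {r : α → Bool} (hq : PT q) (hN : PT N)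
    (hr : PT r) (hs : PT s) : PT (fun x => stage (q x) (N x) (r x) (s x)) := by
  unfold stage; fun_prop

@[fun_prop] theorem PT_rev {s : α → Un} {k : α → ℕ} (hs : PT s) (hk : PT k) :
    PT (fun x => rev (s x) (k x)) := by unfold rev; fun_prop

@[fun_prop] theorem PT_fft {q : α → ℕ} {N T : α → Un} {r : α → Bool} (hq : PT q) (hN : PT N)
    (hT : PT T) (hr : PT r) : PT (fun x => fft (q x) (N x) (T x) (r x)) := by
  unfold fft; fun_prop

@[fun_prop] theorem PT_eig {q a w k : α → ℕ} {N T : α → Un} (hq : PT q) (hN : PT N)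
    (hT : PT T) (ha : PT a) (hw : PT w) (hk : PT k) :
    PT (fun x => eig (q x) (N x) (T x) (a x) (w x) (k x)) := by
  unfold eig; fun_prop

@[fun_prop] theorem PT_cor {q a w : α → ℕ} {N T : α → Un} {r : α → Bool} (hq : PT q) (hN : PT N)
    (hT : PT T) (hr : PT r) (ha : PT a) (hw : PT w) :
    PT (fun x => cor (q x) (N x) (T x) (r x) (a x) (w x)) := by
  unfold cor; fun_prop

end pt

end Simd

end Vale.Agent.P338
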