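import Vale.Agent.P338.SimdDefs

/-! An intermediate instruction set for two register programs. -/

namespace Vale.Agent.P338

open Vale.Agent.Lib.H23 Vale.Agent.P344 Complex

namespace Simd

/-! ### Roots of unity -/

theorem chi_add (N : ℕ) (z w : ℤ) : chi N (z + w) = chi N z * chi N w := by
  rw [chi, chi, chi, ← Complex.exp_add]
  congr 1
  push_cast
  ring

theorem chi_zero (N : ℕ) : chi N 0 = 1 := by simp [chi]

theorem norm_chi (N : ℕ) (z : ℤ) : ‖chi N z‖ = 1 := by
  have : (2 * Real.pi * I * z / N : ℂ) = ((2 * Real.pi * z / N : ℝ) : ℂ) * I := by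
    push_cast; ring
  rw [chi, this, Complex.norm_exp_ofReal_mul_I]

theorem chi_mul_left {k : ℕ} (hk : k ≠ 0) (N : ℕ) (z : ℤ) : chi (k * N) (k * z) = chi N z := by
  have : (k : ℂ) ≠ 0 := by exact_mod_cast hk
  rw [chi, chi]
  congr 1
  push_cast
  by_cases hN : (N : ℂ) = 0
  · simp [hN]
  · field_simp

theorem chi_one (z : ℤ) : chi 1 z = 1 := by
  have := Complex.exp_int_mul_two_pi_mul_I z
  rw [chi, ← this]
  congr 1
  push_cast
  ring

theorem chi_period {N : ℕ} (hN : N ≠ 0) (z : ℤ) : chi N (N * z) = 1 := by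
  have := chi_mul_left hN 1 z
  rwa [mul_one, chi_one] at this

theorem chi_half {m : ℕ} (hm : m ≠ 0) : chi (2 * m) m = -1 := by
  have h := chi_mul_left hm 2 1
  rw [mul_one, mul_comm] at h
  rw [h, chi, ← Complex.exp_pi_mul_I]
  congr 1
  push_cast
  ring

theorem chi_eq (N : ℕ) [NeZero N] (z : ℤ) : chi N z = ZMod.stdAddChar (z : ZMod N) :=
  (ZMod.stdAddChar_coe z).symm

/-! ### Table entries -/

/-- the constant `(a + b i) / den` -/
def cE (a b : ℤ) (den : ℕ) : Ex := (false, den, [(a, b, 1, 0)])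

/-- a root of unity -/
def rE (N e : ℕ) : Ex := (false, 1, [(1, 0, N, e)])

def flipE (e : Ex) : Ex := (!e.1, e.2)

theorem val_cE (a b : ℤ) (den : ℕ) : exVal (cE a b den) = (a + b * I) / den := by
  simp [exVal, cE, termVal, chi_zero]

theorem val_rE (N e : ℕ) : exVal (rE N e) = chi N e := by
  simp [exVal, rE, termVal]

theorem val_flipE (e : Ex) : exVal (flipE e) = (exVal e)⁻¹ := by
  obtain ⟨b, d, l⟩ := e
  cases b <;> simp [exVal, flipE]

theorem ExOK.ne_zero {u : ℕ} {e : Ex} (h : ExOK u e) : exVal e ≠ 0 := by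
  intro h0
  have := h.2.2.2.2.1
  rw [h0] at this
  norm_num at this

theorem ExOK.flip {u : ℕ} {e : Ex} (h : ExOK u e) : ExOK u (flipE e) := by
  have h0 : 0 < ‖exVal e‖ := norm_pos_iff.2 (ExOK.ne_zero h)
  obtain ⟨h1, h2, h3, h4, h5, h6⟩ := h
  refine ⟨h1, h2, h3, h4, ?_, ?_⟩
  · rw [val_flipE, norm_inv, ← div_eq_mul_inv, le_div_iff₀ h0, one_mul]; exact h6
  · rw [val_flipE, norm_inv, inv_eq_one_div, div_le_iff₀ h0]; exact h5

theorem exOK_of {u den : ℕ} {l : List Term} (h1 : 0 < den) (h2 : den ≤ 2 ^ u) (h3 : l.length ≤ u)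
    (h4 : ∀ t ∈ l, t.1.natAbs ≤ 2 ^ u ∧ t.2.1.natAbs ≤ 2 ^ u ∧ 0 < t.2.2.1 ∧ t.2.2.1 ≤ u)
    (h5 : 1 ≤ ‖(l.map termVal).sum‖) (h6 : ‖(l.map termVal).sum‖ ≤ 2 ^ u) :
    ExOK u (false, den, l) := by
  have e : ‖exVal (false, den, l)‖ = ‖(l.map termVal).sum‖ / den := by simp [exVal]
  have d1 : (1 : ℝ) ≤ den := by exact_mod_cast h1
  have d2 : (den : ℝ) ≤ 2 ^ u := by exact_mod_cast h2
  refine ⟨h1, h2, h3, h4, ?_, ?_⟩
  · rw [e, ← mul_div_assoc, le_div_iff₀ (by linarith)]
    nlinarith
  · rw [e]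
    exact (div_le_self (norm_nonneg _) d1).trans h6

theorem cE_ok {u den : ℕ} {a b : ℤ} (hu : 1 ≤ u) (h0 : a ≠ 0 ∨ b ≠ 0)
    (hab : a.natAbs + b.natAbs ≤ 2 ^ u) (h1 : 0 < den) (h2 : den ≤ 2 ^ u) : ExOK u (cE a b den) := by
  have e : (List.map termVal [(a, b, 1, 0)]).sum = a + b * I := by simp [termVal, chi_zero]
  refine exOK_of h1 h2 (by simpa using hu) ?_ ?_ ?_
  · intro t ht
    rw [List.mem_singleton.1 ht]
    refine ⟨?_, ?_, ?_, hu⟩ <;> simp only <;> omega
  · rw [e]
    rcases h0 with h | h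
    · have h3 := Complex.abs_re_le_norm (a + b * I)
      have h4 : (1 : ℝ) ≤ |(a : ℝ)| := by exact_mod_cast Int.one_le_abs h
      simp only [add_re, intCast_re, mul_re, I_re, mul_zero, intCast_im, I_im, mul_one, sub_self,
        add_zero] at h3
      linarith
    · have h3 := Complex.abs_im_le_norm (a + b * I)
      have h4 : (1 : ℝ) ≤ |(b : ℝ)| := by exact_mod_cast Int.one_le_abs h
      simp only [add_im, intCast_im, mul_im, intCast_re, I_im, mul_one, I_re, mul_zero, add_zero,
        zero_add] at h3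
      linarith
  · rw [e]
    have h3 : ((a.natAbs + b.natAbs : ℕ) : ℝ) ≤ ((2 ^ u : ℕ) : ℝ) := by exact_mod_cast hab
    refine (norm_add_le _ _).trans ?_
    simpa [Nat.cast_natAbs] using h3

theorem rE_ok {u N : ℕ} (h1 : 0 < N) (h2 : N ≤ u) (e : ℕ) : ExOK u (rE N e) := by
  have e1 : (List.map termVal [(1, 0, N, e)]).sum = chi N e := by simp [termVal]
  refine exOK_of one_pos Nat.one_le_two_pow (by simp; omega) ?_ ?_ ?_
  · intro t ht
    rw [List.mem_singleton.1 ht]
    exact ⟨Nat.one_le_two_pow, Nat.zero_le _, h1, h2⟩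
  · rw [e1, norm_chi]
  · rw [e1, norm_chi]; exact one_le_pow₀ (by norm_num)

/-! ### Instructions -/

/-- register, shift, diagonal table, sign and mask of the final shear -/
abbrev Ins : Type := Bool × ℕ × List Ex × Bool × List Bool

noncomputable def tabV (tab : List Ex) (y : ℕ) : ℂ := exVal (tab.getD y (cE 1 0 1))

noncomputable def cf (neg : Bool) (mask : List Bool) (y : ℕ) : ℂ :=
  bif mask.getD y false then (bif neg then -1 else 1) else 0

variable {q : ℕ}

/-- two registers -/
def mk (r : Bool) (A B : ZMod q → ℂ) : Bool × ZMod q → ℂ := fun p => if p.1 = r then A p.2 else B p.2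

theorem mk_not (r : Bool) (A B : ZMod q → ℂ) : mk (!r) A B = mk r B A := by
  funext ⟨b, y⟩
  cases r <;> cases b <;> simp [mk]

theorem mk_self (r : Bool) (x : Bool × ZMod q → ℂ) :
    mk r (fun y => x (r, y)) (fun y => x (!r, y)) = x := by
  funext ⟨b, y⟩
  cases r <;> cases b <;> simp [mk]

theorem mk_inj {r : Bool} {A B A' B' : ZMod q → ℂ} (h : mk r A B = mk r A' B') :
    A = A' ∧ B = B' := by
  constructor
  · funext y; simpa [mk] using congrFun h (r, y)
  · funext y; simpa [mk] using congrFun h (!r, y)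

noncomputable def irun (q : ℕ) (i : Ins) (x : Bool × ZMod q → ℂ) : Bool × ZMod q → ℂ :=
  mk i.1 (fun y => tabV i.2.2.1 y.val * x (i.1, y + i.2.1) +
    cf i.2.2.2.1 i.2.2.2.2 y.val * x (!i.1, y)) fun y => x (!i.1, y)

noncomputable def runI (q : ℕ) (P : List Ins) (x : Bool × ZMod q → ℂ) : Bool × ZMod q → ℂ :=
  P.foldl (fun x i => irun q i x) x

@[simp] theorem runI_nil (x : Bool × ZMod q → ℂ) : runI q [] x = x := (rfl)

theorem runI_cons (i : Ins) (P : List Ins) (x : Bool × ZMod q → ℂ) :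
    runI q (i :: P) x = runI q P (irun q i x) := (rfl)

theorem runI_append (P Q : List Ins) (x : Bool × ZMod q → ℂ) :
    runI q (P ++ Q) x = runI q Q (runI q P x) := List.foldl_append

theorem irun_mk (r : Bool) (s : ℕ) (tab : List Ex) (neg : Bool) (mask : List Bool)
    (A B : ZMod q → ℂ) : irun q (r, s, tab, neg, mask) (mk r A B) =
      mk r (fun y : ZMod q => tabV tab y.val * A (y + (s : ZMod q)) + cf neg mask y.val * B y) B := by
  funext p
  simp [irun, mk]

def shI (r : Bool) (s : ℕ) : Ins := (r, s, [], false, [])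
def dgI (r : Bool) (tab : List Ex) : Ins := (r, 0, tab, false, [])
def srI (r neg : Bool) (mask : List Bool) : Ins := (r, 0, [], neg, mask)

theorem tabV_nil (y : ℕ) : tabV [] y = 1 := by simp [tabV, val_cE]
theorem cf_nil (neg : Bool) (y : ℕ) : cf neg [] y = 0 := by simp [cf]

theorem cf_not (neg : Bool) (mask : List Bool) (y : ℕ) : cf (!neg) mask y = -cf neg mask y := by
  unfold cf
  cases neg <;> cases mask.getD y false <;> simp

theorem run_shI (r : Bool) (s : ℕ) (A B : ZMod q → ℂ) :
    irun q (shI r s) (mk r A B) = mk r (fun y : ZMod q => A (y + (s : ZMod q))) B := by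
  simp [shI, irun_mk, tabV_nil, cf_nil]

theorem run_dgI (r : Bool) (tab : List Ex) (A B : ZMod q → ℂ) :
    irun q (dgI r tab) (mk r A B) = mk r (fun y => tabV tab y.val * A y) B := by
  simp [dgI, irun_mk, cf_nil]

theorem run_srI (r neg : Bool) (mask : List Bool) (A B : ZMod q → ℂ) :
    irun q (srI r neg mask) (mk r A B) = mk r (fun y => A y + cf neg mask y.val * B y) B := by
  simp [srI, irun_mk, tabV_nil]

theorem run_shI' (r : Bool) (s : ℕ) (A B : ZMod q → ℂ) :
    irun q (shI (!r) s) (mk r A B) = mk r A (fun y : ZMod q => B (y + (s : ZMod q))) := by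
  rw [← mk_not, run_shI, mk_not]

theorem run_dgI' (r : Bool) (tab : List Ex) (A B : ZMod q → ℂ) :
    irun q (dgI (!r) tab) (mk r A B) = mk r A (fun y => tabV tab y.val * B y) := by
  rw [← mk_not, run_dgI, mk_not]

theorem run_srI' (r neg : Bool) (mask : List Bool) (A B : ZMod q → ℂ) :
    irun q (srI (!r) neg mask) (mk r A B) = mk r A (fun y => B y + cf neg mask y.val * A y) := by
  rw [← mk_not, run_srI, mk_not]

/-! ### Validity and inverses -/

def POK (u : ℕ) (P : List Ins) : Prop := ∀ i ∈ P, ∀ e ∈ i.2.2.1, ExOK u e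

theorem POK.nil (u : ℕ) : POK u [] := by simp [POK]

theorem POK.append {u : ℕ} {P Q : List Ins} (h : POK u P) (h' : POK u Q) : POK u (P ++ Q) := by
  intro i hi
  rcases List.mem_append.1 hi with hi | hi
  exacts [h i hi, h' i hi]

theorem POK.cons {u : ℕ} {i : Ins} {P : List Ins} (h : ∀ e ∈ i.2.2.1, ExOK u e) (h' : POK u P) :
    POK u (i :: P) := by
  intro j hj
  rcases List.mem_cons.1 hj with rfl | hj
  exacts [h, h' j hj]

theorem POK.sh {u : ℕ} {r : Bool} {s : ℕ} {P : List Ins} (h' : POK u P) : POK u (shI r s :: P) :=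
  POK.cons (by simp [shI]) h'

theorem POK.sr {u : ℕ} {r neg : Bool} {mask : List Bool} {P : List Ins} (h' : POK u P) :
    POK u (srI r neg mask :: P) := POK.cons (by simp [srI]) h'

theorem POK.dg {u : ℕ} {r : Bool} {tab : List Ex} {P : List Ins} (h : ∀ e ∈ tab, ExOK u e)
    (h' : POK u P) : POK u (dgI r tab :: P) := POK.cons h h'

theorem POK.flatMap {u : ℕ} {β : Type} {L : List β} {f : β → List Ins}
    (h : ∀ a ∈ L, POK u (f a)) : POK u (L.flatMap f) := by
  intro i hi
  obtain ⟨a, ha, hi⟩ := List.mem_flatMap.1 hi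
  exact h a ha i hi

theorem tabV_ne_zero {u : ℕ} {tab : List Ex} (h : ∀ e ∈ tab, ExOK u e) (y : ℕ) :
    tabV tab y ≠ 0 := by
  unfold tabV
  by_cases hy : y < tab.length
  · rw [List.getD_eq_getElem _ _ hy]
    exact ExOK.ne_zero (h _ (List.getElem_mem hy))
  · rw [List.getD_eq_default _ _ (not_lt.1 hy), val_cE]; simp

theorem tabV_flip (tab : List Ex) (y : ℕ) : tabV (tab.map flipE) y = (tabV tab y)⁻¹ := by
  unfold tabV
  by_cases hy : y < tab.length
  · rw [List.getD_eq_getElem _ _ hy, List.getD_eq_getElem _ _ (by simpa using hy),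
      List.getElem_map, val_flipE]
  · rw [List.getD_eq_default _ _ (not_lt.1 hy), List.getD_eq_default _ _ (by simpa using hy),
      val_cE]
    simp

def invI (q : ℕ) (i : Ins) : List Ins :=
  [srI i.1 (!i.2.2.2.1) i.2.2.2.2, dgI i.1 (i.2.2.1.map flipE), shI i.1 (q - i.2.1 % q)]

def inv (q : ℕ) (P : List Ins) : List Ins := P.reverse.flatMap (invI q)

theorem cast_back [NeZero q] (s : ℕ) : ((q - s % q : ℕ) : ZMod q) = -(s : ZMod q) := by
  rw [Nat.cast_sub (Nat.mod_lt _ (NeZero.pos q)).le]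
  simp

theorem inv_cons (i : Ins) (P : List Ins) : inv q (i :: P) = inv q P ++ invI q i := by
  simp [inv]

theorem length_flatMap_const {β γ : Type} {L : List β} {f : β → List γ} {k : ℕ}
    (h : ∀ a ∈ L, (f a).length = k) : (L.flatMap f).length = L.length * k := by
  induction L with
  | nil => simp
  | cons a L ih =>
    rw [List.flatMap_cons, List.length_append, h a (by simp), ih fun b hb => h b (by simp [hb]),
      List.length_cons]
    ring

theorem length_inv (P : List Ins) : (inv q P).length = P.length * 3 := by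
  rw [inv, length_flatMap_const (k := 3) fun _ _ => rfl, List.length_reverse]

theorem POK.inv {u : ℕ} {P : List Ins} (h : POK u P) : POK u (inv q P) := by
  refine POK.flatMap fun i hi => POK.sr (POK.dg ?_ (POK.sh (POK.nil u)))
  intro e he
  obtain ⟨e', he', rfl⟩ := List.mem_map.1 he
  exact ExOK.flip (h i (List.mem_reverse.1 hi) e' he')

theorem run_inv_left [NeZero q] {u : ℕ} {P : List Ins} (h : POK u P) (x : Bool × ZMod q → ℂ) :
    runI q (inv q P) (runI q P x) = x := by
  induction P generalizing x with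
  | nil => rfl
  | cons i P ih =>
    rw [inv_cons, runI_append, runI_cons, ih fun j hj => h j (by simp [hj])]
    obtain ⟨r, s, tab, neg, mask⟩ := i
    have h0 := tabV_ne_zero (h _ List.mem_cons_self)
    rw [← mk_self r x, irun_mk]
    simp only [invI, runI_cons, runI_nil, run_srI, run_dgI, run_shI, cf_not, tabV_flip, cast_back]
    congr 1
    funext y
    have := h0 (y + -(s : ZMod q)).val
    simp only at this
    field_simp
    simp

theorem run_inv_right [NeZero q] {u : ℕ} {P : List Ins} (h : POK u P) (x : Bool × ZMod q → ℂ) :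
    runI q P (runI q (inv q P) x) = x := by
  induction P generalizing x with
  | nil => rfl
  | cons i P ih =>
    rw [inv_cons, runI_append, runI_cons]
    obtain ⟨r, s, tab, neg, mask⟩ := i
    have h0 := tabV_ne_zero (h _ List.mem_cons_self)
    have key : ∀ z : Bool × ZMod q → ℂ,
        irun q (r, s, tab, neg, mask) (runI q (invI q (r, s, tab, neg, mask)) z) = z := by
      intro z
      rw [← mk_self r z]
      simp only [invI, runI_cons, runI_nil, run_srI, run_dgI, run_shI, cf_not, tabV_flip,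
        cast_back, irun_mk]
      congr 1
      funext y
      have := h0 y.val
      simp only at this
      simp only [add_neg_cancel_right]
      field_simp
      simp
    rw [key, ih fun j hj => h j (by simp [hj])]

/-! ### Compilation -/

def mkStep (r : Bool) (s : ℕ) (src tgt : List (List Ex)) : Step :=
  bif r then (0, s, src, tgt) else (s, 0, tgt, src)

/-- a table with two alternatives -/
def alt (q : Un) (mask : List Bool) (e e' : Ex) : List (List Ex) :=
  (List.range q.n).map fun y => [bif mask.getD y false then e else e']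

def sgI (neg : Bool) : ℤ := bif neg then -1 else 1

def cmp (q : Un) (i : Ins) : List Step :=
  [mkStep i.1 i.2.1 (alt q i.2.2.2.2 (cE 1 0 1) (cE 1 0 1)) (alt q i.2.2.2.2 (cE (-1) 0 1) (cE (-1) 0 1)),
    mkStep i.1 0 (alt q i.2.2.2.2 (cE 0 (-1) 1) (cE 0 (-1) 1))
      ((List.range q.n).map fun y => [bif i.2.2.2.2.getD y false then cE (5 * sgI i.2.2.2.1) 0 3
        else cE (-1) 0 1, i.2.2.1.getD y (cE 1 0 1)]),
    mkStep i.1 0 (alt q i.2.2.2.2 (cE 1 (-1) 1) (cE 1 0 1)) (alt q i.2.2.2.2 (cE (-2) 2 1) (cE 0 1 1)),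
    mkStep i.1 0 (alt q i.2.2.2.2 (cE 3 (-3) 2) (cE 1 0 1)) (alt q i.2.2.2.2 (cE (-1) 1 2) (cE 0 1 1)),
    mkStep i.1 0 (alt q i.2.2.2.2 (cE 1 (-1) 4) (cE 0 (-1) 1))
      (alt q i.2.2.2.2 (cE (sgI i.2.2.2.1) (sgI i.2.2.2.1) 5) (cE 0 (-1) 1))]

theorem getD_range_map {β : Type} (n : ℕ) (f : ℕ → β) (d : β) (y : ℕ) :
    ((List.range n).map f).getD y d = if y < n then f y else d := by
  by_cases h : y < n
  · rw [if_pos h, List.getD_eq_getElem _ _ (by simpa using h)]; simp
  · rw [if_neg h, List.getD_eq_default _ _ (by simpa using h)]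

theorem stRun_mk (r : Bool) (s : ℕ) (src tgt : List (List Ex)) (A B : ZMod q → ℂ) :
    stRun q (mkStep r s src tgt) (mk r A B) =
      mk r (fun y : ZMod q => prodVal (tgt.getD y.val []) * (al * A (y + (s : ZMod q)) + be * B y))
        (fun y : ZMod q => prodVal (src.getD y.val []) * (al * B y + be * A (y + (s : ZMod q)))) := by
  funext ⟨b, y⟩
  cases r <;> cases b <;> simp [stRun, mkStep, mk, stTab, stShift]

theorem run_cmp [NeZero q] (i : Ins) (x : Bool × ZMod q → ℂ) :
    runP q (cmp ⟨q⟩ i) x = irun q i x := by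
  obtain ⟨r, s, tab, neg, mask⟩ := i
  obtain ⟨A, B, rfl⟩ : ∃ A B, x = mk r A B := ⟨_, _, (mk_self r x).symm⟩
  rw [irun_mk]
  simp only [runP, cmp, List.foldl_cons, List.foldl_nil, stRun_mk, alt, getD_range_map,
    ZMod.val_lt, if_true, Nat.cast_zero, add_zero, prodVal, List.map_cons, List.map_nil,
    List.prod_cons, List.prod_nil, mul_one, cf, tabV]
  have hI : I * I = -1 := I_mul_I
  congr 1 <;> funext y <;> generalize exVal (tab.getD y.val (cE 1 0 1)) = d <;>
    generalize A (y + (s : ZMod q)) = a <;> generalize B y = b <;>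
    cases mask.getD y.val false <;> cases neg <;>
    simp only [cond_true, cond_false, val_cE, sgI, al, be] <;> push_cast <;> grind

theorem run_flatMap_cmp [NeZero q] (P : List Ins) (x : Bool × ZMod q → ℂ) :
    runP q (P.flatMap (cmp ⟨q⟩)) x = runI q P x := by
  induction P generalizing x with
  | nil => rfl
  | cons i P ih =>
    rw [List.flatMap_cons, runI_cons, ← ih, ← run_cmp]
    exact List.foldl_append

theorem cmp_ok {u : ℕ} (hu : 4 ≤ u) {Q : Un} {i : Ins} (h : ∀ e ∈ i.2.2.1, ExOK u e) :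
    ∀ s ∈ cmp Q i, ∀ b y, (stTab s b y).length ≤ 2 ∧ ∀ e ∈ stTab s b y, ExOK u e := by
  have h16 : 16 ≤ 2 ^ u := le_trans (by norm_num) (Nat.pow_le_pow_right two_pos hu)
  have hc : ∀ a b : ℤ, ∀ den : ℕ, (a ≠ 0 ∨ b ≠ 0) → a.natAbs + b.natAbs ≤ 16 → 0 < den →
      den ≤ 16 → ExOK u (cE a b den) := fun a b den h1 h2 h3 h4 =>
    cE_ok (by omega) h1 (by omega) h3 (by omega)
  let G : List (List Ex) → Prop := fun t =>
    ∀ y, (t.getD y []).length ≤ 2 ∧ ∀ e ∈ t.getD y [], ExOK u e
  have hmk : ∀ r s src tgt, G src → G tgt → ∀ b y, (stTab (mkStep r s src tgt) b y).length ≤ 2 ∧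
      ∀ e ∈ stTab (mkStep r s src tgt) b y, ExOK u e := by
    intro r s src tgt h1 h2 b y
    cases r <;> cases b
    exacts [h2 y, h1 y, h1 y, h2 y]
  have halt : ∀ mask e e', ExOK u e → ExOK u e' → G (alt Q mask e e') := by
    intro mask e e' h1 h2 y
    rw [alt, getD_range_map]
    split_ifs
    · cases mask.getD y false <;> simp [h1, h2]
    · simp
  have hs : ∀ neg, sgI neg = 1 ∨ sgI neg = -1 := fun neg => by cases neg <;> simp [sgI]
  intro s hs'
  simp only [cmp, List.mem_cons, List.not_mem_nil, or_false] at hs'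
  rcases hs' with rfl | rfl | rfl | rfl | rfl
  · refine hmk _ _ _ _ (halt _ _ _ ?_ ?_) (halt _ _ _ ?_ ?_) <;> exact hc _ _ _ (by simp) (by simp) (by simp) (by simp)
  · refine hmk _ _ _ _ (halt _ _ _ ?_ ?_) ?_
    · exact hc _ _ _ (by simp) (by simp) (by simp) (by simp)
    · exact hc _ _ _ (by simp) (by simp) (by simp) (by simp)
    · intro y
      rw [getD_range_map]
      split_ifs
      · refine ⟨le_rfl, fun e he => ?_⟩
        simp only [List.mem_cons, List.not_mem_nil, or_false] at he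
        rcases he with rfl | rfl
        · cases i.2.2.2.2.getD y false
          · exact hc _ _ _ (by simp) (by simp) (by simp) (by simp)
          · rcases hs i.2.2.2.1 with e | e <;> rw [e] <;>
              exact hc _ _ _ (by simp) (by simp) (by simp) (by simp)
        · by_cases hy : y < i.2.2.1.length
          · rw [List.getD_eq_getElem _ _ hy]; exact h _ (List.getElem_mem hy)
          · rw [List.getD_eq_default _ _ (not_lt.1 hy)]
            exact hc _ _ _ (by simp) (by simp) (by simp) (by simp)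
      · simp
  · refine hmk _ _ _ _ (halt _ _ _ ?_ ?_) (halt _ _ _ ?_ ?_) <;> exact hc _ _ _ (by simp) (by simp) (by simp) (by simp)
  · refine hmk _ _ _ _ (halt _ _ _ ?_ ?_) (halt _ _ _ ?_ ?_) <;> exact hc _ _ _ (by simp) (by simp) (by simp) (by simp)
  · rcases hs i.2.2.2.1 with e | e <;> rw [e] <;>
      refine hmk _ _ _ _ (halt _ _ _ ?_ ?_) (halt _ _ _ ?_ ?_) <;>
      exact hc _ _ _ (by simp) (by simp) (by simp) (by simp)

/-! ### Polynomial time -/

section pt

variable {α : Type} [Enc α]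

@[fun_prop] theorem PT_cE {a b : α → ℤ} {d : α → ℕ} (ha : PT a) (hb : PT b) (hd : PT d) :
    PT (fun x => cE (a x) (b x) (d x)) := by unfold cE; fun_prop

@[fun_prop] theorem PT_rE {a b : α → ℕ} (ha : PT a) (hb : PT b) :
    PT (fun x => rE (a x) (b x)) := by unfold rE; fun_prop

@[fun_prop] theorem PT_flipE {a : α → Ex} (ha : PT a) : PT (fun x => flipE (a x)) := by
  unfold flipE; fun_prop

@[fun_prop] theorem PT_shI {r : α → Bool} {s : α → ℕ} (hr : PT r) (hs : PT s) :
    PT (fun x => shI (r x) (s x)) := by unfold shI; fun_prop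

@[fun_prop] theorem PT_dgI {r : α → Bool} {s : α → List Ex} (hr : PT r) (hs : PT s) :
    PT (fun x => dgI (r x) (s x)) := by unfold dgI; fun_prop

@[fun_prop] theorem PT_srI {r n : α → Bool} {s : α → List Bool} (hr : PT r) (hn : PT n)
    (hs : PT s) : PT (fun x => srI (r x) (n x) (s x)) := by unfold srI; fun_prop

@[fun_prop] theorem PT_invI {q : α → ℕ} {i : α → Ins} (hq : PT q) (hi : PT i) :
    PT (fun x => invI (q x) (i x)) := by unfold invI; fun_prop

@[fun_prop] theorem PT_inv {q : α → ℕ} {P : α → List Ins} (hq : PT q) (hP : PT P) :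
    PT (fun x => inv (q x) (P x)) := by unfold inv; fun_prop

@[fun_prop] theorem PT_mkStep {r : α → Bool} {s : α → ℕ} {a b : α → List (List Ex)} (hr : PT r)
    (hs : PT s) (ha : PT a) (hb : PT b) : PT (fun x => mkStep (r x) (s x) (a x) (b x)) := by
  unfold mkStep; fun_prop

@[fun_prop] theorem PT_alt {q : α → Un} {m : α → List Bool} {a b : α → Ex} (hq : PT q)
    (hm : PT m) (ha : PT a) (hb : PT b) : PT (fun x => alt (q x) (m x) (a x) (b x)) := by
  unfold alt; fun_prop

@[fun_prop] theorem PT_sgI {r : α → Bool} (hr : PT r) : PT (fun x => sgI (r x)) := by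
  unfold sgI; fun_prop

@[fun_prop] theorem PT_cmp {q : α → Un} {i : α → Ins} (hq : PT q) (hi : PT i) :
    PT (fun x => cmp (q x) (i x)) := by unfold cmp; fun_prop

end pt

end Simd

end Vale.Agent.P338
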