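import Vale.Agent.P338.Simd_FFT

/-! Adding a chirp convolution of one register to the other register. -/

namespace Vale.Agent.P338

open Vale.Agent.Lib.H23 Complex Finset

namespace Simd

variable {q : ℕ}

def half (q : ℕ) (N T : Un) (r : Bool) (a i0 j0 : ℕ) (tab : List Ex) : List Ins :=
  [shI r (i0 + (q - N.n / 2 % q))] ++ [dgI r tab] ++
    cor q N T r a (i0 + (q - N.n / 2 % q) + (q - j0 % q)) ++ [shI r (q - j0 % q)]

/-- doubles one block -/
def two (q : ℕ) (N : Un) (i0 : ℕ) : List Ex := (List.range N.n).map fun y =>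
  bif (!ltb y (N.n / 2)) && ltb (i0 + y) (q + N.n / 2) then cE 2 0 1 else cE 1 0 1

def tmask (Q : Un) (j0 l : ℕ) : List Bool :=
  (List.range Q.n).map fun z => (!ltb z j0) && ltb z (j0 + l)

def chunk (Q N T : Un) (r : Bool) (a i0 j0 : ℕ) : List Ins :=
  conj Q.n r false (tmask Q j0 (N.n / 2)) (half Q.n N T r a i0 j0 (two Q.n N i0)) ++
    conj Q.n r true (tmask Q j0 (N.n / 2)) (half Q.n N T r a i0 j0 [])

def row (Q N T : Un) (r : Bool) (a j0 k : ℕ) : List Ins :=
  (List.range k).flatMap fun i => chunk Q N T r a (i * (N.n / 2)) j0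

def tp (Q N T : Un) (r : Bool) (a k : ℕ) : List Ins :=
  (List.range k).flatMap fun j => row Q N T r a (j * (N.n / 2)) 4

theorem length_chunk (Q N T : Un) (r : Bool) (a i0 j0 : ℕ) :
    (chunk Q N T r a i0 j0).length = T.n * 576 + 34 := by
  simp only [chunk, half, List.length_append, length_conj, length_cor, List.length_singleton]
  ring

theorem length_tp (Q N T : Un) (r : Bool) (a : ℕ) :
    (tp Q N T r a 4).length = T.n * 9216 + 544 := by
  rw [tp, length_flatMap_const (k := 4 * (T.n * 576 + 34)) fun _ _ => by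
    rw [row, length_flatMap_const fun _ _ => length_chunk .., List.length_range], List.length_range]
  ring

theorem POK.half {u n : ℕ} {T : Un} (hn : n ≠ 0) (hq : 2 ≤ q) (h : n * q ≤ u) (hT : 2 ^ T.n ≤ u)
    (r : Bool) (a i0 j0 : ℕ) {tab : List Ex} (ht : ∀ e ∈ tab, ExOK u e) :
    POK u (half q ⟨n⟩ T r a i0 j0 tab) :=
  (((POK.sh (POK.nil u)).append (POK.dg ht (POK.nil u))).append
    (POK.cor hn hq h hT _ _ _)).append (POK.sh (POK.nil u))

theorem two_ok {u : ℕ} (hu : 1 ≤ u) (N : Un) (i0 : ℕ) : ∀ e ∈ two q N i0, ExOK u e := by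
  have h2 : 2 ≤ 2 ^ u := le_trans (by norm_num) (Nat.pow_le_pow_right two_pos hu)
  intro e he
  obtain ⟨y, -, rfl⟩ := List.mem_map.1 he
  cases (!ltb y (N.n / 2)) && ltb (i0 + y) (q + N.n / 2)
  · exact cE_ok hu (by simp) (by simp; omega) one_pos (by omega)
  · exact cE_ok hu (by simp) (by simpa using h2) one_pos (by omega)

theorem POK.tp {u n : ℕ} {T : Un} (hn : n ≠ 0) (hq : 2 ≤ q) (h : n * q ≤ u) (hT : 2 ^ T.n ≤ u)
    (r : Bool) (a k : ℕ) : POK u (tp ⟨q⟩ ⟨n⟩ T r a k) := by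
  have hu : 1 ≤ u := le_trans (Nat.one_le_two_pow) hT
  exact POK.flatMap fun _ _ => POK.flatMap fun _ _ =>
    (POK.half hn hq h hT _ _ _ _ (two_ok hu _ _)).conj.append
      (POK.half hn hq h hT _ _ _ _ (by simp)).conj

theorem loc_half [NeZero q] {T : ℕ} (r : Bool) (hq : 2 ^ T ≤ q) (a i0 j0 : ℕ) (tab : List Ex) :
    ∃ f, Loc q r (half q ⟨2 ^ T⟩ ⟨T⟩ r a i0 j0 tab) f ∧ ∀ A (y : ℕ), y < 2 ^ T →
      f A (j0 + y : ℕ) = (2 ^ T + 1) * (tabV tab y * A (y + i0 - (2 ^ T / 2 : ℕ))) +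
        ∑ d ∈ range (2 ^ T), ZMod.stdAddChar (N := q) (a * (i0 - (2 ^ T / 2 : ℕ) - j0 + d) ^ 2) *
          (tabV tab ((y + d) % 2 ^ T) * A (((y + d) % 2 ^ T : ℕ) + i0 - (2 ^ T / 2 : ℕ))) := by
  obtain ⟨f, hf, hf'⟩ := loc_cor r hq a (i0 + (q - 2 ^ T / 2 % q) + (q - j0 % q))
  refine ⟨_, (((Loc.sh r _).append (Loc.dg r tab)).append hf).append (Loc.sh r _),
    fun A y hy => ?_⟩
  have hv : ∀ z : ℕ, z < 2 ^ T → (z : ZMod q).val = z := fun z hz => ZMod.val_cast_of_lt (by omega)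
  have e : ((j0 + y : ℕ) : ZMod q) + -(j0 : ZMod q) = y := by push_cast; ring
  simp only [cast_back]
  rw [e, hf' _ _ hy, hv _ hy]
  simp only [Nat.cast_add, cast_back, ← sub_eq_add_neg, add_sub_assoc]
  congr 1
  refine sum_congr rfl fun d _ => ?_
  rw [hv _ (Nat.mod_lt _ (by positivity)), chi_eq]
  congr 2
  simp only [Int.cast_mul, Int.cast_pow, Int.cast_add, Int.cast_natCast, cast_back]
  ring

theorem run_chunk [NeZero q] {T : ℕ} (r : Bool) (hT : T ≠ 0) (hq : 2 ^ T ≤ q) (a i0 j0 : ℕ)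
    (A B : ZMod q → ℂ) : runI q (chunk ⟨q⟩ ⟨2 ^ T⟩ ⟨T⟩ r a i0 j0) (mk r A B) =
      mk r A fun z => B z + if j0 ≤ z.val ∧ z.val < j0 + 2 ^ T / 2 then
        ∑ k ∈ range (2 ^ T / 2), if i0 + k < q then
          ZMod.stdAddChar (N := q) (a * ((i0 + k : ℕ) - z) ^ 2) * A (i0 + k : ℕ) else 0
        else 0 := by
  have hn : 2 ^ T ≠ 0 := by positivity
  have h2 : 2 ≤ q := le_trans (Nat.one_lt_two_pow hT) hq
  have hu : 2 ^ T ≤ 2 ^ T * q := Nat.le_mul_of_pos_right _ (by omega)
  obtain ⟨f, hf, hf'⟩ := loc_half r hq a i0 j0 (two q ⟨2 ^ T⟩ i0)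
  obtain ⟨g, hg, hg'⟩ := loc_half r hq a i0 j0 []
  rw [chunk, runI_append, run_conj hf (POK.half hn h2 le_rfl hu _ _ _ _ (two_ok (Nat.one_le_two_pow.trans hu) _ _)),
    run_conj hg (POK.half hn h2 le_rfl hu _ _ _ _ (by simp))]
  congr 1
  funext z
  simp only [cf, tmask, getD_range_map, ZMod.val_lt, if_true, ltb_eq]
  have hl : 2 ^ T = 2 ^ T / 2 + 2 ^ T / 2 := by
    obtain ⟨T, rfl⟩ := Nat.exists_eq_succ_of_ne_zero hT
    rw [pow_succ]; omega
  split_ifs with h
  · obtain ⟨y, hy⟩ := Nat.exists_eq_add_of_le h.1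
    have hz : z = (j0 + y : ℕ) := by rw [← hy, ZMod.natCast_zmod_val]
    have h3 : (!decide (z.val < j0) && decide (z.val < j0 + 2 ^ T / 2)) = true := by
      simp [h.1, h.2]
    rw [h3, hz, hf' _ _ (by omega), hg' _ _ (by omega)]
    have ht : ∀ x, x < 2 ^ T → tabV (two q ⟨2 ^ T⟩ i0) x =
        1 + if 2 ^ T / 2 ≤ x ∧ i0 + x < q + 2 ^ T / 2 then 1 else 0 := by
      intro x hx
      rw [tabV, two, getD_range_map, if_pos hx]
      by_cases h1 : 2 ^ T / 2 ≤ x <;> by_cases h2 : i0 + x < q + 2 ^ T / 2 <;>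
        simp [h1, h2, val_cE, not_le.1, not_lt.2]
      norm_num
    have ht' : ∀ d, tabV (two q ⟨2 ^ T⟩ i0) ((y + d) % 2 ^ T) = _ := fun d =>
      ht _ (Nat.mod_lt _ (by positivity))
    simp only [ht', ht y (by omega), tabV_nil, cond_true, cond_false, if_neg (show ¬(2 ^ T / 2 ≤ y ∧
      i0 + y < q + 2 ^ T / 2) by omega), add_mul, mul_add, sum_add_distrib, one_mul]
    generalize 2 ^ T / 2 = l at *
    have key : ∑ d ∈ range (2 ^ T), ZMod.stdAddChar (N := q) (a * (i0 - l - j0 + d) ^ 2) *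
        ((if l ≤ (y + d) % 2 ^ T ∧ i0 + (y + d) % 2 ^ T < q + l then 1 else 0) *
          A (((y + d) % 2 ^ T : ℕ) + i0 - l)) = ∑ k ∈ range l, if i0 + k < q then
          ZMod.stdAddChar (N := q) (a * ((i0 + k : ℕ) - (j0 + y : ℕ)) ^ 2) * A (i0 + k : ℕ)
          else 0 := by
      rw [show 2 ^ T = (l - y) + l + y by omega, sum_range_add, sum_range_add, sum_eq_zero,
        sum_eq_zero (s := range y), zero_add, add_zero]
      · refine sum_congr rfl fun k hk => ?_
        have hk := mem_range.1 hk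
        have e : (y + (l - y + k)) % (l - y + l + y) = l + k := by
          rw [Nat.mod_eq_of_lt (by omega)]; omega
        rw [e]
        by_cases h4 : i0 + k < q
        · rw [if_pos h4, if_pos (by omega), one_mul]
          congr 2
          · rw [Nat.cast_add, Nat.cast_sub (by omega)]; push_cast; ring
          · push_cast; ring
        · rw [if_neg h4, if_neg (by omega)]; simp
      · intro d hd
        have hd := mem_range.1 hd
        have e : (y + (l - y + l + d)) % (l - y + l + y) = y + d - y := by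
          rw [show y + (l - y + l + d) = d + (l - y + l + y) by omega, Nat.add_mod_right,
            Nat.mod_eq_of_lt (by omega)]
          omega
        rw [e, if_neg (by omega)]; simp
      · intro d hd
        have hd := mem_range.1 hd
        rw [Nat.mod_eq_of_lt (by omega), if_neg (by omega)]; simp
    rw [← key]
    ring
  · have h3 : (!decide (z.val < j0) && decide (z.val < j0 + 2 ^ T / 2)) = false := by
      by_cases h1 : z.val < j0
      · simp [h1]
      · simp [show ¬ z.val < j0 + 2 ^ T / 2 by omega]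
    simp [h3]

theorem run_row [NeZero q] {T : ℕ} (r : Bool) (hT : T ≠ 0) (hq : 2 ^ T ≤ q) (a j0 k : ℕ)
    (A B : ZMod q → ℂ) : runI q (row ⟨q⟩ ⟨2 ^ T⟩ ⟨T⟩ r a j0 k) (mk r A B) =
      mk r A fun z => B z + if j0 ≤ z.val ∧ z.val < j0 + 2 ^ T / 2 then
        ∑ i ∈ range (k * (2 ^ T / 2)), if i < q then
          ZMod.stdAddChar (N := q) (a * (i - z) ^ 2) * A i else 0
        else 0 := by
  induction k with
  | zero => simp [row]
  | succ k ih =>
    rw [row, List.range_succ, List.flatMap_append, runI_append, ← row, ih, List.flatMap_singleton,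
      run_chunk r hT hq, add_mul, one_mul]
    congr 1
    funext z
    split_ifs
    · rw [sum_range_add, add_assoc]
    · simp

/-- the chirp convolution -/
noncomputable def Kop [NeZero q] (α : ZMod q) (A : ZMod q → ℂ) : ZMod q → ℂ :=
  fun j => ∑ k, ZMod.stdAddChar (N := q) (α * (k - j) ^ 2) * A k

theorem sum_range_zmod [NeZero q] (f : ZMod q → ℂ) : ∑ i ∈ range q, f i = ∑ k, f k := by
  refine sum_nbij' (fun i => (i : ZMod q)) ZMod.val (fun _ _ => mem_univ _)
    (fun k _ => mem_range.2 (ZMod.val_lt k)) (fun i hi => ZMod.val_cast_of_lt (mem_range.1 hi))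
    (fun k _ => ZMod.natCast_zmod_val k) fun _ _ => rfl

theorem run_tp [NeZero q] {T : ℕ} (r : Bool) (hT : T ≠ 0) (hq : 2 ^ T ≤ q) (hq' : q ≤ 2 * 2 ^ T)
    (a : ℕ) (A B : ZMod q → ℂ) : runI q (tp ⟨q⟩ ⟨2 ^ T⟩ ⟨T⟩ r a 4) (mk r A B) =
      mk r A fun z => B z + Kop a A z := by
  have hl : q ≤ 4 * (2 ^ T / 2) := by
    obtain ⟨T, rfl⟩ := Nat.exists_eq_succ_of_ne_zero hT
    rw [pow_succ] at hq' ⊢; omega
  have e : ∀ z : ZMod q, (∑ i ∈ range (4 * (2 ^ T / 2)), if i < q then
      ZMod.stdAddChar (N := q) (a * (i - z) ^ 2) * A i else 0) = Kop a A z := by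
    intro z
    obtain ⟨c, hc⟩ := Nat.exists_eq_add_of_le hl
    rw [hc, sum_range_add, sum_eq_zero (s := range c) fun i _ => if_neg (by omega), add_zero, Kop,
      ← sum_range_zmod]
    exact sum_congr rfl fun i hi => if_pos (mem_range.1 hi)
  have key : ∀ k, runI q (tp ⟨q⟩ ⟨2 ^ T⟩ ⟨T⟩ r a k) (mk r A B) =
      mk r A fun z => B z + if z.val < k * (2 ^ T / 2) then Kop a A z else 0 := by
    intro k
    induction k with
    | zero => simp [tp]
    | succ k ih =>
      rw [tp, List.range_succ, List.flatMap_append, runI_append, ← tp, ih, List.flatMap_singleton,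
        run_row r hT hq, add_mul, one_mul]
      congr 1
      funext z
      rw [e]
      dsimp only
      split_ifs <;> first | omega | simp
  rw [key]
  congr 1
  funext z
  rw [if_pos (lt_of_lt_of_le z.val_lt hl)]

section pt

variable {α : Type} [Enc α]

@[fun_prop] theorem PT_half {q a i j : α → ℕ} {N T : α → Un} {r : α → Bool} {tab : α → List Ex}
    (hq : PT q) (hN : PT N) (hT : PT T) (hr : PT r) (ha : PT a) (hi : PT i) (hj : PT j)
    (ht : PT tab) : PT (fun x => half (q x) (N x) (T x) (r x) (a x) (i x) (j x) (tab x)) := by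
  unfold half; fun_prop

@[fun_prop] theorem PT_two {q i : α → ℕ} {N : α → Un} (hq : PT q) (hN : PT N) (hi : PT i) :
    PT (fun x => two (q x) (N x) (i x)) := by unfold two; fun_prop

@[fun_prop] theorem PT_tmask {j l : α → ℕ} {Q : α → Un} (hQ : PT Q) (hj : PT j) (hl : PT l) :
    PT (fun x => tmask (Q x) (j x) (l x)) := by unfold tmask; fun_prop

@[fun_prop] theorem PT_chunk {a i j : α → ℕ} {Q N T : α → Un} {r : α → Bool}
    (hQ : PT Q) (hN : PT N) (hT : PT T) (hr : PT r) (ha : PT a) (hi : PT i) (hj : PT j) :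
    PT (fun x => chunk (Q x) (N x) (T x) (r x) (a x) (i x) (j x)) := by
  unfold chunk; fun_prop

@[fun_prop] theorem PT_row {a j : α → ℕ} {Q N T : α → Un} {r : α → Bool} (k : ℕ)
    (hQ : PT Q) (hN : PT N) (hT : PT T) (hr : PT r) (ha : PT a) (hj : PT j) :
    PT (fun x => row (Q x) (N x) (T x) (r x) (a x) (j x) k) := by
  unfold row; fun_prop

@[fun_prop] theorem PT_tp {a : α → ℕ} {Q N T : α → Un} {r : α → Bool} (k : ℕ)
    (hQ : PT Q) (hN : PT N) (hT : PT T) (hr : PT r) (ha : PT a) :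
    PT (fun x => tp (Q x) (N x) (T x) (r x) (a x) k) := by
  unfold tp; fun_prop

end pt

end Simd

end Vale.Agent.P338
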