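import Vale.Agent.P338.Av

/-! One global step: shift, layers, diagonal. -/

namespace Vale.Agent.P338

open Vale.Agent.Lib Vale.Agent.Lib.H23 Enc Function

noncomputable def stq (m : Pm) (fl : Bool) (i q : ℕ) : Step :=
  (prog (⟨q ^ 2⟩, ⟨m.t⟩, fl)).getD i default

noncomputable def gsh (m : Pm) (fl : Bool) (i v : ℕ) : ℕ :=
  crt m.B (m.qs.map fun q => (q ^ 2, stShift (stq m fl i q) (role q v)))

variable {G α : Type} [Enc α] {D : Dom G α} {m : G → Pm} {f : G → (ℕ → ℕ) → List Bool}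

theorem gsh_spec {m : Pm} (h : m.OK) (fl : Bool) (i v : ℕ) {q : ℕ} (hq : q ∈ m.qs) :
    gsh m fl i v ≡ stShift (stq m fl i q) (role q v) [MOD q ^ 2] := by
  refine crt_spec (p := (q ^ 2, stShift (stq m fl i q) (role q v))) (pow_pos h.mods.pos 2)
    (fun p hp => ?_) ?_ (List.mem_map.2 ⟨q, hq, rfl⟩)
  · obtain ⟨q, hq, rfl⟩ := List.mem_map.1 hp
    obtain ⟨h1, h2⟩ := Uni.sub h.mods.cop hq (by have := h.mods.three q hq; omega)
    refine ⟨pow_dvd_pow_of_dvd h1 2, ?_⟩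
    show (q ^ 2).Coprime (m.qs.prod ^ 2 / q ^ 2)
    rw [← Nat.div_pow h1]
    exact h2.pow 2 2
  · rw [List.map_map, List.pairwise_map]
    exact h.mods.cop.imp fun h => h.pow 2 2

theorem prog_ok {m : Pm} (h : m.OK) (fl : Bool) {q : ℕ} (hq : q ∈ m.qs) [NeZero (q ^ 2)] :
    (prog (⟨q ^ 2⟩, ⟨m.t⟩, fl)).length = m.P ∧
      (∀ s ∈ prog (⟨q ^ 2⟩, ⟨m.t⟩, fl), ∀ b y, (stTab s b y).length ≤ cP ∧
        ∀ e ∈ stTab s b y, ExOK (cP * (q ^ 2) ^ 2) e) ∧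
      ∀ (x : Bool × ZMod (q ^ 2) → ℂ) (b : Bool) (j : ZMod (q ^ 2)),
        runP (q ^ 2) (prog (⟨q ^ 2⟩, ⟨m.t⟩, fl)) x (b, j) =
          ∑ k : ZMod (q ^ 2), ker (q ^ 2) fl j.val k.val * x (b, k) :=
  prog_spec (q ^ 2) m.t fl (h.mods.odd q hq).pow (by have := h.mods.three q hq; nlinarith)
    (h.hq q hq).2.1

theorem dlist_ok {m : Pm} (h : m.OK) (fl : Bool) {i : ℕ} (hi : i < m.P) (v y : ℕ) :
    (dlist m.qs (stq m fl i) v y).length ≤ m.u ∧
      ∀ e ∈ dlist m.qs (stq m fl i) v y, ExOK m.u e := by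
  have key : ∀ q ∈ m.qs, ∀ b y, (stTab (stq m fl i q) b y).length ≤ cP ∧
      ∀ e ∈ stTab (stq m fl i q) b y, ExOK m.u e := fun q hq b y => by
    have : NeZero (q ^ 2) := ⟨by have := h.mods.three q hq; positivity⟩
    obtain ⟨h1, h2, -⟩ := prog_ok h fl hq
    have h3 : stq m fl i q ∈ prog (⟨q ^ 2⟩, ⟨m.t⟩, fl) := by
      rw [stq, List.getD_eq_getElem _ _ (h1 ▸ hi)]
      exact List.getElem_mem _
    refine ⟨(h2 _ h3 b y).1, fun e he => ((h2 _ h3 b y).2 e he).mono ?_⟩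
    rw [← pow_mul]
    exact (h.hq q hq).2.2.1
  constructor
  · rw [dlist, List.length_flatMap]
    refine (List.sum_le_card_nsmul _ cP fun x hx => ?_).trans ?_
    · obtain ⟨q, hq, rfl⟩ := List.mem_map.1 hx
      exact (key q hq _ _).1
    · rw [List.length_map, smul_eq_mul, mul_comm]
      exact h.hcr
  · intro e he
    obtain ⟨q, hq, he⟩ := List.mem_flatMap.1 he
    exact (key q hq _ _).2 e he

/-- the steps as a function of the small data -/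
noncomputable def stqS (sm : List ℕ × Un × Un × Un × ℕ) (fl : Bool) (i q : ℕ) : Step :=
  (prog (unMin (q * q) sm.2.2.1, sm.2.1, fl)).getD i default

theorem stqS_eq {m : Pm} (h : m.OK) (fl : Bool) (i : ℕ) {q : ℕ} (hq : q ∈ m.qs) :
    stqS m.sm fl i q = stq m fl i q := by
  rw [stqS, stq, ← sq]
  show (prog (⟨min (q ^ 2) m.u⟩, ⟨m.t⟩, fl)).getD i default = _
  rw [min_eq_left (h.hq q hq).2.2.2]

theorem PT_stqS {β : Type} [Enc β] (fl : Bool) {s : β → List ℕ × Un × Un × Un × ℕ} {i q : β → ℕ}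
    (hs : PT s) (hi : PT i) (hq : PT q) : PT fun x => stqS (s x) fl (i x) (q x) :=
  PT.getD (PT.comp (g := fun x => (unMin (q x * q x) (s x).2.2.1, (s x).2.1, fl)) PT_prog
    (by fun_prop)) hi (PT.const _)

theorem PT_gsh (fl : Bool) : ∃ F : (List ℕ × Un × Un × Un × ℕ) × ℕ → ℕ → ℕ,
    (PT fun x : ((List ℕ × Un × Un × Un × ℕ) × ℕ) × ℕ => F x.1 x.2) ∧
      ∀ m : Pm, m.OK → ∀ i v, F (m.sm, i) v = gsh m fl i v := by
  refine ⟨fun x v => crt (x.1.1.prod * x.1.1.prod)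
    (x.1.1.map fun q => (q * q, stShift (stqS x.1 fl x.2 q) (role q v))), ?_, fun m h i v => ?_⟩
  · refine PT_crt (by fun_prop) (PT.map (PT.pair (by fun_prop) ?_) (by fun_prop))
    have h1 := PT_stqS (β := (((List ℕ × Un × Un × Un × ℕ) × ℕ) × ℕ) × ℕ) fl
      (s := fun x => x.1.1.1) (i := fun x => x.1.1.2) (q := fun x => x.2)
      (by fun_prop) (by fun_prop) (by fun_prop)
    exact PT.cond (by fun_prop) h1.snd.fst h1.fst
  · rw [gsh, Pm.B, sq]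
    refine congrArg _ (List.map_congr_left fun q hq => ?_)
    rw [stqS_eq h fl i hq, sq]

theorem PT_dlist (fl : Bool) : ∃ F : ((List ℕ × Un × Un × Un × ℕ) × ℕ) × List ℕ → List Ex,
    PT F ∧ ∀ m : Pm, m.OK → ∀ i xs,
      F ((m.sm, i), pre 5 xs) = dlist m.qs (stq m fl i) (xs 1) (xs 4) := by
  refine ⟨fun x => x.1.1.1.flatMap fun q => stTab (stqS x.1.1 fl x.1.2 q) (role q (x.2.getD 1 0))
    (x.2.getD 4 0 % (q * q)), ?_, fun m h i xs => ?_⟩
  · refine PT_flatMap ?_ (by fun_prop)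
    have h1 := PT_stqS (β := (((List ℕ × Un × Un × Un × ℕ) × ℕ) × List ℕ) × ℕ) fl
      (s := fun x => x.1.1.1) (i := fun x => x.1.1.2) (q := fun x => x.2)
      (by fun_prop) (by fun_prop) (by fun_prop)
    exact PT.getD (PT.cond (by fun_prop) h1.snd.snd.snd h1.snd.snd.fst) (by fun_prop) (PT.const _)
  · refine List.flatMap_congr fun q hq => ?_
    dsimp only
    rw [stqS_eq h fl i hq, getD_pre (by norm_num), getD_pre (by norm_num), sq]

theorem LS.ws {β : Type} [Enc β] {x : G → β} {S : G → ℕ} {h : Bd (fun g => Lam (S g)) D.B}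
    (hx : LS D x) (hS : ∀ g, D.S g ≤ S g) : LS (D.ws S h) x := by
  obtain ⟨k, hk⟩ := hx.2
  exact ⟨hx.1, k, fun g => (hk g).trans (Nat.pow_le_pow_left (Nat.add_le_add_right (hS g) 2) k)⟩

theorem Valid.shf {m : Pm} (h : m.OK) {xs : ℕ → ℕ} (hx : Valid m.big xs) (g : ℕ → ℕ) :
    Valid m.big (shf m.B g xs) :=
  hx.update (Nat.mod_lt _ (pow_pos h.mods.pos 2))

/-- the instance of the layer procedure -/
noncomputable def Pm.OK.clj {m : Pm} (h : m.OK) : ClJ where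
  O := 2
  M := m.B'
  Mid := 1
  R := m.B
  T := m.T
  L := m.L
  t := m.t
  A := m.n.size
  d := m.d
  d' := m.d
  qs := m.qs
  hL := by have := h.two_le; omega
  cop := h.mods.cop
  hq q hq := by
    have h3 := h.mods.three q hq
    obtain ⟨h1, h2⟩ := Uni.sub h.mods.cop hq (by omega)
    exact ⟨h.mods.odd q hq, by omega, h1, h2, (Nat.le_self_pow two_ne_zero q).trans (h.hq q hq).2.1⟩
  hM := (Nat.le_self_pow two_ne_zero _).trans h.hB
  hR := Nat.le_self_pow two_ne_zero _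
  hd := (Nat.le_mul_of_pos_left _ h.ht.1).trans_lt h.hd.2
  hA := h.hd.1
  ht := h.hd.2
  hT := h.hW.mul_left 2

theorem Pm.le_bud (m : Pm) (τ : ℕ) : m.N * (τ + (2 * m.L + 3)) ≤ m.bud τ := by
  refine Nat.mul_le_mul_left _ ?_
  rw [add_comm]
  exact Nat.add_le_add_right
    (Nat.le_mul_of_pos_left _ (Nat.mul_pos (Nat.succ_pos _) (sw_pos _))) _

theorem Pm.OK.T_pos {m : Pm} (h : m.OK) : 1 ≤ m.T' ∧ m.T' ≤ m.T := by
  have := h.hT'
  unfold Pm.T
  omega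

theorem Valid.join5 {m : Pm} {xs ys : ℕ → ℕ} (hx : Valid [2, m.B', 1, m.B', m.B] xs)
    (hy : Valid [m.T] ys) : Valid m.big (P338.join 5 xs ys) := hx.join hy

/-- the cell holding the rounded diagonal entry -/
theorem Lin.twc (hA : Av D m) (fl : Bool) {i : G → ℕ} (hi : LS D i) (hlt : ∀ g, i g < (m g).P)
    {xs : G → ℕ → ℕ} (hx : LS D fun g => pre 5 (xs g))
    (hΛ : Bd (fun g => Lam (2 * (m g).L + 2)) D.B) :
    ∃ y : G → List Bool, Lin D y ∧ ∀ g, (y g).length = 2 * (m g).L + 2 ∧ ∃ a b : ℤ,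
      ‖(a + b * Complex.I : ℂ) - 2 ^ (m g).p *
        prodVal (dlist (m g).qs (stq (m g) fl (i g)) (xs g 1) (xs g 4))‖ ≤ 2 ∧
      cv (m g).L (y g) = 2 ^ (m g).r * ((a : ZMod (mm (m g).L)) + b * 2 ^ (m g).L) := by
  obtain ⟨F2, p2, e2⟩ := PT_dlist fl
  obtain ⟨apx, p3, e3⟩ := apx_exists
  obtain ⟨ctw, p4, e4⟩ := exists_ctw
  have hS : ∀ g, D.S g ≤ 2 * (m g).L + 2 := fun g => by
    have a1 := (hA.ok g).fat
    have a2 := le_Lam (m g).S
    rw [hA.S]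
    omega
  have b1 : LS (D.ws _ hΛ) fun g => (⟨(m g).L⟩ : Un) :=
    ⟨hA.L, Small.un 1 fun g => by show _ ≤ 1 * (2 * (m g).L + 2 + 1); omega⟩
  have b2 : LS (D.ws _ hΛ) fun g => (⟨(m g).p⟩ : Un) :=
    ⟨hA.p, Small.un 1 fun g => by
      show _ ≤ 1 * (2 * (m g).L + 2 + 1)
      unfold Pm.p Pm.L
      omega⟩
  have b0 : LS D fun g => dlist (m g).qs (stq (m g) fl (i g)) (xs g 1) (xs g 4) :=
    (LS.comp p2 ((hA.sm.pair hi).pair hx)).congr fun g => (e2 _ (hA.ok g) _ _).symm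
  have b3 := LS.comp p3 (b2.pair ((hA.u.ws hS).pair (b0.ws hS)))
  refine ⟨_, Lin.ws.1 (LS.comp p4 (b1.pair ((hA.r.ws hS).pair b3))).1, fun g => ?_⟩
  obtain ⟨d3, d4⟩ := dlist_ok (hA.ok g) fl (hlt g) (xs g 1) (xs g 4)
  exact ⟨(e4 _ _ _ _).1, _, _, e3 _ _ _ d3 d4, (e4 _ _ _ _).2⟩

theorem twid_bd : ∃ K, ∀ (m : Pm) (τ : ℕ) (f : (ℕ → ℕ) → List Bool), m.OK →
    (∀ ys, Valid [m.T] ys → (f ys).length = 2 * m.L + 2) →
    sz m.tup + sz (arr [m.T] f) + 1 ≤ K * (m.T * (τ + (2 * m.L + 3))) ∧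
      Lam m.S ≤ m.T * (τ + (2 * m.L + 3)) := by
  obtain ⟨K1, hK1⟩ := sz_tup
  refine ⟨K1 + 6, fun m τ f h hw => ?_⟩
  have a1 := hK1 _ h
  have a3 := h.fat
  have a4 := sz_arr_le fun ys hy => (hw ys hy).le
  have a5 : 2 * m.L + 3 ≤ m.T * (2 * m.L + 3) :=
    Nat.le_mul_of_pos_left _ (by have := h.T_pos; omega)
  have a6 : m.T * (2 * m.L + 3) ≤ m.T * (τ + (2 * m.L + 3)) := Nat.mul_le_mul_left _ (by omega)
  have a7 : K1 * (m.L + 1) ≤ K1 * (m.T * (τ + (2 * m.L + 3))) := Nat.mul_le_mul_left _ (by omega)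
  have a9 : [m.T].prod * (4 * (2 * m.L + 2) + 2) ≤ 4 * (m.T * (2 * m.L + 3)) := by
    rw [List.prod_singleton]; nlinarith
  rw [add_mul]
  omega

theorem Lin.twB (hA : Av D m) (fl : Bool) {i : G → ℕ} (hi : LS D i) (hlt : ∀ g, i g < (m g).P)
    {xs : G → ℕ → ℕ} (hx : LS D fun g => pre 5 (xs g)) (h : Lin D fun g => arr [(m g).T] (f g))
    (hw : ∀ g ys, Valid [(m g).T] ys → (f g ys).length = 2 * (m g).L + 2) {τ : G → ℕ}
    (hm : ∀ g env, D.env g env → MulOK env (2 * (m g).L + 2) (τ g))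
    (hB : Bd (fun g => (m g).T * (τ g + (2 * (m g).L + 3))) D.B) :
    ∃ o : G → (ℕ → ℕ) → List Bool, Lin D (fun g => arr [(m g).T] (o g)) ∧
      ∀ g ys, Valid [(m g).T] ys → (o g ys).length = 2 * (m g).L + 2 ∧ ∃ a b : ℤ,
      ‖(a + b * Complex.I : ℂ) - 2 ^ (m g).p *
        prodVal (dlist (m g).qs (stq (m g) fl (i g)) (xs g 1) (xs g 4))‖ ≤ 2 ∧
      cv (m g).L (o g ys) = 2 ^ (m g).r * ((a : ZMod (mm (m g).L)) + b * 2 ^ (m g).L) *
        cv (m g).L (f g ys) := by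
  obtain ⟨y, b4, b5⟩ := Lin.twc hA fl hi hlt hx (hB.le fun r =>
    ((hA.ok _).hΛ.trans (hA.ok _).T_pos.2).trans (Nat.le_mul_of_pos_right _ (by omega)))
  have v0 : ∀ g, ∀ c < (m g).T, Valid [(m g).T] (consF c fun _ => 0) := fun g c hc =>
    aL_valid_consF hc (valid_nil.2 fun _ => rfl)
  obtain ⟨F, c1, c2⟩ := exists_cmul (T := fun g => (m g).T) (τ := τ)
    (a := fun g c => f g (consF c fun _ => 0)) hA.L
    (h.congr fun r => (arr_single _ _).symm) b4 (fun r => (hA.ok _).two_le)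
    (fun r => ⟨(b5 r).1, fun c hc => hw _ _ (v0 r c hc)⟩) hm
    (hB.le fun r => Nat.mul_le_mul_left _ (by omega))
  refine ⟨fun r ys => F r (f r ys), c1.congr fun r => arr_single _ _, fun r ys hy => ?_⟩
  obtain ⟨d1, d2⟩ := c2 r _ (hw _ _ hy)
  obtain ⟨-, a, b, d3, d4⟩ := b5 r
  exact ⟨d1, a, b, d3, by rw [d2, d4]⟩

/-- multiplication by the diagonal -/
theorem Ar.twid (hA : Av D m) (fl : Bool) {i : G → ℕ} (hi : LS D i)
    (hlt : ∀ g, i g < (m g).P) (h : Ar D (fun g => (m g).big) f)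
    (hw : ∀ g xs, Valid (m g).big xs → (f g xs).length = 2 * (m g).L + 2) {τ : G → ℕ}
    (hm : ∀ g env, D.env g env → MulOK env (2 * (m g).L + 2) (τ g))
    (hB : Bd (fun g => (m g).bud (τ g)) D.B) :
    ∃ f' : G → (ℕ → ℕ) → List Bool, Ar D (fun g => (m g).big) f' ∧ ∀ g xs, Valid (m g).big xs →
      (f' g xs).length = 2 * (m g).L + 2 ∧ ∃ a b : ℤ, ‖(a + b * Complex.I : ℂ) - 2 ^ (m g).p *
          prodVal (dlist (m g).qs (stq (m g) fl (i g)) (xs 1) (xs 4))‖ ≤ 2 ∧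
          cv (m g).L (f' g xs) = 2 ^ (m g).r * ((a : ZMod (mm (m g).L)) + b * 2 ^ (m g).L) *
            cv (m g).L (f g xs) := by
  obtain ⟨K1, hK1⟩ := twid_bd
  obtain ⟨K2, hK2⟩ := hi.2.bd
  have c1 : LS D fun g => [2, (m g).B', 1, (m g).B', (m g).B] :=
    (LS.comp (f := fun l : List ℕ => l.take 5) (PT_take (PT.const 5) PT.id) hA.big).congr
      fun _ => rfl
  have c2 : LS D fun g => [(m g).T] :=
    LS.comp (f := fun x : ℕ => [x]) (PT.cons PT.id (PT.const [])) hA.T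
  have c3 : ∀ g xs, Valid [2, (m g).B', 1, (m g).B', (m g).B] xs →
      sz ((m g).tup, i g) + sz (arr [(m g).T] fun ys => f g (join 5 xs ys)) + Lam (D.S g) ≤
        (K1 + K2 + 1) * ((m g).T * (τ g + (2 * (m g).L + 3))) := fun g xs hx => by
    obtain ⟨a1, a3⟩ := hK1 (m g) (τ g) (fun ys => f g (join 5 xs ys)) (hA.ok g)
      fun ys hy => hw g _ (hx.join5 hy)
    have a2 : sz (i g) ≤ K2 * Lam (D.S g) := hK2 g
    rw [← hA.S] at a3
    have a8 := Nat.mul_le_mul_left K2 a3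
    rw [sz_pair, add_mul, add_mul]
    omega
  have c4 : Bd (fun g => [2, (m g).B', 1, (m g).B', (m g).B].prod *
      ((m g).T * (τ g + (2 * (m g).L + 3)))) D.B := (hB.cmul 2).le fun g => by
    have e : [2, (m g).B', 1, (m g).B', (m g).B].prod * (m g).T = 2 * (m g).N := by
      rw [← Pm.prod_big]; simp [Pm.big, mul_assoc]
    rw [← mul_assoc, e, mul_assoc]
    exact Nat.mul_le_mul_left _ (Pm.le_bud _ _)
  obtain ⟨out, h3, s3⟩ := Lin.onBlocksE (D := D)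
    (p := fun g => [2, (m g).B', 1, (m g).B', (m g).B]) (s := fun g => [(m g).T])
    (s' := fun g => [(m g).T]) (f := f) h.lin c1 c2
    (fun g d hd => by rw [List.mem_singleton.1 hd]; have := (hA.ok g).T_pos; omega) h.cnt
    (hA.tup.pair hi.1) (fun g => (m g).T * (τ g + (2 * (m g).L + 3))) ⟨_, c3⟩ c4
    (fun g xs ys o => o.length = 2 * (m g).L + 2 ∧ ∃ a b : ℤ,
      ‖(a + b * Complex.I : ℂ) - 2 ^ (m g).p *
        prodVal (dlist (m g).qs (stq (m g) fl (i g)) (xs 1) (xs 4))‖ ≤ 2 ∧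
      cv (m g).L o = 2 ^ (m g).r * ((a : ZMod (mm (m g).L)) + b * 2 ^ (m g).L) *
        cv (m g).L (f g (join 5 xs ys)))
    fun G1 α1 _ D1 θ xs ho hx k1 k2 k3 => Lin.twB (hA.over ho k1.fst) fl (i := fun r => i (θ r))
      ⟨k1.snd, hi.2.over ho⟩ (fun r => hlt _) (xs := xs) k2
      (f := fun r ys => f (θ r) (join 5 (xs r) ys)) k3 (fun r ys hy => hw _ _ ((hx r).join5 hy))
      (τ := fun r => τ (θ r)) (fun r env he => hm _ env (ho.env r env he)) (ho.bd (Bd.refl _))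
  have w3 : ∀ g xs, Valid (m g).big xs → (out g xs).length = 2 * (m g).L + 2 ∧ ∃ a b : ℤ,
      ‖(a + b * Complex.I : ℂ) - 2 ^ (m g).p *
        prodVal (dlist (m g).qs (stq (m g) fl (i g)) (xs 1) (xs 4))‖ ≤ 2 ∧
      cv (m g).L (out g xs) = 2 ^ (m g).r * ((a : ZMod (mm (m g).L)) + b * 2 ^ (m g).L) *
        cv (m g).L (f g xs) := fun g zs hz => by
    obtain ⟨xs, ys, hx, hy, e⟩ :=
      Valid.unjoin (p := [2, (m g).B', 1, (m g).B', (m g).B]) (s := [(m g).T]) hz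
    have e1 : zs 1 = xs 1 := by rw [e]; rfl
    have e4 : zs 4 = xs 4 := by rw [e]; rfl
    rw [e1, e4, e]
    exact s3 g xs ys hx hy
  refine ⟨out, ⟨hA.big, h.pos, fun g xs hx => ?_, h3⟩, w3⟩
  rw [(w3 g xs hx).1, hA.S]
  exact (hA.ok g).fat

theorem Pm.OK.cl_bud {m : Pm} (h : m.OK) (τ : ℕ) :
    (sw m.n.size + m.t * sw m.r) * (m.big.prod * (2 * m.L + 3)) ≤ 2 * m.bud τ := by
  have a1 : m.t * sw m.r ≤ m.t * sw m.n.size := Nat.mul_le_mul_left _ (sw_mono h.hr)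
  rw [Pm.prod_big, Pm.bud]
  calc _ ≤ ((m.t + 1) * sw m.n.size) * (2 * m.N * (2 * m.L + 3)) :=
        Nat.mul_le_mul_right _ (by rw [add_mul]; omega)
    _ = 2 * (m.N * ((m.t + 1) * sw m.n.size * (2 * m.L + 3))) := by ring
    _ ≤ _ := Nat.mul_le_mul_left _ (Nat.mul_le_mul_left _ (Nat.le_add_right _ _))

theorem Ar.gstep (hA : Av D m) (fl : Bool) {i : G → ℕ} (hi : LS D i)
    (hlt : ∀ g, i g < (m g).P) (h : Ar D (fun g => (m g).big) f)
    (hw : ∀ g xs, Valid (m g).big xs → (f g xs).length = 2 * (m g).L + 2) {τ : G → ℕ}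
    (hm : ∀ g env, D.env g env → MulOK env (2 * (m g).L + 2) (τ g))
    (hB : Bd (fun g => (m g).bud (τ g)) D.B) :
    ∃ f' : G → (ℕ → ℕ) → List Bool, Ar D (fun g => (m g).big) f' ∧ ∀ g,
      (∀ xs, Valid (m g).big xs → (f' g xs).length = 2 * (m g).L + 2) ∧
      ∀ cs : ℕ → ℕ, (∀ q ∈ (m g).qs, IsNeg (m g).B' q (cs q)) → ∀ xs, Valid (m g).big xs →
        Good (m g).qs (xs 1) → ∃ a b : ℤ, ‖(a + b * Complex.I : ℂ) - 2 ^ (m g).p *
          prodVal (dlist (m g).qs (stq (m g) fl (i g)) (xs 1) (xs 4))‖ ≤ 2 ∧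
          cv (m g).L (f' g xs) = 2 ^ (m g).r * ((a : ZMod (mm (m g).L)) + b * 2 ^ (m g).L) *
            lay (m g).L ((m g).qs.map fun q => sig (m g).B' (cs q))
              (fun ys => f g (shf (m g).B (gsh (m g) fl (i g)) ys)) xs := by
  obtain ⟨F1, p1, e1⟩ := PT_gsh fl
  have h1 : Ar D (fun g => (m g).big) fun g ys => f g (shf (m g).B (gsh (m g) fl (i g)) ys) :=
    (h.rot 4 (fun g => by simp [Pm.big]) (hA.sm.pair hi) (σ := fun x l => F1 x (l.getD 1 0))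
      (PT.comp (g := fun x : ((List ℕ × Un × Un × Un × ℕ) × ℕ) × List ℕ => (x.1, x.2.getD 1 0)) p1
        (by fun_prop))).congr (fun _ => rfl) fun g xs _ => by
      rw [getD_pre (by norm_num), e1 _ (hA.ok g)]
      rfl
  obtain ⟨f2, h2, s2⟩ := Ar.cl (j := fun g => (hA.ok g).clj) h1 hA.qs hA.L
    (fun g xs hx => hw g _ (Valid.shf (hA.ok g) hx _)) (fun g => (hA.ok g).ht.1)
    ((hB.cmul 2).le fun g => (hA.ok g).cl_bud _)
  obtain ⟨f3, h3, s3⟩ := Ar.twid hA fl hi hlt h2 (fun g => (s2 g).1) hm hB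
  refine ⟨f3, h3, fun g => ⟨fun xs hx => (s3 g xs hx).1, fun cs hc xs hx hg => ?_⟩⟩
  obtain ⟨-, a, b, d1, d2⟩ := s3 g xs hx
  exact ⟨a, b, d1, d2.trans (congrArg _ ((s2 g).2 cs hc xs hx hg))⟩

end Vale.Agent.P338
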