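import Vale.Agent.P338.SwapDefs
import Vale.Agent.P338.Net

namespace Vale.Agent.P338

open Vale.Agent.Lib Vale.Agent.Lib.H23 Enc Function

/-- a cell as a vector over the field with two elements -/
def bv (x : List Bool) : ℕ → ZMod 2 := fun t => if x.getD t false then 1 else 0

theorem bv_xor {x y : List Bool} (h : x.length = y.length) :
    bv (List.zipWith xor x y) = bv x + bv y := by
  funext t
  by_cases ht : t < x.length
  · have ht' : t < y.length := h ▸ ht
    simp only [bv, Pi.add_apply, List.getD_eq_getElem?_getD, List.getElem?_zipWith,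
      List.getElem?_eq_getElem ht, List.getElem?_eq_getElem ht', Option.getD_some]
    cases x[t] <;> cases y[t] <;> decide
  · have h1 : x[t]? = none := List.getElem?_eq_none (by omega)
    have h2 : y[t]? = none := List.getElem?_eq_none (by omega)
    simp [bv, List.getD_eq_getElem?_getD, List.getElem?_zipWith, h1, h2]

theorem bv_inj {x y : List Bool} (h : x.length = y.length) (e : bv x = bv y) : x = y := by
  refine List.ext_getElem h fun t h1 h2 => ?_
  have := congrFun e t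
  simp only [bv, List.getD_eq_getElem?_getD, List.getElem?_eq_getElem h1,
    List.getElem?_eq_getElem h2, Option.getD_some] at this
  revert this
  cases x[t] <;> cases y[t] <;> decide

theorem rep_split {n i : ℕ} (hi : i < n) (Q : ℕ) :
    List.replicate n Q = List.replicate i Q ++ Q :: List.replicate (n - 1 - i) Q := by
  obtain ⟨k, rfl⟩ : ∃ k, n = i + (k + 1) := ⟨n - 1 - i, by omega⟩
  rw [List.replicate_add, List.replicate_succ, show i + (k + 1) - 1 - i = k by omega]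

theorem shp_view {n i k : ℕ} (hi : i < n) (hk : k < n) (O Q Mid R : ℕ) :
    shp n O Q Mid R = (O :: List.replicate i Q) ++ Q ::
      ((List.replicate (n - 1 - i) Q ++ Mid :: List.replicate k Q) ++ Q ::
        (List.replicate (n - 1 - k) Q ++ [R])) := by
  unfold shp
  conv_lhs => rw [rep_split hi]
  nth_rewrite 1 [show Mid :: (List.replicate i Q ++ Q :: List.replicate (n - 1 - i) Q ++ [R]) =
    Mid :: (List.replicate k Q ++ Q :: List.replicate (n - 1 - k) Q ++ [R]) by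
      rw [← rep_split hi, ← rep_split hk]]
  simp only [List.cons_append, List.append_assoc]

/-- the shape without its last digit -/
def shq (n O Q Mid : ℕ) : List ℕ := O :: (List.replicate n Q ++ Mid :: List.replicate n Q)

theorem shp_app (n O Q Mid R : ℕ) : shp n O Q Mid R = shq n O Q Mid ++ [R] := by
  simp [shp, shq]

theorem length_shq (n O Q Mid : ℕ) : (shq n O Q Mid).length = 2 * n + 2 := by
  simp [shq]; omega

theorem prod_shp (n O Q Mid R : ℕ) :
    (shp n O Q Mid R).prod = O * (Q ^ n * (Mid * (Q ^ n * R))) := by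
  simp [shp]

theorem PT_rep {α : Type} [Enc α] (n : ℕ) {Q : α → ℕ} (hQ : PT Q) :
    PT fun x => List.replicate n (Q x) :=
  PT_replicate (u := fun _ => ⟨n⟩) (PT.const _) hQ

theorem pos_shp {n O Q Mid R : ℕ} (h1 : 0 < O) (h2 : 0 < Q) (h3 : 0 < Mid) (h4 : 0 < R) :
    ∀ d ∈ shp n O Q Mid R, 0 < d :=
  pos_of_prod (by rw [prod_shp]; positivity)

theorem valid_zero {ds : List ℕ} (h : ∀ d ∈ ds, 0 < d) : Valid ds fun _ => 0 :=
  fun i => getD_pos h i

theorem Valid.spos {n O Q Mid R : ℕ} {xs : ℕ → ℕ} (h : Valid (shp n O Q Mid R) xs)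
    (c : Fin n ⊕ Fin n) : xs (spos n c) < Q := by
  have := h (P338.spos n c)
  rwa [(shp_spos O Q Mid R c).2] at this

variable {G α : Type} [Enc α] {D : Dom G α}

/-- the parameters of a register -/
abbrev RP : Type := ℕ × Un × ℕ × ℕ

/-- the shape of a register -/
def RP.ds (n : ℕ) (p : RP) : List ℕ := shp n p.1 (3 ^ p.2.1.n) p.2.2.1 p.2.2.2

theorem PT_ds (n : ℕ) : PT (RP.ds n) := by
  have h := PT_rep n (Q := fun p : RP => 3 ^ p.2.1.n) (by fun_prop)
  unfold RP.ds shp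
  fun_prop

/-- exchange of two digits of a register by a recursive call -/
theorem swN_swap {Φ : ℕ → ℕ} {j : G → SwJ} {κ : G → ℕ} (hc : (swP Φ).Call D j κ) {n : ℕ}
    {p : G → RP} {d w : G → ℕ} (ha : ∀ g, (p g).2.1.n < 2 ^ d g) (hR : ∀ g, W ^ d g ∣ (p g).2.2.2)
    (hμ : ∀ g, (p g).2.1.n < (j g).a)
    (hp : ∀ g, ((p g).ds n).prod ≤ ((swP Φ).sh (j g)).prod) {α1 : Type} [Enc α1]
    {D1 : Dom G α1} {b : G → ℕ} (hD : Over D D1 id b) (hl : LS D1 p)
    {F : G → (ℕ → ℕ) → List Bool} (hF : Ar D1 (fun g => (p g).ds n) F)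
    (hw : ∀ g xs, Valid ((p g).ds n) xs → (F g xs).length = w g) {i k : ℕ} (hi : i < n)
    (hk : k < n) :
    Cost D1 (fun g => κ g * (Φ (p g).2.1.n * (((p g).ds n).prod * (w g + 1)))) fun g =>
      arr ((p g).ds n) fun xs => F g (xs ∘ Equiv.swap (i + 1) (k + (n + 2))) := by
  let P : RP → List ℕ := fun p => p.1 :: List.replicate i (3 ^ p.2.1.n)
  let M : RP → List ℕ := fun p =>
    List.replicate (n - 1 - i) (3 ^ p.2.1.n) ++ p.2.2.1 :: List.replicate k (3 ^ p.2.1.n)
  let S : RP → List ℕ := fun p => List.replicate (n - 1 - k) (3 ^ p.2.1.n) ++ [p.2.2.2]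
  have e : ∀ p : RP, p.ds n = P p ++ 3 ^ p.2.1.n :: (M p ++ 3 ^ p.2.1.n :: S p) :=
    fun p => shp_view hi hk _ _ _ _
  choose v v1 v2 v3 using fun g => exists_view5 (P (p g)) (M (p g)) (S (p g)) (3 ^ (p g).2.1.n)
  simp only [← e] at v1 v2
  have e2 : ∀ g, [(P (p g)).prod, 3 ^ (p g).2.1.n, (M (p g)).prod, 3 ^ (p g).2.1.n,
      (S (p g)).prod].prod = ((p g).ds n).prod := fun g => by
    rw [e]; simp only [List.prod_append, List.prod_cons, List.prod_nil, mul_one]
  let j' : G → SwJ := fun g => ⟨(P (p g)).prod, (p g).2.1.n, (M (p g)).prod, (S (p g)).prod,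
    d g, w g, ha g, (hR g).trans (by simp [S])⟩
  have hPT : PT fun p : RP => [(P p).prod, 3 ^ p.2.1.n, (M p).prod, 3 ^ p.2.1.n, (S p).prod] := by
    have h1 := PT_rep i (Q := fun p : RP => 3 ^ p.2.1.n) (by fun_prop)
    have h2 := PT_rep k (Q := fun p : RP => 3 ^ p.2.1.n) (by fun_prop)
    have h3 := PT_rep (n - 1 - i) (Q := fun p : RP => 3 ^ p.2.1.n) (by fun_prop)
    have h4 := PT_rep (n - 1 - k) (Q := fun p : RP => 3 ^ p.2.1.n) (by fun_prop)
    simp only [P, M, S]
    fun_prop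
  obtain ⟨f', h1, h2⟩ := hc G α1 D1 id b j' (fun g xs => F g (v g xs)) hD hμ
    (fun g => (e2 g).le.trans (hp g))
    ⟨hF.view (ds' := fun g => [(P (p g)).prod, 3 ^ (p g).2.1.n, (M (p g)).prod, 3 ^ (p g).2.1.n,
        (S (p g)).prod]) (LS.comp hPT hl)
      (fun g => pos_of_prod (by rw [e2]; exact List.prod_pos (hF.pos g)))
      (fun g => (v2 g _).symm),
     LS.comp (f := fun p : RP => p.2.1) (by fun_prop) hl, Lin.const (⟨0⟩ : Un),
     fun g xs hx => hw g _ (v1 g xs hx)⟩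
  refine (h1.mono fun g => le_of_eq ?_).congr fun g => ?_
  · show κ g * (Φ (p g).2.1.n * ([(P (p g)).prod, 3 ^ (p g).2.1.n, (M (p g)).prod,
      3 ^ (p g).2.1.n, (S (p g)).prod].prod * (w g + 1))) = _
    rw [e2]
  · rw [v2]
    refine arr_congr fun xs hx => ?_
    rw [(h2 g).2 xs hx]
    show _ = F g (v g _)
    rw [v3]
    have e3 : (P (p g)).length = i + 1 := by simp [P]
    have e4 : i + 1 + 1 + (M (p g)).length = k + (n + 2) := by simp [M]; omega
    rw [e3, e4]

theorem swap_spos {n : ℕ} (i k : Fin n) {Q : ℕ} (hQ : Odd Q) {xs : ℕ → ℕ}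
    (hx : ∀ c, xs (spos n c) < Q) :
    lft (spos n) Q ((Equiv.swap (Sum.inl i) (Sum.inr k)).permMatrix A2) xs =
      xs ∘ Equiv.swap ((i : ℕ) + 1) ((k : ℕ) + (n + 2)) := by
  refine lft_perm spos_inj hQ _ _ (fun c => ?_) (fun t ht => ?_) hx
  · exact (spos_inj.swap_apply (Sum.inl i) (Sum.inr k) c)
  · exact Equiv.swap_apply_of_ne_of_ne (ht (Sum.inl i)).symm (ht (Sum.inr k)).symm

/-- the register `A` holds the logical value `l` in the frame `B` -/
def SRel {m : ℕ} (n : ℕ) (p : RP) (w : ℕ) (X : Fin m → (ℕ → ℕ) → List Bool)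
    (B : Matrix (Fin n) (Fin n) ℤ) (l : Fin m → ZMod 2) (A : List (List Bool)) : Prop :=
  ∃ F, A = arr (p.ds n) F ∧ ∀ xs, Valid (p.ds n) xs → (F xs).length = w ∧
    bv (F xs) = ∑ i, l i • bv (X i (lft (spos n) (3 ^ p.2.1.n) (Mat B) xs))

theorem odd3 (a : ℕ) : Odd (3 ^ a) := Odd.pow (by decide)

theorem swN_sys {Φ : ℕ → ℕ} {j : G → SwJ} {κ : G → ℕ} (hc : (swP Φ).Call D j κ) {n : ℕ}
    {p : G → RP} {d w : G → ℕ} (ha : ∀ g, (p g).2.1.n < 2 ^ d g) (hR : ∀ g, W ^ d g ∣ (p g).2.2.2)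
    (hμ : ∀ g, (p g).2.1.n < (j g).a)
    (hp : ∀ g, ((p g).ds n).prod ≤ ((swP Φ).sh (j g)).prod) (hs : Small D p)
    (h0 : ∀ g, ∀ x ∈ (p g).ds n, 0 < x) (hw : ∀ g, Lam (D.S g) ≤ w g)
    (hB : ∀ g, ((p g).ds n).prod * (w g + 1) ≤ D.B g)
    {Ed : Matrix (Fin n) (Fin n) ℤ → Matrix (Fin n) (Fin n) ℤ → Prop}
    (hEd : ∀ ρ ρ', Ed ρ ρ' → ∃ (i k : Fin n) (N1 N2 : Matrix (Fin n ⊕ Fin n) (Fin n ⊕ Fin n) A2),
      Tri (spos n) N1 ∧ Tri (spos n) N2 ∧
      Mat ρ' = Mat ρ * (N1 * (Equiv.swap (Sum.inl i) (Sum.inr k)).permMatrix A2 * N2))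
    {m : ℕ} (X : G → Fin m → (ℕ → ℕ) → List Bool) :
    NetSys (ZMod 2) Ed D p (fun g => κ g * (Φ (p g).2.1.n * (((p g).ds n).prod * (w g + 1))))
      fun g => SRel n (p g) (w g) (X g) := by
  have hsz : ∀ g (F : (ℕ → ℕ) → List Bool), (∀ xs, Valid ((p g).ds n) xs → (F xs).length = w g) →
      sz (arr ((p g).ds n) F) ≤ 5 * D.B g := fun g F hF => by
    have h1 := sz_arr_le fun xs hx => (hF xs hx).le
    have h2 := hB g
    have h3 := D.pos g
    nlinarith [Nat.zero_le ((p g).ds n).prod]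
  have hd : ∀ g (c : Fin n ⊕ Fin n), spos n c < ((p g).ds n).length ∧
      ((p g).ds n).getD (spos n c) 1 = 3 ^ (p g).2.1.n := fun g c => shp_spos _ _ _ _ c
  have hv : ∀ g (N : Matrix (Fin n ⊕ Fin n) (Fin n ⊕ Fin n) A2) xs, Valid ((p g).ds n) xs →
      Valid ((p g).ds n) (lft (spos n) (3 ^ (p g).2.1.n) N xs) := fun g N xs hx =>
    hx.lft spos_inj (odd3 _) (fun c => (hd g c).2) N
  have mk : ∀ (α1 : Type) [Enc α1] (D1 : Dom G α1) (b : G → ℕ) (F : G → (ℕ → ℕ) → List Bool),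
      Over D D1 id b → Lin D1 p → (∀ g xs, Valid ((p g).ds n) xs → (F g xs).length = w g) →
      Lin D1 (fun g => arr ((p g).ds n) (F g)) → Ar D1 (fun g => (p g).ds n) F :=
    fun α1 _ D1 b F hD hl hF hA => ⟨LS.comp (PT_ds n) ⟨hl, hs.over hD⟩, h0,
      fun g xs hx => by rw [hF g xs hx, hD.S]; exact hw g, hA⟩
  refine ⟨⟨5, ?_⟩, ?_, ?_⟩
  · rintro g B l a ⟨F, rfl, hF⟩
    exact hsz g F fun xs hx => (hF xs hx).1
  · intro B B' hE α1 _ D1 l a hD hr hl hA
    obtain ⟨i, k, N1, N2, t1, t2, e⟩ := hEd B B' hE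
    choose F e1 hF using hr
    obtain rfl : a = fun g => arr ((p g).ds n) (F g) := funext e1
    have hQ : ∀ (α2 : Type) [Enc α2] (D2 : Dom G α2) (b : G → ℕ), Over D D2 id b → Lin D2 p →
        LS D2 fun g => 3 ^ (p g).2.1.n := fun α2 _ D2 b hD2 hl2 =>
      LS.comp (f := fun p : RP => 3 ^ p.2.1.n) (by fun_prop) ⟨hl2, hs.over hD2⟩
    have a1 := (mk α1 D1 _ F hD hl (fun g xs hx => (hF g xs hx).1) hA).tri spos_inj
      (hQ α1 D1 _ hD hl) (fun g => odd3 _) hd t1
    have a2 := swN_swap hc ha hR hμ hp hD ⟨hl, hs.over hD⟩ a1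
      (fun g xs hx => (hF g _ (hv g N1 xs hx)).1) i.2 k.2
    let F2 : G → (ℕ → ℕ) → List Bool := fun g xs => F g (lft (spos n) (3 ^ (p g).2.1.n)
      (N1 * (Equiv.swap (Sum.inl i) (Sum.inr k)).permMatrix A2) xs)
    have a3 := a2.congr (f := fun g => arr ((p g).ds n) (F2 g)) fun g =>
      arr_congr fun xs hx => by
        show F g _ = F g _
        rw [← swap_spos i k (odd3 _) hx.spos, lft_mul spos_inj (odd3 _)]
    have w2 : ∀ g xs, Valid ((p g).ds n) xs → (F2 g xs).length = w g :=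
      fun g xs hx => (hF g _ (hv g _ xs hx)).1
    refine ⟨fun g => arr ((p g).ds n) fun xs => F2 g (lft (spos n) (3 ^ (p g).2.1.n) N2 xs),
      (a3.andThen (t' := fun _ => 0) (hD.bd ⟨5, fun g => hsz g _ (w2 g)⟩) hl
        fun D2 hD2 hx hl2 => ?_).mono fun g => by simp, fun g => ⟨_, rfl, fun xs hx => ?_⟩⟩
    · exact ((mk _ D2 _ F2 (hD.trans hD2) hl2 w2 hx).tri spos_inj
        (hQ _ D2 _ (hD.trans hD2) hl2) (fun g => odd3 _) hd t2).lin.cost _
    · refine ⟨w2 g _ (hv g _ xs hx), ?_⟩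
      show bv (F g _) = _
      rw [(hF g _ (hv g _ _ (hv g _ xs hx))).2, lft_mul spos_inj (odd3 _),
        lft_mul spos_inj (odd3 _), e, Matrix.mul_assoc (Mat B)]
  · intro c B α1 _ D1 l l' a a' _ hr hr' _ hA hA'
    have hc2 : c = 0 ∨ c = 1 := by revert c; decide
    rcases hc2 with rfl | rfl
    · exact ⟨a, hA, fun g => by simpa using hr g⟩
    · refine ⟨fun g => List.zipWith (List.zipWith xor) (a g) (a' g),
        Lin.zipWith (Lin.zipWith (by fun_prop) (by fun_prop) (by fun_prop)) hA hA', fun g => ?_⟩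
      obtain ⟨F, e, hF⟩ := hr g
      obtain ⟨F', e', hF'⟩ := hr' g
      refine ⟨fun xs => List.zipWith xor (F xs) (F' xs), ?_, fun xs hx => ⟨?_, ?_⟩⟩
      · show List.zipWith _ (a g) (a' g) = _
        rw [e, e', zipWith_arr]
      · simp [(hF xs hx).1, (hF' xs hx).1]
      · rw [bv_xor ((hF xs hx).1.trans (hF' xs hx).1.symm), (hF xs hx).2, (hF' xs hx).2,
          ← Finset.sum_add_distrib]
        simp [add_smul]

theorem bsw_last (n : ℕ) : bsw n (2 * n + 2) = 2 * n + 2 := by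
  unfold bsw
  rw [if_neg (by omega), if_neg (by omega)]

theorem bsw_ne {n t : ℕ} (h : t ≠ 2 * n + 2) : bsw n t ≠ 2 * n + 2 := by
  unfold bsw
  split_ifs <;> omega

theorem swP_node_of {Φ : ℕ → ℕ} {m n e : ℕ} (hW : W = m) (hm : 0 < m) (hn : 2 ≤ n)
    (h : ∀ a, 0 < a → a % n = 0 → m + e * Φ (a / n) ≤ m * Φ a)
    {Ed : Matrix (Fin n) (Fin n) ℤ → Matrix (Fin n) (Fin n) ℤ → Prop}
    (hEd : ∀ ρ ρ', Ed ρ ρ' → ∃ (i k : Fin n) (N1 N2 : Matrix (Fin n ⊕ Fin n) (Fin n ⊕ Fin n) A2),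
      Tri (spos n) N1 ∧ Tri (spos n) N2 ∧
      Mat ρ' = Mat ρ * (N1 * (Equiv.swap (Sum.inl i) (Sum.inr k)).permMatrix A2 * N2))
    {ρ : Fin m → Matrix (Fin n) (Fin n) ℤ} (hρ : ∀ i, ρ i * ρ i = 4)
    (hN : Net (ZMod 2) Ed (Set.range fun i => (ρ i, (Pi.single i 1 : Fin m → ZMod 2))) e
      (Set.range fun i => (-ρ i, (Pi.single i 1 : Fin m → ZMod 2)))) :
    (swP Φ).Body fun j => 0 < j.a ∧ j.a % n = 0 := by
  intro G α _ D j f κ hj hin hc hB
  let p : G → RP := fun g => ((j g).O, ⟨(j g).a / n⟩, (j g).Mid, (j g).R / m)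
  have ea : ∀ g, (List.replicate n (3 ^ ((j g).a / n))).prod = 3 ^ (j g).a := fun g => by
    rw [List.prod_replicate, ← pow_mul, Nat.div_mul_cancel (Nat.dvd_of_mod_eq_zero (hj g).2)]
  have hd : ∀ g, (j g).d = (j g).d - 1 + 1 := fun g => by
    have h1 := (j g).ha
    have h2 := (hj g).1
    rcases Nat.eq_zero_or_pos (j g).d with h0 | h0
    · rw [h0] at h1; omega
    · omega
  have hR : ∀ g, m ^ ((j g).d - 1) * m ∣ (j g).R := fun g => by
    rw [← pow_succ, ← hd, ← hW]; exact (j g).hR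
  have eR : ∀ g, (j g).R / m * m = (j g).R := fun g =>
    Nat.div_mul_cancel ((Dvd.intro_left _ rfl).trans (hR g))
  have hpos := hin.ar.pos
  have pO : ∀ g, 0 < (j g).O := fun g => hpos g _ (by simp [swP])
  have pM : ∀ g, 0 < (j g).Mid := fun g => hpos g _ (by simp [swP])
  have pR : ∀ g, 0 < (j g).R := fun g => hpos g _ (by simp [swP])
  have pR' : ∀ g, 0 < (j g).R / m := fun g => by
    have h1 := pR g
    rw [← eR] at h1
    exact Nat.pos_of_mul_pos_right h1
  have h0 : ∀ g, ∀ x ∈ (p g).ds n, 0 < x := fun g =>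
    pos_shp (pO g) (by positivity) (pM g) (pR' g)
  have ep : ∀ g, ((swP Φ).sh (j g)).prod = ((p g).ds n).prod * m := fun g => by
    have h1 := ea g
    rw [List.prod_replicate] at h1
    show [(j g).O, 3 ^ (j g).a, (j g).Mid, 3 ^ (j g).a, (j g).R].prod =
      (shp n (j g).O (3 ^ ((j g).a / n)) (j g).Mid ((j g).R / m)).prod * m
    rw [prod_shp, h1]
    conv_lhs => rw [← eR]
    simp only [List.prod_cons, List.prod_nil]
    ring
  have eB : ∀ g, D.B g = m * (((p g).ds n).prod * ((j g).w + 1)) := fun g => by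
    rw [hB, RecA.vol, ep]
    show 1 * (_ * ((j g).w + 1)) = _
    ring
  have hl : LS D p :=
    (LS.comp (f := fun x : List ℕ × Un => ((x.1.getD 0 0, unMin (x.2.n / n) x.2, x.1.getD 2 0,
      x.1.getD 4 0 / m) : RP)) (by fun_prop) (hin.ar.hds.pair hin.pr)).congr fun g => by
        simp [p, swP, unMin, Nat.div_le_self]
  have hw : ∀ g, Lam (D.S g) ≤ (j g).w := fun g => by
    have h1 := valid_zero (hpos g)
    exact (hin.ar.fat g _ h1).trans (hin.len g _ h1).le
  choose v v1 v2 v3 using fun g =>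
    exists_viewN (List.replicate n (3 ^ ((j g).a / n))) (j g).O (j g).Mid (j g).R
  simp only [ea, List.length_replicate] at v1 v2 v3
  let q : G → List ℕ := fun g => shq n (j g).O (3 ^ ((j g).a / n)) (j g).Mid
  have eq1 : ∀ g, (p g).ds n = q g ++ [(j g).R / m] := fun g => shp_app _ _ _ _ _
  have eq2 : ∀ g, (j g).O :: (List.replicate n (3 ^ ((j g).a / n)) ++ (j g).Mid ::
      (List.replicate n (3 ^ ((j g).a / n)) ++ [(j g).R])) = q g ++ [(j g).R / m * m] :=
    fun g => by rw [eR]; exact shp_app _ _ _ _ _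
  have eq3 : ∀ g, (q g).length = 2 * n + 2 := fun g => length_shq _ _ _ _
  simp only [eq2] at v1 v2
  have PTq : PT fun p : RP => shq n p.1 (3 ^ p.2.1.n) p.2.2.1 := by
    have h := PT_rep n (Q := fun p : RP => 3 ^ p.2.1.n) (by fun_prop)
    unfold shq
    fun_prop
  have a1 : Ar D (fun g => q g ++ [(j g).R / m * m]) fun g xs => f g (v g xs) :=
    hin.ar.view (LS.comp (f := fun p : RP => shq n p.1 (3 ^ p.2.1.n) p.2.2.1 ++ [p.2.2.2 * m])
      (by fun_prop) hl)
      (fun g => by rw [← eq2]; exact pos_shp (pO g) (by positivity) (pM g) (pR g))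
      fun g => (v2 g _).symm
  let reg : G → ℕ → (ℕ → ℕ) → List Bool := fun g i xs =>
    f g (v g (update xs (2 * n + 2) (xs (2 * n + 2) * m + i)))
  have a2 : Lin D fun g => (List.range m).map fun i => arr ((p g).ds n) (reg g i) :=
    (a1.regs m).congr fun g => by simp only [eq1, eq3, reg]
  have wr : ∀ g i, i < m → ∀ xs, Valid ((p g).ds n) xs → (reg g i xs).length = (j g).w :=
    fun g i hi xs hx => by
      refine hin.len g _ (v1 g _ ?_)
      rw [eq1] at hx
      refine Valid.set (M := (j g).R / m) (by simpa [← eq3 g] using hx) ?_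
      have h1 := hx (q g).length
      simp only [List.getD_eq_getElem?_getD, List.getElem?_concat_length, Option.getD_some] at h1
      simp only [← eq3 g, List.getD_eq_getElem?_getD, List.getElem?_concat_length,
        Option.getD_some]
      nlinarith
  have sys := swN_sys hc (n := n) (p := p) (d := fun g => (j g).d - 1) (w := fun g => (j g).w)
    (fun g => by
      have h1 := (j g).ha
      rw [hd, pow_succ] at h1
      exact (Nat.div_lt_iff_lt_mul (by omega)).2 (h1.trans_le (Nat.mul_le_mul_left _ hn)))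
    (fun g => Nat.dvd_div_of_mul_dvd (by rw [mul_comm, hW]; exact hR g))
    (fun g => Nat.div_lt_self (hj g).1 hn)
    (fun g => by rw [ep]; exact Nat.le_mul_of_pos_right _ hm) hl.2 h0 hw
    (fun g => by rw [eB]; exact Nat.le_mul_of_pos_left _ hm) hEd
    fun g i xs => reg g i (lft (spos n) (3 ^ ((j g).a / n)) (Mat (ρ i)) xs)
  have single : ∀ (i : Fin m) (y : Fin m → ℕ → ZMod 2),
      ∑ t, (Pi.single i 1 : Fin m → ZMod 2) t • y t = y i := fun i y => by
    rw [Finset.sum_eq_single i (fun t _ ht => by rw [Pi.single_eq_of_ne ht, zero_smul])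
      (fun hi => (hi (Finset.mem_univ i)).elim), Pi.single_eq_same, one_smul]
  obtain ⟨a', c1, c2⟩ := sys.extract hN hl.1 a2 fun g i => ⟨reg g i, rfl, fun xs hx =>
    ⟨wr g i i.2 xs hx, by
      rw [single]
      exact congrArg (fun ys => bv (reg g i ys)) (lft_Mat_sq (hρ i) (odd3 _) hx.spos).1.symm⟩⟩
  have vb : ∀ g xs, Valid ((p g).ds n) xs → Valid ((p g).ds n) (xs ∘ bsw n) := fun g xs hx => by
    rw [← (lft_Mat_sq (hρ ⟨0, hm⟩) (odd3 _) hx.spos).2]
    exact (hx.lft spos_inj (odd3 _) (fun c => (shp_spos _ _ _ _ c).2) _).lft spos_inj (odd3 _)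
      (fun c => (shp_spos _ _ _ _ c).2) _
  have c3 : ∀ g i, i < m → a' g i = arr ((p g).ds n) fun xs => reg g i (xs ∘ bsw n) :=
    fun g i hi => by
      obtain ⟨F, e1, hF⟩ := c2 g ⟨i, hi⟩
      refine e1.trans (arr_congr fun xs hx => bv_inj ?_ ?_)
      · rw [(hF xs hx).1, wr g i hi _ (vb g xs hx)]
      · rw [(hF xs hx).2, single]
        exact congrArg (fun ys => bv (reg g i ys)) (lft_Mat_sq (hρ _) (odd3 _) hx.spos).2
  have c4 := c1.congr (f := fun g => (List.range m).map fun i =>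
    arr (q g ++ [(j g).R / m]) fun xs => reg g i (xs ∘ bsw n)) fun g =>
      List.map_congr_left fun i hi => by rw [c3 g i (List.mem_range.1 hi), eq1]
  refine ⟨fun g xs => f g (xs ∘ Equiv.swap 1 3),
    fun g => e * (Φ ((j g).a / n) * (((p g).ds n).prod * ((j g).w + 1))),
    (c4.andThen (t' := fun _ => 0) ⟨7, fun g => ?_⟩ hl.1 fun D1 hD hx hl1 => ?_).mono
      fun g => le_of_eq (by ring), fun g => ⟨⟨fun xs hx => hin.len g _ ?_, fun _ _ => rfl⟩, ?_⟩⟩
  · have h1 : sz ((List.range m).map fun i => arr (q g ++ [(j g).R / m]) fun xs =>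
        reg g i (xs ∘ bsw n)) ≤ _ := sz_list_le (B := ((p g).ds n).prod * (4 * (j g).w + 2) + 1)
      fun a ha => by
        obtain ⟨i, hi, rfl⟩ := List.mem_map.1 ha
        rw [← eq1]
        exact sz_arr_le fun xs hx => (wr g i (List.mem_range.1 hi) _ (vb g xs hx)).le
    refine h1.trans ?_
    have h2 := List.prod_pos (h0 g)
    rw [List.length_map, List.length_range, eB]
    generalize ((p g).ds n).prod = V at h2 ⊢
    have h4 : m ≤ m * (V * ((j g).w + 1)) := Nat.le_mul_of_pos_right _ (by positivity)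
    nlinarith [Nat.zero_le (m * V)]
  · have l1 : LS D1 p := ⟨hl1, hl.2.over hD⟩
    have a3 := Ar.unregs (D := D1) (p := q) (T := fun g => (j g).R / m) m hm
      (r := fun g i xs => reg g i (xs ∘ bsw n)) (LS.comp PTq l1)
      (LS.comp (f := fun p : RP => p.2.2.2) (by fun_prop) l1) (fun g => eq1 g ▸ h0 g)
      (fun g i hi xs hx => by
        rw [← eq1] at hx
        rw [wr g i hi _ (vb g xs hx), hD.S]
        exact hw g) hx
    refine (a3.lin.congr fun g => ?_).cost _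
    refine (v2 g _).trans (arr_congr fun xs _ => ?_)
    simp only [reg, eq3]
    rw [← v3]
    congr 2
    funext t
    by_cases ht : t = 2 * n + 2
    · subst ht
      simp only [Function.comp_apply, bsw_last, update_self]
      exact (Nat.div_add_mod' _ _).symm
    · rw [update_of_ne ht, Function.comp_apply, Function.comp_apply, update_of_ne (bsw_ne ht)]
  · intro t
    have h1 := hx (Equiv.swap 1 3 t)
    by_cases t1 : t = 1
    · subst t1; simpa [swP] using h1
    by_cases t3 : t = 3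
    · subst t3; simpa [swP] using h1
    rw [Function.comp_apply]
    rwa [Equiv.swap_apply_of_ne_of_ne t1 t3] at h1 ⊢
  · have h1 := Nat.mul_le_mul_right (((p g).ds n).prod * ((j g).w + 1)) (h _ (hj g).1 (hj g).2)
    rw [eB, RecA.vol, ep]
    show _ ≤ Φ (j g).a * (_ * ((j g).w + 1))
    nlinarith

theorem swP_node {Φ : ℕ → ℕ}
    (h : ∀ a, 0 < a → a % 400 = 0 → W + (400 * W - sav) * Φ (a / 400) ≤ W * Φ a) :
    (swP Φ).Body fun j => 0 < j.a ∧ j.a % 400 = 0 := by
  obtain ⟨ρ, hρ, hN⟩ := net1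
  exact swP_node_of rfl W_pos (by norm_num) h
    (fun _ _ ⟨_, _, ha, hb, hab, e⟩ => ed_factor ha hb hab e) hρ hN

end Vale.Agent.P338
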