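import Vale.Agent.P338.SwapB
import Vale.Agent.P338.SwapN

namespace Vale.Agent.P338

open Vale.Agent.Lib Vale.Agent.Lib.H23 Enc Function

variable {G α : Type} [Enc α] {D : Dom G α} {f : G → (ℕ → ℕ) → List Bool}

theorem swP_size (Φ : ℕ → ℕ) (j : SwJ) (h : ∀ d ∈ (swP Φ).sh j, 0 < d) :
    sz ((swP Φ).sh j, (swP Φ).pr j) ≤ (Nat.size ((swP Φ).sh j).prod + 2) ^ 6 := by
  have h0 : 0 < ((swP Φ).sh j).prod := List.prod_pos h
  have h1 : ∀ d ∈ (swP Φ).sh j, d < 2 ^ Nat.size ((swP Φ).sh j).prod := fun d hd =>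
    (Nat.le_of_dvd h0 (List.dvd_prod hd)).trans_lt (Nat.lt_size_self _)
  have h2 : sz ((swP Φ).sh j) ≤ _ := sz_list_le fun d hd => sz_nat_le (h1 d hd)
  have h3 : 2 ^ j.a < 2 ^ Nat.size ((swP Φ).sh j).prod :=
    (Nat.pow_le_pow_left (by norm_num : 2 ≤ 3) _).trans_lt (h1 _ (by simp [swP]))
  have h4 := (Nat.pow_lt_pow_iff_right (by norm_num : 1 < 2)).1 h3
  have h5 : ((swP Φ).sh j).length = 5 := rfl
  have h6 : sz ((swP Φ).pr j) = 2 * j.a + 1 := sz_un _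
  rw [sz_pair, h6]
  rw [h5] at h2
  generalize Nat.size ((swP Φ).sh j).prod = s at h2 h4 ⊢
  have h7 : 2 ^ 5 ≤ (s + 2) ^ 5 := Nat.pow_le_pow_left (by omega) 5
  have h8 : 2 ^ 5 * (s + 2) ≤ (s + 2) ^ 5 * (s + 2) := Nat.mul_le_mul_right _ h7
  rw [pow_succ (s + 2) 5]
  omega

theorem swP_body {Φ : ℕ → ℕ} (h0 : 1 ≤ Φ 0) (h1 : ∀ a, a % 400 ≠ 0 → Φ (a - 1) + 1 ≤ Φ a)
    (h2 : ∀ a, 0 < a → a % 400 = 0 → W + (400 * W - sav) * Φ (a / 400) ≤ W * Φ a) :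
    (swP Φ).Body fun _ => True := by
  refine RecA.Body.cond (fun u : Un => eqb u.n 0) (by fun_prop)
    ((swP_zero h0).mono fun j hj => ?_) ?_
  · simpa [swP, eqb_eq] using hj.2
  refine RecA.Body.cond (fun u : Un => eqb (u.n % 400) 0) (by fun_prop)
    ((swP_node h2).mono fun j hj => ?_) ((swP_step h1).mono fun j hj => ?_)
  · have e1 := hj.1.2
    have e2 := hj.2
    simp only [swP, eqb_eq, decide_eq_false_iff_not, decide_eq_true_eq] at e1 e2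
    exact ⟨Nat.pos_of_ne_zero e1, e2⟩
  · have e2 := hj.2
    simp only [swP, eqb_eq, decide_eq_false_iff_not] at e2
    exact e2

/-- Exchange of two address fields of `a` ternary digits in time `a ^ γ` times the volume. -/
theorem Ar.swap {O a Mid R w : G → ℕ}
    (h : Ar D (fun g => [O g, 3 ^ a g, Mid g, 3 ^ a g, R g]) f)
    (ha : LS D fun g => (⟨a g⟩ : Un))
    (hw : ∀ g xs, Valid [O g, 3 ^ a g, Mid g, 3 ^ a g, R g] xs → (f g xs).length = w g)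
    (hd : ∀ g, ∃ d, a g < 2 ^ d ∧ W ^ d ∣ R g)
    (hB : Bd (fun g => sw (a g) * ([O g, 3 ^ a g, Mid g, 3 ^ a g, R g].prod * (w g + 1))) D.B) :
    Ar D (fun g => [O g, 3 ^ a g, Mid g, 3 ^ a g, R g]) fun g xs =>
      f g (xs ∘ Equiv.swap 1 3) := by
  obtain ⟨Φ, C, h0, h1, h2, h3⟩ := pot1
  choose d hd1 hd2 using hd
  let j : G → SwJ := fun g => ⟨O g, a g, Mid g, R g, d g, w g, hd1 g, hd2 g⟩
  have hin : (swP Φ).In D j f := ⟨h, ha, Lin.const (⟨0⟩ : Un), hw⟩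
  obtain ⟨f', a1, o1⟩ := (swP Φ).run (fun _ => Nat.zero_le _) (fun _ => one_pos)
    ⟨6, swP_size Φ⟩ (swP_body h0 h1 h2) hin ((hB.cmul C).le fun g => by
      rw [← mul_assoc]
      exact Nat.mul_le_mul_right _ (h3 (a g)))
  exact a1.congr (fun _ => rfl) fun g xs hx => ((o1 g).2 xs hx).symm

end Vale.Agent.P338
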