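import Vale.Agent.P338.SwapDefs

namespace Vale.Agent.P338

open Vale.Agent.Lib Vale.Agent.Lib.H23 Enc Function

theorem Valid.swap_eq {ds : List ℕ} {xs : ℕ → ℕ} (h : Valid ds xs) {i j : ℕ}
    (e : ds.getD i 1 = ds.getD j 1) : Valid ds (xs ∘ Equiv.swap i j) := by
  intro k
  rw [Function.comp_apply]
  by_cases h1 : k = i
  · subst h1
    rw [Equiv.swap_apply_left, e]
    exact h j
  by_cases h2 : k = j
  · subst h2
    rw [Equiv.swap_apply_right, ← e]
    exact h i
  rw [Equiv.swap_apply_of_ne_of_ne h1 h2]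
  exact h k

theorem swP_zero {Φ : ℕ → ℕ} (h : 1 ≤ Φ 0) : (swP Φ).Body fun j => j.a = 0 := by
  intro G α _ D j f κ hc hin _ hB
  refine ⟨f, fun _ => 0, hin.ar.lin.cost _, fun g => ⟨⟨hin.len g, fun xs hx => ?_⟩, ?_⟩⟩
  · have h1 := hx 1
    have h3 := hx 3
    simp only [hc g, pow_zero, List.getD_cons_succ, List.getD_cons_zero, Nat.lt_one_iff] at h1 h3
    congr 1
    funext k
    rw [Function.comp_apply]
    by_cases k1 : k = 1
    · subst k1
      rw [Equiv.swap_apply_left, h1, h3]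
    by_cases k3 : k = 3
    · subst k3
      rw [Equiv.swap_apply_right, h1, h3]
    rw [Equiv.swap_apply_of_ne_of_ne k1 k3]
  · rw [hB g, zero_add]
    refine Nat.mul_le_mul_right _ ?_
    show 1 ≤ Φ (j g).a
    rw [hc g]
    exact h

theorem swB_perm (xs : ℕ → ℕ) :
    ((((xs ∘ Equiv.swap 3 (3 + 1)) ∘ Equiv.swap 2 (2 + 1)) ∘ Equiv.swap 1 (1 + 1)) ∘
      Equiv.swap 2 (2 + 1)) ∘ Equiv.swap 3 (3 + 1) = xs ∘ Equiv.swap 1 4 := by
  funext k
  simp only [Function.comp_apply]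
  congr 1
  by_cases hk : k < 5
  · interval_cases k <;> decide
  · have e : ∀ a b : ℕ, a < 5 → b < 5 → Equiv.swap a b k = k := fun a b ha hb =>
      Equiv.swap_apply_of_ne_of_ne (by omega) (by omega)
    rw [e 3 (3 + 1), e 2 (2 + 1), e 1 (1 + 1), e 2 (2 + 1), e 3 (3 + 1), e 1 4] <;> norm_num

theorem swB_perm2 (xs : ℕ → ℕ) :
    (xs ∘ Equiv.swap 2 5) ∘ Equiv.swap 1 4 = xs ∘ bsw 2 := by
  funext k
  simp only [Function.comp_apply, Equiv.swap_apply_def, bsw]
  congr 1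
  split_ifs <;> omega

/-- exchange of two ternary digits -/
theorem Ar.swap14 {G α : Type} [Enc α] {D : Dom G α} {O Q Mid R : G → ℕ}
    {f : G → (ℕ → ℕ) → List Bool}
    (h : Ar D (fun g => [O g, 3, Q g, Mid g, 3, Q g, R g]) f) :
    Ar D (fun g => [O g, 3, Q g, Mid g, 3, Q g, R g]) fun g xs => f g (xs ∘ Equiv.swap 1 4) := by
  have h1 : Ar D (fun g => [O g, 3, Q g, 3, Mid g, Q g, R g]) _ :=
    h.up 3 3 (fun _ => by simp) fun _ => rfl
  have h2 : Ar D (fun g => [O g, 3, 3, Q g, Mid g, Q g, R g]) _ :=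
    h1.up 2 3 (fun _ => by simp) fun _ => rfl
  have h3 : Ar D (fun g => [O g, 3, 3, Q g, Mid g, Q g, R g]) _ :=
    h2.up 1 3 (fun _ => by simp) fun _ => rfl
  have h4 : Ar D (fun g => [O g, 3, Q g, 3, Mid g, Q g, R g]) _ :=
    h3.down 2 3 (fun _ => by simp) fun _ => rfl
  have h5 : Ar D (fun g => [O g, 3, Q g, Mid g, 3, Q g, R g]) _ :=
    h4.down 3 3 (fun _ => by simp) fun _ => rfl
  exact h5.congr (fun _ => rfl) fun g xs _ => by rw [swB_perm]

theorem swP_step {Φ : ℕ → ℕ} (h : ∀ a, a % 400 ≠ 0 → Φ (a - 1) + 1 ≤ Φ a) :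
    (swP Φ).Body fun j => j.a % 400 ≠ 0 := by
  intro G α _ D j f κ hc hin hcall hB
  have ha : ∀ g, 0 < (j g).a := fun g => Nat.pos_of_ne_zero fun e => hc g (by rw [e])
  have hQ : ∀ g, [3, 3 ^ ((j g).a - 1)].prod = 3 ^ (j g).a := fun g => by
    obtain ⟨b, hb⟩ : ∃ b, (j g).a = b + 1 := ⟨_, (Nat.succ_pred_eq_of_pos (ha g)).symm⟩
    rw [hb]
    simp [pow_succ, mul_comm]
  have hQ' : ∀ g, 3 ^ (j g).a / 3 = 3 ^ ((j g).a - 1) := fun g => by
    rw [← hQ g]
    simp
  choose κN hN1 hN2 hN3 using fun g =>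
    exists_viewN [3, 3 ^ ((j g).a - 1)] (j g).O (j g).Mid (j g).R
  choose κ5 h51 h52 h53 using fun g =>
    exists_view5 [(j g).O, 3] [(j g).Mid, 3] [(j g).R] (3 ^ ((j g).a - 1))
  simp only [hQ] at hN1 hN2
  have hO : ∀ g, 0 < (j g).O := fun g => hin.ar.pos g _ (by simp [swP])
  have hM : ∀ g, 0 < (j g).Mid := fun g => hin.ar.pos g _ (by simp [swP])
  have hR : ∀ g, 0 < (j g).R := fun g => hin.ar.pos g _ (by simp [swP])
  have a1 : Ar D (fun g => [(j g).O, 3, 3 ^ ((j g).a - 1), (j g).Mid, 3, 3 ^ ((j g).a - 1), (j g).R])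
      fun g xs => f g (κN g xs) := by
    refine hin.ar.view ?_ (fun g d hd => ?_) fun g => (hN2 g (f g)).symm
    · refine (LS.comp (f := fun l : List ℕ => [l.getD 0 1, 3, l.getD 1 1 / 3, l.getD 2 1, 3,
        l.getD 1 1 / 3, l.getD 4 1]) (by fun_prop) hin.ar.hds).congr fun g => ?_
      simp [swP, hQ']
    · have := hO g
      have := hM g
      have := hR g
      simp only [List.mem_cons, List.not_mem_nil, or_false] at hd
      rcases hd with rfl | rfl | rfl | rfl | rfl | rfl | rfl <;> positivity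
  have a2 := a1.swap14
  let j' : G → SwJ := fun g => ⟨[(j g).O, 3].prod, (j g).a - 1, [(j g).Mid, 3].prod,
    [(j g).R].prod, (j g).d, (j g).w, lt_of_le_of_lt (Nat.sub_le _ _) (j g).ha,
    by simpa using (j g).hR⟩
  have hprod : ∀ g, ((swP Φ).sh (j' g)).prod = ((swP Φ).sh (j g)).prod := fun g => by
    simp only [swP, j']
    rw [← hQ g]
    simp only [List.prod_cons, List.prod_nil]
    ring
  have hin' : (swP Φ).In D j' fun g xs => f g (κN g (κ5 g xs ∘ Equiv.swap 1 4)) := by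
    refine ⟨a2.view ?_ (fun g d hd => ?_) fun g =>
      (h52 g fun xs => f g (κN g (xs ∘ Equiv.swap 1 4))).symm, ?_, Lin.const (⟨0⟩ : Un),
      fun g xs hx => ?_⟩
    · refine (LS.comp (f := fun l : List ℕ => [l.getD 0 1 * 3, l.getD 1 1 / 3, l.getD 2 1 * 3,
        l.getD 1 1 / 3, l.getD 4 1]) (by fun_prop) hin.ar.hds).congr fun g => ?_
      simp [swP, hQ', j']
    · have := hO g
      have := hM g
      have := hR g
      simp only [swP, j', List.mem_cons, List.not_mem_nil, or_false, List.prod_cons,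
        List.prod_nil] at hd
      rcases hd with rfl | rfl | rfl | rfl | rfl <;> positivity
    · refine (LS.comp (f := fun u : Un => unMin (u.n - 1) u) (by fun_prop) hin.pr).congr
        fun g => ?_
      simp [swP, j', unMin]
    · exact hin.len g _ (hN1 g _ ((h51 g xs hx).swap_eq rfl))
  obtain ⟨f4, c4, o4⟩ := hcall G α D id D.B j' _ (Over.refl D)
    (fun g => Nat.sub_lt (ha g) one_pos) (fun g => (hprod g).le) hin'
  have hvol : ∀ g, (swP Φ).vol (j' g) = (swP Φ).vol (j g) := fun g => by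
    unfold RecA.vol
    rw [hprod]
    rfl
  refine ⟨fun g xs => f g (xs ∘ Equiv.swap 1 3), fun g => Φ ((j g).a - 1) * (swP Φ).vol (j g),
    (c4.congr fun g => ?_).mono fun g => ?_, fun g => ⟨⟨fun xs hx => ?_, fun _ _ => rfl⟩, ?_⟩⟩
  · refine (hN2 g _).trans ((h52 g _).trans (arr_congr fun xs hx => ?_))
    rw [(o4 g).2 xs hx]
    beta_reduce
    rw [h53, ← hN3]
    exact congrArg (fun z => f g (κN g z)) (swB_perm2 _).symm
  · rw [hvol]
    exact le_rfl
  · exact hin.len g _ (Valid.swap_eq hx rfl)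
  · rw [hB g]
    have := Nat.mul_le_mul_right ((swP Φ).vol (j g)) (h _ (hc g))
    rw [add_mul] at this
    exact this

end Vale.Agent.P338
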