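import Vale.Agent.P338.TriM
import Vale.Agent.P338.Arr

namespace Vale.Agent.P338

open Vale.Agent.Lib Vale.Agent.Lib.H23 Enc Function Matrix

variable {G α ι : Type} [Enc α] [Fintype ι] [DecidableEq ι] {D : Dom G α} {ds : G → List ℕ}
  {f : G → (ℕ → ℕ) → List Bool}

/-- multiplication of the digit `i` by `x` takes linear time -/
def Scl (D : Dom G α) (ds : G → List ℕ) (Q : G → ℕ) (i : ℕ) (x : A2) : Prop :=
  ∀ f : G → (ℕ → ℕ) → List Bool, Ar D ds f →
    Ar D ds fun g xs => f g (update xs i (dy (Q g) x * (xs i : ZMod (Q g))).val)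

theorem tri_neZero {Q : ℕ} (ho : Odd Q) : NeZero Q := ⟨ho.pos.ne'⟩

section Scl

variable {Q : G → ℕ} {i : ℕ}

theorem Scl.mul (ho : ∀ g, Odd (Q g)) {x y : A2} (hx : Scl D ds Q i x) (hy : Scl D ds Q i y) :
    Scl D ds Q i (x * y) := by
  intro f h
  refine (hy _ (hx f h)).congr (fun _ => rfl) fun g xs _ => ?_
  obtain ⟨φ, hφ⟩ := exists_dy (ho g)
  have := tri_neZero (ho g)
  simp only [hφ, update_self, update_idem, ZMod.natCast_val, ZMod.cast_id', id_eq, map_mul,
    mul_assoc]

theorem Scl.one (ho : ∀ g, Odd (Q g)) (hd : ∀ g, (ds g).getD i 1 = Q g) : Scl D ds Q i 1 := by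
  intro f h
  refine h.congr (fun _ => rfl) fun g xs hx => ?_
  obtain ⟨φ, hφ⟩ := exists_dy (ho g)
  have h1 : xs i < Q g := hd g ▸ hx i
  rw [hφ, map_one, one_mul, ZMod.val_natCast, Nat.mod_eq_of_lt h1, update_eq_self]

theorem Scl.pow (ho : ∀ g, Odd (Q g)) (hd : ∀ g, (ds g).getD i 1 = Q g) {x : A2}
    (hx : Scl D ds Q i x) (e : ℕ) : Scl D ds Q i (x ^ e) := by
  induction e with
  | zero => rw [pow_zero]; exact Scl.one ho hd
  | succ e ih => rw [pow_succ]; exact ih.mul ho hx

theorem Scl.two (ho : ∀ g, Odd (Q g)) (hi : ∀ g, i < (ds g).length)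
    (hd : ∀ g, (ds g).getD i 1 = Q g) : Scl D ds Q i 2 := by
  intro f h
  refine (h.dbl i hi).congr (fun _ => rfl) fun g xs _ => ?_
  obtain ⟨φ, hφ⟩ := exists_dy (ho g)
  rw [hφ, map_ofNat, hd g, ← ZMod.val_natCast]
  push_cast
  rfl

theorem Scl.half (ho : ∀ g, Odd (Q g)) (hi : ∀ g, i < (ds g).length)
    (hd : ∀ g, (ds g).getD i 1 = Q g) : Scl D ds Q i h2 := by
  intro f h
  refine (h.half i hi fun g => (hd g).symm ▸ ho g).congr (fun _ => rfl) fun g xs _ => ?_
  rw [dy_h2 (ho g), hd g, ← ZMod.val_natCast, Nat.cast_mul]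

theorem Scl.neg (ho : ∀ g, Odd (Q g)) (hi : ∀ g, i < (ds g).length)
    (hd : ∀ g, (ds g).getD i 1 = Q g) : Scl D ds Q i (-1) := by
  intro f h
  refine (h.neg i hi).congr (fun _ => rfl) fun g xs hx => ?_
  obtain ⟨φ, hφ⟩ := exists_dy (ho g)
  have h1 : xs i < Q g := hd g ▸ hx i
  rw [hφ, map_neg, map_one, hd g, ← ZMod.val_natCast, Nat.cast_sub h1.le, ZMod.natCast_self,
    zero_sub, neg_one_mul]

theorem Scl.dy (ho : ∀ g, Odd (Q g)) (hi : ∀ g, i < (ds g).length)
    (hd : ∀ g, (ds g).getD i 1 = Q g) {x : A2} (hx : Dy x) : Scl D ds Q i x := by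
  obtain ⟨e, e', hx⟩ := hx
  have h1 : Scl D ds Q i (2 ^ e * h2 ^ e') :=
    ((Scl.two ho hi hd).pow ho hd e).mul ho ((Scl.half ho hi hd).pow ho hd e')
  rcases hx with rfl | rfl
  · exact h1
  · have h3 := (Scl.neg ho hi hd).mul ho h1
    rwa [show (-1 : A2) * (2 ^ e * h2 ^ e') = -(2 ^ e * h2 ^ e') by ring] at h3

end Scl

omit [Fintype ι] in
theorem tri_PT_sum {β : Type} [Enc β] (s : Finset ι) (F : ι → β → ℕ) (hF : ∀ c, PT (F c)) :
    PT fun x => ∑ c ∈ s, F c x := by
  induction s using Finset.induction_on with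
  | empty => exact (PT.const 0).congr fun x => by simp
  | insert a s ha ih => exact ((hF a).add ih).congr fun x => by rw [Finset.sum_insert ha]

theorem tri_pre_update (i v : ℕ) (xs : ℕ → ℕ) : pre i (update xs i v) = pre i xs := by
  refine List.map_congr_left fun j hj => ?_
  rw [update_of_ne (List.mem_range.1 hj).ne]

/-- a row operation -/
theorem Ar.row (h : Ar D ds f) {pos : ι → ℕ} (hp : Injective pos) {Q : G → ℕ} (hQ : LS D Q)
    (ho : ∀ g, Odd (Q g)) (c : ι) (hi : ∀ g, pos c < (ds g).length)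
    (hd : ∀ g, (ds g).getD (pos c) 1 = Q g) {r : ι → A2} (h0 : ∀ c', pos c < pos c' → r c' = 0)
    (h1 : Dy (r c)) : Ar D ds fun g xs =>
      f g (update xs (pos c) (∑ c', dy (Q g) (r c') * (xs (pos c') : ZMod (Q g))).val) := by
  choose F hF hF' using fun c' => PT_dy (r c')
  have hσ : PT fun x : ℕ × List ℕ =>
      ∑ c' ∈ Finset.univ.filter fun c' => pos c' < pos c, F c' x.1 * x.2.getD (pos c') 0 :=
    tri_PT_sum _ (fun c' (x : ℕ × List ℕ) => F c' x.1 * x.2.getD (pos c') 0) fun c' =>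
      ((hF c').comp PT.fst').mul (PT.getD PT.snd' (PT.const _) (PT.const _))
  have h2 := h.rot (pos c) hi hQ
    (σ := fun q l => ∑ c' ∈ Finset.univ.filter fun c' => pos c' < pos c,
      F c' q * l.getD (pos c') 0) hσ
  refine (Scl.dy ho hi hd h1 _ h2).congr (fun _ => rfl) fun g xs _ => ?_
  obtain ⟨φ, hφ⟩ := exists_dy (ho g)
  have := tri_neZero (ho g)
  simp only [update_self, update_idem, tri_pre_update]
  congr 2
  rw [hd g, ← ZMod.val_natCast]
  congr 1
  push_cast
  rw [ZMod.natCast_val, ZMod.cast_id', id_eq, ← Finset.add_sum_erase _ _ (Finset.mem_univ c)]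
  congr 1
  symm
  refine Finset.sum_subset_zero_on_sdiff (fun c' hc' => ?_) (fun c' hc' => ?_) fun c' hc' => ?_
  · refine Finset.mem_erase.2 ⟨?_, Finset.mem_univ _⟩
    rintro rfl
    simp at hc'
  · simp only [Finset.mem_sdiff, Finset.mem_erase, Finset.mem_univ, and_true, Finset.mem_filter,
      true_and, not_lt] at hc'
    have : pos c < pos c' := lt_of_le_of_ne hc'.2 fun e => hc'.1 (hp e).symm
    rw [h0 c' this, hφ, map_zero, zero_mul]
  · rw [hF' c' _ (ho g), getD_pre (Finset.mem_filter.1 hc').2]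

/-- Triangular changes of address take linear time. -/
theorem Ar.tri (h : Ar D ds f) {pos : ι → ℕ} (hp : Injective pos) {Q : G → ℕ} (hQ : LS D Q)
    (ho : ∀ g, Odd (Q g))
    (hd : ∀ g c, pos c < (ds g).length ∧ (ds g).getD (pos c) 1 = Q g) {N : Matrix ι ι A2}
    (hN : Tri pos N) : Ar D ds fun g xs => f g (lft pos (Q g) N xs) := by
  have e0 : ∀ g xs c, lft pos (Q g) N xs (pos c) =
      (∑ c', dy (Q g) (N c c') * (xs (pos c') : ZMod (Q g))).val := fun g xs c => by
    rw [lft_pos hp]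
    rfl
  have key : ∀ k, Ar D ds fun g xs =>
      f g fun j => if j < k then lft pos (Q g) N xs j else xs j := by
    intro k
    induction k with
    | zero => exact h.congr (fun _ => rfl) fun g xs _ => by simp
    | succ k ih =>
      by_cases hk : ∃ c, pos c = k
      · obtain ⟨c, rfl⟩ := hk
        refine (ih.row hp hQ ho c (fun g => (hd g c).1) (fun g => (hd g c).2) (hN.1 c)
          (hN.2 c)).congr (fun _ => rfl) fun g xs _ => ?_
        congr 1
        funext j
        rcases lt_trichotomy j (pos c) with hj | rfl | hj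
        · rw [if_pos (by omega), if_pos hj]
          by_cases hc : ∃ c', pos c' = j
          · obtain ⟨c', rfl⟩ := hc
            obtain ⟨φ, hφ⟩ := exists_dy (ho g)
            rw [e0, e0]
            congr 1
            refine Finset.sum_congr rfl fun c'' _ => ?_
            by_cases h1 : pos c'' = pos c
            · rw [hN.1 c' c'' (by omega), hφ, map_zero, zero_mul, zero_mul]
            · rw [update_of_ne h1]
          · rw [lft_not _ _ fun c' e => hc ⟨c', e⟩, lft_not _ _ fun c' e => hc ⟨c', e⟩,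
              update_of_ne hj.ne]
        · rw [if_pos (by omega), if_neg (lt_irrefl _), update_self, e0]
        · rw [if_neg (by omega), if_neg (by omega), update_of_ne hj.ne']
      · refine ih.congr (fun _ => rfl) fun g xs _ => ?_
        congr 1
        funext j
        by_cases hj : j = k
        · subst hj
          rw [if_pos (by omega), if_neg (lt_irrefl _), lft_not _ _ fun c' e => hk ⟨c', e⟩]
        · by_cases hj' : j < k
          · rw [if_pos (by omega), if_pos hj']
          · rw [if_neg (by omega), if_neg hj']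
  refine (key (Finset.univ.sup pos + 1)).congr (fun _ => rfl) fun g xs _ => ?_
  congr 1
  funext j
  split_ifs with hj
  · rfl
  · refine lft_not _ _ fun c e => hj ?_
    have : pos c ≤ Finset.univ.sup pos := Finset.le_sup (Finset.mem_univ c)
    omega

end Vale.Agent.P338
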