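import Vale.Agent.P338.Rec
import Vale.Agent.P338.Tri
import Vale.Agent.P338.Pot

namespace Vale.Agent.P338

open Vale.Agent.Lib Vale.Agent.Lib.H23 Enc Function

structure SwJ where
  O : ℕ
  a : ℕ
  Mid : ℕ
  R : ℕ
  d : ℕ
  w : ℕ
  ha : a < 2 ^ d
  hR : W ^ d ∣ R

/-- exchange of two address fields of `a` ternary digits -/
def swP (Φ : ℕ → ℕ) : RecA SwJ Un where
  sh j := [j.O, 3 ^ j.a, j.Mid, 3 ^ j.a, j.R]
  pr j := ⟨j.a⟩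
  u _ := 0
  w j := j.w
  μ j := j.a
  β _ := 1
  Φ j := Φ j.a
  Spec j f f' := ∀ xs, Valid [j.O, 3 ^ j.a, j.Mid, 3 ^ j.a, j.R] xs →
    f' xs = f (xs ∘ Equiv.swap 1 3)

end Vale.Agent.P338
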