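import Vale.Agent.P338.Swap

/-! Translating a digit by a function of less significant digits. -/

namespace Vale.Agent.P338

open Vale.Agent.Lib Vale.Agent.Lib.H23 Enc Function

variable {G α π : Type} [Enc α] [Enc π] {D : Dom G α} {f : G → (ℕ → ℕ) → List Bool}

theorem tr_eta4 {a b c d : ℕ} {xs : ℕ → ℕ} (h : Valid [a, b, c, d] xs) :
    consF (xs 0) (consF (xs 1) (consF (xs 2) (consF (xs 3) fun _ => 0))) = xs := by
  funext i
  match i with
  | 0 | 1 | 2 | 3 => rfl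
  | i + 4 =>
    have := h (i + 4)
    simp only [List.getD_cons_succ, List.getD_nil] at this
    show 0 = _
    omega

theorem tr_eta3 {a b c : ℕ} {xs : ℕ → ℕ} (h : Valid [a, b, c] xs) :
    consF (xs 0) (consF (xs 1) (consF (xs 2) fun _ => 0)) = xs := by
  funext i
  match i with
  | 0 | 1 | 2 => rfl
  | i + 3 =>
    have := h (i + 3)
    simp only [List.getD_cons_succ, List.getD_nil] at this
    show 0 = _
    omega

theorem clog3_le {M A : ℕ} (h : M ≤ 2 ^ A) : Nat.clog 3 M ≤ A :=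
  (Nat.clog_le_iff_le_pow (by norm_num)).2 (h.trans (Nat.pow_le_pow_left (by norm_num) A))

theorem pow_clog3_le {M : ℕ} (h : 0 < M) : 3 ^ Nat.clog 3 M ≤ 3 * M := by
  rcases Nat.lt_or_ge 1 M with h1 | h1
  · have h2 := Nat.pow_pred_clog_lt_self (b := 3) (by norm_num) h1
    have h3 := Nat.clog_pos (b := 3) (by norm_num) h1
    obtain ⟨k, hk⟩ : ∃ k, Nat.clog 3 M = k + 1 := ⟨_, (Nat.succ_pred_eq_of_pos h3).symm⟩
    rw [hk] at h2 ⊢
    rw [Nat.pred_succ] at h2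
    rw [pow_succ]
    omega
  · obtain rfl : M = 1 := by omega
    simp

theorem PT_clog3 : PT fun M : ℕ => (⟨Nat.clog 3 M⟩ : Un) := by
  have h : PT fun M : ℕ => unLen ((rangeU (unSize M)).filter fun u => ltb (3 ^ u.n) M) :=
    PT_unLen (PT_filter (f := fun M (u : Un) => ltb (3 ^ u.n) M) (by fun_prop) (by fun_prop))
  refine h.congr fun M => ?_
  have h1 : Nat.clog 3 M ≤ M.size := clog3_le (Nat.lt_size_self M).le
  have h2 : ∀ n, ((List.range n).filter fun i => decide (i < Nat.clog 3 M)).length =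
      min n (Nat.clog 3 M) := by
    intro n
    induction n with
    | zero => simp
    | succ n ih =>
      rw [List.range_succ, List.filter_append, List.length_append, ih]
      by_cases hn : n < Nat.clog 3 M
      · simp [hn]; omega
      · simp [hn]; omega
  simp only [unLen, rangeU, unSize, List.filter_map, List.length_map]
  congr 1
  rw [← min_eq_right h1, ← h2]
  congr 1
  refine List.filter_congr fun i _ => ?_
  simp [Nat.lt_clog_iff_pow_lt]

/-- a cell function of three digits -/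
def tc3 (F : G → ℕ → ℕ → ℕ → List Bool) : G → (ℕ → ℕ) → List Bool :=
  fun g xs => F g (xs 0) (xs 1) (xs 2)

/-- a cell function of four digits -/
def tc4 (F : G → ℕ → ℕ → ℕ → ℕ → List Bool) : G → (ℕ → ℕ) → List Bool :=
  fun g xs => F g (xs 0) (xs 1) (xs 2) (xs 3)

/-- a cell function of five digits -/
def tc5 (F : G → ℕ → ℕ → ℕ → ℕ → ℕ → List Bool) : G → (ℕ → ℕ) → List Bool :=
  fun g xs => F g (xs 0) (xs 1) (xs 2) (xs 3) (xs 4)

section Steps

variable {O M R T U M' : G → ℕ} {F3 : G → ℕ → ℕ → ℕ → List Bool}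
  {F4 : G → ℕ → ℕ → ℕ → ℕ → List Bool} {F5 : G → ℕ → ℕ → ℕ → ℕ → ℕ → List Bool}

theorem Ar.tr_ls {ds : G → List ℕ} (h : Ar D ds f) (i : ℕ) : LS D fun g => (ds g).getD i 1 :=
  LS.comp (f := fun l : List ℕ => l.getD i 1) (by fun_prop) h.hds

theorem Ar.r30 (h : Ar D (fun g => [M g, R g, T g]) (tc3 F3)) (c : ℕ) (h1 : LS D M')
    (h0 : ∀ g, 0 < M' g) (hc : ∀ g, M' g ≤ c * M g) :
    Ar D (fun g => [M' g, R g, T g]) (tc3 fun g x y z => F3 g (x % M g) y z) :=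
  (h.resize 0 c (fun _ => by simp) h1 h0 hc).congr (fun _ => rfl) fun g xs _ => by simp [tc3]

theorem Ar.r31 (h : Ar D (fun g => [R g, M g, T g]) (tc3 F3)) (c : ℕ) (h1 : LS D M')
    (h0 : ∀ g, 0 < M' g) (hc : ∀ g, M' g ≤ c * M g) :
    Ar D (fun g => [R g, M' g, T g]) (tc3 fun g x y z => F3 g x (y % M g) z) :=
  (h.resize 1 c (fun _ => by simp) h1 h0 hc).congr (fun _ => rfl) fun g xs _ => by simp [tc3]

theorem Ar.r41 (h : Ar D (fun g => [O g, M g, R g, T g]) (tc4 F4)) (c : ℕ) (h1 : LS D M')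
    (h0 : ∀ g, 0 < M' g) (hc : ∀ g, M' g ≤ c * M g) :
    Ar D (fun g => [O g, M' g, R g, T g]) (tc4 fun g x y z t => F4 g x (y % M g) z t) :=
  (h.resize 1 c (fun _ => by simp) h1 h0 hc).congr (fun _ => rfl) fun g xs _ => by simp [tc4]

theorem Ar.r42 (h : Ar D (fun g => [O g, R g, M g, T g]) (tc4 F4)) (c : ℕ) (h1 : LS D M')
    (h0 : ∀ g, 0 < M' g) (hc : ∀ g, M' g ≤ c * M g) :
    Ar D (fun g => [O g, R g, M' g, T g]) (tc4 fun g x y z t => F4 g x y (z % M g) t) :=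
  (h.resize 2 c (fun _ => by simp) h1 h0 hc).congr (fun _ => rfl) fun g xs _ => by simp [tc4]

theorem Ar.r53 (h : Ar D (fun g => [O g, R g, U g, M g, T g]) (tc5 F5)) (c : ℕ) (h1 : LS D M')
    (h0 : ∀ g, 0 < M' g) (hc : ∀ g, M' g ≤ c * M g) :
    Ar D (fun g => [O g, R g, U g, M' g, T g])
      (tc5 fun g x y z t u => F5 g x y z (t % M g) u) :=
  (h.resize 3 c (fun _ => by simp) h1 h0 hc).congr (fun _ => rfl) fun g xs _ => by simp [tc5]

theorem Ar.w53 (h : Ar D (fun g => [O g, R g, U g, M g, T g]) (tc5 F5)) (c : ℕ) (h1 : LS D M')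
    (h0 : ∀ g, 0 < M' g) (hc : ∀ g, M' g ≤ c * M g) {p : G → π} (hp : LS D p)
    {σ : π → ℕ → ℕ → ℕ} (hσ : PT fun x : π × ℕ × ℕ => σ x.1 x.2.1 x.2.2) :
    Ar D (fun g => [O g, R g, U g, M' g, T g])
      (tc5 fun g x y z t u => F5 g x y z ((t + σ (p g) x (z * M' g + y)) % M g) u) := by
  refine (h.win 3 c (fun _ => by simp) h1 h0 hc (hp.pair h1)
    (σ := fun q l => σ q.1 (l.getD 0 0) (l.getD 2 0 * q.2 + l.getD 1 0))
    (PT.comp (g := fun x : (π × ℕ) × List ℕ =>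
      (x.1.1, x.2.getD 0 0, x.2.getD 2 0 * x.1.2 + x.2.getD 1 0)) hσ (by fun_prop))).congr
    (fun _ => rfl) fun g xs _ => ?_
  rw [getD_pre (by norm_num), getD_pre (by norm_num), getD_pre (by norm_num)]
  simp [tc5]

theorem arr_split4 (a b c d e : ℕ) (u : ℕ → ℕ → ℕ → ℕ → List Bool) :
    (arr [a, b, c * d, e] fun xs => u (xs 0) (xs 1) (xs 2) (xs 3)) =
      arr [a, b, c, d, e] fun xs => u (xs 0) (xs 1) (xs 2 * d + xs 3) (xs 4) :=
  arr_split [a, b] [e] c d fun xs => u (xs 0) (xs 1) (xs 2) (xs 3)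

theorem Ar.split4 (h : Ar D (fun g => [O g, M g, R g * U g, T g]) (tc4 F4)) (hR : LS D R)
    (hU : LS D U) :
    Ar D (fun g => [O g, M g, R g, U g, T g])
      (tc5 fun g x y z t u => F4 g x y (z * U g + t) u) := by
  refine h.view ((LS.comp (f := fun x : List ℕ × ℕ × ℕ =>
    [x.1.getD 0 1, x.1.getD 1 1, x.2.1, x.2.2, x.1.getD 3 1]) (by fun_prop)
    (h.hds.pair (hR.pair hU))).congr fun _ => rfl) (fun g d hd => ?_)
    fun g => (arr_split4 _ _ _ _ _ (F4 g)).symm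
  have h1 : 0 < R g * U g := h.pos g _ (by simp)
  simp only [List.mem_cons, List.not_mem_nil, or_false] at hd
  rcases hd with rfl | rfl | rfl | rfl | rfl
  exacts [h.pos g _ (by simp), h.pos g _ (by simp), Nat.pos_of_mul_pos_right h1,
    Nat.pos_of_mul_pos_left h1, h.pos g _ (by simp)]

theorem Ar.merge4 (h : Ar D (fun g => [O g, M g, R g, U g, T g])
      (tc5 fun g x y z t u => F4 g x y (z * U g + t) u)) :
    Ar D (fun g => [O g, M g, R g * U g, T g]) (tc4 F4) := by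
  refine h.view ((LS.comp (f := fun x : List ℕ =>
    [x.getD 0 1, x.getD 1 1, x.getD 2 1 * x.getD 3 1, x.getD 4 1]) (by fun_prop)
      h.hds).congr fun _ => rfl)
    (fun g d hd => ?_) fun g => arr_split4 _ _ _ _ _ (F4 g)
  simp only [List.mem_cons, List.not_mem_nil, or_false] at hd
  rcases hd with rfl | rfl | rfl | rfl
  exacts [h.pos g _ (by simp), h.pos g _ (by simp),
    Nat.mul_pos (h.pos g _ (by simp)) (h.pos g _ (by simp)), h.pos g _ (by simp)]

theorem arr_view35 (a b c : ℕ) (u : ℕ → ℕ → ℕ → List Bool) :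
    (arr [1, a, 1, b, c] fun xs => u (xs 1) (xs 3) (xs 4)) =
      arr [a, b, c] fun xs => u (xs 0) (xs 1) (xs 2) := by
  simp [arr, consF]

theorem Ar.to5 (h : Ar D (fun g => [M g, R g, T g]) (tc3 F3)) :
    Ar D (fun g => [1, M g, 1, R g, T g]) (tc5 fun g _ y _ t u => F3 g y t u) := by
  refine h.view ((LS.comp (f := fun x : List ℕ =>
    [1, x.getD 0 1, 1, x.getD 1 1, x.getD 2 1]) (by fun_prop) h.hds).congr fun _ => rfl)
    (fun g d hd => ?_) fun g => arr_view35 _ _ _ (F3 g)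
  simp only [List.mem_cons, List.not_mem_nil, or_false] at hd
  rcases hd with rfl | rfl | rfl | rfl | rfl
  exacts [one_pos, h.pos g _ (by simp), one_pos, h.pos g _ (by simp), h.pos g _ (by simp)]

theorem Ar.to3 (h : Ar D (fun g => [1, M g, 1, R g, T g]) (tc5 fun g _ y _ t u => F3 g y t u)) :
    Ar D (fun g => [M g, R g, T g]) (tc3 F3) := by
  refine h.view ((LS.comp (f := fun x : List ℕ =>
    [x.getD 1 1, x.getD 3 1, x.getD 4 1]) (by fun_prop) h.hds).congr fun _ => rfl)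
    (fun g d hd => ?_) fun g => (arr_view35 _ _ _ (F3 g)).symm
  simp only [List.mem_cons, List.not_mem_nil, or_false] at hd
  rcases hd with rfl | rfl | rfl
  exacts [h.pos g _ (by simp), h.pos g _ (by simp), h.pos g _ (by simp)]

theorem Ar.swap5 {a w : G → ℕ}
    (h : Ar D (fun g => [O g, 3 ^ a g, U g, 3 ^ a g, R g]) (tc5 F5))
    (ha : LS D fun g => (⟨a g⟩ : Un))
    (hw : ∀ g x y z t u, x < O g → u < R g → (F5 g x y z t u).length = w g)
    (hd : ∀ g, ∃ d, a g < 2 ^ d ∧ W ^ d ∣ R g)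
    (hB : Bd (fun g => sw (a g) * ([O g, 3 ^ a g, U g, 3 ^ a g, R g].prod * (w g + 1))) D.B) :
    Ar D (fun g => [O g, 3 ^ a g, U g, 3 ^ a g, R g])
      (tc5 fun g x y z t u => F5 g x t z y u) :=
  (h.swap ha (fun g _ hx => hw g _ _ _ _ _ (hx 0) (hx 4)) hd hB).congr (fun _ => rfl)
    fun _ _ _ => rfl

theorem exists_tern {A : G → ℕ} (lM : LS D M) (pM : ∀ g, 0 < M g) (hA : ∀ g, M g ≤ 2 ^ A g) :
    ∃ a : G → ℕ, (LS D fun g => (⟨a g⟩ : Un)) ∧ (LS D fun g => 3 ^ a g) ∧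
      (∀ g, M g ≤ 3 ^ a g) ∧ (∀ g, 3 ^ a g ≤ 3 * M g) ∧ ∀ g, a g ≤ A g := by
  have la : LS D fun g => (⟨Nat.clog 3 (M g)⟩ : Un) :=
    LS.comp (f := fun M : ℕ => (⟨Nat.clog 3 M⟩ : Un)) PT_clog3 lM
  exact ⟨fun g => Nat.clog 3 (M g), la, LS.comp (f := fun u : Un => 3 ^ u.n) (by fun_prop) la,
    fun g => Nat.le_pow_clog (by norm_num) _, fun g => pow_clog3_le (pM g),
    fun g => clog3_le (hA g)⟩

theorem exists_ceil {Q : G → ℕ} (lR : LS D R) (lQ : LS D Q) (pQ : ∀ g, 0 < Q g)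
    (hQ : ∀ g, Q g ≤ 3 * R g) :
    ∃ R' : G → ℕ, LS D R' ∧ (LS D fun g => R' g * Q g) ∧ (∀ g, 0 < R' g * Q g) ∧
      (∀ g, R g ≤ R' g * Q g) ∧ ∀ g, R' g * Q g ≤ 4 * R g := by
  have l1 : LS D fun g => R g / Q g + 1 :=
    LS.comp (f := fun x : ℕ × ℕ => x.1 / x.2 + 1) (by fun_prop) (lR.pair lQ)
  refine ⟨fun g => R g / Q g + 1, l1,
    LS.comp (f := fun x : ℕ × ℕ => x.1 * x.2) (by fun_prop) (l1.pair lQ),
    fun g => Nat.mul_pos (Nat.succ_pos _) (pQ g),
    fun g => (Nat.lt_div_mul_add (pQ g)).le.trans (le_of_eq (by ring)), fun g => ?_⟩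
  have h1 := Nat.div_mul_le_self (R g) (Q g)
  have h2 := hQ g
  rw [add_mul]
  omega

theorem Ar.tr4 {A w : G → ℕ} (h0 : Ar D (fun g => [O g, M g, R g, T g]) (tc4 F4))
    (hl : ∀ g a b c d, a < O g → b < M g → c < R g → d < T g → (F4 g a b c d).length = w g)
    (hR : ∀ g, M g ≤ R g) (hA : ∀ g, M g ≤ 2 ^ A g) (hd : ∀ g, ∃ d, A g < 2 ^ d ∧ W ^ d ∣ T g)
    (hB : Bd (fun g => sw (A g) * ([O g, M g, R g, T g].prod * (w g + 1))) D.B)
    {p : G → π} (hp : LS D p) {σ : π → ℕ → ℕ → ℕ}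
    (hσ : PT fun x : π × ℕ × ℕ => σ x.1 x.2.1 x.2.2) :
    Ar D (fun g => [O g, M g, R g, T g])
      (tc4 fun g x y z t => F4 g x ((y + σ (p g) x z) % M g) z t) := by
  have pM : ∀ g, 0 < M g := fun g => h0.pos g _ (by simp)
  have pR : ∀ g, 0 < R g := fun g => h0.pos g _ (by simp)
  have lM : LS D M := h0.tr_ls 1
  have lR : LS D R := h0.tr_ls 2
  obtain ⟨a, la, lQ, hMQ, hQM, haA⟩ := exists_tern lM pM hA
  have pQ : ∀ g, 0 < 3 ^ a g := fun g => by positivity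
  obtain ⟨R', lR', lRQ, pRQ, hRR, hRR'⟩ := exists_ceil lR lQ pQ fun g =>
    (hQM g).trans (Nat.mul_le_mul_left _ (hR g))
  have hd' : ∀ g, ∃ d, a g < 2 ^ d ∧ W ^ d ∣ T g := fun g => by
    obtain ⟨d, h1, h2⟩ := hd g
    exact ⟨d, (haA g).trans_lt h1, h2⟩
  have hB' : Bd (fun g => sw (a g) * ([O g, 3 ^ a g, R' g, 3 ^ a g, T g].prod * (w g + 1)))
      D.B := by
    refine (hB.cmul 12).le fun g => ?_
    have h1 := sw_mono (haA g)
    have h2 := Nat.mul_le_mul (hQM g) (hRR' g)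
    simp only [List.prod_cons, List.prod_nil, mul_one]
    calc sw (a g) * (O g * (3 ^ a g * (R' g * (3 ^ a g * T g))) * (w g + 1))
        = sw (a g) * ((3 ^ a g * (R' g * 3 ^ a g)) * (O g * T g * (w g + 1))) := by ring
      _ ≤ sw (A g) * ((3 * M g * (4 * R g)) * (O g * T g * (w g + 1))) :=
        Nat.mul_le_mul h1 (Nat.mul_le_mul_right _ h2)
      _ = _ := by ring
  have h3 := ((h0.r41 3 lQ pQ hQM).r42 4 lRQ pRQ hRR').split4 lR' lQ
  have h4 := h3.swap5 (w := w) la (fun g x y z t u hx hu =>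
    hl g _ _ _ _ hx (Nat.mod_lt _ (pM g)) (Nat.mod_lt _ (pR g)) hu) hd' hB'
  have h5 := h4.r53 1 lM pM fun g => by simpa using hMQ g
  have h6 := h5.w53 3 lQ pQ hQM hp hσ
  have h7 := h6.swap5 (w := w) la (fun g x y z t u hx hu =>
    hl g _ _ _ _ hx (Nat.mod_lt _ (pM g)) (Nat.mod_lt _ (pR g)) hu) hd' hB'
  have h8 := Ar.merge4 (F4 := fun g x y z t =>
    F4 g x ((y + σ (p g) x z) % M g % 3 ^ a g % M g) (z % R g) t) h7
  have h9 := (h8.r42 1 lR pR fun g => by simpa using hRR g).r41 1 lM pM fun g => by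
    simpa using hMQ g
  refine h9.congr (fun _ => rfl) fun g xs hx => ?_
  have e1 : xs 1 % 3 ^ a g = xs 1 := Nat.mod_eq_of_lt ((hx 1).trans_le (hMQ g))
  have e2 : xs 2 % (R' g * 3 ^ a g) = xs 2 := Nat.mod_eq_of_lt ((hx 2).trans_le (hRR g))
  have e3 : xs 2 % R g = xs 2 := Nat.mod_eq_of_lt (hx 2)
  have e4 : ∀ n, n % M g % 3 ^ a g = n % M g := fun n =>
    Nat.mod_eq_of_lt ((Nat.mod_lt _ (pM g)).trans_le (hMQ g))
  simp only [tc4, e1, e2, e3, e4, Nat.mod_mod]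

theorem Ar.transp3 {A w : G → ℕ} (h0 : Ar D (fun g => [M g, M g, T g]) (tc3 F3))
    (hl : ∀ g a b c, a < M g → b < M g → c < T g → (F3 g a b c).length = w g)
    (hA : ∀ g, M g ≤ 2 ^ A g) (hd : ∀ g, ∃ d, A g < 2 ^ d ∧ W ^ d ∣ T g)
    (hB : Bd (fun g => sw (A g) * ([M g, M g, T g].prod * (w g + 1))) D.B) :
    Ar D (fun g => [M g, M g, T g]) (tc3 fun g x y z => F3 g y x z) := by
  have pM : ∀ g, 0 < M g := fun g => h0.pos g _ (by simp)
  have lM : LS D M := h0.tr_ls 1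
  obtain ⟨a, la, lQ, hMQ, hQM, haA⟩ := exists_tern lM pM hA
  have pQ : ∀ g, 0 < 3 ^ a g := fun g => by positivity
  have hd' : ∀ g, ∃ d, a g < 2 ^ d ∧ W ^ d ∣ T g := fun g => by
    obtain ⟨d, h1, h2⟩ := hd g
    exact ⟨d, (haA g).trans_lt h1, h2⟩
  have hB' : Bd (fun g => sw (a g) * ([1, 3 ^ a g, 1, 3 ^ a g, T g].prod * (w g + 1))) D.B := by
    refine (hB.cmul 9).le fun g => ?_
    have h1 := sw_mono (haA g)
    have h2 := Nat.mul_le_mul (hQM g) (hQM g)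
    simp only [List.prod_cons, List.prod_nil, mul_one, one_mul]
    calc sw (a g) * (3 ^ a g * (3 ^ a g * T g) * (w g + 1))
        = sw (a g) * ((3 ^ a g * 3 ^ a g) * (T g * (w g + 1))) := by ring
      _ ≤ sw (A g) * ((3 * M g * (3 * M g)) * (T g * (w g + 1))) :=
        Nat.mul_le_mul h1 (Nat.mul_le_mul_right _ h2)
      _ = _ := by ring
  have h3 := ((h0.r30 3 lQ pQ hQM).r31 3 lQ pQ hQM).to5
  have h4 := h3.swap5 (O := fun _ => 1) (U := fun _ => 1) (w := w) la (fun g x y z t u _ hu =>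
    hl g _ _ _ (Nat.mod_lt _ (pM g)) (Nat.mod_lt _ (pM g)) hu) hd' hB'
  have h5 := Ar.to3 (F3 := fun g x y z => F3 g (y % M g) (x % M g) z) h4
  have h6 := (h5.r31 1 lM pM fun g => by simpa using hMQ g).r30 1 lM pM fun g => by
    simpa using hMQ g
  refine h6.congr (fun _ => rfl) fun g xs hx => ?_
  have e1 : xs 1 % 3 ^ a g = xs 1 := Nat.mod_eq_of_lt ((hx 1).trans_le (hMQ g))
  have e2 : xs 0 % 3 ^ a g = xs 0 := Nat.mod_eq_of_lt ((hx 0).trans_le (hMQ g))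
  have e3 : xs 1 % M g = xs 1 := Nat.mod_eq_of_lt (hx 1)
  have e4 : xs 0 % M g = xs 0 := Nat.mod_eq_of_lt (hx 0)
  simp only [tc3, e1, e2, e3, e4]

end Steps

theorem Ar.tr {O M R T A w : G → ℕ} (h : Ar D (fun g => [O g, M g, R g, T g]) f)
    (hw : ∀ g xs, Valid [O g, M g, R g, T g] xs → (f g xs).length = w g)
    (hR : ∀ g, M g ≤ R g) (hA : ∀ g, M g ≤ 2 ^ A g) (hd : ∀ g, ∃ d, A g < 2 ^ d ∧ W ^ d ∣ T g)
    (hB : Bd (fun g => sw (A g) * ([O g, M g, R g, T g].prod * (w g + 1))) D.B)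
    {p : G → π} (hp : LS D p) {σ : π → ℕ → ℕ → ℕ}
    (hσ : PT fun x : π × ℕ × ℕ => σ x.1 x.2.1 x.2.2) :
    Ar D (fun g => [O g, M g, R g, T g]) fun g xs =>
      f g (update xs 1 ((xs 1 + σ (p g) (xs 0) (xs 2)) % M g)) := by
  obtain ⟨F, hF⟩ : ∃ F : G → ℕ → ℕ → ℕ → ℕ → List Bool,
      F = fun g a b c d => f g (consF a (consF b (consF c (consF d fun _ => 0)))) := ⟨_, rfl⟩
  have hf : ∀ g xs, Valid [O g, M g, R g, T g] xs → tc4 F g xs = f g xs :=
    fun g xs hx => by rw [hF]; exact congrArg (f g) (tr_eta4 hx)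
  have hl : ∀ g a b c d, a < O g → b < M g → c < R g → d < T g → (F g a b c d).length = w g :=
    fun g a b c d ha hb hc hd => by
      rw [hF]
      exact hw g _ (aL_valid_consF ha (aL_valid_consF hb (aL_valid_consF hc
        (aL_valid_consF hd (valid_nil.2 fun _ => rfl)))))
  have h0 : Ar D (fun g => [O g, M g, R g, T g]) (tc4 F) := h.congr (fun _ => rfl) fun g xs hx =>
    hf g xs hx
  refine (h0.tr4 hl hR hA hd hB hp hσ).congr (fun _ => rfl) fun g xs hx => ?_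
  have h1 : (xs 1 + σ (p g) (xs 0) (xs 2)) % M g < M g := Nat.mod_lt _ (h.pos g _ (by simp))
  rw [← hf g _ (hx.update (i := 1) h1)]
  simp [tc4]

theorem Ar.transp {M T A w : G → ℕ} (h : Ar D (fun g => [M g, M g, T g]) f)
    (hw : ∀ g xs, Valid [M g, M g, T g] xs → (f g xs).length = w g)
    (hA : ∀ g, M g ≤ 2 ^ A g) (hd : ∀ g, ∃ d, A g < 2 ^ d ∧ W ^ d ∣ T g)
    (hB : Bd (fun g => sw (A g) * ([M g, M g, T g].prod * (w g + 1))) D.B) :
    Ar D (fun g => [M g, M g, T g]) fun g xs => f g (xs ∘ Equiv.swap 0 1) := by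
  obtain ⟨F, hF⟩ : ∃ F : G → ℕ → ℕ → ℕ → List Bool,
      F = fun g a b c => f g (consF a (consF b (consF c fun _ => 0))) := ⟨_, rfl⟩
  have hf : ∀ g xs, Valid [M g, M g, T g] xs → tc3 F g xs = f g xs :=
    fun g xs hx => by rw [hF]; exact congrArg (f g) (tr_eta3 hx)
  have hl : ∀ g a b c, a < M g → b < M g → c < T g → (F g a b c).length = w g :=
    fun g a b c ha hb hc => by
      rw [hF]
      exact hw g _ (aL_valid_consF ha (aL_valid_consF hb (aL_valid_consF hc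
        (valid_nil.2 fun _ => rfl))))
  have h0 : Ar D (fun g => [M g, M g, T g]) (tc3 F) := h.congr (fun _ => rfl) fun g xs hx =>
    hf g xs hx
  refine (h0.transp3 hl hA hd hB).congr (fun _ => rfl) fun g xs hx => ?_
  have hy : Valid [M g, M g, T g] (xs ∘ Equiv.swap 0 1) := fun i => by
    match i with
    | 0 => exact hx 1
    | 1 => exact hx 0
    | i + 2 =>
      have := hx (i + 2)
      rwa [comp_apply, Equiv.swap_apply_of_ne_of_ne (by omega) (by omega)]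
  rw [← hf g _ hy]
  rfl

end Vale.Agent.P338
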