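import Vale.Agent.P338.TR

namespace Vale.Agent.P338

open Vale.Agent.Lib Vale.Agent.Lib.H23 Enc Function

variable {G α π : Type} [Enc α] [Enc π] {D : Dom G α} {f : G → (ℕ → ℕ) → List Bool}

theorem trd_getD (p t : List ℕ) (M : ℕ) : (p ++ M :: t).getD p.length 1 = M := by
  simp [List.getD_eq_getElem?_getD]

/-- Translate the digit `i` by a function of all other digits except the last one. -/
theorem Ar.trD {ds p s : G → List ℕ} {M T A w : G → ℕ} (h : Ar D ds f) (i n : ℕ)
    (e : ∀ g, ds g = p g ++ M g :: (s g ++ [T g])) (hi : ∀ g, (p g).length = i)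
    (hn : ∀ g, (s g).length = n) (hw : ∀ g xs, Valid (ds g) xs → (f g xs).length = w g)
    (hR : ∀ g, M g ≤ (s g).prod) (hA : ∀ g, M g ≤ 2 ^ A g)
    (hd : ∀ g, ∃ d, A g < 2 ^ d ∧ W ^ d ∣ T g)
    (hB : Bd (fun g => sw (A g) * ((ds g).prod * (w g + 1))) D.B)
    {q : G → π} (hq : LS D q) {σ : π → List ℕ → ℕ} (hσ : PT fun x : π × List ℕ => σ x.1 x.2) :
    Ar D ds fun g xs =>
      f g (update xs i ((xs i + σ (q g) (pre (i + 1 + n) (update xs i 0))) % M g)) := by
  choose κ k1 k2 k3 k4 k5 using fun g => exists_view4 (p g) (s g) (M g) (T g)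
  have hp : LS D p := (LS.comp (f := fun l : List ℕ => l.take i) (by fun_prop) h.hds).congr
    fun g => by rw [e, ← hi g]; simp
  have hs : LS D s := (LS.comp (f := fun l : List ℕ => (l.drop (i + 1)).take n) (by fun_prop)
    h.hds).congr fun g => by
      rw [e, ← hi g, ← hn g, ← List.drop_drop]
      simp
  have hM : LS D M := (LS.comp (f := fun l : List ℕ => l.getD i 1) (by fun_prop) h.hds).congr
    fun g => by rw [e, ← hi g, trd_getD]
  have hT : LS D T := (LS.comp (f := fun l : List ℕ => (l.drop (i + 1)).getD n 1) (by fun_prop)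
    h.hds).congr fun g => by
      rw [e, ← hi g, ← hn g, ← List.drop_drop]
      simp
  have hpos : ∀ g, ∀ d ∈ p g ++ M g :: (s g ++ [T g]), 0 < d := fun g => e g ▸ h.pos g
  have h1 : Ar D (fun g => [(p g).prod, M g, (s g).prod, T g]) fun g xs => f g (κ g xs) := by
    refine h.view (LS.comp
      (f := fun x : (List ℕ × ℕ) × List ℕ × ℕ => [x.1.1.prod, x.1.2, x.2.1.prod, x.2.2])
      (by fun_prop) ((hp.pair hM).pair (hs.pair hT))) (fun g d hd => ?_) fun g => by
        rw [e, k2]
    simp only [List.mem_cons, List.not_mem_nil, or_false] at hd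
    rcases hd with rfl | rfl | rfl | rfl
    · exact List.prod_pos fun d hd => hpos g d (by simp [hd])
    · exact hpos g _ (by simp)
    · exact List.prod_pos fun d hd => hpos g d (by simp [hd])
    · exact hpos g _ (by simp)
  have h2 := h1.tr (A := A) (w := w) (fun g xs hx => hw g _ (e g ▸ k1 g xs hx)) hR hA hd
    (hB.le fun g => le_of_eq (by rw [e]; simp)) (hq.pair (hp.pair hs))
    (σ := fun y a b => σ y.1
      (pre y.2.1.length (dig y.2.1 a) ++ 0 :: pre y.2.2.length (dig y.2.2 b)))
    (PT.comp (g := fun x : (π × List ℕ × List ℕ) × ℕ × ℕ => (x.1.1,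
      pre x.1.2.1.length (dig x.1.2.1 x.2.1) ++ 0 :: pre x.1.2.2.length (dig x.1.2.2 x.2.2))) hσ
      (PT.pair (by fun_prop) (PT.append (PT_dig (by fun_prop) (by fun_prop))
        (PT.cons (PT.const 0) (PT_dig (by fun_prop) (by fun_prop))))))
  refine h2.view h.hds h.pos fun g => ?_
  rw [e, k2]
  congr 1
  funext xs
  rw [k3, ← hi g, ← hn g, k4, k5]

/-- `y += l x` -/
def trdL (i j M : ℕ) (l : List ℕ → ℕ) (xs : ℕ → ℕ) : ℕ → ℕ :=
  update xs j ((xs j + l (pre i xs) * xs i) % M)

/-- `x += l y` -/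
def trdU (i j M : ℕ) (l : List ℕ → ℕ) (xs : ℕ → ℕ) : ℕ → ℕ :=
  update xs i ((xs i + l (pre i xs) * xs j) % M)

theorem trd_pre_update {i j : ℕ} (h : i ≤ j) (xs : ℕ → ℕ) (v : ℕ) :
    pre i (update xs j v) = pre i xs :=
  List.map_congr_left fun k hk => update_of_ne (by have := List.mem_range.1 hk; omega) _ _

theorem trd_take_pre {i j : ℕ} (h : i ≤ j) (xs : ℕ → ℕ) : (pre j xs).take i = pre i xs := by
  unfold pre
  rw [← List.map_take, List.take_range, min_eq_left h]

theorem trd_prod {i j M : ℕ} (hij : i < j) (hM : 0 < M) (c : List ℕ → ℕ) (xs : ℕ → ℕ)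
    (hc : c (pre i xs) * c (pre i xs) ≡ 1 [MOD M]) :
    trdL i j M (fun l => (M - 1) * c l) (trdU i j M (fun l => c l + (M - 1))
      (trdL i j M (fun _ => 1) (trdU i j M (fun l => c l + (M - 1)) xs))) =
      update (update xs i (c (pre i xs) * xs i % M)) j (c (pre i xs) * xs j % M) := by
  have h1 : i ≠ j := hij.ne
  have h2 : j ≠ i := hij.ne'
  have hc' : (c (pre i xs) : ZMod M) * c (pre i xs) = 1 := by
    exact_mod_cast (ZMod.natCast_eq_natCast_iff _ _ _).2 hc
  have hm : ((M - 1 : ℕ) : ZMod M) = -1 := by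
    rw [Nat.cast_sub hM, ZMod.natCast_self]; simp
  simp only [trdL, trdU, trd_pre_update le_rfl, trd_pre_update hij.le, update_self,
    update_of_ne h1, update_of_ne h2]
  generalize c (pre i xs) = c at *
  funext k
  by_cases hj : k = j
  · subst hj
    rw [update_self, update_self]
    refine (ZMod.natCast_eq_natCast_iff' _ _ _).1 ?_
    simp only [Nat.cast_add, Nat.cast_mul, ZMod.natCast_mod, hm, Nat.cast_one]
    linear_combination (-(xs i : ZMod M) - c * xs k) * hc'
  rw [update_of_ne hj, update_of_ne hj]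
  by_cases hi : k = i
  · subst hi
    rw [update_self, update_self]
    refine (ZMod.natCast_eq_natCast_iff' _ _ _).1 ?_
    simp only [Nat.cast_add, Nat.cast_mul, ZMod.natCast_mod, hm, Nat.cast_one]
    linear_combination (xs j : ZMod M) * hc'
  simp only [update_of_ne hi, update_of_ne hj]

/-- Multiply the digits `i` and `j` by an involution `c` depending on the digits before `i`. -/
theorem Ar.negD {ds p m s : G → List ℕ} {M T A w : G → ℕ} (h : Ar D ds f) (i j n : ℕ)
    (e : ∀ g, ds g = p g ++ M g :: (m g ++ M g :: (s g ++ [T g]))) (hi : ∀ g, (p g).length = i)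
    (hj : ∀ g, i + 1 + (m g).length = j) (hn : ∀ g, (s g).length = n)
    (hw : ∀ g xs, Valid (ds g) xs → (f g xs).length = w g)
    (hA : ∀ g, M g ≤ 2 ^ A g) (hd : ∀ g, ∃ d, A g < 2 ^ d ∧ W ^ d ∣ T g)
    (hB : Bd (fun g => sw (A g) * ((ds g).prod * (w g + 1))) D.B)
    {q : G → π} (hq : LS D q) {c : π → List ℕ → ℕ} (hc : PT fun x : π × List ℕ => c x.1 x.2)
    (hc2 : ∀ g xs, Valid (ds g) xs → c (q g) (pre i xs) * c (q g) (pre i xs) ≡ 1 [MOD M g]) :
    Ar D ds fun g xs => f g (update (update xs i (c (q g) (pre i xs) * xs i % M g)) j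
      (c (q g) (pre i xs) * xs j % M g)) := by
  have hij : ∀ _ : G, i < j := fun g => by have := hj g; omega
  have ei : ∀ g, (ds g).getD i 1 = M g := fun g => by rw [e, ← hi g, trd_getD]
  have ej : ∀ g, (ds g).getD j 1 = M g := fun g => by
    have := trd_getD (p g ++ M g :: m g) (s g ++ [T g]) (M g)
    rw [List.length_append, List.length_cons, hi g, ← add_assoc, add_right_comm, hj g] at this
    rw [e]
    simpa using this
  have lj : ∀ g, j < (ds g).length := fun g => by
    rw [e, ← hj g, ← hi g]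
    simp only [List.length_append, List.length_cons]
    omega
  have hM : LS D M := (LS.comp (f := fun l : List ℕ => l.getD i 1) (by fun_prop) h.hds).congr
    fun g => (ei g).symm
  have h0 : ∀ g, 0 < M g := fun g => ei g ▸ getD_pos1 (h.pos g) i
  have hL : ∀ {f : G → (ℕ → ℕ) → List Bool} (l : π × ℕ → List ℕ → ℕ),
      (PT fun x : (π × ℕ) × List ℕ => l x.1 x.2) →
      (Ar D ds f ∧ ∀ g xs, Valid (ds g) xs → (f g xs).length = w g) →
      (Ar D ds fun g xs => f g (trdL i j (M g) (l (q g, M g)) xs)) ∧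
        ∀ g xs, Valid (ds g) xs → (f g (trdL i j (M g) (l (q g, M g)) xs)).length = w g := by
    intro f l hl ⟨h, hw⟩
    refine ⟨(h.rot j lj (hq.pair hM) (σ := fun y z => l y (z.take i) * z.getD i 0)
      (PT.mul (PT.comp (g := fun x : (π × ℕ) × List ℕ => (x.1, x.2.take i)) hl (by fun_prop))
        (by fun_prop))).congr (fun _ => rfl) fun g xs _ => ?_,
      fun g xs hx => hw g _ (hx.update (by rw [ej]; exact Nat.mod_lt _ (h0 g)))⟩
    rw [trdL, ej, trd_take_pre (hij g).le, getD_pre (hij g)]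
  have hU : ∀ {f : G → (ℕ → ℕ) → List Bool} (l : π × ℕ → List ℕ → ℕ),
      (PT fun x : (π × ℕ) × List ℕ => l x.1 x.2) →
      (Ar D ds f ∧ ∀ g xs, Valid (ds g) xs → (f g xs).length = w g) →
      (Ar D ds fun g xs => f g (trdU i j (M g) (l (q g, M g)) xs)) ∧
        ∀ g xs, Valid (ds g) xs → (f g (trdU i j (M g) (l (q g, M g)) xs)).length = w g := by
    intro f l hl ⟨h, hw⟩
    refine ⟨(h.trD (p := p) (s := fun g => m g ++ M g :: s g) (M := M) (T := T) (A := A) (w := w)
      i (j - i + n) (fun g => by rw [e]; simp) hi (fun g => ?_) hw (fun g => ?_) hA hd hB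
      (hq.pair hM) (σ := fun y z => l y (z.take i) * z.getD j 0)
      (PT.mul (PT.comp (g := fun x : (π × ℕ) × List ℕ => (x.1, x.2.take i)) hl (by fun_prop))
        (by fun_prop))).congr (fun _ => rfl) fun g xs _ => ?_,
      fun g xs hx => hw g _ (hx.update (by rw [ei]; exact Nat.mod_lt _ (h0 g)))⟩
    · have := hj g
      rw [List.length_append, List.length_cons, hn]
      omega
    · have hp := e g ▸ h.pos g
      have h1 : 0 < (m g).prod := List.prod_pos fun d hd => hp d (by simp [hd])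
      have h2 : 0 < (s g).prod := List.prod_pos fun d hd => hp d (by simp [hd])
      rw [List.prod_append, List.prod_cons]
      exact (Nat.le_mul_of_pos_right _ h2).trans (Nat.le_mul_of_pos_left _ h1)
    · have := hij g
      rw [trdU, trd_take_pre (by omega), getD_pre (by omega), trd_pre_update le_rfl,
        update_of_ne this.ne']
  have hc' : PT fun x : (π × ℕ) × List ℕ => c x.1.1 x.2 :=
    PT.comp (g := fun x : (π × ℕ) × List ℕ => (x.1.1, x.2)) hc (by fun_prop)
  have h1 := hL (fun y z => (y.2 - 1) * c y.1 z) (PT.mul (by fun_prop) hc') ⟨h, hw⟩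
  have h2 := hU (fun y z => c y.1 z + (y.2 - 1)) (PT.add hc' (by fun_prop)) h1
  have h3 := hL (fun _ _ => 1) (PT.const 1) h2
  have h4 := hU (fun y z => c y.1 z + (y.2 - 1)) (PT.add hc' (by fun_prop)) h3
  refine h4.1.congr (fun _ => rfl) fun g xs hx => ?_
  rw [← trd_prod (hij g) (h0 g) (c (q g)) xs (hc2 g xs hx)]

end Vale.Agent.P338
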