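import Vale.Agent.P338.Dft1
import Vale.Agent.P338.Codec

namespace Vale.Agent.P338

open Vale.Agent.Lib Vale.Agent.Lib.H23 Enc Function

theorem ARa.pmul {L E T B : ℕ} {ε X : ℝ} {Z Z' : (ℕ → ℕ) → ℂ} {f f' o : (ℕ → ℕ) → List Bool}
    (h : ARa L [B, B, T] E ε X Z f) (h' : ARa L [B, B, T] E ε X Z' f')
    (ho : ∀ xs, Valid [B, B, T] xs → (o xs).length = 2 * L + 2 ∧
      cv L (o xs) = pmul (fun ys => cv L (f ys)) (fun ys => cv L (f' ys)) xs) :
    ARa L [B, B, T] (E + E) (T * (2 * ε * X + ε * ε)) (T * (X * X)) (pmul Z Z') o := by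
  intro xs hx
  obtain ⟨h1, h2⟩ := ho xs hx
  have x2 : xs 2 < T := hx 2
  have hv : ∀ v, v ≤ xs 2 → Valid [B, B, T] (update xs 2 v) := fun v hv =>
    hx.update (show v < T by omega)
  have hc : ((Finset.HasAntidiagonal.antidiagonal (xs 2)).card : ℝ) ≤ T := by
    rw [Finset.Nat.card_antidiagonal]
    exact_mod_cast x2
  have hε : 0 ≤ ε := (h xs hx).2.1.nonneg
  have hX : 0 ≤ X := (norm_nonneg _).trans (h xs hx).2.2
  have hp : ∀ p ∈ Finset.HasAntidiagonal.antidiagonal (xs 2),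
      p.1 ≤ xs 2 ∧ p.2 ≤ xs 2 := fun p hp => by
    have := Finset.HasAntidiagonal.mem_antidiagonal.1 hp
    omega
  refine ⟨h1, ?_, ?_⟩
  · rw [h2]
    refine (AR.sum (ε := ε * X + ε * X + ε * ε) _ fun p hp' => ?_).mono ?_
    · have a := h _ (hv _ (hp p hp').1)
      have b := h' _ (hv _ (hp p hp').2)
      exact a.2.1.mul b.2.1 a.2.2 b.2.2
    · have e : ε * X + ε * X + ε * ε = 2 * ε * X + ε * ε := by ring
      rw [e]
      gcongr
  · unfold P338.pmul
    refine (norm_sum_le _ _).trans ((Finset.sum_le_card_nsmul _ _ (X * X) fun p hp' => ?_).trans ?_)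
    · have a := h _ (hv _ (hp p hp').1)
      have b := h' _ (hv _ (hp p hp').2)
      rw [norm_mul]
      exact mul_le_mul a.2.2 b.2.2 (norm_nonneg _) hX
    · rw [nsmul_eq_mul]
      gcongr

/-- the total rounding error is small -/
theorem err_le {m : Pm} (h : m.OK) {G δ X ε : ℝ} (hG : G = (m.Γ ^ m.P) ^ 2)
    (hδ : δ = 2 * (m.P * (2 / 2 ^ m.p))) (hX : X = G * 2 ^ m.b0)
    (hε : ε = G * (0 + δ * 2 ^ m.b0)) :
    G * (m.T * (2 * ε * X + ε * ε) + δ * (m.T * (X * X))) ≤ 1 / 8 := by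
  have h1 : (1024 : ℝ) * m.P * m.T * G ^ 3 * 2 ^ m.r ≤ 2 ^ m.b0 := by
    have := h.herr
    have e : G ^ 3 = (2 ^ (m.r + m.u * m.u + 1)) ^ (6 * m.P) := by
      rw [hG, Pm.Γ, ← pow_mul, ← pow_mul, ← pow_mul, ← pow_mul]
      congr 1
      ring
    rw [e]
    exact_mod_cast this
  have hG1 : 1 ≤ G := by
    rw [hG, Pm.Γ]
    exact one_le_pow₀ (one_le_pow₀ (one_le_pow₀ (by norm_num)))
  have hT : (1 : ℝ) ≤ m.T := by
    have := h.hT'
    have : 1 ≤ m.T := by unfold Pm.T; omega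
    exact_mod_cast this
  have hP : (1 : ℝ) ≤ m.P := by exact_mod_cast h.hP
  have e2 : (2 : ℝ) ^ m.r * 2 ^ m.p = 2 ^ m.b0 * 2 ^ m.b0 * 2 ^ m.b0 := by
    rw [← pow_add, h.rp.1, ← pow_add, ← pow_add]
    congr 1
    ring
  have hb : (1 : ℝ) ≤ 2 ^ m.b0 := one_le_pow₀ (by norm_num)
  have hr : (0 : ℝ) < 2 ^ m.r := by positivity
  have hp : (0 : ℝ) < 2 ^ m.p := by positivity
  generalize (2 : ℝ) ^ m.b0 = b at *
  generalize (2 : ℝ) ^ m.r = r at *
  generalize (2 : ℝ) ^ m.p = q at *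
  generalize (m.P : ℝ) = P at *
  generalize (m.T : ℝ) = T at *
  have hδ0 : 0 ≤ δ := by rw [hδ]; positivity
  have k1 : δ * (b * b * b) = 4 * P * r := by
    rw [hδ, ← e2]
    field_simp
    ring
  have k2 : G ^ 3 * T * (b * b) * δ ≤ 1 / 256 := by
    have : G ^ 3 * T * (b * b) * δ * b ≤ 1 / 256 * b := by
      have e : G ^ 3 * T * (b * b) * δ * b = G ^ 3 * T * (δ * (b * b * b)) := by ring
      rw [e, k1]
      linarith
    exact le_of_mul_le_mul_right this (by linarith)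
  have k3 : δ ≤ 1 := by
    have a1 : 1 ≤ G ^ 3 * T * (b * b) :=
      one_le_mul_of_one_le_of_one_le (one_le_mul_of_one_le_of_one_le (one_le_pow₀ hG1) hT)
        (one_le_mul_of_one_le_of_one_le hb hb)
    nlinarith
  have e3 : G * (T * (2 * ε * X + ε * ε) + δ * (T * (X * X))) =
      G ^ 3 * T * (b * b) * δ * (3 + δ) := by
    rw [hε, hX]
    ring
  rw [e3]
  have k4 : 0 ≤ G ^ 3 * T * (b * b) * δ := by positivity
  nlinarith

theorem vol_le_bud (m : Pm) (τ : ℕ) : m.N * (2 * m.L + 3) ≤ (m.P + 1) * m.bud τ := by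
  refine le_trans ?_ (Nat.le_mul_of_pos_left _ (Nat.succ_pos _))
  unfold Pm.bud
  refine Nat.mul_le_mul_left _ (le_trans ?_ (Nat.le_add_right _ _))
  exact Nat.le_mul_of_pos_left _ (Nat.mul_pos (Nat.succ_pos _) (sw_pos _))

theorem Pm.OK.N_pos {m : Pm} (h : m.OK) : 0 < m.N := by
  rw [← m.prod_sq]
  exact List.prod_pos h.sq_pos

theorem Pm.OK.lam_le_vol {m : Pm} (h : m.OK) : Lam m.S ≤ m.N * (2 * m.L + 3) :=
  (h.fat.trans (Nat.le_succ _)).trans (Nat.le_mul_of_pos_left _ h.N_pos)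

theorem Pm.OK.n_le_vol {m : Pm} (h : m.OK) : m.n ≤ m.N * (2 * m.L + 3) := by
  have h1 : m.b0 ≤ 2 * m.L + 3 := h.fat.trans (Nat.le_succ _)
  have h2 : m.T' ≤ m.T := by unfold Pm.T; omega
  have h3 : m.β ≤ m.B := by
    have := h.β_eq
    have := h.hβ
    omega
  refine h.hn.1.trans ((Nat.mul_le_mul (Nat.mul_le_mul (Nat.mul_le_mul h1 h2) h3) h3).trans
    (le_of_eq ?_))
  unfold Pm.N
  ring

theorem Lin.mulMain {G α : Type} [Enc α] {D : Dom G α} {m : G → Pm} (hA : Av D m)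
    {x y : G → List Bool} (hx : Lin D x) (hy : Lin D y)
    (hl : ∀ g, (x g).length = (m g).n ∧ (y g).length = (m g).n) {τ τ' : G → ℕ}
    (hm : ∀ g env, D.env g env → MulOK env (2 * (m g).L + 2) (τ g))
    (hm' : ∀ g env, D.env g env → MulOK env (6 * (m g).L * (m g).T) (τ' g))
    (hB : Bd (fun g => ((m g).P + 1) * (m g).bud (τ g)) D.B)
    (hB' : Bd (fun g => (m g).B * (m g).B * τ' g) D.B) : Lin D fun g => mulL (x g) (y g) := by
  have hB0 : Bd (fun g => (m g).N * (2 * (m g).L + 3)) D.B := hB.le fun g => vol_le_bud _ _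
  obtain ⟨f, a, hf, ha⟩ := exists_encode hA hx (fun g => (hl g).1) hB0
  obtain ⟨f', b, hf', hb⟩ := exists_encode hA hy (fun g => (hl g).2) hB0
  have enc : ∀ {f : G → (ℕ → ℕ) → List Bool} {a : G → ℕ → ℕ → ℕ → ℕ},
      (∀ g xs, Valid (m g).sq xs → (f g xs).length = 2 * (m g).L + 2 ∧
        valL (f g xs) = a g (xs 0) (xs 1) (xs 2)) → (∀ g k l c, a g k l c ≤ 2 ^ (m g).b0) →
      ∀ g, ARa (m g).L (m g).sq 0 0 (2 ^ (m g).b0) (fun ys => (a g (ys 0) (ys 1) (ys 2) : ℂ))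
        (f g) := by
    intro f a h1 h2 g xs hxs
    refine ⟨(h1 g xs hxs).1, ?_, ?_⟩
    · unfold cv
      rw [(h1 g xs hxs).2]
      exact AR.nat _
    · rw [Complex.norm_natCast]
      exact_mod_cast h2 g _ _ _
  obtain ⟨f1, hf1, z1⟩ := hf.dft2 hA false (E := fun _ => 0)
    (enc (fun g => (ha g).1) fun g => (ha g).2.2.1) hm hB
  obtain ⟨f2, hf2, z2⟩ := hf'.dft2 hA false (E := fun _ => 0)
    (enc (fun g => (hb g).1) fun g => (hb g).2.2.1) hm hB
  obtain ⟨o, ho, zo⟩ := Ar.pmul hA hf1 hf2 (fun g xs hxs => ⟨(z1 g xs hxs).1, (z2 g xs hxs).1⟩)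
    hm' hB'
  obtain ⟨f3, hf3, z3⟩ := ho.dft2 hA true (fun g => ARa.pmul (z1 g) (z2 g) (zo g)) hm hB
  obtain ⟨y0, hy0, e0⟩ := exists_decode hA hf3 (z := fun g => conv3 (a g) (b g)) fun g xs hxs => by
    obtain ⟨k1, k2, -⟩ := z3 g xs hxs
    have ok := hA.ok g
    refine ⟨k1, ?_, ?_⟩
    · have eE : 0 + 6 * (m g).P * (m g).b0 + (0 + 6 * (m g).P * (m g).b0) +
          6 * (m g).P * (m g).b0 = (m g).E := by
        unfold Pm.E
        ring
      rw [eE, conv_thm ok.mods (β := (m g).β) (a := fun k l c => (a g k l c : ℂ))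
        (b := fun k l c => (b g k l c : ℂ)) ok.β_eq.le
        (fun k l c h => by rw [(ha g).2.1 k l c (by tauto), Nat.cast_zero])
        (fun k l c h => by rw [(hb g).2.1 k l c (by tauto), Nat.cast_zero]) (hxs 0) (hxs 1),
        ← conv3_cast] at k2
      exact k2.mono (err_le ok rfl rfl rfl rfl)
    · have k3 := conv3_le (ha g).2.1 (ha g).2.2.1 (hb g).2.2.1 (xs 0) (xs 1) (xs 2)
      have k4 := ok.hcv
      have e : 2 ^ (3 * (m g).b0) = 2 ^ (m g).b0 * (2 ^ (m g).b0 * 2 ^ (m g).b0) := by ring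
      have k5 : 1 ≤ 2 ^ (m g).b0 * 2 ^ (m g).b0 := Nat.succ_le_of_lt (by positivity)
      rw [e]
      generalize 2 ^ (m g).b0 * 2 ^ (m g).b0 = Y at k3 k5 ⊢
      nlinarith [Nat.mul_le_mul_right Y k4]
  refine (Lin.fit (hx.unLen.unAdd hx.unLen) hy0).congr fun g => ?_
  have e1 : (P338.unAdd (P338.unLen (x g)) (P338.unLen (x g))).n = 2 * (x g).length := by
    show (x g).length + (x g).length = _
    ring
  refine valL_inj (by rw [length_mulL, length_fit, e1]) ?_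
  rw [e1, mulL, valL_fit, valL_fit, valL_bits, e0 g, (ha g).2.2.2, (hb g).2.2.2,
    ev_conv3 (T := (m g).T) (hA.ok g).β_eq.le (Nat.le_succ _) _ _ _ (ha g).2.1 (hb g).2.1]

theorem main_mul {pm : ℕ → Pm} (hp : PT fun n => (pm n).sm) : ∃ (c : Prg) (K : ℕ),
    ∀ (env : Prg) (τ τ' : ℕ) (x y : List Bool) (m : Pm), m = pm x.length → m.n = x.length →
      y.length = x.length → m.OK → MulOK env (2 * m.L + 2) τ → MulOK env (6 * m.L * m.T) τ' →
      Rns env c (enc (x, y)) (enc (mulL x y)) (K * ((m.P + 1) * m.bud τ + m.B * m.B * τ')) := by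
  let G := {q : Prg × ℕ × ℕ × List Bool × List Bool //
    (pm q.2.2.2.1.length).n = q.2.2.2.1.length ∧ q.2.2.2.2.length = q.2.2.2.1.length ∧
    (pm q.2.2.2.1.length).OK ∧ MulOK q.1 (2 * (pm q.2.2.2.1.length).L + 2) q.2.1 ∧
    MulOK q.1 (6 * (pm q.2.2.2.1.length).L * (pm q.2.2.2.1.length).T) q.2.2.1}
  let m : G → Pm := fun g => pm g.1.2.2.2.1.length
  let b : G → ℕ := fun g =>
    ((m g).P + 1) * (m g).bud g.1.2.1 + (m g).B * (m g).B * g.1.2.2.1
  have hv : ∀ g : G, (m g).N * (2 * (m g).L + 3) ≤ b g := fun g =>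
    (vol_le_bud _ _).trans (Nat.le_add_right _ _)
  have hn : ∀ g : G, (m g).n ≤ b g := fun g => (g.2.2.2.1.n_le_vol).trans (hv g)
  have hL : ∀ g : G, Lam (m g).S ≤ b g := fun g => (g.2.2.2.1.lam_le_vol).trans (hv g)
  let D : Dom G (List Bool × List Bool) :=
    { inp := fun g => g.1.2.2.2
      env := fun g e => e = g.1.1
      B := b
      S := fun g => (m g).S
      hB := ⟨11, fun g => by
        have h1 := kron_sz_le g.1.2.2.2.1
        have h2 := kron_sz_le g.1.2.2.2.2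
        have h3 := hn g
        have h4 := (Lam_pos _).trans_le (hL g)
        have h5 : (m g).n = g.1.2.2.2.1.length := g.2.1
        have h6 := g.2.2.1
        have h7 := sz_prod g.1.2.2.2
        dsimp only
        omega⟩
      hL := Bd.of_le hL
      inh := fun g => ⟨_, rfl⟩ }
  have hx : Lin D fun g => g.1.2.2.2.1 := (Lin.inp (D := D)).fst
  have hy : Lin D fun g => g.1.2.2.2.2 := (Lin.inp (D := D)).snd
  have hlen : LS D fun g => g.1.2.2.2.1.length := ⟨hx.length, Small.nat 1 fun g => by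
    have h1 : (m g).n.size ≤ (m g).S := g.2.2.2.1.hS
    have h5 : (m g).n = g.1.2.2.2.1.length := g.2.1
    rw [← h5]
    exact (Nat.lt_size_self _).le.trans
      (Nat.pow_le_pow_right (by norm_num) (show _ ≤ 1 * ((m g).S + 1) by omega))⟩
  have hA : Av D m := Av.intro (fun g => g.2.2.2.1) (fun _ => rfl)
    (Lin.pt (f := fun n => (pm n).sm) hp hlen) (Bd.of_le hn)
  obtain ⟨c, K, hc⟩ := Lin.mulMain hA hx hy (fun g => ⟨g.2.1.symm, g.2.2.1.trans g.2.1.symm⟩)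
    (τ := fun g => g.1.2.1) (τ' := fun g => g.1.2.2.1)
    (fun g env he => by rw [show env = g.1.1 from he]; exact g.2.2.2.2.1)
    (fun g env he => by rw [show env = g.1.1 from he]; exact g.2.2.2.2.2)
    (Bd.of_le fun g => Nat.le_add_right _ _) (Bd.of_le fun g => Nat.le_add_left _ _)
  refine ⟨c, K, fun env τ τ' x y m' e h1 h2 h3 h4 h5 => ?_⟩
  subst e
  exact hc ⟨(env, τ, τ', x, y), h1, h2, h3, h4, h5⟩ env rfl

end Vale.Agent.P338
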