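import Vale.Agent.P338.View
import Vale.Agent.P338.NetDefs

/-! Linear changes of address given by matrices over `ℤ[1/2]`. -/

namespace Vale.Agent.P338

open Function Matrix

abbrev A2 : Type := Localization.Away (2 : ℤ)

/-- one half -/
noncomputable def h2 : A2 := IsLocalization.Away.invSelf (2 : ℤ)

open Classical in
/-- reduction modulo an odd number -/
noncomputable def dy (Q : ℕ) (x : A2) : ZMod Q :=
  if h : IsUnit (Int.castRingHom (ZMod Q) 2) then IsLocalization.Away.lift (2 : ℤ) h x else 0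

/-- plus or minus a power of two with an integer exponent -/
def Dy (x : A2) : Prop := ∃ e e' : ℕ, x = 2 ^ e * h2 ^ e' ∨ x = -(2 ^ e * h2 ^ e')

variable {ι : Type} [Fintype ι]

/-- the matrix `N` acts on the digits at the positions `pos c`, all of radix `Q` -/
noncomputable def lft (pos : ι → ℕ) (Q : ℕ) (N : Matrix ι ι A2) (xs : ℕ → ℕ) : ℕ → ℕ :=
  Function.extend pos (fun c => ((N.map (dy Q) *ᵥ fun c' => (xs (pos c') : ZMod Q)) c).val) xs

/-- every new digit only depends on itself and on more significant digits -/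
def Tri (pos : ι → ℕ) (N : Matrix ι ι A2) : Prop :=
  (∀ c c', pos c < pos c' → N c c' = 0) ∧ ∀ c, Dy (N c c)

def shp (n O Q Mid R : ℕ) : List ℕ :=
  O :: (List.replicate n Q ++ Mid :: (List.replicate n Q ++ [R]))

def spos (n : ℕ) : Fin n ⊕ Fin n → ℕ := Sum.elim (fun c => c + 1) fun c => c + (n + 2)

/-- fix `x + y` and apply `ρ / 2` to `x - y` -/
noncomputable def Mat {n : ℕ} (ρ : Matrix (Fin n) (Fin n) ℤ) :
    Matrix (Fin n ⊕ Fin n) (Fin n ⊕ Fin n) A2 :=
  fromBlocks (h2 • 1 + h2 ^ 2 • ρ.map (↑)) (h2 • 1 - h2 ^ 2 • ρ.map (↑))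
    (h2 • 1 - h2 ^ 2 • ρ.map (↑)) (h2 • 1 + h2 ^ 2 • ρ.map (↑))

end Vale.Agent.P338
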