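import Vale.Agent.P338.TriM_A

namespace Vale.Agent.P338

open Vale.Agent.Lib Vale.Agent.Lib.H23 Function Matrix

theorem two_mul_h2 : 2 * h2 = 1 := by
  have h := IsLocalization.Away.mul_invSelf (S := A2) (2 : ℤ)
  rwa [map_ofNat] at h

theorem tm_two_mul_half {Q : ℕ} (hQ : Odd Q) : (2 : ZMod Q) * (((Q + 1) / 2 : ℕ) : ZMod Q) = 1 := by
  obtain ⟨k, rfl⟩ := hQ
  have e : (2 * k + 1 + 1) / 2 = k + 1 := by omega
  have h := ZMod.natCast_self (2 * k + 1)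
  rw [e]
  push_cast at h ⊢
  linear_combination h

theorem exists_dy {Q : ℕ} (hQ : Odd Q) : ∃ φ : A2 →+* ZMod Q, ∀ x, dy Q x = φ x := by
  have h : IsUnit (Int.castRingHom (ZMod Q) 2) := by
    rw [map_ofNat]
    exact IsUnit.of_mul_eq_one _ (tm_two_mul_half hQ)
  exact ⟨IsLocalization.Away.lift (2 : ℤ) h, fun x => dif_pos h⟩

theorem dy_h2 {Q : ℕ} (hQ : Odd Q) : dy Q h2 = (((Q + 1) / 2 : ℕ) : ZMod Q) := by
  obtain ⟨φ, hφ⟩ := exists_dy hQ
  have h1 := congrArg φ two_mul_h2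
  rw [map_mul, map_ofNat, map_one] at h1
  have h3 := tm_two_mul_half hQ
  rw [hφ]
  linear_combination (((Q + 1) / 2 : ℕ) : ZMod Q) * h1 - φ h2 * h3

theorem PT_dy (x : A2) : ∃ F : ℕ → ℕ, PT F ∧ ∀ Q, Odd Q → (F Q : ZMod Q) = dy Q x := by
  obtain ⟨e, z, h⟩ := IsLocalization.Away.surj (S := A2) (2 : ℤ) x
  rw [map_ofNat, eq_intCast] at h
  have hx : x = z * h2 ^ e := by
    rw [← h, mul_assoc, ← mul_pow, two_mul_h2, one_pow, mul_one]
  have hp : PT fun Q : ℕ => ((Q + 1) / 2) ^ e :=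
    PT_pow (u := fun _ => ⟨e⟩) (by fun_prop) (PT.const _)
  have hd : ∀ Q, Odd Q → dy Q x = z * (((Q + 1) / 2 : ℕ) : ZMod Q) ^ e := by
    intro Q hQ
    have h3 := dy_h2 hQ
    obtain ⟨φ, hφ⟩ := exists_dy hQ
    rw [hφ] at h3
    rw [hφ, hx, map_mul, map_pow, map_intCast, h3]
  obtain ⟨m, rfl | rfl⟩ := Int.eq_nat_or_neg z
  · refine ⟨fun Q => m * ((Q + 1) / 2) ^ e, PT.mul (PT.const _) hp, fun Q hQ => ?_⟩
    rw [hd Q hQ, Nat.cast_mul, Nat.cast_pow, Int.cast_natCast]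
  · refine ⟨fun Q => (Q - 1) * m * ((Q + 1) / 2) ^ e,
      PT.mul (PT.mul (by fun_prop) (PT.const _)) hp, fun Q hQ => ?_⟩
    rw [hd Q hQ, Nat.cast_mul, Nat.cast_mul, Nat.cast_pow, Int.cast_neg, Int.cast_natCast,
      Nat.cast_sub hQ.pos, ZMod.natCast_self]
    simp

variable {ι : Type} [Fintype ι] [DecidableEq ι] {pos : ι → ℕ} {Q : ℕ}

theorem lft_pos (hp : Injective pos) (N : Matrix ι ι A2) (xs : ℕ → ℕ) (c : ι) :
    lft pos Q N xs (pos c) = ((N.map (dy Q) *ᵥ fun c' => (xs (pos c') : ZMod Q)) c).val := by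
  exact hp.extend_apply _ _ c

theorem lft_not (N : Matrix ι ι A2) (xs : ℕ → ℕ) {j : ℕ} (hj : ∀ c, pos c ≠ j) :
    lft pos Q N xs j = xs j := by
  exact Function.extend_apply' _ _ _ fun ⟨c, hc⟩ => hj c hc

theorem Valid.lft {ds : List ℕ} {xs : ℕ → ℕ} (h : Valid ds xs) (hp : Injective pos) (hQ : Odd Q)
    (hd : ∀ c, ds.getD (pos c) 1 = Q) (N : Matrix ι ι A2) : Valid ds (lft pos Q N xs) := by
  intro j
  have : NeZero Q := ⟨hQ.pos.ne'⟩
  by_cases hj : ∃ c, pos c = j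
  · obtain ⟨c, rfl⟩ := hj
    rw [lft_pos hp, hd]
    exact ZMod.val_lt _
  · rw [lft_not _ _ fun c hc => hj ⟨c, hc⟩]
    exact h j

theorem lft_mul (hp : Injective pos) (hQ : Odd Q) (N N' : Matrix ι ι A2) (xs : ℕ → ℕ) :
    lft pos Q N (lft pos Q N' xs) = lft pos Q (N * N') xs := by
  have : NeZero Q := ⟨hQ.pos.ne'⟩
  obtain ⟨φ, hφ⟩ := exists_dy hQ
  have e : dy Q = φ := funext hφ
  funext j
  by_cases hj : ∃ c, pos c = j
  · obtain ⟨c, rfl⟩ := hj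
    simp only [lft_pos hp, ZMod.natCast_zmod_val]
    rw [e, Matrix.map_mul, ← mulVec_mulVec]
  · have hj' : ∀ c, pos c ≠ j := fun c hc => hj ⟨c, hc⟩
    simp only [lft_not _ _ hj']

theorem lft_one (hp : Injective pos) (hQ : Odd Q) {xs : ℕ → ℕ} (hx : ∀ c, xs (pos c) < Q) :
    lft pos Q 1 xs = xs := by
  obtain ⟨φ, hφ⟩ := exists_dy hQ
  have e : dy Q = φ := funext hφ
  funext j
  by_cases hj : ∃ c, pos c = j
  · obtain ⟨c, rfl⟩ := hj
    rw [lft_pos hp, e, Matrix.map_one _ (map_zero φ) (map_one φ), one_mulVec,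
      ZMod.val_cast_of_lt (hx c)]
  · exact lft_not _ _ fun c hc => hj ⟨c, hc⟩

theorem lft_perm (hp : Injective pos) (hQ : Odd Q) (e : Equiv.Perm ι) (τ : ℕ → ℕ)
    (h1 : ∀ c, τ (pos c) = pos (e c)) (h2 : ∀ j, (∀ c, pos c ≠ j) → τ j = j) {xs : ℕ → ℕ}
    (hx : ∀ c, xs (pos c) < Q) : lft pos Q (e.permMatrix A2) xs = xs ∘ τ := by
  obtain ⟨φ, hφ⟩ := exists_dy hQ
  have e' : dy Q = φ := funext hφ
  funext j
  by_cases hj : ∃ c, pos c = j
  · obtain ⟨c, rfl⟩ := hj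
    rw [lft_pos hp, e', PEquiv.map_toMatrix, permMatrix_mulVec, Function.comp_apply, Function.comp_apply, h1,
      ZMod.val_cast_of_lt (hx _)]
  · have hj' : ∀ c, pos c ≠ j := fun c hc => hj ⟨c, hc⟩
    rw [lft_not _ _ hj', Function.comp_apply, h2 j hj']

/-- A reflection is a transposition of two coordinates between two triangular maps. -/
theorem refl_factor (hp : Injective pos) (α β : ι → A2) (i j : ι) (hij : pos i < pos j)
    (hα : ∀ c, pos c < pos i → α c = 0) (hβ : ∀ c, pos j < pos c → β c = 0) (ha : Dy (α i))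
    (hb : Dy (β j)) (hab : β ⬝ᵥ α = 2) : ∃ N1 N2 : Matrix ι ι A2, Tri pos N1 ∧ Tri pos N2 ∧
      1 - vecMulVec α β = N1 * (Equiv.swap i j).permMatrix A2 * N2 := by
  exact TM.tm_refl_factor two_mul_h2 hp α β i j hij hα hβ ha hb hab

variable {n : ℕ}

theorem spos_inj : Injective (spos n) := by
  rintro (a | a) (b | b) h <;> simp only [spos, Sum.elim_inl, Sum.elim_inr] at h
  · congr 1; ext; omega
  · omega
  · omega
  · congr 1; ext; omega

theorem shp_spos (O Q Mid R : ℕ) (c : Fin n ⊕ Fin n) :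
    spos n c < (shp n O Q Mid R).length ∧ (shp n O Q Mid R).getD (spos n c) 1 = Q := by
  have hr : ∀ k < n, (List.replicate n Q).getD k 1 = Q := fun k hk => by
    simp [List.getD_eq_getElem?_getD, hk]
  rcases c with c | c
  · have hc := c.2
    refine ⟨by simp [shp, spos]; omega, ?_⟩
    show (List.replicate n Q ++ _).getD c 1 = Q
    rw [aL_getD_app_lt (by simp), hr _ hc]
  · have hc := c.2
    refine ⟨by simp [shp, spos], ?_⟩
    have e : spos n (Sum.inr c) = (List.replicate n Q).length + (c + 1) + 1 := by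
      simp [spos]; omega
    rw [e, shp, List.getD_cons_succ, aL_getD_app_ge, List.getD_cons_succ,
      aL_getD_app_lt (by simp), hr _ hc]

theorem Mat_mul {ρ ρ' ρ'' : Matrix (Fin n) (Fin n) ℤ} (h : (2 : ℤ) • ρ'' = ρ * ρ') :
    Mat ρ'' = Mat ρ * Mat ρ' := by
  exact TM.tm_Mat_mul two_mul_h2 h

theorem tm_Mat_two : Mat (2 : Matrix (Fin n) (Fin n) ℤ) = 1 := TM.tm_Mat_two two_mul_h2

theorem tm_Mat_neg_two : Mat (-2 : Matrix (Fin n) (Fin n) ℤ) =
    Equiv.Perm.permMatrix A2 (Equiv.sumComm (Fin n) (Fin n)) := TM.tm_Mat_neg_two two_mul_h2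

theorem lft_Mat_sq {ρ : Matrix (Fin n) (Fin n) ℤ} (h : ρ * ρ = 4) (hQ : Odd Q) {xs : ℕ → ℕ}
    (hx : ∀ c, xs (spos n c) < Q) :
    lft (spos n) Q (Mat ρ) (lft (spos n) Q (Mat ρ) xs) = xs ∧
      lft (spos n) Q (Mat ρ) (lft (spos n) Q (Mat (-ρ)) xs) = xs ∘ bsw n := by
  have e1 : Mat ρ * Mat ρ = 1 := by
    rw [← Mat_mul (ρ'' := 2) (by rw [h, two_smul]; norm_num), tm_Mat_two]
  have e2 : Mat ρ * Mat (-ρ) = Equiv.Perm.permMatrix A2 (Equiv.sumComm (Fin n) (Fin n)) := by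
    rw [← Mat_mul (ρ'' := -2) (by rw [mul_neg, h, two_smul]; norm_num), tm_Mat_neg_two]
  rw [lft_mul spos_inj hQ, lft_mul spos_inj hQ, e1, e2]
  refine ⟨lft_one spos_inj hQ hx, lft_perm spos_inj hQ _ _ ?_ (fun j hj => ?_) hx⟩
  · rintro (c | c)
    · have := c.2
      show bsw n (c + 1) = c + (n + 2)
      rw [bsw, if_pos (by omega)]; omega
    · have := c.2
      show bsw n (c + (n + 2)) = c + 1
      rw [bsw, if_neg (by omega), if_pos (by omega)]; omega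
  · rw [bsw, if_neg, if_neg]
    · rintro ⟨h1, h3⟩
      exact hj (Sum.inr ⟨j - (n + 2), by omega⟩) (by show j - (n + 2) + (n + 2) = j; omega)
    · rintro ⟨h1, h3⟩
      exact hj (Sum.inl ⟨j - 1, by omega⟩) (by show j - 1 + 1 = j; omega)

theorem ed_factor {ρ ρ' : Matrix (Fin n) (Fin n) ℤ} {a b : Fin n → ℤ} (ha : Nice a) (hb : Nice b)
    (hab : b ⬝ᵥ a = 4) (h : (2 : ℤ) • ρ' = ρ * (2 - vecMulVec a b)) :
    ∃ (i j : Fin n) (N1 N2 : Matrix (Fin n ⊕ Fin n) (Fin n ⊕ Fin n) A2),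
      Tri (spos n) N1 ∧ Tri (spos n) N2 ∧
      Mat ρ' = Mat ρ * (N1 * (Equiv.swap (Sum.inl i) (Sum.inr j)).permMatrix A2 * N2) := by
  exact TM.tm_ed_factor two_mul_h2 spos_inj ha hb hab h

end Vale.Agent.P338
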