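import Vale.Agent.P338.TriDefs

/-! The matrix identities of `TriM` over an arbitrary commutative ring with a half. -/

namespace Vale.Agent.P338.TM

open Function Matrix

variable {R : Type} [CommRing R]

def DyG (h2 x : R) : Prop := ∃ e e' : ℕ, x = 2 ^ e * h2 ^ e' ∨ x = -(2 ^ e * h2 ^ e')

def TriG {ι : Type} (h2 : R) (pos : ι → ℕ) (N : Matrix ι ι R) : Prop :=
  (∀ c c', pos c < pos c' → N c c' = 0) ∧ ∀ c, DyG h2 (N c c)

def MatG {n : ℕ} (h2 : R) (ρ : Matrix (Fin n) (Fin n) ℤ) :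
    Matrix (Fin n ⊕ Fin n) (Fin n ⊕ Fin n) R :=
  fromBlocks (h2 • 1 + h2 ^ 2 • ρ.map (↑)) (h2 • 1 - h2 ^ 2 • ρ.map (↑))
    (h2 • 1 - h2 ^ 2 • ρ.map (↑)) (h2 • 1 + h2 ^ 2 • ρ.map (↑))

variable {ι : Type} [Fintype ι] [DecidableEq ι] {pos : ι → ℕ} {h2 : R}

theorem DyG.mul {x y : R} (hx : DyG h2 x) (hy : DyG h2 y) : DyG h2 (x * y) := by
  obtain ⟨a, b, hx⟩ := hx
  obtain ⟨c, d, hy⟩ := hy
  refine ⟨a + c, b + d, ?_⟩
  rcases hx with rfl | rfl <;> rcases hy with rfl | rfl
  · left; ring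
  · right; ring
  · right; ring
  · left; ring

theorem DyG.neg {x : R} (hx : DyG h2 x) : DyG h2 (-x) := by
  obtain ⟨a, b, rfl | rfl⟩ := hx
  · exact ⟨a, b, Or.inr rfl⟩
  · exact ⟨a, b, Or.inl (neg_neg _)⟩

theorem DyG.one : DyG h2 1 := ⟨0, 0, Or.inl (by simp)⟩

theorem DyG.half : DyG h2 h2 := ⟨0, 1, Or.inl (by simp)⟩

theorem DyG.exists_inv {x : R} (hx : DyG h2 x) (two_mul_h2 : 2 * h2 = 1) : ∃ y, DyG h2 y ∧ y * x = 1 := by
  have key : ∀ a b : ℕ, (2 ^ b * h2 ^ a) * (2 ^ a * h2 ^ b) = 1 := fun a b => by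
    calc (2 ^ b * h2 ^ a) * (2 ^ a * h2 ^ b) = (2 * h2) ^ a * (2 * h2) ^ b := by ring
      _ = 1 := by rw [two_mul_h2, one_pow, one_pow, mul_one]
  obtain ⟨a, b, rfl | rfl⟩ := hx
  · exact ⟨_, ⟨b, a, Or.inl rfl⟩, key a b⟩
  · exact ⟨_, ⟨b, a, Or.inr rfl⟩, by rw [neg_mul_neg, key]⟩

theorem DyG.of_natAbs {z : ℤ} {k : ℕ} (h : z.natAbs = 2 ^ k) : DyG h2 (z : R) := by
  refine ⟨k, 0, ?_⟩
  rcases Int.natAbs_eq z with e | e
  · left; rw [e, h]; simp
  · right; rw [e, h]; simp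

omit [DecidableEq ι] in
theorem TriG.mul (hp : Injective pos) {N N' : Matrix ι ι R} (h : TriG h2 pos N) (h' : TriG h2 pos N') :
    TriG h2 pos (N * N') := by
  refine ⟨fun c c' hc => ?_, fun c => ?_⟩
  · rw [Matrix.mul_apply]
    refine Finset.sum_eq_zero fun k _ => ?_
    by_cases hk : pos c < pos k
    · rw [h.1 c k hk, zero_mul]
    · rw [h'.1 k c' (by omega), mul_zero]
  · rw [Matrix.mul_apply, Finset.sum_eq_single c]
    · exact (h.2 c).mul (h'.2 c)
    · intro k _ hk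
      have : pos k ≠ pos c := fun e => hk (hp e)
      by_cases hk' : pos c < pos k
      · rw [h.1 c k hk', zero_mul]
      · rw [h'.1 k c (by omega), mul_zero]
    · simp

omit [Fintype ι] in
theorem tm_tri_row {j : ι} {ν : ι → R} (h : ∀ c, pos j < pos c → ν c = 0) (hd : DyG h2 (ν j)) :
    TriG h2 pos ((1 : Matrix ι ι R).updateRow j ν) := by
  refine ⟨fun c c' hc => ?_, fun c => ?_⟩
  · rw [updateRow_apply]
    split_ifs with e
    · exact h c' (e ▸ hc)
    · exact one_apply_ne fun e' => by simp [e'] at hc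
  · rw [updateRow_apply]
    split_ifs with e
    · rwa [e]
    · rw [one_apply_eq]; exact DyG.one

omit [Fintype ι] in
theorem tm_tri_col {i : ι} {u : ι → R} (h : ∀ c, pos c ≤ pos i → u c = 0) :
    TriG h2 pos (1 + vecMulVec u (Pi.single i 1)) := by
  refine ⟨fun c c' hc => ?_, fun c => ?_⟩
  · have hne : c ≠ c' := fun e' => by simp [e'] at hc
    rw [Matrix.add_apply, one_apply_ne hne, vecMulVec_apply, zero_add]
    by_cases e : c' = i
    · rw [h c (e ▸ hc.le), zero_mul]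
    · rw [Pi.single_eq_of_ne e, mul_zero]
  · rw [Matrix.add_apply, one_apply_eq, vecMulVec_apply]
    by_cases e : c = i
    · rw [h c (e ▸ le_rfl), zero_mul, add_zero]; exact DyG.one
    · rw [Pi.single_eq_of_ne e, mul_zero, add_zero]; exact DyG.one

omit [Fintype ι] in
theorem tm_update_eq (x : ι → R) (j : ι) (a : R) :
    update x j a = x + (a - x j) • (Pi.single j 1 : ι → R) := by
  funext c
  by_cases e : c = j
  · subst e; simp
  · simp [e]

theorem tm_rank_one (u v x : ι → R) :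
    (1 + vecMulVec u v) *ᵥ x = x + (v ⬝ᵥ x) • u := by
  rw [add_mulVec, one_mulVec, vecMulVec_mulVec, op_smul_eq_smul]

theorem tm_row_swap {i j : ι} (hij : i ≠ j) (ν : ι → R) {t : R}
    (ht : t * ν j = 1) : (1 : Matrix ι ι R).updateRow i ν =
      (1 : Matrix ι ι R).updateRow j
          ((-t • ν + (t + 1) • (Pi.single j 1 : ι → R)) ∘ Equiv.swap i j) *
        (Equiv.swap i j).permMatrix R * (1 : Matrix ι ι R).updateRow j ν := by
  rw [ext_iff_mulVec]
  intro x
  simp only [← mulVec_mulVec, updateRow_mulVec, one_mulVec, permMatrix_mulVec,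
    comp_equiv_dotProduct_comp_equiv]
  have e : (-t • ν + (t + 1) • (Pi.single j 1 : ι → R)) ⬝ᵥ update x j (ν ⬝ᵥ x) = x j := by
    rw [add_dotProduct, smul_dotProduct, smul_dotProduct, single_dotProduct, update_self,
      tm_update_eq, dotProduct_add, dotProduct_smul, dotProduct_single]
    simp only [smul_eq_mul]
    linear_combination (x j - ν ⬝ᵥ x) * ht
  rw [e]
  funext c
  by_cases e1 : c = j
  · subst e1
    rw [update_self, update_of_ne hij.symm]
  · rw [update_of_ne e1, Function.comp_apply]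
    by_cases e2 : c = i
    · subst e2
      rw [update_self, Equiv.swap_apply_left, update_self]
    · rw [update_of_ne e2, Equiv.swap_apply_of_ne_of_ne e2 e1, update_of_ne e1]

theorem tm_conj (α β : ι → R) (i : ι) {s : R} (hs : s * α i = 1)
    (hab : β ⬝ᵥ α = 2) : 1 - vecMulVec α β =
      (1 + vecMulVec (s • α - Pi.single i 1) (Pi.single i 1)) *
        (1 : Matrix ι ι R).updateRow i (-α i • β + (α i * β i - 1) • (Pi.single i 1 : ι → R)) *
        (1 + vecMulVec (-(s • α - Pi.single i 1)) (Pi.single i 1)) := by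
  rw [ext_iff_mulVec]
  intro x
  rw [← mulVec_mulVec, ← mulVec_mulVec, tm_rank_one, tm_rank_one, updateRow_mulVec, one_mulVec,
    sub_mulVec, one_mulVec, vecMulVec_mulVec, op_smul_eq_smul, single_dotProduct,
    single_dotProduct, update_self, one_mul, one_mul]
  have e : (-α i • β + (α i * β i - 1) • (Pi.single i 1 : ι → R)) ⬝ᵥ
      (x + x i • -(s • α - Pi.single i 1)) = x i - α i * (β ⬝ᵥ x) := by
    simp only [add_dotProduct, smul_dotProduct, single_dotProduct, dotProduct_add,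
      dotProduct_smul, dotProduct_neg, dotProduct_sub, dotProduct_single, hab, smul_eq_mul,
      Pi.add_apply, Pi.smul_apply, Pi.single_eq_same]
    linear_combination (2 * x i - (α i * β i - 1) * x i) * hs
  rw [e]
  funext c
  by_cases e1 : c = i
  · subst e1
    simp only [Pi.add_apply, Pi.sub_apply, Pi.smul_apply, update_self, Pi.single_eq_same,
      smul_eq_mul]
    linear_combination (α c * (β ⬝ᵥ x) - x c) * hs
  · simp only [Pi.add_apply, Pi.sub_apply, Pi.smul_apply, Pi.neg_apply, update_of_ne e1,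
      Pi.single_eq_of_ne e1, smul_eq_mul]
    linear_combination (α c * (β ⬝ᵥ x)) * hs

theorem tm_refl_factor (two_mul_h2 : 2 * h2 = 1) (hp : Injective pos) (α β : ι → R) (i j : ι) (hij : pos i < pos j)
    (hα : ∀ c, pos c < pos i → α c = 0) (hβ : ∀ c, pos j < pos c → β c = 0) (ha : DyG h2 (α i))
    (hb : DyG h2 (β j)) (hab : β ⬝ᵥ α = 2) : ∃ N1 N2 : Matrix ι ι R, TriG h2 pos N1 ∧ TriG h2 pos N2 ∧
      1 - vecMulVec α β = N1 * (Equiv.swap i j).permMatrix R * N2 := by
  have hne : i ≠ j := fun e => by simp [e] at hij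
  obtain ⟨s, -, hs⟩ := ha.exists_inv two_mul_h2
  set ν : ι → R := -α i • β + (α i * β i - 1) • (Pi.single i 1 : ι → R) with hν
  have hνj : ν j = -(α i * β j) := by simp [hν, hne.symm]
  have hνi : ν i = -1 := by
    simp only [hν, Pi.add_apply, Pi.smul_apply, Pi.single_eq_same, smul_eq_mul]
    ring
  have hν0 : ∀ c, pos j < pos c → ν c = 0 := fun c hc => by
    have : c ≠ i := fun e => by rw [e] at hc; omega
    simp [hν, this, hβ c hc]
  have hdj : DyG h2 (ν j) := hνj ▸ (ha.mul hb).neg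
  obtain ⟨t, hdt, ht⟩ := hdj.exists_inv two_mul_h2
  have hu : ∀ c, pos c ≤ pos i → (s • α - (Pi.single i 1 : ι → R)) c = 0 := fun c hc => by
    by_cases e : c = i
    · subst e; simp [hs]
    · have : pos c ≠ pos i := fun e' => e (hp e')
      simp [e, hα c (by omega)]
  refine ⟨(1 + vecMulVec (s • α - Pi.single i 1) (Pi.single i 1)) *
      (1 : Matrix ι ι R).updateRow j
        ((-t • ν + (t + 1) • (Pi.single j 1 : ι → R)) ∘ Equiv.swap i j),
    (1 : Matrix ι ι R).updateRow j ν *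
      (1 + vecMulVec (-(s • α - Pi.single i 1)) (Pi.single i 1)),
    (tm_tri_col hu).mul hp (tm_tri_row (fun c hc => ?_) ?_),
    (tm_tri_row hν0 hdj).mul hp (tm_tri_col fun c hc => ?_), ?_⟩
  · have e1 : c ≠ i := fun e => by rw [e] at hc; omega
    have e2 : c ≠ j := fun e => by rw [e] at hc; omega
    rw [Function.comp_apply, Equiv.swap_apply_of_ne_of_ne e1 e2]
    simp [e2, hν0 c hc]
  · rw [Function.comp_apply, Equiv.swap_apply_right]
    simpa [hνi, hne] using hdt
  · rw [Pi.neg_apply, hu c hc, neg_zero]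
  · rw [tm_conj α β i hs hab, ← hν, tm_row_swap hne ν ht]
    simp only [Matrix.mul_assoc]

variable {n : ℕ}

theorem tm_Mat_mul (two_mul_h2 : 2 * h2 = 1) {ρ ρ' ρ'' : Matrix (Fin n) (Fin n) ℤ} (h : (2 : ℤ) • ρ'' = ρ * ρ') :
    MatG h2 ρ'' = MatG h2 ρ * MatG h2 ρ' := by
  have e : ρ.map ((↑) : ℤ → R) * ρ'.map (↑) = (2 : R) • ρ''.map (↑) := by
    have h1 := congrArg (Int.castRingHom R).mapMatrix h
    rw [map_mul, two_smul, map_add] at h1
    rw [two_smul]
    exact h1.symm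
  have ht := two_mul_h2
  unfold MatG
  generalize ρ.map ((↑) : ℤ → R) = X at e ⊢
  generalize ρ'.map ((↑) : ℤ → R) = Y at e ⊢
  generalize ρ''.map ((↑) : ℤ → R) = Z at e ⊢
  have e1 : (h2 • 1 + h2 ^ 2 • X) * (h2 • 1 + h2 ^ 2 • Y) +
      (h2 • 1 - h2 ^ 2 • X) * (h2 • 1 - h2 ^ 2 • Y) = h2 • 1 + h2 ^ 2 • Z := by
    simp only [add_mul, mul_add, sub_mul, mul_sub, smul_mul_assoc, mul_smul_comm, one_mul,
      mul_one, e]
    match_scalars
    · linear_combination h2 * ht
    · ring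
    · ring
    · linear_combination h2 ^ 2 * (2 * h2 + 1) * ht
  have e2 : (h2 • 1 + h2 ^ 2 • X) * (h2 • 1 - h2 ^ 2 • Y) +
      (h2 • 1 - h2 ^ 2 • X) * (h2 • 1 + h2 ^ 2 • Y) = h2 • 1 - h2 ^ 2 • Z := by
    simp only [add_mul, mul_add, sub_mul, mul_sub, smul_mul_assoc, mul_smul_comm, one_mul,
      mul_one, e]
    match_scalars
    · linear_combination h2 * ht
    · ring
    · ring
    · linear_combination -h2 ^ 2 * (2 * h2 + 1) * ht
  rw [fromBlocks_multiply, e1, e2, add_comm ((h2 • 1 - h2 ^ 2 • X) * _), e2,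
    add_comm ((h2 • 1 - h2 ^ 2 • X) * _), e1]

theorem tm_Mat_rank (two_mul_h2 : 2 * h2 = 1) (A : Matrix (Fin n) (Fin n) ℤ) : MatG h2 (2 - A) =
    1 - fromBlocks (h2 ^ 2 • A.map (↑)) (-(h2 ^ 2 • A.map (↑))) (-(h2 ^ 2 • A.map (↑)))
      (h2 ^ 2 • A.map (↑)) := by
  have e : (2 - A).map ((↑) : ℤ → R) = (2 : R) • 1 - A.map (↑) := by
    have h1 := map_sub (Int.castRingHom R).mapMatrix 2 A
    rw [map_ofNat] at h1
    rw [two_smul, one_add_one_eq_two]
    exact h1
  have ht := two_mul_h2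
  unfold MatG
  rw [e, ← fromBlocks_one, sub_eq_add_neg (fromBlocks _ _ _ _), fromBlocks_neg, fromBlocks_add]
  generalize A.map ((↑) : ℤ → R) = X
  have e1 : h2 • 1 + h2 ^ 2 • ((2 : R) • 1 - X) = 1 + -(h2 ^ 2 • X) := by
    match_scalars
    · linear_combination (h2 + 1) * ht
    · ring
  have e2 : h2 • 1 - h2 ^ 2 • ((2 : R) • 1 - X) = 0 + - -(h2 ^ 2 • X) := by
    match_scalars
    · linear_combination -h2 * ht
    · ring
  rw [e1, e2]

theorem tm_Mat_two (two_mul_h2 : 2 * h2 = 1) : MatG h2 (2 : Matrix (Fin n) (Fin n) ℤ) = 1 := by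
  have h := tm_Mat_rank two_mul_h2 (0 : Matrix (Fin n) (Fin n) ℤ)
  rw [sub_zero, Matrix.map_zero _ Int.cast_zero] at h
  simpa using h

theorem tm_Mat_neg_two (two_mul_h2 : 2 * h2 = 1) : MatG h2 (-2 : Matrix (Fin n) (Fin n) ℤ) =
    Equiv.Perm.permMatrix R (Equiv.sumComm (Fin n) (Fin n)) := by
  have h := tm_Mat_rank two_mul_h2 (4 : Matrix (Fin n) (Fin n) ℤ)
  have e : (4 : Matrix (Fin n) (Fin n) ℤ).map ((↑) : ℤ → R) = (4 : R) • 1 := by
    have h1 := map_ofNat ((Int.castRingHom R).mapMatrix (m := Fin n)) 4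
    rw [ofNat_smul_eq_nsmul, nsmul_one]
    exact h1
  have e4 : h2 ^ 2 * 4 = 1 := by linear_combination (2 * h2 + 1) * two_mul_h2
  rw [show (2 : Matrix (Fin n) (Fin n) ℤ) - 4 = -2 by norm_num, e, smul_smul, e4, one_smul] at h
  rw [h]
  ext (a | a) (b | b) <;> simp [one_apply, PEquiv.toMatrix_apply, eq_comm]

theorem tm_ed_factor (two_mul_h2 : 2 * h2 = 1) (spos_inj : Injective (spos n))
    {ρ ρ' : Matrix (Fin n) (Fin n) ℤ} {a b : Fin n → ℤ} (ha : Nice a) (hb : Nice b)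
    (hab : b ⬝ᵥ a = 4) (h : (2 : ℤ) • ρ' = ρ * (2 - vecMulVec a b)) :
    ∃ (i j : Fin n) (N1 N2 : Matrix (Fin n ⊕ Fin n) (Fin n ⊕ Fin n) R),
      TriG h2 (spos n) N1 ∧ TriG h2 (spos n) N2 ∧
      MatG h2 ρ' = MatG h2 ρ * (N1 * (Equiv.swap (Sum.inl i) (Sum.inr j)).permMatrix R * N2) := by
  have hA : (Finset.univ.filter fun c => a c ≠ 0).Nonempty := by
    by_contra hne
    have : a = 0 := funext fun c => by
      by_contra hc
      exact hne ⟨c, by simpa using hc⟩
    simp [this] at hab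
  have hB : (Finset.univ.filter fun c => b c ≠ 0).Nonempty := by
    by_contra hne
    have : b = 0 := funext fun c => by
      by_contra hc
      exact hne ⟨c, by simpa using hc⟩
    simp [this] at hab
  obtain ⟨i, hi, hi'⟩ := Finset.exists_min_image _ (fun c : Fin n => (c : ℕ)) hA
  obtain ⟨j, hj, hj'⟩ := Finset.exists_max_image _ (fun c : Fin n => (c : ℕ)) hB
  simp only [Finset.mem_filter, Finset.mem_univ, true_and] at hi hi' hj hj'
  have hi2 := i.2
  refine Exists.elim (tm_refl_factor (pos := spos n) two_mul_h2 spos_inj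
    (Sum.elim (fun c => (a c : R)) fun c => -(a c : R))
    (Sum.elim (fun c => h2 ^ 2 * (b c : R)) fun c => -(h2 ^ 2 * (b c : R)))
    (Sum.inl i) (Sum.inr j) (by show i + 1 < j + (n + 2); omega) ?_ ?_ ?_ ?_ ?_) ?_
  rotate_right
  · rintro N1 ⟨N2, t1, t2, e⟩
    refine ⟨i, j, N1, N2, t1, t2, ?_⟩
    rw [tm_Mat_mul two_mul_h2 h, ← e, tm_Mat_rank two_mul_h2]
    congr 2
    ext (x | x) (y | y) <;> simp [vecMulVec_apply] <;> ring
  · rintro (c | c) hc
    · have hc : (c : ℕ) + 1 < i + 1 := hc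
      have : a c = 0 := by
        by_contra h0
        have := hi' c h0
        omega
      simp [this]
    · have hc : (c : ℕ) + (n + 2) < i + 1 := hc
      omega
  · rintro (c | c) hc
    · have hc : (j : ℕ) + (n + 2) < c + 1 := hc
      have := c.2
      omega
    · have hc : (j : ℕ) + (n + 2) < c + (n + 2) := hc
      have : b c = 0 := by
        by_contra h0
        have := hj' c h0
        omega
      simp [this]
  · obtain ⟨k, hk⟩ := (ha i).resolve_left hi
    exact DyG.of_natAbs hk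
  · obtain ⟨k, hk⟩ := (hb j).resolve_left hj
    show DyG h2 (-(h2 ^ 2 * (b j : R)))
    rw [sq]
    exact ((DyG.half.mul DyG.half).mul (DyG.of_natAbs hk)).neg
  · have h4 : ∑ c, (b c : R) * (a c : R) = 4 := by
      have := congrArg (Int.cast : ℤ → R) hab
      simpa [dotProduct] using this
    rw [sumElim_dotProduct_sumElim]
    simp only [dotProduct, neg_mul_neg, mul_assoc, ← Finset.mul_sum, h4]
    linear_combination (4 * h2 + 2) * two_mul_h2

end Vale.Agent.P338.TM
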