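import Vale.Agent.P338.ArrL

/-! Grouping several digits into one. -/

namespace Vale.Agent.P338

open Vale.Agent.Lib Vale.Agent.Lib.H23 Enc Function

/-- mixed radix digits -/
def dig : List ℕ → ℕ → ℕ → ℕ
  | [], _ => fun _ => 0
  | _ :: ds, x => consF (x / ds.prod) (dig ds (x % ds.prod))

/-- position of an address -/
def idx : List ℕ → (ℕ → ℕ) → ℕ
  | [], _ => 0
  | _ :: ds, xs => xs 0 * ds.prod + idx ds fun i => xs (i + 1)

/-- replace the digit `i` by its digits with radices `q` -/
def expand (i : ℕ) (q : List ℕ) (xs : ℕ → ℕ) : ℕ → ℕ := fun j =>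
  if j < i then xs j else if j < i + q.length then dig q (xs i) (j - i) else xs (j - q.length + 1)

/-- merge the digits from `i` on with radices `q` into one -/
def collapse (i : ℕ) (q : List ℕ) (xs : ℕ → ℕ) : ℕ → ℕ := fun j =>
  if j < i then xs j else if j = i then idx q fun t => xs (i + t) else xs (j + q.length - 1)

variable {β : Type} {ds : List ℕ}

theorem valid_dig {x : ℕ} (h : x < ds.prod) : Valid ds (dig ds x) := by
  induction ds generalizing x with
  | nil => exact valid_nil.2 fun _ => rfl
  | cons d ds ih =>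
    rw [List.prod_cons] at h
    have hP : 0 < ds.prod := Nat.pos_of_ne_zero fun e => by simp [e] at h
    exact aL_valid_consF (Nat.div_lt_of_lt_mul (by rwa [mul_comm] at h)) (ih (Nat.mod_lt _ hP))

theorem idx_lt {xs : ℕ → ℕ} (h : ∀ i < ds.length, xs i < ds.getD i 1) : idx ds xs < ds.prod := by
  induction ds generalizing xs with
  | nil => simp [idx]
  | cons d ds ih =>
    have h0 : xs 0 < d := by simpa using h 0 (by simp)
    have h1 : idx ds (fun i => xs (i + 1)) < ds.prod :=
      ih fun i hi => by simpa using h (i + 1) (by simpa using hi)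
    rw [List.prod_cons]
    show xs 0 * ds.prod + idx ds (fun i => xs (i + 1)) < d * ds.prod
    nlinarith

theorem idx_dig {x : ℕ} (h : x < ds.prod) : idx ds (dig ds x) = x := by
  induction ds generalizing x with
  | nil =>
    have : x = 0 := by simpa using h
    simp [idx, this]
  | cons d ds ih =>
    rw [List.prod_cons] at h
    have hP : 0 < ds.prod := Nat.pos_of_ne_zero fun e => by simp [e] at h
    show x / ds.prod * ds.prod + idx ds (dig ds (x % ds.prod)) = x
    rw [ih (Nat.mod_lt _ hP)]
    exact Nat.div_add_mod' x ds.prod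

theorem dig_idx {xs : ℕ → ℕ} (h : ∀ i < ds.length, xs i < ds.getD i 1) {i : ℕ}
    (hi : i < ds.length) : dig ds (idx ds xs) i = xs i := by
  induction ds generalizing xs i with
  | nil => simp at hi
  | cons d ds ih =>
    have h' : ∀ i < ds.length, xs (i + 1) < ds.getD i 1 :=
      fun i hi => by simpa using h (i + 1) (by simpa using hi)
    have h1 : idx ds (fun i => xs (i + 1)) < ds.prod := idx_lt h'
    have hP : 0 < ds.prod := by omega
    show consF ((xs 0 * ds.prod + idx ds fun i => xs (i + 1)) / ds.prod)
      (dig ds ((xs 0 * ds.prod + idx ds fun i => xs (i + 1)) % ds.prod)) i = xs i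
    rw [add_comm, Nat.add_mul_div_right _ _ hP, Nat.div_eq_of_lt h1, zero_add,
      Nat.add_mul_mod_self_right, Nat.mod_eq_of_lt h1]
    cases i with
    | zero => rfl
    | succ i => exact ih (xs := fun i => xs (i + 1)) h' (by simpa using hi)

theorem idx_congr {xs ys : ℕ → ℕ} (h : ∀ i < ds.length, xs i = ys i) : idx ds xs = idx ds ys := by
  induction ds generalizing xs ys with
  | nil => rfl
  | cons d ds ih =>
    show xs 0 * ds.prod + idx ds (fun i => xs (i + 1)) =
      ys 0 * ds.prod + idx ds (fun i => ys (i + 1))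
    rw [h 0 (by simp), ih (xs := fun i => xs (i + 1)) (ys := fun i => ys (i + 1))
      fun i hi => h (i + 1) (by simpa using hi)]

theorem arr_eq_range (f : (ℕ → ℕ) → β) :
    arr ds f = (List.range ds.prod).map fun x => f (dig ds x) := by
  induction ds generalizing f with
  | nil => rfl
  | cons d ds ih =>
    rw [aL_arr_cons, List.prod_cons, List.map_eq_flatMap, aL_range_mul_flatMap]
    refine List.flatMap_congr fun a _ => ?_
    rw [ih, List.map_eq_flatMap]
    refine List.flatMap_congr fun b hb => ?_
    have hb : b < ds.prod := List.mem_range.1 hb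
    have hP : 0 < ds.prod := by omega
    show [f (consF a (dig ds b))] =
      [f (consF ((a * ds.prod + b) / ds.prod) (dig ds ((a * ds.prod + b) % ds.prod)))]
    rw [add_comm, Nat.add_mul_div_right _ _ hP, Nat.div_eq_of_lt hb, zero_add,
      Nat.add_mul_mod_self_right, Nat.mod_eq_of_lt hb]

theorem Valid.expand {p q s : List ℕ} {xs : ℕ → ℕ} (h : Valid (p ++ q.prod :: s) xs) :
    Valid (p ++ (q ++ s)) (expand p.length q xs) := by
  intro j
  unfold P338.expand
  by_cases hj : j < p.length
  · have := h j
    rw [aL_getD_app_lt hj] at this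
    rw [if_pos hj, aL_getD_app_lt hj]; exact this
  · obtain ⟨k, rfl⟩ : ∃ k, j = p.length + k := ⟨j - p.length, by omega⟩
    rw [if_neg hj, aL_getD_app_ge]
    by_cases hk : k < q.length
    · have h0 := h (p.length + 0)
      rw [aL_getD_app_ge] at h0
      simp only [List.getD_cons_zero, Nat.add_zero] at h0
      rw [if_pos (by omega), aL_getD_app_lt hk, Nat.add_sub_cancel_left]
      exact valid_dig h0 k
    · obtain ⟨t, rfl⟩ : ∃ t, k = q.length + t := ⟨k - q.length, by omega⟩
      have h1 := h (p.length + (t + 1))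
      rw [aL_getD_app_ge, List.getD_cons_succ] at h1
      rw [if_neg (by omega), aL_getD_app_ge,
        show p.length + (q.length + t) - q.length + 1 = p.length + (t + 1) by omega]
      exact h1

theorem Valid.collapse {p q s : List ℕ} {xs : ℕ → ℕ} (h : Valid (p ++ (q ++ s)) xs) :
    Valid (p ++ q.prod :: s) (collapse p.length q xs) := by
  intro j
  unfold P338.collapse
  by_cases hj : j < p.length
  · have := h j
    rw [aL_getD_app_lt hj] at this
    rw [if_pos hj, aL_getD_app_lt hj]; exact this
  · obtain ⟨k, rfl⟩ : ∃ k, j = p.length + k := ⟨j - p.length, by omega⟩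
    rw [if_neg hj, aL_getD_app_ge]
    cases k with
    | zero =>
      rw [if_pos (by omega), List.getD_cons_zero]
      refine idx_lt fun t ht => ?_
      have h1 := h (p.length + t)
      rwa [aL_getD_app_ge, aL_getD_app_lt ht] at h1
    | succ k =>
      have h1 := h (p.length + (q.length + k))
      rw [aL_getD_app_ge, aL_getD_app_ge] at h1
      rw [if_neg (by omega), List.getD_cons_succ,
        show p.length + (k + 1) + q.length - 1 = p.length + (q.length + k) by omega]
      exact h1

theorem vw_expand_succ (n x : ℕ) (q : List ℕ) (xs : ℕ → ℕ) :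
    expand (n + 1) q (consF x xs) = consF x (expand n q xs) := by
  funext j
  cases j with
  | zero => simp [expand, consF]
  | succ j =>
    show expand (n + 1) q (consF x xs) (j + 1) = expand n q xs j
    unfold expand
    by_cases h1 : j < n
    · rw [if_pos (by omega), if_pos h1]; rfl
    · rw [if_neg (by omega), if_neg h1]
      by_cases h2 : j < n + q.length
      · rw [if_pos (by omega), if_pos h2, Nat.add_sub_add_right]; rfl
      · rw [if_neg (by omega), if_neg h2, show j + 1 - q.length = j - q.length + 1 by omega]; rfl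

theorem vw_expand_zero (x : ℕ) (q : List ℕ) (ys : ℕ → ℕ) :
    expand 0 q (consF x ys) = join q.length (dig q x) ys := by
  funext j
  unfold expand join
  rw [if_neg (by omega), zero_add]
  by_cases h : j < q.length
  · rw [if_pos h, if_pos h]; rfl
  · rw [if_neg h, if_neg h]; rfl

theorem vw_collapse_expand {i : ℕ} {q : List ℕ} {xs : ℕ → ℕ} (h : xs i < q.prod) :
    collapse i q (expand i q xs) = xs := by
  funext j
  unfold collapse
  by_cases h1 : j < i
  · rw [if_pos h1]; unfold expand; rw [if_pos h1]
  · rw [if_neg h1]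
    by_cases h2 : j = i
    · subst h2
      rw [if_pos rfl, idx_congr (ys := dig q (xs j)), idx_dig h]
      intro t ht
      unfold expand
      rw [if_neg (by omega), if_pos (by omega), Nat.add_sub_cancel_left]
    · rw [if_neg h2]
      unfold expand
      rw [if_neg (by omega), if_neg (by omega)]
      congr 1
      omega

theorem arr_expand (p q s : List ℕ) (f : (ℕ → ℕ) → β) :
    arr (p ++ (q ++ s)) f = arr (p ++ q.prod :: s) fun xs => f (expand p.length q xs) := by
  induction p generalizing f with
  | nil =>
    rw [List.nil_append, List.nil_append, arr_append, arr_eq_range, aL_arr_cons,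
      ← List.flatMap_def]
    simp only [List.length_nil, vw_expand_zero]
  | cons d p ih =>
    simp only [List.cons_append, aL_arr_cons d, ih, List.length_cons, vw_expand_succ]

theorem arr_collapse (p q s : List ℕ) (f : (ℕ → ℕ) → β) :
    arr (p ++ q.prod :: s) f = arr (p ++ (q ++ s)) fun xs => f (collapse p.length q xs) := by
  rw [arr_expand]
  refine arr_congr fun xs hxs => ?_
  have h0 := hxs (p.length + 0)
  rw [aL_getD_app_ge] at h0
  simp only [List.getD_cons_zero, Nat.add_zero] at h0
  rw [vw_collapse_expand h0]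

theorem vw_dig_eq (q : List ℕ) (x : ℕ) {i : ℕ} (hi : i < q.length) : dig q x i =
    (bif eqb i 0 then x else x % (q.drop i).prod) / (q.drop (i + 1)).prod := by
  induction q generalizing x i with
  | nil => simp at hi
  | cons d ds ih =>
    cases i with
    | zero => simp [dig, consF]
    | succ i =>
      show dig ds (x % ds.prod) i = _
      rw [ih _ (by simpa using hi)]
      simp only [List.drop_succ_cons, eqb_eq, Nat.add_eq_zero_iff, one_ne_zero, and_false,
        decide_false, cond_false]
      congr 1
      by_cases h : i = 0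
      · subst h; simp
      · simp only [h, decide_false, cond_false]
        refine Nat.mod_mod_of_dvd _ ?_
        conv_rhs => rw [← List.take_append_drop i ds, List.prod_append]
        exact Dvd.intro_left _ rfl

@[fun_prop] theorem PT_dig {α : Type} [Enc α] {q : α → List ℕ} {x : α → ℕ} (hq : PT q)
    (hx : PT x) : PT fun a => pre (q a).length (dig (q a) (x a)) := by
  have hq' : PT fun p : α × ℕ => q p.1 := PT.comp (g := fun p : α × ℕ => p.1) hq (by fun_prop)
  have hx' : PT fun p : α × ℕ => x p.1 := PT.comp (g := fun p : α × ℕ => p.1) hx (by fun_prop)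
  have h2 : PT fun p : α × ℕ => p.2 := by fun_prop
  refine (PT.map (f := fun a i => (bif eqb i 0 then x a else x a % ((q a).drop i).prod) /
    ((q a).drop (i + 1)).prod) (PT_div (PT.cond (PT.eqb h2 (PT.const 0)) hx'
      (PT_mod hx' (PT_prod (PT.drop h2 hq')))) (PT_prod (PT.drop (PT.add h2 (PT.const 1)) hq')))
    (PT.comp PT_rangeLen hq)).congr fun a => ?_
  exact List.map_congr_left fun i hi => vw_dig_eq _ _ (List.mem_range.1 hi)

theorem vw_expand_update {i a a' : ℕ} {q : List ℕ} (xs : ℕ → ℕ) (v : ℕ)
    (ha : a < i ∧ a' = a ∨ i < a ∧ a' + 1 = a + q.length) :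
    expand i q (update xs a v) = update (expand i q xs) a' v := by
  funext j
  simp only [expand, update_apply]
  split_ifs <;> first | rfl | omega

theorem exists_view4 (p s : List ℕ) (M T : ℕ) : ∃ κ : (ℕ → ℕ) → ℕ → ℕ,
    (∀ xs, Valid [p.prod, M, s.prod, T] xs → Valid (p ++ M :: (s ++ [T])) (κ xs)) ∧
    (∀ f : (ℕ → ℕ) → List Bool,
      arr (p ++ M :: (s ++ [T])) f = arr [p.prod, M, s.prod, T] fun xs => f (κ xs)) ∧
    (∀ xs v, κ (update xs 1 v) = update (κ xs) p.length v) ∧ (∀ xs, κ xs p.length = xs 1) ∧
    ∀ xs, pre (p.length + 1 + s.length) (update (κ xs) p.length 0) =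
      pre p.length (dig p (xs 0)) ++ 0 :: pre s.length (dig s (xs 2)) := by
  refine ⟨fun xs => expand 0 p (expand 2 s xs), fun xs h => ?_, fun f => ?_, fun xs v => ?_,
    fun xs => ?_, fun xs => ?_⟩
  · exact Valid.expand (p := []) (Valid.expand (p := [p.prod, M]) (s := [T]) h)
  · exact (arr_expand [] p _ f).trans (arr_expand [p.prod, M] s [T] _)
  · show expand 0 p (expand 2 s (update xs 1 v)) = _
    rw [vw_expand_update (a' := 1) xs v (by omega),
      vw_expand_update (a' := p.length) _ v (by omega)]
  · simp [expand]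
  · refine List.ext_getElem (by simp [pre]; omega) fun i h1 h2 => ?_
    simp only [pre, List.getElem_map, List.getElem_range, List.getElem_append, List.length_map,
      List.length_range, List.getElem_cons, update_apply, expand] at h1 h2 ⊢
    split_ifs <;> first | rfl | omega

theorem vw_expand_swap {i a b a' b' : ℕ} {q : List ℕ} (xs : ℕ → ℕ)
    (ha : a < i ∧ a' = a ∨ i < a ∧ a' + 1 = a + q.length)
    (hb : b < i ∧ b' = b ∨ i < b ∧ b' + 1 = b + q.length) :
    expand i q (xs ∘ Equiv.swap a b) = expand i q xs ∘ Equiv.swap a' b' := by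
  funext j
  simp only [expand, comp_apply, Equiv.swap_apply_def]
  split_ifs <;> first | rfl | omega | (congr 1; omega)

theorem exists_view5 (p m s : List ℕ) (Q : ℕ) : ∃ κ : (ℕ → ℕ) → ℕ → ℕ,
    (∀ xs, Valid [p.prod, Q, m.prod, Q, s.prod] xs → Valid (p ++ Q :: (m ++ Q :: s)) (κ xs)) ∧
    (∀ f : (ℕ → ℕ) → List Bool,
      arr (p ++ Q :: (m ++ Q :: s)) f = arr [p.prod, Q, m.prod, Q, s.prod] fun xs => f (κ xs)) ∧
    ∀ xs, κ (xs ∘ Equiv.swap 1 3) = κ xs ∘ Equiv.swap p.length (p.length + 1 + m.length) := by
  refine ⟨fun xs => expand 0 p (expand 2 m (expand 4 s xs)), fun xs h => ?_, fun f => ?_,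
    fun xs => ?_⟩
  · have h1 := Valid.expand (p := [p.prod, Q, m.prod, Q]) (s := []) h
    rw [List.append_nil] at h1
    exact Valid.expand (p := []) (Valid.expand (p := [p.prod, Q]) (s := Q :: s) h1)
  · have h1 := arr_expand [p.prod, Q, m.prod, Q] s []
      fun xs => f (expand 0 p (expand 2 m xs))
    rw [List.append_nil] at h1
    exact (arr_expand [] p _ f).trans ((arr_expand [p.prod, Q] m (Q :: s) _).trans h1)
  · show expand 0 p (expand 2 m (expand 4 s (xs ∘ Equiv.swap 1 3))) = _
    rw [vw_expand_swap (a' := 1) (b' := 3) xs (by omega) (by omega),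
      vw_expand_swap (a' := 1) (b' := 2 + m.length) _ (by omega) (by omega),
      vw_expand_swap (a' := p.length) (b' := p.length + 1 + m.length) _ (by omega) (by omega)]

/-- exchange of the positions `1, ..., n` with the positions `n + 2, ..., 2 n + 1` -/
def bsw (n j : ℕ) : ℕ :=
  if 1 ≤ j ∧ j ≤ n then j + (n + 1) else if n + 2 ≤ j ∧ j ≤ 2 * n + 1 then j - (n + 1) else j

theorem exists_viewN (q : List ℕ) (O Mid R : ℕ) : ∃ κ : (ℕ → ℕ) → ℕ → ℕ,
    (∀ xs, Valid (O :: (q ++ Mid :: (q ++ [R]))) xs → Valid [O, q.prod, Mid, q.prod, R] (κ xs)) ∧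
    (∀ f : (ℕ → ℕ) → List Bool,
      arr [O, q.prod, Mid, q.prod, R] f = arr (O :: (q ++ Mid :: (q ++ [R]))) fun xs => f (κ xs)) ∧
    ∀ xs, κ (xs ∘ bsw q.length) = κ xs ∘ Equiv.swap 1 3 := by
  refine ⟨fun xs => collapse 3 q (collapse 1 q xs), fun xs h => ?_, fun f => ?_, fun xs => ?_⟩
  · exact Valid.collapse (p := [O, q.prod, Mid]) (s := [R]) (Valid.collapse (p := [O]) h)
  · exact (arr_collapse [O, q.prod, Mid] q [R] f).trans (arr_collapse [O] q _ _)
  · have e0 : ∀ ys : ℕ → ℕ, collapse 3 q (collapse 1 q ys) 0 = ys 0 := fun _ => rfl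
    have e1 : ∀ ys : ℕ → ℕ, collapse 3 q (collapse 1 q ys) 1 = idx q fun t => ys (1 + t) :=
      fun _ => rfl
    have e2 : ∀ ys : ℕ → ℕ, collapse 3 q (collapse 1 q ys) 2 = ys (q.length + 1) := fun ys => by
      show ys (2 + q.length - 1) = _
      congr 1; omega
    have e3 : ∀ ys : ℕ → ℕ, collapse 3 q (collapse 1 q ys) 3 =
        idx q fun t => ys (q.length + 2 + t) := fun ys => by
      show idx q (fun t => collapse 1 q ys (3 + t)) = _
      congr 1
      funext t
      unfold collapse
      rw [if_neg (by omega), if_neg (by omega)]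
      congr 1; omega
    have e4 : ∀ (ys : ℕ → ℕ) (j : ℕ), collapse 3 q (collapse 1 q ys) (j + 4) =
        ys (j + 2 * q.length + 2) := fun ys j => by
      unfold collapse
      rw [if_neg (by omega), if_neg (by omega), if_neg (by omega), if_neg (by omega)]
      congr 1; omega
    funext j
    show collapse 3 q (collapse 1 q (xs ∘ bsw q.length)) j =
      collapse 3 q (collapse 1 q xs) (Equiv.swap 1 3 j)
    match j with
    | 0 =>
      rw [Equiv.swap_apply_of_ne_of_ne (by omega) (by omega), e0, e0, comp_apply, bsw,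
        if_neg (by omega), if_neg (by omega)]
    | 1 =>
      rw [Equiv.swap_apply_left, e1, e3]
      refine idx_congr fun t ht => ?_
      rw [comp_apply, bsw, if_pos (by omega)]
      congr 1; omega
    | 2 =>
      rw [Equiv.swap_apply_of_ne_of_ne (by omega) (by omega), e2, e2, comp_apply, bsw,
        if_neg (by omega), if_neg (by omega)]
    | 3 =>
      rw [Equiv.swap_apply_right, e1, e3]
      refine idx_congr fun t ht => ?_
      rw [comp_apply, bsw, if_neg (by omega), if_pos (by omega)]
      congr 1; omega
    | j + 4 =>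
      rw [Equiv.swap_apply_of_ne_of_ne (by omega) (by omega), e4, e4, comp_apply, bsw,
        if_neg (by omega), if_neg (by omega)]

end Vale.Agent.P338
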